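import Crest.Agent.R338.FA

/-! Row 338, module F: the kinetic energy on the Fourier side and classical gradients. -/

set_option autoImplicit false

open MeasureTheory Crest.MathPhysics.ElectronicCoulomb

namespace Crest.Agent.R338

variable {n : ℕ}

/-- The classical kinetic energy. -/
noncomputable def kin (g : Config n → ℂ) : ℝ :=
  (1 / 2) * ∑ k : Fin n × Fin 3, ∫ x, ‖fderiv ℝ g x (EuclideanSpace.single k 1)‖ ^ 2

theorem kineticOne_eq {g : Config n → ℂ} (h1 : ContDiff ℝ 1 g) (h2 : HasCompactSupport g) :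
    kineticOne g = ENNReal.ofReal (kin g) := by
  have hc : Continuous (fderiv ℝ g) := h1.continuous_fderiv (by norm_num)
  have hs : HasCompactSupport (fderiv ℝ g) := h2.fderiv ℝ
  refine fa_kineticOne (h1.continuous.integrable_of_hasCompactSupport h2)
    (h1.continuous.memLp_of_hasCompactSupport h2) (h1.differentiable (by norm_num))
    (hc.integrable_of_hasCompactSupport hs) fun k => ?_
  exact (ContinuousLinearMap.apply ℝ ℂ (EuclideanSpace.single k (1 : ℝ) : Config n)).comp_memLp'
    (hc.memLp_of_hasCompactSupport hs)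

/-- `C¹_c` functions are dense in `H¹`. -/
theorem exists_c1_approx {f : Config n → ℂ} (hf : MemLp f 2 volume) (hk : kineticOne f < ⊤)
    {δ : ℝ} (hδ : 0 < δ) : ∃ g : Config n → ℂ, ContDiff ℝ 1 g ∧ HasCompactSupport g ∧
      ∫ x, ‖g x - f x‖ ^ 2 ≤ δ ∧ kin g ≤ (kineticOne f).toReal + δ := by
  obtain ⟨g, hg1, hg2⟩ := fa_schwartz_approx hf hk (show 0 < δ / 4 by positivity)
  obtain ⟨u, hu1, hu2, hu3, hu4⟩ := fa_cutoff (g := g) (g.smooth 1) (g.memLp 2 volume)
    (fa_schwartz_pd g) (show 0 < δ / 4 by positivity)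
  refine ⟨u, hu1, hu2, ?_, ?_⟩
  · have m1 : MemLp (fun x => u x - g x) 2 volume :=
      (hu1.continuous.memLp_of_hasCompactSupport hu2).sub (g.memLp 2 volume)
    have m2 : MemLp (fun x => g x - f x) 2 volume := (g.memLp 2 volume).sub hf
    have i1 := m1.integrable_norm_pow (by norm_num)
    have i2 := m2.integrable_norm_pow (by norm_num)
    calc ∫ x, ‖u x - f x‖ ^ 2
        ≤ ∫ x, (2 * ‖u x - g x‖ ^ 2 + 2 * ‖g x - f x‖ ^ 2) := by
          refine integral_mono_of_nonneg (Filter.Eventually.of_forall fun x => by positivity)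
            ((i1.const_mul _).add (i2.const_mul _)) (Filter.Eventually.of_forall fun x => ?_)
          have h := fa_sq_le one_pos (u x - g x) (g x - f x)
          rw [sub_add_sub_cancel] at h
          show ‖u x - f x‖ ^ 2 ≤ 2 * ‖u x - g x‖ ^ 2 + 2 * ‖g x - f x‖ ^ 2
          linarith
      _ ≤ δ := by
          rw [integral_add (i1.const_mul _) (i2.const_mul _), integral_const_mul,
            integral_const_mul]
          linarith
  · rw [kin]
    linarith

end Crest.Agent.R338
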