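import Crest.Agent.R338.CD

/-! Row 338: the two-electron integrals and the matrix of the weak potential. -/

set_option autoImplicit false

open MeasureTheory Crest.MathPhysics.ElectronicCoulomb

namespace Crest.Agent.R338

variable {d : XZ} {N : ℕ} {c lam η : ℝ} {W : ℝ → ℝ} {U : ℚ}

section ccs

variable {X : Type} [TopologicalSpace X] {F G : X → ℝ}

theorem cw_add (hF : CCs F) (hG : CCs G) : CCs fun x => F x + G x :=
  ⟨hF.1.add hG.1, hF.2.add hG.2⟩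

theorem cw_mul (hF : Continuous F) (hG : CCs G) : CCs fun x => F x * G x :=
  ⟨hF.mul hG.1, hG.2.mul_left⟩

theorem cw_sub (hF : CCs F) (hG : CCs G) : CCs fun x => F x - G x := by
  simpa only [neg_one_mul, sub_eq_add_neg] using cw_add hF (cw_mul (F := fun _ => -1) continuous_const hG)

theorem cw_sum {κ : Type} (s : Finset κ) {T : κ → X → ℝ} (hT : ∀ e, CCs (T e)) :
    CCs fun x => ∑ e ∈ s, T e x := by
  classical
  induction s using Finset.induction_on with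
  | empty => exact ⟨continuous_const, HasCompactSupport.zero⟩
  | insert a s ha ih => simpa only [Finset.sum_insert ha] using cw_add (hT a) ih

end ccs

theorem cw_shift {f : ℝ → ℝ} (hf : CCs f) (a : ℝ) : CCs fun x => f (x - a) :=
  ⟨hf.1.comp (continuous_sub_right a), hf.2.comp_homeomorph (Homeomorph.subRight a)⟩

theorem cw_of_supp {f : ℝ → ℝ} (hf : Continuous f) {T : ℝ} (h : ∀ x, T ≤ |x| → f x = 0) : CCs f :=
  ⟨hf, HasCompactSupport.intro (isCompact_Icc (a := -T) (b := T)) fun x hx =>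
    h x (le_of_not_gt fun h' => hx (abs_le.1 h'.le))⟩

theorem cw_int {F : Pos3 → ℝ} (hF : CCs F) : Integrable F :=
  hF.1.integrable_of_hasCompactSupport hF.2

theorem cw_int1 {F : ℝ → ℝ} (hF : CCs F) : Integrable F :=
  hF.1.integrable_of_hasCompactSupport hF.2

theorem cw_pot_sum {κ : Type} (s : Finset κ) {T : κ → Pos3 → ℝ} (hT : ∀ e, CCs (T e)) (x : Pos3) :
    ∫ y, (∑ e ∈ s, T e y) / ‖x - y‖ = ∑ e ∈ s, ∫ y, T e y / ‖x - y‖ := by
  classical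
  induction s using Finset.induction_on with
  | empty => simp
  | insert a s ha ih =>
    simp only [Finset.sum_insert ha]
    rw [pot_add (hT a) (cw_sum s hT), ih]

/-- A density `ρ` with main part `M`. -/
def CWP (ρ M : Pos3 → ℝ) (a b c e : ℝ) : Prop :=
  CCs ρ ∧ CCs M ∧ ∃ R₁ R₂ G : Pos3 → ℝ, CCs R₁ ∧ CCs R₂ ∧ CCs G ∧ (∀ x, 0 ≤ R₁ x) ∧
    (∀ x, |ρ x - M x| ≤ R₁ x + R₂ x) ∧ (∀ x, |ρ x| ≤ G x) ∧ (∀ x, |M x| ≤ G x) ∧
    (∫ x, R₁ x ≤ a) ∧ (∀ x, ∫ y, R₂ y / ‖x - y‖ ≤ b) ∧ (∫ x, G x ≤ c) ∧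
    ∀ x, ∫ y, G y / ‖x - y‖ ≤ e

theorem cw_half {ρ M H G' : Pos3 → ℝ} {a b c e : ℝ} (h : CWP ρ M a b c e) (hb : 0 ≤ b) (he : 0 ≤ e)
    (hH : CCs H) (hG' : CCs G') (h1 : ∀ x, |H x| ≤ G' x) (h2 : ∫ x, G' x ≤ c)
    (h3 : ∀ x, ∫ y, G' y / ‖x - y‖ ≤ e) : |Cb ρ H - Cb M H| ≤ a * e + c * b := by
  obtain ⟨hρ, hM, R₁, R₂, G, c1, c2, -, p1, p2, -, -, i1, i2, -, -⟩ := h
  have e1 := Cb_add_left (cw_sub hρ hM) hM hH
  simp only [sub_add_cancel] at e1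
  have e2 := abs_Cb_le (cw_sub hρ hM) (cw_add c1 c2) hH hG' p2 h1
  rw [Cb_add_left c1 c2 hG', Cb_comm c2 hG'] at e2
  have e3 := Cb_le_pot c1 hG' p1 h3
  have e4 := Cb_le_pot hG' c2 (fun x => (abs_nonneg _).trans (h1 x)) i2
  rw [show Cb ρ H - Cb M H = Cb (fun x => ρ x - M x) H by linarith]
  linarith [mul_le_mul_of_nonneg_right i1 he, mul_le_mul_of_nonneg_right h2 hb]

theorem cw_pair {ρ M ρ' M' : Pos3 → ℝ} {a b c e : ℝ} (h : CWP ρ M a b c e) (h' : CWP ρ' M' a b c e)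
    (hb : 0 ≤ b) (he : 0 ≤ e) : |Cb ρ ρ' - Cb M M'| ≤ 2 * (a * e + c * b) := by
  have ⟨_, hM, _, _, G, _, _, cG, _, _, _, q, _, _, i3, i4⟩ := h
  have ⟨hρ', hM', _, _, G', _, _, cG', _, _, q', _, _, _, i3', i4'⟩ := h'
  have e1 := cw_half h hb he hρ' cG' q' i3' i4'
  have e2 := cw_half h' hb he hM cG q i3 i4
  rw [Cb_comm hρ' hM, Cb_comm hM' hM] at e2
  linarith [abs_sub_le (Cb ρ ρ') (Cb M ρ') (Cb M M')]

theorem cw_B (hv : d.Valid) : (1 : ℝ) ≤ d.B := by exact_mod_cast hv.n_pos.trans hv.n_le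

theorem cw_Q' (hv : d.Valid) {k : ℕ} (hk : k ≤ 40) : 10 ^ 20 * (d.B : ℝ) ^ k ≤ d.pQ :=
  mul_le_mul_of_nonneg_left (pow_le_pow_right₀ (cw_B hv) hk) (by norm_num)

theorem cw_Q (hv : d.Valid) : 10 ^ 20 ≤ d.pQ := by simpa using cw_Q' hv (k := 0) (by norm_num)

theorem cw_σ (hv : d.Valid) : 0 < d.pσ ∧ d.pσ ≤ 1 / 2 := by
  have := cw_Q hv
  refine ⟨by unfold XZ.pσ; positivity, one_div_le_one_div_of_le (by norm_num) (by linarith)⟩

theorem cw_τ (hv : d.Valid) : 0 < d.pτ := by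
  have := cw_Q hv
  unfold XZ.pτ
  positivity

theorem cw_Z (hZ : Fac1 lam W (d.eZ c) (2 * d.pw) η) : CCs fun z => d.eZ c z ^ 2 :=
  cw_of_supp (hZ.c2.continuous.pow 2) fun x hx => by rw [hZ.supp x hx, zero_pow two_ne_zero]

theorem cw_Z_int (hZ : Fac1 lam W (d.eZ c) (2 * d.pw) η) : ∫ z, d.eZ c z ^ 2 = 1 := by
  simpa only [sq] using hZ.on

theorem cw_bs (hv : d.Valid) (a : ℝ) : CCs fun x => bs d.pσ (x - a) :=
  cw_shift ⟨(bs_contDiff _).continuous, bs_hasCompactSupport (cw_σ hv).1⟩ a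

theorem cw_cut {a l : ℝ} (hl : 0 < l) : CCs (cut a l) :=
  ⟨(cut_contDiff a l).continuous, cut_hasCompactSupport hl⟩

theorem cw_dB (hv : d.Valid) (hZ : Fac1 lam W (d.eZ c) (2 * d.pw) η) (e : Dot d.n) :
    CCs (d.dB c e) := (cw_bs hv _).tp (cw_bs hv _) (cw_Z hZ)

theorem cw_dB_nonneg (hv : d.Valid) (e : Dot d.n) (x : Pos3) : 0 ≤ d.dB c e x :=
  mul_nonneg (mul_nonneg (bs_nonneg (cw_σ hv).1 _) (bs_nonneg (cw_σ hv).1 _)) (sq_nonneg _)

theorem cw_dB_int (hv : d.Valid) (hZ : Fac1 lam W (d.eZ c) (2 * d.pw) η) (e : Dot d.n) :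
    ∫ x, d.dB c e x = 1 := by
  rw [XZ.dB, dotB, integral_tp (cw_bs hv _) (cw_bs hv _) (cw_Z hZ), bs_integral (cw_σ hv).1,
    bs_integral (cw_σ hv).1, cw_Z_int hZ, mul_one, mul_one]

theorem cw_dB_pot (hv : d.Valid) (hZ : Fac1 lam W (d.eZ c) (2 * d.pw) η) (e : Dot d.n) (x : Pos3) :
    ∫ y, d.dB c e y / ‖x - y‖ ≤ 48 * d.pQ := by
  have hσ := (cw_σ hv).1
  have hQ := cw_Q hv
  refine (pot_tp (cw_bs hv _) (cw_bs hv _) (cw_Z hZ) (fun x => ⟨bs_nonneg hσ _, bs_le hσ _⟩)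
    (fun x => ⟨bs_nonneg hσ _, bs_le hσ _⟩) (fun x => sq_nonneg _) (bs_integral hσ _).le
    (bs_integral hσ _).le (cw_Z_int hZ).le x).trans (le_of_eq ?_)
  rw [show 4 / d.pσ * 1 * (4 / d.pσ) * 1 = (4 * d.pQ) ^ 2 by rw [XZ.pσ]; field_simp,
    Real.sqrt_sq (by positivity)]
  ring

theorem cw_chi (hv : d.Valid) (hZ : Fac1 lam W (d.eZ c) (2 * d.pw) η) (a : Fin d.n × Fin 3) :
    CCs (d.chi N c a) := by
  obtain ⟨_, hX⟩ := eX_fac
  obtain ⟨_, hY⟩ := eY_fac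
  have h1 := hX d N a.1 hv a.1.2
  have h2 := hY d N hv
  exact (cw_shift (cw_of_supp (h1.c2 _).continuous (h1.supp _)) _).tp
    (cw_shift (cw_of_supp (h2.c2 _).continuous (h2.supp _)) _)
    (cw_of_supp hZ.c2.continuous hZ.supp)

theorem cw_sum_le (hv : d.Valid) {f : Dot d.n → ℝ} {t : ℝ} (ht : 0 ≤ t) (h : ∀ e, f e ≤ t) :
    ∑ e, f e ≤ 12 * (d.B : ℝ) ^ 3 * t := by
  have := Finset.sum_le_card_nsmul Finset.univ f t fun e _ => h e
  rw [Finset.card_univ, finB_card, nsmul_eq_mul] at this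
  push_cast at this
  have hn : (d.n : ℝ) ≤ d.B := by exact_mod_cast hv.n_le
  exact this.trans (by gcongr)

theorem cw_dT (hv : d.Valid) (e : Dot d.n) (a a' : Fin d.n × Fin 3) :
    |(d.dT e a a' : ℝ)| ≤ 10 ^ 4 * (d.B : ℝ) ^ 8 := by
  have h1 : ∀ k, |d.dVec e k| ≤ 1 := fun k => by
    fin_cases k
    · exact abs_one.le
    · exact (finB_dVec d e).1
    · exact (finB_dVec d e).2
  have h2 : |d.dT e a a'| ≤ d.alc := by
    obtain ⟨a1, a2⟩ := amp_bd hv (m := e.1) (k := e.2.1.1) e.2.1.2.1.2 e.2.1.2.2.2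
    unfold XZ.dT
    split_ifs
    · rw [abs_mul, abs_mul, XZ.dAmp, abs_of_nonneg a1]
      exact (mul_le_of_le_one_right a1 (mul_le_one₀ (h1 _) (abs_nonneg _) (h1 _))).trans a2
    · rw [abs_zero]
      exact a1.trans a2
  rw [XZ.alc] at h2
  exact_mod_cast h2

theorem cw_sum_dT (hv : d.Valid) (a a' : Fin d.n × Fin 3) :
    ∑ e, |(d.dT e a a' : ℝ)| ≤ 120000 * (d.B : ℝ) ^ 11 :=
  (cw_sum_le hv (by positivity) fun e => cw_dT hv e a a').trans (le_of_eq (by ring))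

theorem cw_pack (hv : d.Valid) (hZ : Fac1 lam W (d.eZ c) (2 * d.pw) η) (a a' : Fin d.n × Fin 3) :
    CWP (fun x => d.chi N c a x * d.chi N c a' x)
      (fun x => ∑ e : Dot d.n, d.pτ / 4 * (d.dT e a a' : ℝ) * d.dB c e x)
      (d.pτ * (10 ^ 6 * (d.B : ℝ) ^ 10) / d.pQ ^ 3) (51 / d.pQ ^ 12) 4
      (d.pτ * (2 * 10 ^ 7 * (d.B : ℝ) ^ 11) * d.pQ) := by
  obtain ⟨R₁, f₁, f₂, c1, c2, c3, h, p1, i1, q1, b1, j1, b2, j2⟩ := chi_decomp (N := N) hv hZ a a'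
  have hQ := cw_Q hv
  have hB := cw_B hv
  have hτ := cw_τ hv
  have cR := c2.tp c3 (cw_Z hZ)
  have cM : ∀ e : Dot d.n, CCs fun x => d.pτ / 4 * |(d.dT e a a' : ℝ)| * d.dB c e x := fun e =>
    cw_mul continuous_const (cw_dB hv hZ e)
  have pR : ∀ x, 0 ≤ tp f₁ f₂ (fun z => d.eZ c z ^ 2) x := fun x =>
    mul_nonneg (mul_nonneg (b1 _).1 (b2 _).1) (sq_nonneg _)
  have qR : ∀ x, ∫ y, tp f₁ f₂ (fun z => d.eZ c z ^ 2) y / ‖x - y‖ ≤ 51 / d.pQ ^ 12 := fun x => by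
    refine (pot_tp c2 c3 (cw_Z hZ) b1 b2 (fun x => sq_nonneg _) j1 j2 (cw_Z_int hZ).le x).trans ?_
    have : √(1 / d.pQ ^ 25 * 2 * (9 * d.pQ) * 1) ≤ 17 / 4 / d.pQ ^ 12 := by
      refine Real.sqrt_le_iff.2 ⟨by positivity, ?_⟩
      rw [show 1 / d.pQ ^ 25 * 2 * (9 * d.pQ) * 1 = 18 / d.pQ ^ 24 by field_simp; ring, div_pow,
        ← pow_mul]
      gcongr
      norm_num
    linarith [show 12 * (17 / 4 / d.pQ ^ 12) = 51 / d.pQ ^ 12 by ring]
  have hM : ∀ x, |∑ e : Dot d.n, d.pτ / 4 * (d.dT e a a' : ℝ) * d.dB c e x| ≤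
      ∑ e : Dot d.n, d.pτ / 4 * |(d.dT e a a' : ℝ)| * d.dB c e x := fun x =>
    (Finset.abs_sum_le_sum_abs _ _).trans (le_of_eq (Finset.sum_congr rfl fun e _ => by
      rw [abs_mul, abs_mul, abs_of_nonneg (cw_dB_nonneg hv e x), abs_of_pos (by positivity)]))
  have hS := cw_sum_dT hv a a'
  have hτ1 : d.pτ ≤ 1 / d.pQ := one_div_le_one_div_of_le (by positivity)
    (le_self_pow₀ (by linarith) (by norm_num))
  refine ⟨cw_mul (cw_chi hv hZ a).1 (cw_chi hv hZ a'),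
    cw_sum _ fun e => cw_mul continuous_const (cw_dB hv hZ e), R₁, _,
    fun x => ∑ e : Dot d.n, d.pτ / 4 * |(d.dT e a a' : ℝ)| * d.dB c e x +
      (R₁ x + tp f₁ f₂ (fun z => d.eZ c z ^ 2) x), c1, cR, cw_add (cw_sum _ cM) (cw_add c1 cR), p1,
    h, fun x => ?_, fun x => ?_, i1, qR, ?_, fun x => ?_⟩
  · linarith [hM x, h x, abs_sub_abs_le_abs_sub (d.chi N c a x * d.chi N c a' x)
      (∑ e : Dot d.n, d.pτ / 4 * (d.dT e a a' : ℝ) * d.dB c e x)]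
  · linarith [hM x, p1 x, pR x]
  · rw [integral_add (cw_int (cw_sum _ cM)) (cw_int (cw_add c1 cR)),
      integral_add (cw_int c1) (cw_int cR), integral_finsetSum _ fun e _ => cw_int (cM e),
      integral_tp c2 c3 (cw_Z hZ), cw_Z_int hZ, mul_one]
    simp only [integral_const_mul, cw_dB_int hv hZ, mul_one, ← Finset.mul_sum]
    have e1 : (∫ x, f₁ x) * ∫ x, f₂ x ≤ 2 * 1 :=
      mul_le_mul j1 j2 (integral_nonneg fun x => (b2 x).1) (by norm_num)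
    have e2 : d.pτ / 4 * ∑ e, |(d.dT e a a' : ℝ)| ≤ 1 := by
      calc _ ≤ 1 / d.pQ / 4 * (120000 * (d.B : ℝ) ^ 11) := by gcongr
        _ ≤ 1 := by
          rw [div_div, div_mul_eq_mul_div, div_le_one (by positivity)]
          have := cw_Q' hv (k := 11) (by norm_num)
          have : 0 ≤ (d.B : ℝ) ^ 11 := by positivity
          linarith
    have e3 : d.pτ * (10 ^ 6 * (d.B : ℝ) ^ 10) / d.pQ ^ 3 ≤ 1 := by
      calc _ ≤ 1 / d.pQ * (10 ^ 6 * (d.B : ℝ) ^ 10) / 1 := by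
            gcongr
            exact one_le_pow₀ (by linarith)
        _ ≤ 1 := by
          rw [div_one, div_mul_eq_mul_div, div_le_one (by positivity)]
          have := cw_Q' hv (k := 10) (by norm_num)
          have : 0 ≤ (d.B : ℝ) ^ 10 := by positivity
          linarith
    linarith
  · rw [pot_add (cw_sum _ cM) (cw_add c1 cR), pot_add c1 cR, cw_pot_sum _ cM]
    have e1 : ∑ e : Dot d.n, ∫ y, d.pτ / 4 * |(d.dT e a a' : ℝ)| * d.dB c e y / ‖x - y‖ ≤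
        d.pτ / 4 * (120000 * (d.B : ℝ) ^ 11) * (48 * d.pQ) := by
      calc _ ≤ ∑ e : Dot d.n, d.pτ / 4 * |(d.dT e a a' : ℝ)| * (48 * d.pQ) :=
            Finset.sum_le_sum fun e _ => by
              simp only [mul_div_assoc _ (d.dB c e _), integral_const_mul]
              exact mul_le_mul_of_nonneg_left (cw_dB_pot hv hZ e x) (by positivity)
        _ ≤ _ := by
            rw [← Finset.sum_mul, ← Finset.mul_sum]
            gcongr
    have e2 : 51 / d.pQ ^ 12 ≤ d.pτ * (51 * (d.B : ℝ) ^ 11) * d.pQ := by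
      calc 51 / d.pQ ^ 12 ≤ 51 / d.pQ ^ 4 := by
            gcongr
            · linarith
            · norm_num
        _ = d.pτ * (51 * 1) * d.pQ := by rw [XZ.pτ]; field_simp
        _ ≤ _ := by
            gcongr
            exact one_le_pow₀ hB
    have e3 : d.pτ * (10 ^ 7 * (d.B : ℝ) ^ 10) * d.pQ ≤ d.pτ * (10 ^ 7 * (d.B : ℝ) ^ 11) * d.pQ := by
      gcongr
      norm_num
    have e4 : 0 ≤ d.pτ * (d.B : ℝ) ^ 11 * d.pQ := by positivity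
    linarith [q1 x, qR x]

theorem cw_num (hv : d.Valid) {x : ℝ} (h : x ≤ 10 ^ 14 * (d.pτ ^ 2 * (d.B : ℝ) ^ 30 / d.pQ)) :
    x ≤ (d.pτ / 4) ^ 2 / (2000 * (d.B : ℝ) ^ 5) := by
  have hQ := cw_Q hv
  have hB := cw_B hv
  have hτ := cw_τ hv
  refine h.trans ?_
  rw [← mul_div_assoc, div_le_div_iff₀ (by positivity) (by positivity)]
  have h1 := mul_le_mul_of_nonneg_left (cw_Q' hv (k := 35) (by norm_num)) (sq_nonneg d.pτ)
  have h2 : 0 ≤ d.pτ ^ 2 * (d.B : ℝ) ^ 35 := by positivity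
  linarith

theorem cw_main (hv : d.Valid) (hZ : Fac1 lam W (d.eZ c) (2 * d.pw) η) (s t : Dot d.n → ℝ) :
    Cb (fun x => ∑ e, s e * d.dB c e x) (fun x => ∑ e, t e * d.dB c e x) =
      ∑ e, ∑ e', s e * t e' * Cb (d.dB c e) (d.dB c e') := by
  have h : ∀ (s : Dot d.n → ℝ) (e : Dot d.n), CCs fun x => s e * d.dB c e x := fun s e =>
    cw_mul continuous_const (cw_dB hv hZ e)
  rw [Cb_sum_left _ (fun e _ => h s e) (cw_sum _ (h t))]
  refine Finset.sum_congr rfl fun e _ => ?_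
  rw [Cb_smul_left, Cb_comm (cw_dB hv hZ e) (cw_sum _ (h t)),
    Cb_sum_left _ (fun e _ => h t e) (cw_dB hv hZ e), Finset.mul_sum]
  refine Finset.sum_congr rfl fun e' _ => ?_
  rw [Cb_smul_left, Cb_comm (cw_dB hv hZ e') (cw_dB hv hZ e), mul_assoc]

/-- The cut-off around a dot. -/
noncomputable def cwψ (d : XZ) (e : Dot d.n) : Pos3 → ℝ :=
  tp (fun x => cut d.pσ d.pσ (x - d.dX e)) (fun y => cut d.pσ d.pσ (y - d.dY e)) (cut 1 1)

theorem cw_vv (U : ℚ) (x : Pos3) :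
    d.vv U x = ∑ e : Dot d.n, d.pτ / 4 * (d.dPot U e : ℝ) * cwψ d e x := by
  simp only [XZ.vv, Fintype.sum_prod_type, Finset.sum_range, cwψ, tp, XZ.dX, XZ.dY, XZ.dPot,
    sub_sub]

theorem cw_ψ (hv : d.Valid) (e : Dot d.n) : CCs (cwψ d e) :=
  (cw_shift (cw_cut (cw_σ hv).1) _).tp (cw_shift (cw_cut (cw_σ hv).1) _) (cw_cut one_pos)

theorem cw_ψ_bd (e : Dot d.n) (x : Pos3) : 0 ≤ cwψ d e x ∧ cwψ d e x ≤ 1 :=
  ⟨mul_nonneg (mul_nonneg (cut_nonneg _ _ _) (cut_nonneg _ _ _)) (cut_nonneg _ _ _),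
    mul_le_one₀ (mul_le_one₀ (cut_le_one _ _ _) (cut_nonneg _ _ _) (cut_le_one _ _ _))
      (cut_nonneg _ _ _) (cut_le_one _ _ _)⟩

theorem cw_cut_bs {σ : ℝ} (hσ : 0 < σ) (x : ℝ) : cut σ σ x * bs σ x = bs σ x := by
  rcases le_total |x| σ with h | h
  · rw [cut_eq_one hσ h, one_mul]
  · rw [bs_eq_zero hσ (by linarith), mul_zero]

theorem cw_cut_bs' {σ a b : ℝ} (hσ : 0 < σ) (hσ' : σ ≤ 1 / 2) (h : 2 ≤ |a - b|) (x : ℝ) :
    cut σ σ (x - a) * bs σ (x - b) = 0 := by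
  rcases le_total (σ + σ) |x - a| with h' | h'
  · rw [cut_eq_zero hσ h', zero_mul]
  · have := abs_sub_le a x b
    rw [abs_sub_comm a x] at this
    rw [bs_eq_zero hσ (by linarith), mul_zero]

theorem cw_ψ_dB (hv : d.Valid) (hZ : Fac1 lam W (d.eZ c) (2 * d.pw) η) (e e' : Dot d.n) (x : Pos3) :
    cwψ d e x * d.dB c e' x = if e = e' then d.dB c e' x else 0 := by
  obtain ⟨hσ, hσ'⟩ := cw_σ hv
  have e1 : cwψ d e x * d.dB c e' x =
      cut d.pσ d.pσ (x 0 - d.dX e) * bs d.pσ (x 0 - d.dX e') *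
        (cut d.pσ d.pσ (x 1 - d.dY e) * bs d.pσ (x 1 - d.dY e')) *
        (cut 1 1 (x 2) * d.eZ c (x 2) ^ 2) := by
    simp only [cwψ, XZ.dB, dotB, tp]
    ring
  rw [e1]
  split_ifs with h
  · subst h
    have e2 : cut 1 1 (x 2) * d.eZ c (x 2) ^ 2 = d.eZ c (x 2) ^ 2 := by
      rcases le_total |x 2| 1 with h | h
      · rw [cut_eq_one one_pos h, one_mul]
      · have hQ := cw_Q hv
        have : d.pw ≤ 1 / 2 := one_div_le_one_div_of_le (by norm_num)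
          (le_trans (by linarith) (le_self_pow₀ (by linarith) (by norm_num)))
        rw [hZ.supp _ (by linarith), zero_pow two_ne_zero, mul_zero]
    rw [cw_cut_bs hσ, cw_cut_bs hσ, e2]
    rfl
  · rcases dot_sep hv h with h | h
    · rw [cw_cut_bs' hσ hσ' h, zero_mul, zero_mul]
    · rw [cw_cut_bs' hσ hσ' h, mul_zero, zero_mul]

theorem cw_ψ_R (hv : d.Valid) (hZ : Fac1 lam W (d.eZ c) (2 * d.pw) η) (e : Dot d.n)
    {f₁ f₂ : ℝ → ℝ} {S : ℝ} (c1 : CCs f₁) (c2 : CCs f₂) (b1 : ∀ x, 0 ≤ f₁ x ∧ f₁ x ≤ S)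
    (b2 : ∀ x, 0 ≤ f₂ x) (j2 : ∫ y, f₂ y ≤ 1) :
    ∫ x, cwψ d e x * tp f₁ f₂ (fun z => d.eZ c z ^ 2) x ≤ 2 * S := by
  obtain ⟨hσ, hσ'⟩ := cw_σ hv
  have c3 : CCs fun x => cut d.pσ d.pσ (x - d.dX e) * f₁ x :=
    cw_mul (cw_shift (cw_cut hσ) _).1 c1
  have hS : 0 ≤ S := (b1 0).1.trans (b1 0).2
  have h1 : ∫ x, cut d.pσ d.pσ (x - d.dX e) * f₁ x ≤ 2 * S := by
    calc _ ≤ ∫ x, (Set.Icc (d.dX e - 1) (d.dX e + 1)).indicator (fun _ => S) x := by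
          refine integral_mono (cw_int1 c3) ((integrable_indicator_iff measurableSet_Icc).2
            (integrableOn_const (by simp))) fun x => ?_
          by_cases hx : x ∈ Set.Icc (d.dX e - 1) (d.dX e + 1)
          · rw [Set.indicator_of_mem hx]
            exact (mul_le_of_le_one_left (b1 x).1 (cut_le_one _ _ _)).trans (b1 x).2
          · have : 1 ≤ |x - d.dX e| := le_of_not_gt fun h =>
              hx ⟨by linarith [(abs_lt.1 h).1], by linarith [(abs_lt.1 h).2]⟩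
            simp only
            rw [Set.indicator_of_notMem hx, cut_eq_zero hσ (by linarith), zero_mul]
      _ = 2 * S := by
          rw [integral_indicator_const _ measurableSet_Icc, Real.volume_real_Icc_of_le (by linarith),
            smul_eq_mul]
          ring
  calc _ ≤ ∫ x, tp (fun x => cut d.pσ d.pσ (x - d.dX e) * f₁ x) f₂ (fun z => d.eZ c z ^ 2) x := by
        refine integral_mono (cw_int (cw_mul (cw_ψ hv e).1 (c1.tp c2 (cw_Z hZ))))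
          (cw_int (c3.tp c2 (cw_Z hZ))) fun x => ?_
        have h2 : 0 ≤ cut d.pσ d.pσ (x 0 - d.dX e) * f₁ (x 0) * f₂ (x 1) * d.eZ c (x 2) ^ 2 :=
          mul_nonneg (mul_nonneg (mul_nonneg (cut_nonneg _ _ _) (b1 _).1) (b2 _)) (sq_nonneg _)
        have h3 := mul_le_of_le_one_right h2 (mul_le_one₀ (cut_le_one d.pσ d.pσ (x 1 - d.dY e))
          (cut_nonneg 1 1 (x 2)) (cut_le_one 1 1 (x 2)))
        simp only [cwψ, tp]
        linarith
    _ ≤ 2 * S * 1 := by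
        rw [integral_tp c3 c2 (cw_Z hZ), cw_Z_int hZ, mul_one]
        exact mul_le_mul h1 j2 (integral_nonneg b2) (by positivity)
    _ = 2 * S := mul_one _

theorem cw_sum_pot (hv : d.Valid) (hU : |(U : ℝ) - ustar * d.pQ| ≤ 1 / d.pQ) :
    ∑ e, |(d.dPot U e : ℝ)| ≤ 6 * 10 ^ 12 * (d.B : ℝ) ^ 21 * d.pQ := by
  have hQ := cw_Q hv
  have hB := cw_B hv
  obtain ⟨u1, u2⟩ := ustar_bd
  obtain ⟨h1, h2⟩ := abs_le.1 hU
  have h3 : 1 / d.pQ ≤ 1 := by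
    rw [div_le_one (by positivity)]
    linarith
  have h4 : (U : ℝ) ≤ 50 * d.pQ := by nlinarith
  have h5 : (1 / 2 : ℚ) ≤ U := by
    have : (1 / 2 : ℝ) ≤ U := by nlinarith
    exact_mod_cast (show ((1 / 2 : ℚ) : ℝ) ≤ U by push_cast; exact this)
  refine (cw_sum_le hv (t := 10 ^ 10 * (d.B : ℝ) ^ 18 * (50 * d.pQ)) (by positivity)
    fun e => ?_).trans (le_of_eq (by ring))
  have h6 : |(d.dPot U e : ℝ)| ≤ 10 ^ 10 * (d.B : ℝ) ^ 18 * U := by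
    exact_mod_cast pot_bd hv h5 e.1.2 e.2.1.2.1.2 e.2.1.2.2.2 e.2.2.1 e.2.2.2
  exact h6.trans (by gcongr)

theorem chi_w_near (hv : d.Valid) (hZ : Fac1 lam W (d.eZ c) (2 * d.pw) η)
    (hU : |(U : ℝ) - ustar * d.pQ| ≤ 1 / d.pQ) (a a' b b' : Fin d.n × Fin 3) :
    |coul (d.chi N c) a a' b b' - (d.pτ / 4) ^ 2 * d.wbar U a a' b b'| ≤
      (d.pτ / 4) ^ 2 / (2000 * (d.B : ℝ) ^ 5) := by
  have hQ := cw_Q hv
  have hB := cw_B hv
  have hτ := cw_τ hv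
  have h1 := cw_pair (cw_pack (N := N) hv hZ a a') (cw_pack (N := N) hv hZ b b') (by positivity)
    (by positivity)
  rw [cw_main hv hZ, ← coul_eq_Cb] at h1
  have h2 : |∑ e, ∑ e', d.pτ / 4 * (d.dT e a a' : ℝ) * (d.pτ / 4 * (d.dT e' b b' : ℝ)) *
      Cb (d.dB c e) (d.dB c e') - (d.pτ / 4) ^ 2 * d.wbar U a a' b b'| ≤
      (d.pτ / 4) ^ 2 * (10 / d.pQ) * ((120000 * (d.B : ℝ) ^ 11) * (120000 * (d.B : ℝ) ^ 11)) := by
    calc _ = |∑ e, ∑ e', (d.pτ / 4) ^ 2 * (Cb (d.dB c e) (d.dB c e') - (Kb U e e' : ℝ)) *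
          ((d.dT e a a' : ℝ) * (d.dT e' b b' : ℝ))| := by
          rw [XZ.wbar]
          push_cast
          simp only [Finset.mul_sum, ← Finset.sum_sub_distrib]
          exact congrArg _ (Finset.sum_congr rfl fun e _ => Finset.sum_congr rfl fun e' _ => by ring)
      _ ≤ ∑ e, ∑ e', (d.pτ / 4) ^ 2 * (10 / d.pQ) *
          (|(d.dT e a a' : ℝ)| * |(d.dT e' b b' : ℝ)|) := by
          refine (Finset.abs_sum_le_sum_abs _ _).trans (Finset.sum_le_sum fun e _ =>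
            (Finset.abs_sum_le_sum_abs _ _).trans (Finset.sum_le_sum fun e' _ => ?_))
          rw [abs_mul, abs_mul, abs_mul, abs_of_nonneg (sq_nonneg _)]
          gcongr
          exact Cb_dB hv hZ hU e e'
      _ ≤ _ := by
          simp only [← Finset.mul_sum, ← Finset.sum_mul]
          gcongr
          exacts [cw_sum_dT hv a a', cw_sum_dT hv b b']
  refine cw_num hv ((abs_sub_le _ _ _).trans ((add_le_add h1 h2).trans ?_))
  have e1 : d.pτ * (10 ^ 6 * (d.B : ℝ) ^ 10) / d.pQ ^ 3 *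
      (d.pτ * (2 * 10 ^ 7 * (d.B : ℝ) ^ 11) * d.pQ) ≤
      2 * 10 ^ 13 * (d.pτ ^ 2 * (d.B : ℝ) ^ 30 / d.pQ) := by
    calc _ = 2 * 10 ^ 13 * (d.pτ ^ 2 * (d.B : ℝ) ^ 21 / d.pQ ^ 2) := by field_simp
      _ ≤ _ := by
        gcongr
        · norm_num
        · exact le_self_pow₀ (by linarith) (by norm_num)
  have e2 : 51 / d.pQ ^ 12 ≤ 51 * (d.pτ ^ 2 * (d.B : ℝ) ^ 30 / d.pQ) := by
    calc _ = 51 * (d.pτ ^ 2 * 1 / d.pQ ^ 2) := by rw [XZ.pτ]; field_simp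
      _ ≤ _ := by
        gcongr
        · exact one_le_pow₀ hB
        · exact le_self_pow₀ (by linarith) (by norm_num)
  have e3 : (d.pτ / 4) ^ 2 * (10 / d.pQ) *
      ((120000 * (d.B : ℝ) ^ 11) * (120000 * (d.B : ℝ) ^ 11)) ≤
      9 * 10 ^ 9 * (d.pτ ^ 2 * (d.B : ℝ) ^ 30 / d.pQ) := by
    calc _ = 9 * 10 ^ 9 * (d.pτ ^ 2 * (d.B : ℝ) ^ 22 / d.pQ) := by field_simp; norm_num
      _ ≤ _ := by
        gcongr
        norm_num
  have e4 : 0 ≤ d.pτ ^ 2 * (d.B : ℝ) ^ 30 / d.pQ := by positivity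
  linarith

theorem chi_v_near (hv : d.Valid) (hZ : Fac1 lam W (d.eZ c) (2 * d.pw) η)
    (hU : |(U : ℝ) - ustar * d.pQ| ≤ 1 / d.pQ) (a a' : Fin d.n × Fin 3) :
    |(∫ x, d.vv U x * (d.chi N c a x * d.chi N c a' x)) - (d.pτ / 4) ^ 2 * d.vbar U a a'| ≤
      (d.pτ / 4) ^ 2 / (2000 * (d.B : ℝ) ^ 5) := by
  have hQ := cw_Q hv
  have hB := cw_B hv
  have hτ := cw_τ hv
  obtain ⟨R₁, f₁, f₂, c1, c2, c3, h, p1, i1, -, b1, -, b2, j2⟩ := chi_decomp (N := N) hv hZ a a'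
  have cR := c2.tp c3 (cw_Z hZ)
  have cρ := cw_mul (cw_chi (N := N) hv hZ a).1 (cw_chi (N := N) hv hZ a')
  have cM' : ∀ e : Dot d.n, CCs fun x => d.pτ / 4 * (d.dT e a a' : ℝ) * d.dB c e x := fun e =>
    cw_mul continuous_const (cw_dB hv hZ e)
  have cM := cw_sum Finset.univ cM'
  have key : ∀ e : Dot d.n, |(∫ x, cwψ d e x * (d.chi N c a x * d.chi N c a' x)) -
      d.pτ / 4 * (d.dT e a a' : ℝ)| ≤
      d.pτ * (10 ^ 6 * (d.B : ℝ) ^ 10) / d.pQ ^ 3 + 2 * (1 / d.pQ ^ 25) := fun e => by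
    have hψ := (cw_ψ hv e).1
    have e1 : ∫ x, cwψ d e x * ∑ e' : Dot d.n, d.pτ / 4 * (d.dT e' a a' : ℝ) * d.dB c e' x =
        d.pτ / 4 * (d.dT e a a' : ℝ) := by
      simp only [Finset.mul_sum, mul_left_comm (cwψ d e _), cw_ψ_dB hv hZ, mul_ite, mul_zero,
        Finset.sum_ite_eq, Finset.mem_univ, if_true, integral_const_mul, cw_dB_int hv hZ, mul_one]
    rw [← e1, ← integral_sub (cw_int (cw_mul hψ cρ)) (cw_int (cw_mul hψ cM)), ← Real.norm_eq_abs]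
    refine (norm_integral_le_of_norm_le ((cw_int c1).add (cw_int (cw_mul hψ cR)))
      (.of_forall fun x => ?_)).trans ?_
    · obtain ⟨g1, g2⟩ := cw_ψ_bd e x
      rw [Real.norm_eq_abs, ← mul_sub, abs_mul, abs_of_nonneg g1]
      refine (mul_le_mul_of_nonneg_left (h x) g1).trans ?_
      rw [mul_add]
      exact add_le_add_left (mul_le_of_le_one_left (p1 x) g2) _
    · rw [integral_add' (cw_int c1) (cw_int (cw_mul hψ cR))]
      exact add_le_add i1 (cw_ψ_R hv hZ e c2 c3 b1 (fun y => (b2 y).1) j2)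
  refine cw_num hv ?_
  calc _ = |∑ e : Dot d.n, d.pτ / 4 * (d.dPot U e : ℝ) *
        ((∫ x, cwψ d e x * (d.chi N c a x * d.chi N c a' x)) - d.pτ / 4 * (d.dT e a a' : ℝ))| := by
        simp only [cw_vv, Finset.sum_mul, mul_assoc _ (cwψ d _ _)]
        rw [integral_finsetSum _ fun e _ => (cw_int (cw_mul (cw_ψ hv e).1 cρ)).const_mul _, XZ.vbar]
        push_cast
        simp only [integral_const_mul, Finset.mul_sum, ← Finset.sum_sub_distrib]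
        exact congrArg _ (Finset.sum_congr rfl fun e _ => by ring)
    _ ≤ ∑ e : Dot d.n, d.pτ / 4 * |(d.dPot U e : ℝ)| *
        (d.pτ * (10 ^ 6 * (d.B : ℝ) ^ 10) / d.pQ ^ 3 + 2 * (1 / d.pQ ^ 25)) := by
        refine (Finset.abs_sum_le_sum_abs _ _).trans (Finset.sum_le_sum fun e _ => ?_)
        rw [abs_mul, abs_mul, abs_of_pos (by positivity)]
        exact mul_le_mul_of_nonneg_left (key e) (by positivity)
    _ ≤ d.pτ / 4 * (6 * 10 ^ 12 * (d.B : ℝ) ^ 21 * d.pQ) *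
        (d.pτ * (10 ^ 6 * (d.B : ℝ) ^ 10) / d.pQ ^ 3 + 2 * (1 / d.pQ ^ 25)) := by
        rw [← Finset.sum_mul, ← Finset.mul_sum]
        gcongr
        exact cw_sum_pot hv hU
    _ = 15 * 10 ^ 17 * (d.B : ℝ) / d.pQ * (d.pτ ^ 2 * (d.B : ℝ) ^ 30 / d.pQ) +
        3 * 10 ^ 12 * (d.pτ ^ 2 * (d.B : ℝ) ^ 21 / d.pQ ^ 19) := by
        rw [XZ.pτ]
        field_simp
        ring
    _ ≤ 1 * (d.pτ ^ 2 * (d.B : ℝ) ^ 30 / d.pQ) +
        3 * 10 ^ 12 * (d.pτ ^ 2 * (d.B : ℝ) ^ 30 / d.pQ) := by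
        gcongr
        · rw [div_le_one (by positivity)]
          linarith [cw_Q' hv (k := 1) (by norm_num), pow_one (d.B : ℝ)]
        · norm_num
        · exact le_self_pow₀ (by linarith) (by norm_num)
    _ ≤ _ := by
        have e4 : 0 ≤ d.pτ ^ 2 * (d.B : ℝ) ^ 30 / d.pQ := by positivity
        linarith

end Crest.Agent.R338
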