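import Crest.Agent.R338.Step

/-! Row 338: real valued functions with rational values computable in polynomial time. -/

set_option autoImplicit false

open Crest.Agent.Lib.PT

namespace Crest.Agent.R338

/-- `F` takes rational values that are computable in polynomial time. -/
def RPT {α : Type} [Enc α] (F : α → ℝ) : Prop := ∃ f : α → ℚ, PT f ∧ ∀ a, F a = (f a : ℝ)

namespace RPT

variable {α β : Type} [Enc α] [Enc β] {F G : α → ℝ}

theorem ratCast {f : α → ℚ} (h : PT f) : RPT fun a => (f a : ℝ) := ⟨f, h, fun _ => rfl⟩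

theorem natCast {f : α → ℕ} (h : PT f) : RPT fun a => (f a : ℝ) :=
  ⟨fun a => (f a : ℚ), h.ratNatCast, fun _ => by simp⟩

theorem ofNat (n : ℕ) [n.AtLeastTwo] : RPT fun _ : α => (OfNat.ofNat n : ℝ) :=
  ⟨fun _ => (n : ℚ), PT.const _, fun _ => by rw [Rat.cast_natCast]; rfl⟩

theorem zero : RPT fun _ : α => (0 : ℝ) :=
  ⟨fun _ => 0, PT.const _, fun _ => by simp⟩

theorem one : RPT fun _ : α => (1 : ℝ) :=
  ⟨fun _ => 1, PT.const _, fun _ => by simp⟩

theorem comp (h : RPT F) {g : β → α} (hg : PT g) : RPT fun b => F (g b) := by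
  obtain ⟨f, hf, e⟩ := h
  exact ⟨fun b => f (g b), hf.comp hg, fun b => e _⟩

theorem congr (h : RPT F) (e : ∀ a, G a = F a) : RPT G := by
  obtain ⟨f, hf, e'⟩ := h
  exact ⟨f, hf, fun a => (e a).trans (e' a)⟩

theorem add (h : RPT F) (h' : RPT G) : RPT fun a => F a + G a := by
  obtain ⟨f, hf, e⟩ := h
  obtain ⟨g, hg, e'⟩ := h'
  exact ⟨_, hf.ratAdd hg, fun a => by simp [e, e']⟩

theorem sub (h : RPT F) (h' : RPT G) : RPT fun a => F a - G a := by
  obtain ⟨f, hf, e⟩ := h
  obtain ⟨g, hg, e'⟩ := h'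
  exact ⟨_, hf.ratSub hg, fun a => by simp [e, e']⟩

theorem neg (h : RPT F) : RPT fun a => -F a := by
  obtain ⟨f, hf, e⟩ := h
  exact ⟨_, hf.ratNeg, fun a => by simp [e]⟩

theorem mul (h : RPT F) (h' : RPT G) : RPT fun a => F a * G a := by
  obtain ⟨f, hf, e⟩ := h
  obtain ⟨g, hg, e'⟩ := h'
  exact ⟨_, hf.ratMul hg, fun a => by simp [e, e']⟩

theorem inv (h : RPT F) : RPT fun a => (F a)⁻¹ := by
  obtain ⟨f, hf, e⟩ := h
  exact ⟨_, hf.ratInv, fun a => by simp [e]⟩

theorem div (h : RPT F) (h' : RPT G) : RPT fun a => F a / G a := by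
  obtain ⟨f, hf, e⟩ := h
  obtain ⟨g, hg, e'⟩ := h'
  exact ⟨_, hf.ratDiv hg, fun a => by simp [e, e']⟩

theorem pow (h : RPT F) {n : α → ℕ} (hn : PT n) (hb : PB n) : RPT fun a => F a ^ n a := by
  obtain ⟨f, hf, e⟩ := h
  exact ⟨_, hf.ratPow hn hb, fun a => by simp [e]⟩

theorem pow_const (h : RPT F) (n : ℕ) : RPT fun a => F a ^ n :=
  h.pow (PT.const n) (PB.const n)

theorem max (h : RPT F) (h' : RPT G) : RPT fun a => max (F a) (G a) := by
  obtain ⟨f, hf, e⟩ := h
  obtain ⟨g, hg, e'⟩ := h'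
  exact ⟨_, hf.ratMax hg, fun a => by simp [e, e']⟩

theorem min (h : RPT F) (h' : RPT G) : RPT fun a => min (F a) (G a) := by
  obtain ⟨f, hf, e⟩ := h
  obtain ⟨g, hg, e'⟩ := h'
  exact ⟨_, hf.ratMin hg, fun a => by simp [e, e']⟩

theorem abs (h : RPT F) : RPT fun a => |F a| := by
  obtain ⟨f, hf, e⟩ := h
  exact ⟨_, hf.ratAbs, fun a => by simp [e]⟩

theorem ite {P : α → Prop} [DecidablePred P] (hP : PT fun a => decide (P a)) (h : RPT F)
    (h' : RPT G) : RPT fun a => if P a then F a else G a := by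
  obtain ⟨f, hf, e⟩ := h
  obtain ⟨g, hg, e'⟩ := h'
  exact ⟨_, PT.ite hP hf hg, fun a => by by_cases hp : P a <;> simp [e, e', hp]⟩

theorem sum_range {n : α → ℕ} (hn : PT n) (hb : PB n) {T : α → ℕ → ℝ}
    (h : RPT fun p : α × ℕ => T p.1 p.2) : RPT fun a => ∑ i ∈ Finset.range (n a), T a i := by
  obtain ⟨f, hf, e⟩ := h
  refine ⟨_, PT.rat_sum_range (g := fun a i => f (a, i)) hn hb hf, fun a => ?_⟩
  rw [Rat.cast_sum]
  exact Finset.sum_congr rfl fun i _ => e (a, i)

theorem sum_bool {T : α → Bool → ℝ} (h0 : RPT fun a => T a false) (h1 : RPT fun a => T a true) :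
    RPT fun a => ∑ b, T a b :=
  (h1.add h0).congr fun a => by simp

/-- sums over a fixed finite set -/
theorem finset_sum {ι : Type} (s : Finset ι) {T : α → ι → ℝ} (h : ∀ i ∈ s, RPT fun a => T a i) :
    RPT fun a => ∑ i ∈ s, T a i := by
  classical
  induction s using Finset.induction_on with
  | empty => exact zero.congr fun a => by simp
  | insert i s hi ih =>
    exact ((h i (Finset.mem_insert_self _ _)).add
      (ih fun j hj => h j (Finset.mem_insert_of_mem hj))).congr fun a => Finset.sum_insert hi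

/-- products over a fixed finite set -/
theorem finset_prod {ι : Type} (s : Finset ι) {T : α → ι → ℝ} (h : ∀ i ∈ s, RPT fun a => T a i) :
    RPT fun a => ∏ i ∈ s, T a i := by
  classical
  induction s using Finset.induction_on with
  | empty => exact one.congr fun a => by simp
  | insert i s hi ih =>
    exact ((h i (Finset.mem_insert_self _ _)).mul
      (ih fun j hj => h j (Finset.mem_insert_of_mem hj))).congr fun a => Finset.prod_insert hi

theorem prod_range {n : α → ℕ} (hn : PT n) (hb : PB n) {T : α → ℕ → ℝ}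
    (h : RPT fun p : α × ℕ => T p.1 p.2) : RPT fun a => ∏ i ∈ Finset.range (n a), T a i := by
  obtain ⟨f, hf, e⟩ := h
  refine ⟨_, PT.rat_prod_range (g := fun a i => f (a, i)) hn hb hf, fun a => ?_⟩
  rw [Rat.cast_prod]
  exact Finset.prod_congr rfl fun i _ => e (a, i)

theorem intCast {f : α → ℤ} (h : PT f) : RPT fun a => (f a : ℝ) :=
  ⟨fun a => (f a : ℚ), h.ratIntCast, fun _ => by simp⟩

theorem decide_le (h : RPT F) (h' : RPT G) [∀ a, Decidable (F a ≤ G a)] :
    PT fun a => decide (F a ≤ G a) := by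
  obtain ⟨f, hf, e⟩ := h
  obtain ⟨g, hg, e'⟩ := h'
  exact (hf.rat_decide_le hg).congr fun a => by simp [e, e']

theorem decide_lt (h : RPT F) (h' : RPT G) [∀ a, Decidable (F a < G a)] :
    PT fun a => decide (F a < G a) := by
  obtain ⟨f, hf, e⟩ := h
  obtain ⟨g, hg, e'⟩ := h'
  exact (hf.rat_decide_lt hg).congr fun a => by simp [e, e']

theorem natCeil (h : RPT F) : PT fun a => ⌈F a⌉₊ := by
  obtain ⟨f, hf, e⟩ := h
  exact hf.ratNatCeil.congr fun a => by rw [e, ← Int.ceil_toNat, ← Int.ceil_toNat, Rat.ceil_cast]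

theorem natFloor (h : RPT F) : PT fun a => ⌊F a⌋₊ := by
  obtain ⟨f, hf, e⟩ := h
  exact hf.ratNatFloor.congr fun a => by rw [e, ← Int.floor_toNat, ← Int.floor_toNat, Rat.floor_cast]

theorem Sd (j : ℕ) (h : RPT F) : RPT fun a => Sd j (F a) := by
  have h1 : RPT fun a => Max.max 0 (Min.min (F a) 1) := zero.max (h.min one)
  unfold R338.Sd Sp
  refine finset_sum _ fun i _ => ?_
  exact ((ratCast (PT.const ((923780 * (-1) ^ i * (Nat.choose 9 i : ℚ) / ((10 + i : ℕ) : ℚ)) *
    ((10 + i).descFactorial j : ℚ)))).mul (h1.pow_const (10 + i - j))).congr fun a => by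
      push_cast; ring

theorem bs (h : RPT F) (h' : RPT G) : RPT fun a => bs (F a) (G a) :=
  (Sd 1 ((h'.div h).add (one.div (ofNat 2)))).div h

theorem cut {H : α → ℝ} (h : RPT F) (h' : RPT G) (h'' : RPT H) :
    RPT fun a => cut (F a) (G a) (H a) :=
  (Sd 0 (((h.add h').sub h'').div h')).mul (Sd 0 (((h.add h').add h'').div h'))

theorem coord {p : α → Q3} (h : PT p) (k : Fin 3) : RPT fun a => rp (p a) k := by
  refine ⟨fun a => (p a).vec k, ?_, fun a => rfl⟩
  fin_cases k
  · exact h.fst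
  · exact h.snd.fst
  · exact h.snd.snd

end RPT

/-- Real constants that are rational (instances: numerals, casts, field operations). -/
class IsRatR (c : ℝ) : Prop where
  out : ∃ q : ℚ, c = (q : ℝ)

namespace IsRatR

instance : IsRatR 0 := ⟨0, by simp⟩
instance : IsRatR 1 := ⟨1, by simp⟩
instance (n : ℕ) [n.AtLeastTwo] : IsRatR (ofNat(n) : ℝ) := ⟨n, by rw [Rat.cast_natCast]; rfl⟩
instance (n : ℕ) : IsRatR (n : ℝ) := ⟨n, by simp⟩
instance (n : ℤ) : IsRatR (n : ℝ) := ⟨n, by simp⟩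
instance (q : ℚ) : IsRatR (q : ℝ) := ⟨q, rfl⟩
instance (x y : ℝ) [h : IsRatR x] [h' : IsRatR y] : IsRatR (x + y) := by
  obtain ⟨p, rfl⟩ := h; obtain ⟨q, rfl⟩ := h'; exact ⟨p + q, by simp⟩
instance (x y : ℝ) [h : IsRatR x] [h' : IsRatR y] : IsRatR (x - y) := by
  obtain ⟨p, rfl⟩ := h; obtain ⟨q, rfl⟩ := h'; exact ⟨p - q, by simp⟩
instance (x y : ℝ) [h : IsRatR x] [h' : IsRatR y] : IsRatR (x * y) := by
  obtain ⟨p, rfl⟩ := h; obtain ⟨q, rfl⟩ := h'; exact ⟨p * q, by simp⟩
instance (x y : ℝ) [h : IsRatR x] [h' : IsRatR y] : IsRatR (x / y) := by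
  obtain ⟨p, rfl⟩ := h; obtain ⟨q, rfl⟩ := h'; exact ⟨p / q, by simp⟩
instance (x : ℝ) [h : IsRatR x] : IsRatR (-x) := by
  obtain ⟨p, rfl⟩ := h; exact ⟨-p, by simp⟩
instance (x : ℝ) [h : IsRatR x] : IsRatR x⁻¹ := by
  obtain ⟨p, rfl⟩ := h; exact ⟨p⁻¹, by simp⟩
instance (x : ℝ) (n : ℕ) [h : IsRatR x] : IsRatR (x ^ n) := by
  obtain ⟨p, rfl⟩ := h; exact ⟨p ^ n, by simp⟩

end IsRatR

theorem RPT.const {α : Type} [Enc α] (c : ℝ) [h : IsRatR c] : RPT fun _ : α => c := by
  obtain ⟨q, rfl⟩ := h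
  exact RPT.ratCast (PT.const q)

attribute [fun_prop] RPT
attribute [fun_prop] RPT.const RPT.comp RPT.ratCast RPT.natCast RPT.intCast RPT.add RPT.sub RPT.neg
  RPT.mul RPT.inv RPT.div RPT.pow RPT.max RPT.min RPT.abs RPT.ite RPT.sum_range RPT.prod_range
  RPT.sum_bool RPT.Sd RPT.bs RPT.cut RPT.coord RPT.decide_le RPT.decide_lt RPT.natCeil RPT.natFloor

/-- Proves `RPT fun a => …` from the closure lemmas and the hypotheses in the context; side goals
`PT …`, `PB …` go to `fun_prop`.  Goals it cannot close are left to the user. -/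
macro "rpt" : tactic => `(tactic| repeat' (first
    | with_reducible (first
      | assumption
      | apply RPT.const
      | apply RPT.add | apply RPT.sub | apply RPT.mul | apply RPT.div | apply RPT.neg | apply RPT.inv
      | apply RPT.pow_const | apply RPT.pow | apply RPT.max | apply RPT.min | apply RPT.abs
      | apply RPT.ite | apply RPT.sum_range | apply RPT.prod_range | apply RPT.sum_bool
      | apply RPT.Sd | apply RPT.bs | apply RPT.cut | apply RPT.coord
      | apply RPT.ratCast | apply RPT.natCast | apply RPT.intCast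
      | apply RPT.decide_le | apply RPT.decide_lt
      | (refine RPT.finset_sum _ fun _ _ => ?_) | (refine RPT.finset_prod _ fun _ _ => ?_))
    | fun_prop))

lemma natSqrt_step (m : ℕ) : Nat.sqrt m =
    if (2 * Nat.sqrt (m / 4) + 1) ^ 2 ≤ m then 2 * Nat.sqrt (m / 4) + 1 else 2 * Nat.sqrt (m / 4) := by
  have h1 := Nat.sqrt_le' (m / 4)
  have h2 := Nat.lt_succ_sqrt' (m / 4)
  set s := Nat.sqrt (m / 4)
  have h3 : 4 * (m / 4) ≤ m := Nat.mul_div_le m 4
  have h4 : m < 4 * (m / 4 + 1) := by omega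
  rw [Nat.succ_eq_add_one] at h2
  symm
  rw [Nat.eq_sqrt']
  split_ifs with h
  · exact ⟨h, by nlinarith⟩
  · exact ⟨by nlinarith, not_le.1 h⟩

/-- The integer square root of a binary number is computable in polynomial time. -/
@[fun_prop] theorem pt_natSqrt {α : Type} [Enc α] {n : α → ℕ} (hn : PT n) :
    PT fun a => Nat.sqrt (n a) := by
  have key : ∀ (m i : ℕ), i ≤ m.size → (Nat.rec 0 (fun i s =>
      if (2 * s + 1) ^ 2 ≤ m / 4 ^ (m.size - (i + 1)) then 2 * s + 1 else 2 * s) i : ℕ) =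
      Nat.sqrt (m / 4 ^ (m.size - i)) := by
    intro m i
    induction i with
    | zero =>
      intro _
      have : m < 4 ^ m.size := (Nat.lt_size_self m).trans_le (Nat.pow_le_pow_left (by norm_num) _)
      simp [Nat.div_eq_of_lt this]
    | succ i ih =>
      intro hi
      have e : m / 4 ^ (m.size - i) = m / 4 ^ (m.size - (i + 1)) / 4 := by
        rw [Nat.div_div_eq_div_mul, ← pow_succ]
        congr 2
        omega
      rw [natSqrt_step (m / 4 ^ (m.size - (i + 1))), ← e, ← ih (by omega)]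
  have := PT.natRec (f := fun (a : α) i (s : ℕ) =>
      if (2 * s + 1) ^ 2 ≤ n a / 4 ^ ((n a).size - (i + 1)) then 2 * s + 1 else 2 * s)
    (n := fun a => (n a).size) (ini := fun _ => 0) (fun a => sz (n a)) (by fun_prop) (by fun_prop)
    (by fun_prop) (by fun_prop) (by fun_prop) (fun a i hi => by
      rw [key _ _ hi]
      exact sz_nat_mono ((Nat.sqrt_le_self _).trans (Nat.div_le_self _ _)))
  exact this.congr fun a => by rw [key _ _ le_rfl]; simp

@[fun_prop] theorem pb_natSqrt {α : Type} [Enc α] {n : α → ℕ} (hn : PB n) :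
    PB fun a => Nat.sqrt (n a) := hn.of_le fun _ => Nat.sqrt_le_self _


end Crest.Agent.R338
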