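import Crest.Agent.R338.Par
import Crest.Agent.R338.RPT

/-! Row 338: the design is computable in polynomial time. -/

set_option autoImplicit false

open Crest.Agent.Lib.PT

namespace Crest.Agent.R338

/-! ### Jets of families of functions of one real variable -/

/-- The values of `F a` at rational points are computable in polynomial time. -/
def TEv {α : Type} [Enc α] (F : α → ℝ → ℝ) : Prop := RPT fun p : α × ℚ => F p.1 (p.2 : ℝ)

/-- The values of the derivatives of order at most `k` are computable in polynomial time. -/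
def TJ {α : Type} [Enc α] : ℕ → (α → ℝ → ℝ) → Prop
  | 0, F => TEv F
  | k + 1, F => TEv F ∧ (∀ a, Differentiable ℝ (F a)) ∧ TJ k fun a => deriv (F a)

section jets

variable {α β : Type} [Enc α] [Enc β] {F G : α → ℝ → ℝ} {k : ℕ}

theorem TEv.at (h : TEv F) {x : α → ℝ} (hx : RPT x) : RPT fun a => F a (x a) := by
  obtain ⟨q, hq, e⟩ := hx
  exact (RPT.comp h (g := fun a => (a, q a)) (by fun_prop)).congr fun a => by rw [e]

theorem TJ.ev (h : TJ k F) : TEv F := by
  cases k with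
  | zero => exact h
  | succ k => exact h.1

theorem TJ.mono (h : TJ (k + 1) F) : TJ k F := by
  induction k generalizing F with
  | zero => exact h.1
  | succ k ih => exact ⟨h.1, h.2.1, ih h.2.2⟩

theorem TJ.congr (h : TJ k F) (e : ∀ a x, G a x = F a x) : TJ k G := by
  rwa [show G = F from funext fun a => funext (e a)]

theorem TJ.comp (h : TJ k F) {f : β → α} (hf : PT f) : TJ k fun b => F (f b) := by
  have key : ∀ {F : α → ℝ → ℝ}, TEv F → TEv fun b => F (f b) := fun h =>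
    RPT.comp h (g := fun p : β × ℚ => (f p.1, p.2)) (by fun_prop)
  induction k generalizing F with
  | zero => exact key h
  | succ k ih => exact ⟨key h.1, fun b => h.2.1 _, ih h.2.2⟩

theorem TJ.const {c : α → ℝ} (hc : RPT c) : TJ k fun a _ => c a := by
  induction k generalizing c with
  | zero => exact hc.comp PT.id.fst
  | succ k ih =>
    exact ⟨hc.comp PT.id.fst, fun a => differentiable_const _,
      (ih RPT.zero).congr fun a x => deriv_const _ _⟩

theorem TJ.id : TJ k fun (_ : α) x => x := by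
  have h : TEv fun (_ : α) x => x := RPT.ratCast PT.id.snd
  cases k with
  | zero => exact h
  | succ k =>
    exact ⟨h, fun a => differentiable_id, (TJ.const RPT.one).congr fun a x => deriv_id x⟩

theorem TJ.add (h : TJ k F) (h' : TJ k G) : TJ k fun a x => F a x + G a x := by
  induction k generalizing F G with
  | zero => exact RPT.add h h'
  | succ k ih =>
    exact ⟨RPT.add h.1 h'.1, fun a => (h.2.1 a).add (h'.2.1 a),
      (ih h.2.2 h'.2.2).congr fun a x => deriv_fun_add (h.2.1 a x) (h'.2.1 a x)⟩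

theorem TJ.mul (h : TJ k F) (h' : TJ k G) : TJ k fun a x => F a x * G a x := by
  induction k generalizing F G with
  | zero => exact RPT.mul h h'
  | succ k ih =>
    exact ⟨RPT.mul h.1 h'.1, fun a => (h.2.1 a).mul (h'.2.1 a),
      ((ih h.2.2 h'.mono).add (ih h.mono h'.2.2)).congr fun a x =>
        deriv_fun_mul (h.2.1 a x) (h'.2.1 a x)⟩

theorem TJ.neg (h : TJ k F) : TJ k fun a x => -F a x :=
  ((TJ.const RPT.one.neg).mul h).congr fun a x => by ring

theorem TJ.sub (h : TJ k F) (h' : TJ k G) : TJ k fun a x => F a x - G a x :=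
  (h.add h'.neg).congr fun a x => by ring

theorem TJ.div_const (h : TJ k F) {c : α → ℝ} (hc : RPT c) : TJ k fun a x => F a x / c a :=
  (h.mul (TJ.const hc.inv)).congr fun _ _ => div_eq_mul_inv _ _

theorem TJ.inv (h : TJ k F) (h0 : ∀ a x, F a x ≠ 0) : TJ k fun a x => (F a x)⁻¹ := by
  induction k with
  | zero => exact RPT.inv h
  | succ k ih =>
    refine ⟨RPT.inv h.1, fun a => (h.2.1 a).inv (h0 a),
      ((h.2.2.neg.mul (ih h.mono)).mul (ih h.mono)).congr fun a x => ?_⟩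
    rw [deriv_fun_inv'' (h.2.1 a x) (h0 a x)]
    field_simp

theorem TJ.div (h : TJ k F) (h' : TJ k G) (h0 : ∀ a x, G a x ≠ 0) :
    TJ k fun a x => F a x / G a x :=
  (h.mul (h'.inv h0)).congr fun _ _ => div_eq_mul_inv _ _

theorem TJ.negArg (h : TJ k F) : TJ k fun a x => F a (-x) := by
  have key : ∀ {F : α → ℝ → ℝ}, TEv F → TEv fun a x => F a (-x) := fun {F} h =>
    (RPT.comp h (g := fun p : α × ℚ => (p.1, -p.2)) (PT.id.fst.pair PT.id.snd.ratNeg)).congr
      fun p => by simp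
  induction k generalizing F with
  | zero => exact key h
  | succ k ih =>
    exact ⟨key h.1, fun a => (h.2.1 a).comp differentiable_neg,
      (ih h.2.2).neg.congr fun a x => deriv_comp_neg (F a) x⟩

theorem TJ.Sd {j : ℕ} (hj : j + k ≤ 9) (h : TJ k F) : TJ k fun a x => Sd j (F a x) := by
  induction k generalizing j with
  | zero => exact RPT.Sd j h
  | succ k ih =>
    have hd : ∀ a x, HasDerivAt (fun x => R338.Sd j (F a x))
        (R338.Sd (j + 1) (F a x) * deriv (F a) x) x := fun a x =>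
      (Sd_hasDerivAt (by omega) (F a x)).comp x (h.2.1 a x).hasDerivAt
    exact ⟨RPT.Sd j h.1, fun a x => (hd a x).differentiableAt,
      ((ih (by omega) h.mono).mul h.2.2).congr fun a x => (hd a x).deriv⟩

theorem TJ.bs (hk : k ≤ 8) {σ : α → ℝ} (hσ : RPT σ) (h : TJ k F) :
    TJ k fun a x => bs (σ a) (F a x) :=
  (((h.div_const hσ).add (TJ.const (RPT.const (1 / 2)))).Sd (by omega)).div_const hσ

theorem TJ.sum_range {n : α → ℕ} (hn : PT n) (hb : PB n) {T : α → ℕ → ℝ → ℝ}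
    (h : TJ k fun p : α × ℕ => T p.1 p.2) : TJ k fun a x => ∑ i ∈ Finset.range (n a), T a i x := by
  have key : ∀ {T : α → ℕ → ℝ → ℝ}, (TEv fun p : α × ℕ => T p.1 p.2) →
      TEv fun a x => ∑ i ∈ Finset.range (n a), T a i x := fun {T} h =>
    RPT.sum_range (n := fun p : α × ℚ => n p.1) (hn.comp PT.id.fst) (hb.comp PT.id.fst)
      (T := fun p i => T p.1 i p.2)
      (RPT.comp h (g := fun p : (α × ℚ) × ℕ => ((p.1.1, p.2), p.1.2)) (by fun_prop))
  induction k generalizing T with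
  | zero => exact key h
  | succ k ih =>
    exact ⟨key h.1, fun a => Differentiable.fun_sum fun i _ => h.2.1 (a, i),
      (ih (T := fun a i => deriv (T a i)) h.2.2).congr fun a x =>
        deriv_fun_sum fun i _ => h.2.1 (a, i) x⟩

theorem TJ.hzW (h : TJ 2 F) {lam x : α → ℝ} (hl : RPT lam) (hx : RPT x) :
    RPT fun a => hzW (lam a) (F a) (x a) := by
  have h0 := h.1.at hx
  have h1 := h.2.2.1.at hx
  have h2 := TEv.at h.2.2.2.2 hx
  unfold R338.hzW hzW0
  rpt

end jets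

variable {α : Type} [Enc α] {d : α → XZ} {N : α → ℕ}

theorem rpt_pQ (h : PTFam d) : RPT fun a => (d a).pQ := by
  exact (RPT.const ((10 : ℝ) ^ 20)).mul ((RPT.natCast h.B).pow_const 40)

theorem rpt_pτ (h : PTFam d) : RPT fun a => (d a).pτ := by
  exact RPT.one.div ((rpt_pQ h).pow_const 5)

theorem rpt_sz (h : PTFam d) (hN : PT N) : RPT fun a => (d a).sz (N a) := by
  exact RPT.natCast ((h.B.add hN).add (PT.const 2))

theorem rpt_pG (h : PTFam d) (hN : PT N) : RPT fun a => (d a).pG (N a) :=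
  (RPT.natCast hN).add (rpt_pQ h)

theorem rpt_pσ (h : PTFam d) : RPT fun a => (d a).pσ := RPT.one.div (rpt_pQ h)
theorem rpt_pt (h : PTFam d) : RPT fun a => (d a).pt := RPT.one.div ((rpt_pQ h).pow_const 4)
theorem rpt_pδ (h : PTFam d) : RPT fun a => (d a).pδ := RPT.one.div ((rpt_pQ h).pow_const 8)
theorem rpt_pβ (h : PTFam d) : RPT fun a => (d a).pβ := RPT.one.div ((rpt_pQ h).pow_const 30)
theorem rpt_pw (h : PTFam d) : RPT fun a => (d a).pw := RPT.one.div ((rpt_pQ h).pow_const 4)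

theorem rpt_pΛ (h : PTFam d) : RPT fun a => (d a).pΛ :=
  ((RPT.const 4).mul (RPT.natCast h.B)).mul (rpt_pQ h)

theorem rpt_pπ (h : PTFam d) (hN : PT N) : RPT fun a => (d a).pπ (N a) :=
  RPT.one.div (((rpt_pQ h).pow_const 5).mul (rpt_pG h hN))

theorem rpt_pXr (h : PTFam d) : RPT fun a => (d a).pXr :=
  (rpt_pΛ h).mul (((RPT.const 3).mul ((RPT.natCast h.n).pow_const 2)).add RPT.one)

theorem rpt_pT (h : PTFam d) (hN : PT N) : RPT fun a => (d a).pT (N a) :=
  (rpt_pXr h).add (((RPT.const 2).mul (rpt_pG h hN)).div (rpt_pβ h))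

theorem rpt_pr1 (h : PTFam d) (hN : PT N) : RPT fun a => (d a).pr1 (N a) :=
  (rpt_pT h hN).add ((rpt_pQ h).pow_const 2)

theorem rpt_plam (h : PTFam d) (hN : PT N) : RPT fun a => (d a).plam (N a) := by
  exact ((rpt_pβ h).pow_const 2).div (((rpt_pQ h).pow_const 4).mul (rpt_pG h hN))

theorem rpt_pr0 (h : PTFam d) (hN : PT N) : RPT fun a => (d a).pr0 (N a) := by
  exact (RPT.const ((2 : ℝ) ^ (pJ + 2))).mul (rpt_pr1 h hN)

theorem rpt_xm (h : PTFam d) {m : α → ℕ} (hm : PT m) : RPT fun a => (d a).xm (m a) :=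
  (RPT.natCast hm).mul (rpt_pQ h)

theorem rpt_rho (h : PTFam d) {m : α → ℕ} (hm : PT m) : RPT fun a => (d a).rho (m a) :=
  (rpt_pΛ h).mul (((RPT.ite (hm.decide_lt h.nd) (RPT.const 2) RPT.one).mul
    ((RPT.natCast h.n).pow_const 2)).add (RPT.const (1 / 2)))

theorem rpt_pos (h : PTFam d) {k i j : α → ℕ} (hk : PT k) (hi : PT i) (hj : PT j) :
    RPT fun a => (d a).pos (k a) (i a) (j a) :=
  (rpt_pΛ h).mul (((((RPT.natCast hk).mul ((RPT.natCast h.n).pow_const 2)).add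
    ((RPT.natCast hi).mul (RPT.natCast h.n))).add (RPT.natCast hj)).add RPT.one)

theorem rpt_ys (h : PTFam d) {m k i j : α → ℕ} (hm : PT m) (hk : PT k) (hi : PT i) (hj : PT j) :
    RPT fun a => (d a).ys (m a) (k a) (i a) (j a) :=
  (rpt_pos h hk hi hj).sub ((RPT.ratCast (pt_side h hk hi hj)).mul (rpt_xm h hm))

theorem rpt_xc (h : PTFam d) {m k i j : α → ℕ} (hm : PT m) (hk : PT k) (hi : PT i) (hj : PT j)
    (mir : Bool) : RPT fun a => (d a).xc (m a) (k a) (i a) (j a) mir :=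
  ((RPT.const _).mul (RPT.ratCast (pt_side h hk hi hj))).mul (rpt_ys h hm hk hi hj)

theorem tj_hx (h : PTFam d) (hv : ∀ a, (d a).Valid) (hN : PT N) {m : α → ℕ} (hm : PT m) :
    TJ 2 fun a => (d a).hx (N a) (m a) := by
  have hn := h.n
  have hb := finB_pb_n h hv
  have hr := rpt_rho h hm
  unfold XZ.hx
  refine TJ.add (TJ.add (TJ.neg (TJ.mul (TJ.const (((RPT.const 2).mul (rpt_plam h hN)).mul hr))
    (TJ.Sd (by omega) ((TJ.id.sub (TJ.const hr)).add (TJ.const (RPT.const 2))))))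
    (TJ.mul (TJ.const (rpt_pβ h)) (TJ.add (TJ.sub
      (TJ.Sd (by omega) (TJ.id.sub (TJ.const RPT.one)))
      (TJ.Sd (by omega) ((((TJ.id.sub (TJ.const hr)).sub (TJ.const (rpt_pt h))).div_const
        (rpt_pδ h)).add (TJ.const RPT.one))))
      (TJ.Sd (by omega) (((TJ.id.sub (TJ.const hr)).sub (TJ.const RPT.one)).div_const
        (rpt_pδ h)))))) ?_
  refine TJ.sum_range (PT.const 3) (PB.const 3) ?_
  refine TJ.sum_range (hn.comp PT.id.fst) (hb.comp PT.id.fst) ?_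
  refine TJ.sum_range (hn.comp PT.id.fst.fst) (hb.comp PT.id.fst.fst) ?_
  have h' := h.comp (f := fun p : ((α × ℕ) × ℕ) × ℕ => p.1.1.1) PT.id.fst.fst.fst
  have hm' : PT fun p : ((α × ℕ) × ℕ) × ℕ => m p.1.1.1 := hm.comp PT.id.fst.fst.fst
  have hk : PT fun p : ((α × ℕ) × ℕ) × ℕ => p.1.1.2 := PT.id.fst.fst.snd
  have hi : PT fun p : ((α × ℕ) × ℕ) × ℕ => p.1.2 := PT.id.fst.snd
  have hj : PT fun p : ((α × ℕ) × ℕ) × ℕ => p.2 := PT.id.snd
  exact TJ.mul (TJ.const (((RPT.one.div ((rpt_pQ h').pow_const 5)).mul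
    (RPT.ratCast (pt_amp h' hm' hk hi hj))).mul
      (RPT.ite ((pt_typ h' hm' hk).decide_eq (PT.const 0)) (rpt_pt h') RPT.one)))
    (TJ.bs (by omega) (rpt_pσ h') (TJ.id.sub (TJ.const (rpt_ys h' hm' hk hi hj))))

theorem t_pπ {d : XZ} (hv : d.Valid) (N : ℕ) : 0 < d.pπ N ∧ d.pπ N ≤ 1 := by
  have hB : (1 : ℝ) ≤ d.B := by exact_mod_cast hv.n_pos.trans hv.n_le
  have hQ : 1 ≤ d.pQ := one_le_mul_of_one_le_of_one_le (by norm_num) (one_le_pow₀ hB)
  have hG : 1 ≤ d.pG N := by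
    have : (0 : ℝ) ≤ N := Nat.cast_nonneg N
    unfold XZ.pG
    linarith
  have h1 : 1 ≤ d.pQ ^ 5 * d.pG N := one_le_mul_of_one_le_of_one_le (one_le_pow₀ hQ) hG
  exact ⟨one_div_pos.2 (by linarith), div_le_one_of_le₀ h1 (by linarith)⟩

theorem tj_hy (h : PTFam d) (hv : ∀ a, (d a).Valid) (hN : PT N) :
    TJ 2 fun a => (d a).hy (N a) := by
  have hp := rpt_pπ h hN
  have hσ := rpt_pσ h
  unfold XZ.hy
  refine TJ.add (TJ.add (TJ.mul (TJ.const (rpt_pβ h)) (TJ.Sd (by omega)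
    (((TJ.const (RPT.const 4)).mul TJ.id).sub (TJ.const RPT.one))))
    (TJ.div (TJ.mul (TJ.const (RPT.one.sub hp)) (TJ.bs (by omega) hσ (TJ.id.sub (TJ.const RPT.one))))
      ((TJ.const hp).add (TJ.mul (TJ.const (RPT.one.sub hp)) ((TJ.const RPT.one).sub
        (TJ.Sd (by omega) (((TJ.id.sub (TJ.const RPT.one)).div_const hσ).add
          (TJ.const (RPT.const (1 / 2)))))))) fun a x => ?_))
    (TJ.mul (TJ.const ((RPT.const 4).mul (rpt_pG h hN))) (TJ.Sd (by omega)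
      (((TJ.const (RPT.const 4)).mul TJ.id).sub (TJ.const (RPT.const 5)))))
  obtain ⟨h1, h2⟩ := t_pπ (hv a) (N a)
  have := mul_nonneg (sub_nonneg.2 h2)
    (sub_nonneg.2 (Sd_zero_le_one ((x - 1) / (d a).pσ + 1 / 2)))
  exact ne_of_gt (by linarith)

theorem rpt_cube {R : α → ℝ} (hR : RPT R) {p : α → Q3} (hp : PT p) :
    RPT fun a => cube (R a) (rp (p a)) :=
  ((hR.cut hR (RPT.coord hp 0)).mul (hR.cut hR (RPT.coord hp 1))).mul (hR.cut hR (RPT.coord hp 2))

theorem rpt_logCut {R : α → ℝ} (hR : RPT R) {p : α → Q3} (hp : PT p) :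
    RPT fun a => logCut (R a) (rp (p a)) :=
  (RPT.finset_sum (Finset.range pJ) fun j _ =>
    rpt_cube ((RPT.const ((2 : ℝ) ^ j)).mul hR) hp).div (RPT.const _)

theorem rpt_coreM (h : PTFam d) (hN : PT N) {m : α → ℕ} (hm : PT m) {p : α → Q3} (hp : PT p) :
    RPT fun a => (d a).coreM (N a) (m a) (rp (p a)) :=
  ((((rpt_pT h hN).add RPT.one).cut RPT.one ((RPT.coord hp 0).sub (rpt_xm h hm))).mul
    ((RPT.const (5 / 2)).cut (RPT.const (1 / 2))
      ((RPT.coord hp 1).sub ((RPT.const 8).mul (RPT.natCast hm))))).mul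
    ((RPT.const (1 / 2)).cut (RPT.const (1 / 2)) (RPT.coord hp 2))

theorem rpt_Wx (h : PTFam d) (hv : ∀ a, (d a).Valid) (hN : PT N) {m : α → ℕ} (hm : PT m)
    {x : α → ℝ} (hx : RPT x) : RPT fun a => (d a).Wx (N a) (m a) (x a) := by
  have h1 := tj_hx h hv hN hm
  have h2 : TJ 2 fun a => (d a).rx (N a) (m a) :=
    (((TJ.const ((RPT.const 2).mul (rpt_plam h hN))).mul TJ.id).add h1).sub h1.negArg
  exact h2.hzW (rpt_plam h hN) hx

theorem rpt_Wy (h : PTFam d) (hv : ∀ a, (d a).Valid) (hN : PT N) {y : α → ℝ} (hy : RPT y) :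
    RPT fun a => (d a).Wy (N a) (y a) := by
  have h1 := tj_hy h hv hN
  have h2 : TJ 2 fun a => (d a).ry (N a) :=
    (((TJ.const ((RPT.const 2).mul (rpt_plam h hN))).mul TJ.id).add h1).sub h1.negArg
  exact h2.hzW (rpt_plam h hN) hy

theorem rpt_V0 (h : PTFam d) (hv : ∀ a, (d a).Valid) (hN : PT N) {c : α → ℝ} (hc : RPT c) :
    RPT fun p : α × Q3 => (d p.1).V0 (N p.1) (c p.1) (rp p.2) := by
  have h1 := h.comp (f := fun p : α × Q3 => p.1) PT.id.fst
  have hN1 : PT fun p : α × Q3 => N p.1 := hN.comp PT.id.fst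
  have hc1 : RPT fun p : α × Q3 => c p.1 := hc.comp PT.id.fst
  have hp : PT fun p : α × Q3 => p.2 := PT.id.snd
  unfold XZ.V0
  refine RPT.add (RPT.add (RPT.neg (((hc1.pow_const 2).div (RPT.const 2)).mul
    ((((RPT.coord hp 0).pow_const 2).add ((RPT.coord hp 1).pow_const 2)).mul
      (rpt_logCut (rpt_pr1 h1 hN1) hp)))) ?_)
    (hc1.mul (rpt_cube ((RPT.const ((2 : ℝ) ^ pJ)).mul (rpt_pr1 h1 hN1)) hp))
  refine RPT.sum_range h1.n (finB_pb_n h1 fun p => hv p.1) ?_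
  have h2 := h.comp (f := fun p : (α × Q3) × ℕ => p.1.1) PT.id.fst.fst
  have hN2 : PT fun p : (α × Q3) × ℕ => N p.1.1 := hN.comp PT.id.fst.fst
  have hp2 : PT fun p : (α × Q3) × ℕ => p.1.2 := PT.id.fst.snd
  have hm : PT fun p : (α × Q3) × ℕ => p.2 := PT.id.snd
  exact (rpt_coreM h2 hN2 hm hp2).mul
    (((rpt_Wx h2 (fun p => hv _) hN2 hm ((RPT.coord hp2 0).sub (rpt_xm h2 hm))).add
      (rpt_Wy h2 (fun p => hv _) hN2 ((RPT.coord hp2 1).sub
        ((RPT.const 8).mul (RPT.natCast hm))))).sub (hc.comp PT.id.fst.fst))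

theorem rpt_vv (h : PTFam d) (hv : ∀ a, (d a).Valid) {U : α → ℚ} (hU : PT U) :
    RPT fun p : α × Q3 => (d p.1).vv (U p.1) (rp p.2) := by
  have hn := h.n
  have hb := finB_pb_n h hv
  unfold XZ.vv
  refine RPT.sum_range (hn.comp PT.id.fst) (hb.comp PT.id.fst) ?_
  refine RPT.sum_range (PT.const 3) (PB.const 3) ?_
  refine RPT.sum_range (hn.comp PT.id.fst.fst.fst) (hb.comp PT.id.fst.fst.fst) ?_
  refine RPT.sum_range (hn.comp PT.id.fst.fst.fst.fst) (hb.comp PT.id.fst.fst.fst.fst) ?_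
  refine RPT.finset_sum _ fun mir _ => RPT.finset_sum _ fun r _ => ?_
  have h' := h.comp (f := fun p : ((((α × Q3) × ℕ) × ℕ) × ℕ) × ℕ => p.1.1.1.1.1)
    PT.id.fst.fst.fst.fst.fst
  have hU' : PT fun p : ((((α × Q3) × ℕ) × ℕ) × ℕ) × ℕ => U p.1.1.1.1.1 :=
    hU.comp PT.id.fst.fst.fst.fst.fst
  have hp : PT fun p : ((((α × Q3) × ℕ) × ℕ) × ℕ) × ℕ => p.1.1.1.1.2 := PT.id.fst.fst.fst.fst.snd
  have hm : PT fun p : ((((α × Q3) × ℕ) × ℕ) × ℕ) × ℕ => p.1.1.1.2 := PT.id.fst.fst.fst.snd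
  have hk : PT fun p : ((((α × Q3) × ℕ) × ℕ) × ℕ) × ℕ => p.1.1.2 := PT.id.fst.fst.snd
  have hi : PT fun p : ((((α × Q3) × ℕ) × ℕ) × ℕ) × ℕ => p.1.2 := PT.id.fst.snd
  have hj : PT fun p : ((((α × Q3) × ℕ) × ℕ) × ℕ) × ℕ => p.2 := PT.id.snd
  have hσ := rpt_pσ h'
  exact (((rpt_pτ h').div (RPT.const 4)).mul (RPT.ratCast (pt_pot h' (fun p => hv _) hU' hm hk hi hj
    (PT.const mir) (PT.const r)))).mul
    (((hσ.cut hσ (((RPT.coord hp 0).sub (rpt_xm h' hm)).sub (rpt_xc h' hm hk hi hj mir))).mul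
      (hσ.cut hσ (((RPT.coord hp 1).sub ((RPT.const 8).mul (RPT.natCast hm))).sub
        (RPT.const _)))).mul (RPT.one.cut RPT.one (RPT.coord hp 2)))

end Crest.Agent.R338
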