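import Crest.Agent.R338.Par
import Crest.Agent.R338.RPT

/-! Row 338: the constant `ustar` can be approximated in polynomial time. -/

set_option autoImplicit false

open Crest.Agent.Lib.PT MeasureTheory

namespace Crest.Agent.R338

/-- Grid points of `[-1/2, 1/2]`. -/
noncomputable def ustG (n i : ℕ) : ℝ := (i : ℝ) / n - 1 / 2

/-- Mass of a cell. -/
noncomputable def ustW (n i : ℕ) : ℝ := Sd 0 (((i : ℝ) + 1) / n) - Sd 0 ((i : ℝ) / n)

/-- The bump restricted to a cell. -/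
noncomputable def ustC (n i : ℕ) : ℝ → ℝ := (Set.Ico (ustG n i) (ustG n (i + 1))).indicator (bs 1)

/-- Rational approximation of the inverse square root. -/
noncomputable def ustI (K : ℕ) (s : ℝ) : ℝ := (Nat.sqrt ⌊(K : ℝ) ^ 2 / s⌋₊ : ℝ) / K

/-- The regularised squared distance of two grid points. -/
noncomputable def ustS (m i j k l : ℕ) : ℝ :=
  (ustG (m ^ 5) i - ustG (m ^ 5) k) ^ 2 + (ustG (m ^ 5) j - ustG (m ^ 5) l) ^ 2 +
    (1 / (m : ℝ) ^ 2) ^ 2

/-- The inner sum. -/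
noncomputable def ustV (m i j : ℕ) : ℝ :=
  ∑ k ∈ Finset.range (m ^ 5), ∑ l ∈ Finset.range (m ^ 5),
    ustW (m ^ 5) k * ustW (m ^ 5) l * ustI m (ustS m i j k l)

/-- The approximation. -/
noncomputable def ustU (m : ℕ) : ℝ :=
  ∑ i ∈ Finset.range (m ^ 5), ∑ j ∈ Finset.range (m ^ 5),
    ustW (m ^ 5) i * ustW (m ^ 5) j * ustV m i j

theorem ust_bs_integrable : Integrable (bs 1) :=
  (bs_contDiff 1).continuous.integrable_of_hasCompactSupport (bs_hasCompactSupport one_pos)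

theorem ust_bs_integral : ∫ x, bs 1 x = 1 := by
  simpa using bs_integral one_pos 0

theorem ustC_integrable (n i : ℕ) : Integrable (ustC n i) :=
  ust_bs_integrable.indicator measurableSet_Ico

theorem ustC_integral {n : ℕ} (hn : 0 < n) (i : ℕ) : ∫ x, ustC n i x = ustW n i := by
  have hn' : (0 : ℝ) < n := by exact_mod_cast hn
  have hle : ustG n i ≤ ustG n (i + 1) := by
    unfold ustG
    push_cast
    gcongr
    linarith
  have := bs_intervalIntegral 1 0 (ustG n i) (ustG n (i + 1))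
  simp only [sub_zero, div_one] at this
  rw [ustC, integral_indicator measurableSet_Ico, integral_Ico_eq_integral_Ioc,
    ← intervalIntegral.integral_of_le hle, this, ustW, ustG, ustG]
  push_cast
  congr 2 <;> ring

theorem ustC_cases {n : ℕ} (hn : 0 < n) (x : ℝ) : (bs 1 x = 0 ∧ ∀ k, ustC n k x = 0) ∨
    ∃ i < n, |x - ustG n i| ≤ 1 / n ∧ ∀ k, ustC n k x = if k = i then bs 1 x else 0 := by
  have hn' : (0 : ℝ) < n := by exact_mod_cast hn
  by_cases h : bs 1 x = 0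
  · exact .inl ⟨h, fun k => by simp [ustC, Set.indicator, h]⟩
  right
  have hx : |x| < 1 / 2 := by
    by_contra hx
    exact h (bs_eq_zero one_pos (not_lt.1 hx))
  obtain ⟨hx1, hx2⟩ := abs_lt.1 hx
  have h0 : 0 ≤ (n : ℝ) * (x + 1 / 2) := by
    have : 0 ≤ x + 1 / 2 := by linarith
    positivity
  have key : ∀ k : ℕ, x ∈ Set.Ico (ustG n k) (ustG n (k + 1)) ↔ k = ⌊(n : ℝ) * (x + 1 / 2)⌋₊ := by
    intro k
    rw [eq_comm, Nat.floor_eq_iff h0, Set.mem_Ico, ustG, ustG, sub_le_iff_le_add, div_le_iff₀ hn',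
      lt_sub_iff_add_lt, lt_div_iff₀ hn', mul_comm (n : ℝ)]
    push_cast
    rfl
  refine ⟨⌊(n : ℝ) * (x + 1 / 2)⌋₊, ?_, ?_, fun k => ?_⟩
  · rw [Nat.floor_lt h0]
    nlinarith
  · obtain ⟨h1, h2⟩ := (key _).2 rfl
    have e : ustG n (⌊(n : ℝ) * (x + 1 / 2)⌋₊ + 1) = ustG n ⌊(n : ℝ) * (x + 1 / 2)⌋₊ + 1 / n := by
      unfold ustG
      push_cast
      ring
    rw [e] at h2
    rw [abs_of_nonneg (by linarith)]
    linarith
  · simp only [ustC, Set.indicator, key]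

/-- Weighted Riemann sums in the plane. -/
theorem ust_riemann {n : ℕ} (hn : 0 < n) {A E : ℝ × ℝ → ℝ} {G : ℕ → ℕ → ℝ}
    (hA : AEStronglyMeasurable A volume) (hE : Integrable E) (hE0 : ∀ p, 0 ≤ E p)
    (h : ∀ᵐ p : ℝ × ℝ, ∀ i < n, ∀ j < n, |p.1 - ustG n i| ≤ 1 / n → |p.2 - ustG n j| ≤ 1 / n →
      bs 1 p.1 * bs 1 p.2 * |A p - G i j| ≤ E p) :
    |(∫ p : ℝ × ℝ, bs 1 p.1 * bs 1 p.2 * A p) -
      ∑ i ∈ Finset.range n, ∑ j ∈ Finset.range n, ustW n i * ustW n j * G i j| ≤ ∫ p, E p := by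
  set St : ℝ × ℝ → ℝ := fun p => ∑ i ∈ Finset.range n, ∑ j ∈ Finset.range n,
    ustC n i p.1 * ustC n j p.2 * G i j with hSt
  have hint : ∀ i j, Integrable fun p : ℝ × ℝ => ustC n i p.1 * ustC n j p.2 * G i j :=
    fun i j => ((ustC_integrable n i).mul_prod (ustC_integrable n j)).mul_const _
  have hS : Integrable St :=
    integrable_finsetSum _ fun i _ => integrable_finsetSum _ fun j _ => hint i j
  have hSi : ∫ p, St p =
      ∑ i ∈ Finset.range n, ∑ j ∈ Finset.range n, ustW n i * ustW n j * G i j := by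
    rw [hSt, integral_finsetSum _ fun i _ => integrable_finsetSum _ fun j _ => hint i j]
    refine Finset.sum_congr rfl fun i _ => ?_
    rw [integral_finsetSum _ fun j _ => hint i j]
    refine Finset.sum_congr rfl fun j _ => ?_
    rw [integral_mul_const, Measure.volume_eq_prod, integral_prod_mul, ustC_integral hn,
      ustC_integral hn]
  have hb : ∀ᵐ p : ℝ × ℝ, ‖bs 1 p.1 * bs 1 p.2 * A p - St p‖ ≤ E p := by
    filter_upwards [h] with p hp
    rcases ustC_cases hn p.1 with ⟨h1, h1'⟩ | ⟨i, hi, h1, h1'⟩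
    · simpa [hSt, h1, h1'] using hE0 p
    rcases ustC_cases hn p.2 with ⟨h2, h2'⟩ | ⟨j, hj, h2, h2'⟩
    · simpa [hSt, h2, h2'] using hE0 p
    have e : St p = bs 1 p.1 * bs 1 p.2 * G i j := by
      simp [hSt, h1', h2', hi, hj]
    rw [e, ← mul_sub, Real.norm_eq_abs, abs_mul,
      abs_of_nonneg (mul_nonneg (bs_nonneg one_pos _) (bs_nonneg one_pos _))]
    exact hp i hi j hj h1 h2
  have hm : AEStronglyMeasurable (fun p : ℝ × ℝ => bs 1 p.1 * bs 1 p.2 * A p - St p) volume :=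
    ((ust_bs_integrable.mul_prod ust_bs_integrable).aestronglyMeasurable.mul hA).sub
      hS.aestronglyMeasurable
  have hD : Integrable fun p : ℝ × ℝ => bs 1 p.1 * bs 1 p.2 * A p - St p := hE.mono' hm hb
  have e : (∫ p : ℝ × ℝ, bs 1 p.1 * bs 1 p.2 * A p) =
      (∫ p : ℝ × ℝ, (bs 1 p.1 * bs 1 p.2 * A p - St p)) + ∫ p, St p := by
    rw [← integral_add hD hS]
    simp
  rw [e, hSi, add_sub_cancel_right]
  exact norm_integral_le_of_norm_le hE hb

theorem ust_isq {K : ℕ} (hK : 0 < K) {s : ℝ} (hs : 0 < s) : |1 / √s - ustI K s| ≤ 1 / K := by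
  have hK' : (0 : ℝ) < K := by exact_mod_cast hK
  have hy : 0 ≤ (K : ℝ) ^ 2 / s := by positivity
  set m := ⌊(K : ℝ) ^ 2 / s⌋₊ with hm
  have h1 : (Nat.sqrt m : ℝ) ^ 2 ≤ (K : ℝ) ^ 2 / s :=
    le_trans (show _ ≤ (m : ℝ) by exact_mod_cast Nat.sqrt_le' m) (Nat.floor_le hy)
  have h2 : (K : ℝ) ^ 2 / s < ((Nat.sqrt m : ℝ) + 1) ^ 2 := by
    refine (Nat.lt_floor_add_one _).trans_le ?_
    rw [← hm]
    exact_mod_cast Nat.lt_succ_sqrt' m
  have hr : 0 < √s := Real.sqrt_pos.2 hs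
  have e : (K : ℝ) ^ 2 / s = (K / √s) ^ 2 := by rw [div_pow, Real.sq_sqrt hs.le]
  rw [e] at h1 h2
  have h3 : (Nat.sqrt m : ℝ) ≤ K / √s := (abs_le_of_sq_le_sq' h1 (by positivity)).2
  have h4 : K / √s < (Nat.sqrt m : ℝ) + 1 := (abs_lt_of_sq_lt_sq' h2 (by positivity)).2
  have e2 : 1 / √s - ustI K s = (K / √s - Nat.sqrt m) / K := by
    rw [ustI, ← hm]
    field_simp
  rw [e2, abs_div, abs_of_pos hK', abs_of_nonneg (by linarith)]
  gcongr
  linarith

theorem ust_lip {u v u' v' d : ℝ} (hd : 0 < d) :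
    |1 / √(u ^ 2 + v ^ 2 + d ^ 2) - 1 / √(u' ^ 2 + v' ^ 2 + d ^ 2)| ≤
      (|u - u'| + |v - v'|) / d ^ 2 := by
  have hA2 := Real.sq_sqrt (show 0 ≤ u ^ 2 + v ^ 2 + d ^ 2 by positivity)
  have hB2 := Real.sq_sqrt (show 0 ≤ u' ^ 2 + v' ^ 2 + d ^ 2 by positivity)
  have hA0 := Real.sqrt_nonneg (u ^ 2 + v ^ 2 + d ^ 2)
  have hB0 := Real.sqrt_nonneg (u' ^ 2 + v' ^ 2 + d ^ 2)
  set A := √(u ^ 2 + v ^ 2 + d ^ 2)
  set B := √(u' ^ 2 + v' ^ 2 + d ^ 2)
  have hAd : d ≤ A := (abs_le_of_sq_le_sq' (by nlinarith) hA0).2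
  have hBd : d ≤ B := (abs_le_of_sq_le_sq' (by nlinarith) hB0).2
  have hu : |u| ≤ A := abs_le_of_sq_le_sq (by nlinarith) hA0
  have hv : |v| ≤ A := abs_le_of_sq_le_sq (by nlinarith) hA0
  have hu' : |u'| ≤ B := abs_le_of_sq_le_sq (by nlinarith) hB0
  have hv' : |v'| ≤ B := abs_le_of_sq_le_sq (by nlinarith) hB0
  have hA : 0 < A := hd.trans_le hAd
  have hB : 0 < B := hd.trans_le hBd
  have h1 : |B - A| * (A + B) ≤ (|u - u'| + |v - v'|) * (A + B) := by
    have e : (B - A) * (A + B) = -((u - u') * (u + u') + (v - v') * (v + v')) := by nlinarith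
    calc |B - A| * (A + B) = |(B - A) * (A + B)| := by
          rw [abs_mul, abs_of_pos (show 0 < A + B by positivity)]
      _ ≤ |u - u'| * |u + u'| + |v - v'| * |v + v'| := by
          rw [e, abs_neg, ← abs_mul, ← abs_mul]
          exact abs_add_le _ _
      _ ≤ |u - u'| * (A + B) + |v - v'| * (A + B) := by
          gcongr
          · exact (abs_add_le _ _).trans (add_le_add hu hu')
          · exact (abs_add_le _ _).trans (add_le_add hv hv')
      _ = _ := by ring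
  have h2 := le_of_mul_le_mul_right h1 (show 0 < A + B by positivity)
  have e : 1 / A - 1 / B = (B - A) / (A * B) := by field_simp
  rw [e, abs_div, abs_of_pos (mul_pos hA hB), sq d]
  gcongr

theorem ust_reg {t r m : ℝ} (hm : 0 < m) (hr : 0 < r) (ht : r ^ 2 ≤ t) :
    |1 / √t - 1 / √(t + (1 / m ^ 2) ^ 2)| ≤ 1 / m * (1 / (r * √r)) := by
  have ht0 : 0 < t := lt_of_lt_of_le (by positivity) ht
  have hA2 := Real.sq_sqrt ht0.le
  have hB2 := Real.sq_sqrt (show 0 ≤ t + (1 / m ^ 2) ^ 2 by positivity)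
  have hA0 := Real.sqrt_nonneg t
  have hB0 := Real.sqrt_nonneg (t + (1 / m ^ 2) ^ 2)
  have hs2 := Real.sq_sqrt hr.le
  have hs : 0 < √r := Real.sqrt_pos.2 hr
  set A := √t
  set B := √(t + (1 / m ^ 2) ^ 2)
  set s := √r
  set e := 1 / m with he
  have he0 : 0 < e := by positivity
  have hd : 1 / m ^ 2 = e ^ 2 := by rw [he, div_pow, one_pow]
  rw [hd] at hB2
  have hrA : r ≤ A := (abs_le_of_sq_le_sq' (by linarith) hA0).2
  have hA : 0 < A := hr.trans_le hrA
  have hAB : A ≤ B := (abs_le_of_sq_le_sq' (by nlinarith [sq_nonneg (e ^ 2)]) hB0).2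
  have hBA : B ≤ A + e ^ 2 :=
    (abs_le_of_sq_le_sq' (by nlinarith [mul_pos hA (pow_pos he0 2)]) (by positivity)).2
  have hB : s * e ≤ B := by
    refine (abs_le_of_sq_le_sq' ?_ hB0).2
    rw [mul_pow, hs2]
    nlinarith [sq_nonneg (r - e ^ 2), mul_pos hr (pow_pos he0 2)]
  have hB' : 0 < B := hA.trans_le hAB
  have e1 : 1 / A - 1 / B = (B - A) / (A * B) := by field_simp
  have e2 : e * (1 / (r * s)) = e ^ 2 / (r * (s * e)) := by field_simp
  rw [e1, e2, abs_of_nonneg (div_nonneg (by linarith) (by positivity))]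
  gcongr
  linarith

/-- The integrable majorant of the singularity. -/
noncomputable def ustH : ℝ × ℝ → ℝ :=
  (Metric.ball (0 : ℝ × ℝ) 1).indicator fun q => 1 / (‖q‖ * √‖q‖)

theorem ustH_nonneg (q : ℝ × ℝ) : 0 ≤ ustH q :=
  Set.indicator_nonneg (fun q _ => by positivity) q

theorem ustH_integrable : Integrable ustH := by
  rw [ustH, integrable_indicator_iff measurableSet_ball]
  refine integrableOn_ball_of_norm_le_rpow (C := 1) (α := 3 / 2) (by simp)
    (by simp; norm_num) (.of_forall fun q => ?_) (Measurable.aestronglyMeasurable (by fun_prop))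
  rw [Real.norm_eq_abs, abs_of_nonneg (by positivity), one_mul, Real.rpow_neg (norm_nonneg _),
    one_div, Real.sqrt_eq_rpow, show (3 / 2 : ℝ) = 1 + 1 / 2 by norm_num,
    Real.rpow_add' (norm_nonneg _) (by norm_num), Real.rpow_one]

theorem ust_B_integrable : Integrable fun p : ℝ × ℝ => bs 1 p.1 * bs 1 p.2 :=
  ust_bs_integrable.mul_prod ust_bs_integrable

theorem ust_B_integral : ∫ p : ℝ × ℝ, bs 1 p.1 * bs 1 p.2 = 1 := by
  rw [Measure.volume_eq_prod, integral_prod_mul, ust_bs_integral, mul_one]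

theorem ust_inner {m : ℕ} (hm : 0 < m) (p : ℝ × ℝ) (i j : ℕ)
    (h1 : |p.1 - ustG (m ^ 5) i| ≤ 1 / (m ^ 5 : ℕ))
    (h2 : |p.2 - ustG (m ^ 5) j| ≤ 1 / (m ^ 5 : ℕ)) :
    |(∫ q : ℝ × ℝ, bs 1 q.1 * bs 1 q.2 * (1 / √((p.1 - q.1) ^ 2 + (p.2 - q.2) ^ 2))) -
      ustV m i j| ≤ (6 + 16 * ∫ q, ustH q) / m := by
  have hm' : (0 : ℝ) < m := by exact_mod_cast hm
  have hH : Integrable fun q => ustH (q - p) := ustH_integrable.comp_sub_right p
  have hB0 : ∀ q : ℝ × ℝ, 0 ≤ bs 1 q.1 * bs 1 q.2 := fun q =>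
    mul_nonneg (bs_nonneg one_pos _) (bs_nonneg one_pos _)
  have key := ust_riemann (n := m ^ 5) (pow_pos hm 5)
    (A := fun q => 1 / √((p.1 - q.1) ^ 2 + (p.2 - q.2) ^ 2))
    (E := fun q => (6 * (bs 1 q.1 * bs 1 q.2) + 16 * ustH (q - p)) / m)
    (G := fun k l => ustI m (ustS m i j k l)) (Measurable.aestronglyMeasurable (by fun_prop))
    (((ust_B_integrable.const_mul 6).add (hH.const_mul 16)).div_const _)
    (fun q => by have := hB0 q; have := ustH_nonneg (q - p); positivity) ?_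
  · rw [integral_div, integral_add (ust_B_integrable.const_mul 6) (hH.const_mul 16),
      integral_const_mul, integral_const_mul, ust_B_integral, integral_sub_right_eq_self ustH p,
      mul_one] at key
    exact key
  filter_upwards [Measure.ae_ne volume p] with q hq k _ l _ h3 h4
  have hr : 0 < ‖q - p‖ := norm_pos_iff.2 (sub_ne_zero.2 hq)
  have hrt : ‖q - p‖ ^ 2 ≤ (p.1 - q.1) ^ 2 + (p.2 - q.2) ^ 2 := by
    rw [Prod.norm_def, Prod.fst_sub, Prod.snd_sub, Real.norm_eq_abs, Real.norm_eq_abs]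
    rcases le_total |q.1 - p.1| |q.2 - p.2| with h | h
    · rw [max_eq_right h, sq_abs]; nlinarith [sq_nonneg (p.1 - q.1)]
    · rw [max_eq_left h, sq_abs]; nlinarith [sq_nonneg (p.2 - q.2)]
  have a1 := ust_reg hm' hr hrt
  have a2 := ust_lip (u := p.1 - q.1) (v := p.2 - q.2) (u' := ustG (m ^ 5) i - ustG (m ^ 5) k)
    (v' := ustG (m ^ 5) j - ustG (m ^ 5) l) (d := 1 / (m : ℝ) ^ 2) (by positivity)
  have a3 := ust_isq hm (s := ustS m i j k l) (by unfold ustS; positivity)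
  have a4 : (|p.1 - q.1 - (ustG (m ^ 5) i - ustG (m ^ 5) k)| +
      |p.2 - q.2 - (ustG (m ^ 5) j - ustG (m ^ 5) l)|) / (1 / (m : ℝ) ^ 2) ^ 2 ≤ 4 / m := by
    have b1 : |p.1 - q.1 - (ustG (m ^ 5) i - ustG (m ^ 5) k)| ≤ 2 / (m : ℝ) ^ 5 := by
      rw [show p.1 - q.1 - (ustG (m ^ 5) i - ustG (m ^ 5) k) =
        (p.1 - ustG (m ^ 5) i) - (q.1 - ustG (m ^ 5) k) by ring]
      refine (abs_sub _ _).trans ((add_le_add h1 h3).trans_eq ?_)
      push_cast; ring
    have b2 : |p.2 - q.2 - (ustG (m ^ 5) j - ustG (m ^ 5) l)| ≤ 2 / (m : ℝ) ^ 5 := by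
      rw [show p.2 - q.2 - (ustG (m ^ 5) j - ustG (m ^ 5) l) =
        (p.2 - ustG (m ^ 5) j) - (q.2 - ustG (m ^ 5) l) by ring]
      refine (abs_sub _ _).trans ((add_le_add h2 h4).trans_eq ?_)
      push_cast; ring
    refine (div_le_div_of_nonneg_right (add_le_add b1 b2) (by positivity)).trans_eq ?_
    field_simp
    ring
  have a5 : |1 / √((p.1 - q.1) ^ 2 + (p.2 - q.2) ^ 2) - ustI m (ustS m i j k l)| ≤
      (1 / (‖q - p‖ * √‖q - p‖) + 5) / m := by
    have t1 := abs_sub_le (1 / √((p.1 - q.1) ^ 2 + (p.2 - q.2) ^ 2))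
      (1 / √((p.1 - q.1) ^ 2 + (p.2 - q.2) ^ 2 + (1 / (m : ℝ) ^ 2) ^ 2)) (ustI m (ustS m i j k l))
    have t2 := abs_sub_le (1 / √((p.1 - q.1) ^ 2 + (p.2 - q.2) ^ 2 + (1 / (m : ℝ) ^ 2) ^ 2))
      (1 / √(ustS m i j k l)) (ustI m (ustS m i j k l))
    have t3 := a2.trans a4
    rw [← ustS] at t3
    have e : (1 / (‖q - p‖ * √‖q - p‖) + 5) / m =
        1 / m * (1 / (‖q - p‖ * √‖q - p‖)) + (4 / m + 1 / m) := by ring
    linarith
  have a6 : bs 1 q.1 * bs 1 q.2 * (1 / (‖q - p‖ * √‖q - p‖)) ≤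
      bs 1 q.1 * bs 1 q.2 + 16 * ustH (q - p) := by
    have hB := hB0 q
    rcases lt_or_ge ‖q - p‖ 1 with h | h
    · have e : ustH (q - p) = 1 / (‖q - p‖ * √‖q - p‖) :=
        Set.indicator_of_mem (by simpa using h) _
      have hB' : bs 1 q.1 * bs 1 q.2 ≤ 4 / 1 * (4 / 1) :=
        mul_le_mul (bs_le one_pos _) (bs_le one_pos _) (bs_nonneg one_pos _) (by norm_num)
      rw [e]
      have : 0 ≤ 1 / (‖q - p‖ * √‖q - p‖) := by positivity
      nlinarith
    · have h' : 1 ≤ √‖q - p‖ := Real.one_le_sqrt.2 h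
      have : 1 / (‖q - p‖ * √‖q - p‖) ≤ 1 := by
        rw [div_le_one (by positivity)]
        nlinarith
      have := ustH_nonneg (q - p)
      nlinarith
  refine (mul_le_mul_of_nonneg_left a5 (hB0 q)).trans ?_
  rw [← mul_div_assoc]
  gcongr
  linarith

theorem ust_approx {m : ℕ} (hm : 0 < m) : |ustar - ustU m| ≤ (6 + 16 * ∫ q, ustH q) / m := by
  have hm' : (0 : ℝ) < m := by exact_mod_cast hm
  have hC : 0 ≤ (6 + 16 * ∫ q, ustH q) / m := by
    have : 0 ≤ ∫ q, ustH q := integral_nonneg ustH_nonneg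
    positivity
  have hB0 : ∀ q : ℝ × ℝ, 0 ≤ bs 1 q.1 * bs 1 q.2 := fun q =>
    mul_nonneg (bs_nonneg one_pos _) (bs_nonneg one_pos _)
  have hc : Continuous (bs 1) := (bs_contDiff 1).continuous
  have hA : StronglyMeasurable fun p : ℝ × ℝ =>
      ∫ q : ℝ × ℝ, bs 1 q.1 * bs 1 q.2 * (1 / √((p.1 - q.1) ^ 2 + (p.2 - q.2) ^ 2)) := by
    refine StronglyMeasurable.integral_prod_right (f := fun p q : ℝ × ℝ =>
      bs 1 q.1 * bs 1 q.2 * (1 / √((p.1 - q.1) ^ 2 + (p.2 - q.2) ^ 2))) ?_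
    refine Measurable.stronglyMeasurable ?_
    have := hc.measurable
    unfold Function.uncurry
    fun_prop
  have key := ust_riemann (n := m ^ 5) (pow_pos hm 5) hA.aestronglyMeasurable
    (E := fun q => bs 1 q.1 * bs 1 q.2 * ((6 + 16 * ∫ q, ustH q) / m)) (G := ustV m)
    (ust_B_integrable.mul_const _) (fun q => mul_nonneg (hB0 q) hC)
    (.of_forall fun p i _ j _ h1 h2 => mul_le_mul_of_nonneg_left (ust_inner hm p i j h1 h2) (hB0 p))
  rw [integral_mul_const, ust_B_integral, one_mul] at key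
  have e : ustar = ∫ p : ℝ × ℝ, bs 1 p.1 * bs 1 p.2 *
      ∫ q : ℝ × ℝ, bs 1 q.1 * bs 1 q.2 * (1 / √((p.1 - q.1) ^ 2 + (p.2 - q.2) ^ 2)) := by
    unfold ustar
    congr 1
    ext p
    rw [← integral_const_mul]
    congr 1
    ext q
    ring
  rw [e]
  exact key

theorem ustG_rpt {α : Type} [Enc α] {n i : α → ℕ} (hn : PT n) (hi : PT i) :
    RPT fun a => ustG (n a) (i a) := by
  unfold ustG
  rpt

theorem ustW_rpt {α : Type} [Enc α] {n i : α → ℕ} (hn : PT n) (hi : PT i) :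
    RPT fun a => ustW (n a) (i a) := by
  unfold ustW
  rpt

theorem ustI_rpt {α : Type} [Enc α] {K : α → ℕ} {s : α → ℝ} (hK : PT K) (hs : RPT s) :
    RPT fun a => ustI (K a) (s a) :=
  (RPT.natCast (pt_natSqrt (((RPT.natCast hK).pow_const 2).div hs).natFloor)).div (RPT.natCast hK)

theorem ustS_rpt {α : Type} [Enc α] {m i j k l : α → ℕ} (hm : PT m) (hi : PT i) (hj : PT j)
    (hk : PT k) (hl : PT l) : RPT fun a => ustS (m a) (i a) (j a) (k a) (l a) := by
  have h5 : PT fun a => m a ^ 5 := by fun_prop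
  exact ((((ustG_rpt h5 hi).sub (ustG_rpt h5 hk)).pow_const 2).add
    (((ustG_rpt h5 hj).sub (ustG_rpt h5 hl)).pow_const 2)).add
    ((RPT.one.div ((RPT.natCast hm).pow_const 2)).pow_const 2)

theorem ustV_rpt {α : Type} [Enc α] {m i j : α → ℕ} (hm : PT m) (hb : PB m) (hi : PT i)
    (hj : PT j) : RPT fun a => ustV (m a) (i a) (j a) := by
  unfold ustV
  refine RPT.sum_range (by fun_prop) (by fun_prop) ?_
  refine RPT.sum_range (by fun_prop) (by fun_prop) ?_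
  exact ((ustW_rpt (by fun_prop) (by fun_prop)).mul (ustW_rpt (by fun_prop) (by fun_prop))).mul
    (ustI_rpt (by fun_prop)
      (ustS_rpt (by fun_prop) (by fun_prop) (by fun_prop) (by fun_prop) (by fun_prop)))

theorem ustU_rpt {α : Type} [Enc α] {m : α → ℕ} (hm : PT m) (hb : PB m) :
    RPT fun a => ustU (m a) := by
  unfold ustU
  refine RPT.sum_range (by fun_prop) (by fun_prop) ?_
  refine RPT.sum_range (by fun_prop) (by fun_prop) ?_
  exact ((ustW_rpt (by fun_prop) (by fun_prop)).mul (ustW_rpt (by fun_prop) (by fun_prop))).mul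
    (ustV_rpt (by fun_prop) (by fun_prop) (by fun_prop) (by fun_prop))

theorem exists_uq : ∃ uq : ℕ → ℚ, (∀ M : List Bool → ℕ, PT M → PB M → PT fun x => uq (M x)) ∧
    ∀ M : ℕ, 1 ≤ M → |(uq M : ℝ) - ustar| ≤ 1 / M := by
  obtain ⟨C, hC⟩ := exists_nat_gt (6 + 16 * ∫ q, ustH q)
  have hC0 : (0 : ℝ) < C := by
    have : 0 ≤ ∫ q, ustH q := integral_nonneg ustH_nonneg
    linarith
  have hq : ∀ M : ℕ, ∃ q : ℚ, ustU (C * M) = q := fun M => by
    obtain ⟨f, -, hf⟩ := ustU_rpt (α := List Bool) (PT.const (C * M)) (PB.const (C * M))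
    exact ⟨f [], hf []⟩
  choose uq huq using hq
  refine ⟨uq, fun M hM hb => ?_, fun M hM => ?_⟩
  · obtain ⟨f, hf, e⟩ := ustU_rpt (m := fun x => C * M x) (by fun_prop) (by fun_prop)
    refine hf.congr fun x => ?_
    have := (huq (M x)).symm.trans (e x)
    exact_mod_cast this
  · have hM' : (0 : ℝ) < M := by exact_mod_cast hM
    have hm : 0 < C * M := Nat.mul_pos (by exact_mod_cast hC0) hM
    rw [← huq, abs_sub_comm]
    refine (ust_approx hm).trans ?_
    push_cast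
    rw [div_le_div_iff₀ (by positivity) hM']
    nlinarith

end Crest.Agent.R338
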