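import Crest.Agent.R338.S3
import Crest.Agent.R338.CW
import Crest.Agent.R338.Ust
import Crest.Agent.R338.T

/-! Row 338, module B: the smooth design. -/

set_option autoImplicit false

open MeasureTheory Crest.MathPhysics.ElectronicCoulomb Crest.Agent.Lib.PT

namespace Crest.Agent.R338

theorem bB_sb_mono {k : ℕ} {A A' : ℝ} {f : Pos3 → ℝ} (h : SB k A f) (hA : A ≤ A') : SB k A' f :=
  ⟨h.1, fun j hj x => (h.2 j hj x).trans hA⟩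

theorem bB_U_bd {d : XZ} (hv : d.Valid) {U : ℚ} (hU : |(U : ℝ) - ustar * d.pQ| ≤ 1 / d.pQ) :
    (1 / 2 : ℚ) ≤ U ∧ (U : ℝ) ≤ 100 * d.pQ := by
  have hQ := hv.pQ_ge
  have hQ1 := hv.one_le_pQ
  have h1 : 1 / d.pQ ≤ 1 := by
    rw [div_le_one hv.pQ_pos]; exact hQ1
  obtain ⟨hu1, hu2⟩ := ustar_bd
  obtain ⟨h2, h3⟩ := abs_le.1 (hU.trans h1)
  have h10 : (10 : ℝ) ≤ d.pQ := le_trans (by norm_num) hQ
  refine ⟨?_, by nlinarith⟩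
  have : ((1 / 2 : ℚ) : ℝ) ≤ (U : ℝ) := by
    push_cast
    nlinarith
  exact_mod_cast this

/-- The design for real parameters. -/
theorem bB_real : ∃ k₁ k : ℕ, ∀ (d : XZ) (N : ℕ) (U : ℚ), d.Valid →
    |(U : ℝ) - ustar * d.pQ| ≤ 1 / d.pQ →
    Design d U (d.pτ / 4) (d.plam N) (d.sz N ^ k₁) (d.pr0 N) (d.sz N ^ k) (d.sz N ^ k / 2 ^ N)
      (d.V0 N (d.sz N ^ k₁)) (d.vv U) (d.chi N (d.sz N ^ k₁)) := by
  obtain ⟨a1, h1⟩ := chi_on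
  obtain ⟨a2, h2⟩ := chi_res
  obtain ⟨a3, h3⟩ := chi_gap
  obtain ⟨a4, h4⟩ := V0_lap
  obtain ⟨a5, h5⟩ := chi_sb
  obtain ⟨a6, h6⟩ := eZ_fac
  set k₁ := a1 + a2 + a3 + a4 + a5 + a6 + 1 with hk₁
  obtain ⟨b2, g2⟩ := h2 k₁ (by omega)
  obtain ⟨b5, g5⟩ := h5 k₁ (by omega)
  obtain ⟨b6, g6⟩ := h6 k₁ (by omega)
  obtain ⟨b7, g7⟩ := V0_sb k₁
  obtain ⟨b8, g8⟩ := vv_sb
  obtain ⟨b9, g9⟩ := pn_plam_inv
  obtain ⟨b10, g10⟩ := pn_pr0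
  obtain ⟨b11, g11⟩ := (pn_const 100).mul pn_pQ
  obtain ⟨b12, g12⟩ := (pn_const 4).mul pn_pτ_inv
  refine ⟨k₁, 2 * k₁ + b2 + b5 + b7 + b8 + b9 + b10 + b11 + b12, fun d N U hv hU => ?_⟩
  set k := 2 * k₁ + b2 + b5 + b7 + b8 + b9 + b10 + b11 + b12 with hk
  have hs := d.two_le_sz N
  have hs1 : 1 ≤ d.sz N := by linarith
  have hm : ∀ j, j ≤ k → d.sz N ^ j ≤ d.sz N ^ k := fun j hj => pow_le_pow_right₀ hs1 hj
  have hpos : 0 < d.sz N ^ k := by positivity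
  obtain ⟨hU1, hU2⟩ := bB_U_bd hv hU
  have hZ := g6 d N hv
  have e9 : |(d.plam N)⁻¹| ≤ d.sz N ^ b9 := g9 ⟨(d, N), hv⟩
  have e10 : |d.pr0 N| ≤ d.sz N ^ b10 := g10 ⟨(d, N), hv⟩
  have e11 : |100 * d.pQ| ≤ d.sz N ^ b11 := g11 ⟨(d, N), hv⟩
  have e12 : |4 * (d.pτ)⁻¹| ≤ d.sz N ^ b12 := g12 ⟨(d, N), hv⟩
  obtain ⟨hl0, hl1⟩ := plam_bd hv N
  obtain ⟨ht0, ht1⟩ := hv.pτ_bd
  refine ⟨⟨⟨?_, hl1⟩, ⟨?_, ?_⟩, ⟨hv.one_le_pr0 N, ?_⟩, bB_sb_mono (g7 d N hv) (hm _ (by omega)),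
    V0_supp hv N _, h4 d N _ hv (pow_le_pow_right₀ hs1 (by omega)),
    fun a => bB_sb_mono (g5 d N hv a) (hm _ (by omega)), chi_supp hv N _,
    h1 k₁ (by omega) d N hv, ?_, h3 k₁ (by omega) d N hv⟩, ⟨hU1, ?_⟩, ⟨?_, by linarith⟩,
    bB_sb_mono (g8 d N U hv hU1 hU2) (hm _ (by omega)), vv_supp hv N U,
    chi_w_near hv hZ hU, chi_v_near hv hZ hU⟩
  · have := ((le_abs_self _).trans e9).trans (hm _ (by omega))
    rw [one_div]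
    exact inv_le_of_inv_le₀ hl0 this
  · calc (2 : ℝ) ≤ d.sz N ^ 1 := by rw [pow_one]; exact hs
      _ ≤ d.sz N ^ k₁ := pow_le_pow_right₀ hs1 (by omega)
  · rw [← pow_mul]
    exact hm _ (by omega)
  · exact ((le_abs_self _).trans e10).trans (hm _ (by omega))
  · intro a u hu hc
    refine (g2 d N hv a u hu hc).trans ?_
    have := hm b2 (by omega)
    gcongr
  · exact hU2.trans (((le_abs_self _).trans e11).trans (hm _ (by omega)))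
  · have := ((le_abs_self _).trans e12).trans (hm _ (by omega))
    rw [one_div]
    refine inv_le_of_inv_le₀ (by positivity) ?_
    rwa [inv_div, div_eq_mul_inv]

theorem design : ∃ k : ℕ, ∀ (d : List Bool → XZ) (N : List Bool → ℕ), PTFam d → PT N → PB N →
    (∀ x, (d x).Valid) →
    ∃ (U m lam c r₀ : List Bool → ℚ) (Vq vq : List Bool → Q3 → ℚ),
      PT U ∧ PT m ∧ PT lam ∧ PT c ∧ PT r₀ ∧ PT (fun p : List Bool × Q3 => Vq p.1 p.2) ∧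
      PT (fun p : List Bool × Q3 => vq p.1 p.2) ∧
      ∀ x, ∃ (V₀ v : Pos3 → ℝ) (χ : Fin (d x).n × Fin 3 → Pos3 → ℝ),
        (∀ p, V₀ (rp p) = Vq x p) ∧ (∀ p, v (rp p) = vq x p) ∧
        Design (d x) (U x) (m x) (lam x) (c x) (r₀ x) ((((d x).B + N x + 2 : ℕ) : ℝ) ^ k)
          ((((d x).B + N x + 2 : ℕ) : ℝ) ^ k / 2 ^ N x) V₀ v χ := by
  obtain ⟨k₁, k, hD⟩ := bB_real
  obtain ⟨uq, huq, huq'⟩ := exists_uq
  refine ⟨k, fun d N hd hN _ hv => ?_⟩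
  have hB := hd.B
  have hBb := hd.pbB
  have hQ : PT fun x => 10 ^ 20 * (d x).B ^ 40 := by fun_prop
  have hQ2 : PT fun x => (10 ^ 20 * (d x).B ^ 40) ^ 2 := by fun_prop
  have hQb : PB fun x => (10 ^ 20 * (d x).B ^ 40) ^ 2 := by fun_prop
  set U : List Bool → ℚ := fun x =>
    ((10 ^ 20 * (d x).B ^ 40 : ℕ) : ℚ) * uq ((10 ^ 20 * (d x).B ^ 40) ^ 2) with hUdef
  have hU : PT U := hQ.ratNatCast.ratMul (huq _ hQ2 hQb)
  have hUb : ∀ x, |(U x : ℝ) - ustar * (d x).pQ| ≤ 1 / (d x).pQ := by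
    intro x
    have hq : ((10 ^ 20 * (d x).B ^ 40 : ℕ) : ℝ) = (d x).pQ := by
      unfold XZ.pQ
      rw [Nat.cast_mul, Nat.cast_pow, Nat.cast_pow, Nat.cast_ofNat]
    have hq0 := (hv x).pQ_pos
    have hq1 := (hv x).one_le_pQ
    have h1 : 1 ≤ (10 ^ 20 * (d x).B ^ 40) ^ 2 := by
      have : (1 : ℝ) ≤ (((10 ^ 20 * (d x).B ^ 40) ^ 2 : ℕ) : ℝ) := by
        rw [Nat.cast_pow, hq]; exact one_le_pow₀ hq1
      exact_mod_cast this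
    have h2 := huq' _ h1
    rw [Nat.cast_pow, hq] at h2
    have e : (U x : ℝ) - ustar * (d x).pQ =
        (d x).pQ * ((uq ((10 ^ 20 * (d x).B ^ 40) ^ 2) : ℝ) - ustar) := by
      rw [hUdef]
      simp only [Rat.cast_mul, Rat.cast_natCast, hq]
      ring
    rw [e, abs_mul, abs_of_pos hq0]
    calc (d x).pQ * |(uq ((10 ^ 20 * (d x).B ^ 40) ^ 2) : ℝ) - ustar|
        ≤ (d x).pQ * (1 / (d x).pQ ^ 2) := by gcongr
      _ = 1 / (d x).pQ := by field_simp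
  obtain ⟨m, hm, em⟩ := (rpt_pτ hd).div (RPT.const 4)
  obtain ⟨lam, hlam, elam⟩ := rpt_plam hd hN
  have hc' := (rpt_sz hd hN).pow_const k₁
  obtain ⟨Vq, hVq, eVq⟩ := rpt_V0 hd hv hN hc'
  obtain ⟨c, hc, ec⟩ := hc'
  obtain ⟨r₀, hr, er⟩ := rpt_pr0 hd hN
  obtain ⟨vq, hvq, evq⟩ := rpt_vv hd hv hU
  refine ⟨U, m, lam, c, r₀, fun x p => Vq (x, p), fun x p => vq (x, p), hU, hm, hlam, hc, hr,
    hVq, hvq, fun x => ⟨(d x).V0 (N x) ((d x).sz (N x) ^ k₁), (d x).vv (U x),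
      (d x).chi (N x) ((d x).sz (N x) ^ k₁), fun p => eVq (x, p), fun p => evq (x, p), ?_⟩⟩
  have := hD (d x) (N x) (U x) (hv x) (hUb x)
  rw [← em x, ← elam x, ← ec x, ← er x]
  exact this

end Crest.Agent.R338
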