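import Crest.Agent.R338.Par

/-! Row 338: the Coulomb pairing of continuous compactly supported densities. -/

set_option autoImplicit false

open MeasureTheory Crest.MathPhysics.ElectronicCoulomb

namespace Crest.Agent.R338

/-- Continuous with compact support. -/
def CCs {X : Type} [TopologicalSpace X] (F : X → ℝ) : Prop := Continuous F ∧ HasCompactSupport F

noncomputable def Cb (F G : Pos3 → ℝ) : ℝ := ∫ x, ∫ y, F x * G y / ‖x - y‖

noncomputable def tp (f₁ f₂ f₃ : ℝ → ℝ) (x : Pos3) : ℝ := f₁ (x 0) * f₂ (x 1) * f₃ (x 2)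

variable {F F' G G' : Pos3 → ℝ} {f₁ f₂ f₃ : ℝ → ℝ}

theorem coul_eq_Cb {ι : Type} (χ : ι → Pos3 → ℝ) (a a' b b' : ι) :
    coul χ a a' b b' = Cb (fun x => χ a x * χ a' x) fun y => χ b y * χ b' y := rfl

theorem CCs.ca_int {X : Type} [TopologicalSpace X] [MeasureSpace X] [OpensMeasurableSpace X]
    [IsFiniteMeasureOnCompacts (volume : Measure X)] {f : X → ℝ} (h : CCs f) : Integrable f :=
  h.1.integrable_of_hasCompactSupport h.2

theorem CCs.ca_supp {X : Type} [NormedAddCommGroup X] {f : X → ℝ} (h : CCs f) :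
    ∃ R : ℝ, 0 ≤ R ∧ ∀ x, f x ≠ 0 → ‖x‖ ≤ R := by
  obtain ⟨R, hR, h'⟩ := h.2.isBounded.exists_pos_norm_le
  exact ⟨R, hR.le, fun x hx => h' x (subset_tsupport _ hx)⟩

theorem ca_integral_tp (f₁ f₂ f₃ : ℝ → ℝ) :
    ∫ x, tp f₁ f₂ f₃ x = (∫ x, f₁ x) * (∫ x, f₂ x) * ∫ x, f₃ x := by
  rw [← (PiLp.volume_preserving_toLp (Fin 3)).integral_comp
    (MeasurableEquiv.toLp 2 _).measurableEmbedding]
  simpa [Fin.prod_univ_three, tp] using
    integral_fintype_prod_volume_eq_prod (E := fun _ : Fin 3 => ℝ) ![f₁, f₂, f₃]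

theorem ca_integrable_tp (h₁ : Integrable f₁) (h₂ : Integrable f₂) (h₃ : Integrable f₃) :
    Integrable (tp f₁ f₂ f₃) := by
  rw [← (PiLp.volume_preserving_toLp (Fin 3)).integrable_comp_emb
    (MeasurableEquiv.toLp 2 _).measurableEmbedding]
  have := Integrable.fintype_prod (f := ![f₁, f₂, f₃]) (μ := fun _ => volume)
    (fun i => by fin_cases i <;> assumption)
  simp only [Fin.prod_univ_three] at this
  exact this

theorem ca_li_inv : LocallyIntegrable fun x : Pos3 => 1 / ‖x‖ := by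
  refine locallyIntegrable_of_norm_le_rpow (by simp) (C := 1) (α := 1) (by simp) ?_
    (Measurable.aestronglyMeasurable (by fun_prop))
  refine ae_of_all _ fun x => ?_
  simp [Real.rpow_neg_one]

theorem ca_li_sqrt : LocallyIntegrable fun t : ℝ => 1 / √|t| := by
  refine locallyIntegrable_of_norm_le_rpow (by simp) (C := 1) (α := 1 / 2) (by norm_num) ?_
    (Measurable.aestronglyMeasurable (by fun_prop))
  refine ae_of_all _ fun x => ?_
  rw [Real.norm_of_nonneg (by positivity), Real.rpow_neg (norm_nonneg _), Real.norm_eq_abs,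
    Real.sqrt_eq_rpow, one_mul, one_div (|x| ^ _)]

theorem ca_int_conv {X : Type} [NormedAddCommGroup X] [NormedSpace ℝ X] [FiniteDimensional ℝ X]
    [MeasureSpace X] [BorelSpace X] [(volume : Measure X).IsAddHaarMeasure] {K g : X → ℝ}
    (hK : LocallyIntegrable K) (hg : CCs g) (x : X) : Integrable fun y => g y * K (x - y) := by
  have h1 : CCs fun y => g (x - y) :=
    ⟨hg.1.comp (by fun_prop), hg.2.comp_homeomorph (Homeomorph.subLeft x)⟩
  have h2 := (hK.integrable_smul_left_of_hasCompactSupport h1.1 h1.2).comp_sub_left x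
  simpa using h2

theorem ca_int_pot (hG : CCs G) (x : Pos3) : Integrable fun y => G y / ‖x - y‖ := by
  simpa only [mul_one_div] using ca_int_conv ca_li_inv hG x

theorem ca_int_prod (hF : CCs F) (hG : CCs G) :
    Integrable (fun p : Pos3 × Pos3 => F p.1 * G p.2 / ‖p.1 - p.2‖) (volume.prod volume) := by
  obtain ⟨R, -, hR⟩ := hF.ca_supp
  obtain ⟨R', -, hR'⟩ := hG.ca_supp
  obtain ⟨C, hC⟩ := hF.1.bounded_above_of_compact_support hF.2
  have hK : Integrable ((Metric.closedBall (0 : Pos3) (R + R')).indicator fun x => 1 / ‖x‖) :=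
    (ca_li_inv.integrableOn_isCompact (isCompact_closedBall _ _)).integrable_indicator
      Metric.isClosed_closedBall.measurableSet
  have h := (Integrable.convolution_integrand (ContinuousLinearMap.mul ℝ ℝ) hG.ca_int.norm
    hK).const_mul C
  have m1 := hF.1.measurable
  have m2 := hG.1.measurable
  refine h.mono' (Measurable.aestronglyMeasurable (by fun_prop)) (ae_of_all _ fun p => ?_)
  have C0 : 0 ≤ C := (norm_nonneg _).trans (hC 0)
  simp only [ContinuousLinearMap.mul_apply']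
  by_cases h0 : F p.1 = 0 ∨ G p.2 = 0
  · rw [mul_eq_zero.2 h0, zero_div, norm_zero]
    exact mul_nonneg C0 (mul_nonneg (norm_nonneg _)
      (Set.indicator_nonneg (fun _ _ => by positivity) _))
  · push Not at h0
    rw [Set.indicator_of_mem (mem_closedBall_zero_iff.2 ((norm_sub_le _ _).trans
      (add_le_add (hR _ h0.1) (hR' _ h0.2)))), norm_div, norm_mul, norm_norm, mul_one_div,
      mul_div_assoc]
    exact mul_le_mul_of_nonneg_right (hC _) (by positivity)

theorem ca_Cb_eq (hF : CCs F) (hG : CCs G) :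
    Cb F G = ∫ p : Pos3 × Pos3, F p.1 * G p.2 / ‖p.1 - p.2‖ ∂(volume.prod volume) :=
  (integral_prod _ (ca_int_prod hF hG)).symm

theorem ca_near {R : ℝ} (hR : 0 < R) (a : ℝ) :
    Integrable (fun t : ℝ => (Set.Iio R).indicator (fun r => 1 / √r) |a - t|) ∧
      ∫ t : ℝ, (Set.Iio R).indicator (fun r => 1 / √r) |a - t| = 4 * √R := by
  constructor
  · refine Integrable.comp_sub_left
      (f := fun t : ℝ => (Set.Iio R).indicator (fun r => 1 / √r) |t|) ?_ a
    have h := (ca_li_sqrt.integrableOn_isCompact (isCompact_closedBall (0 : ℝ) R)).mono_set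
      Metric.ball_subset_closedBall |>.integrable_indicator Metric.isOpen_ball.measurableSet
    refine h.congr (ae_of_all _ fun t => ?_)
    simp only [Set.indicator, mem_ball_zero_iff, Real.norm_eq_abs, Set.mem_Iio]
  · rw [integral_sub_left_eq_self (fun t : ℝ => (Set.Iio R).indicator (fun r => 1 / √r) |t|),
      integral_comp_abs (f := (Set.Iio R).indicator fun r => 1 / √r),
      setIntegral_indicator measurableSet_Iio, Set.Ioi_inter_Iio, ← integral_Ioc_eq_integral_Ioo,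
      ← intervalIntegral.integral_of_le hR.le]
    have h : ∫ r in (0 : ℝ)..R, 1 / √r = ∫ r in (0 : ℝ)..R, r ^ (-(1 / 2) : ℝ) := by
      refine intervalIntegral.integral_congr fun r hr => ?_
      rw [Set.uIcc_of_le hR.le] at hr
      simp only [Real.rpow_neg hr.1, Real.sqrt_eq_rpow]
      exact one_div _
    rw [h, integral_rpow (Or.inl (by norm_num)), Real.sqrt_eq_rpow]
    norm_num
    ring

theorem ca_one {f : ℝ → ℝ} (h : CCs f) {S m : ℝ} (b : ∀ x, 0 ≤ f x ∧ f x ≤ S)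
    (i : ∫ x, f x ≤ m) (a : ℝ) : ∫ t, f t * (1 / √|a - t|) ≤ 4 * √(S * m) := by
  have S0 : 0 ≤ S := (b 0).1.trans (b 0).2
  have i0 : 0 ≤ ∫ x, f x := integral_nonneg fun x => (b x).1
  have hz : f =ᵐ[volume] 0 → ∫ t, f t * (1 / √|a - t|) ≤ 4 * √(S * m) := fun hz => by
    rw [integral_congr_ae (g := fun _ => 0) (hz.mono fun t ht => by simp [ht])]
    simp
  rcases S0.eq_or_lt with hS | hS
  · exact hz (ae_of_all _ fun t => le_antisymm ((b t).2.trans hS.symm.le) (b t).1)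
  rcases (i0.trans i).eq_or_lt with hm | hm
  · exact hz ((integral_eq_zero_iff_of_nonneg (fun x => (b x).1) h.ca_int).1
      (le_antisymm (hm ▸ i) i0))
  have hR : 0 < m / (4 * S) := by positivity
  obtain ⟨n1, n2⟩ := ca_near hR a
  have hs : 0 < √(m / (4 * S)) := Real.sqrt_pos.2 hR
  have e1 : S * √(m / (4 * S)) = √(S * m) / 2 := by
    have h1 : S * m = (S * √(m / (4 * S)) * 2) ^ 2 := by
      rw [mul_pow, mul_pow, Real.sq_sqrt hR.le]
      field_simp
      norm_num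
    rw [eq_div_iff two_ne_zero, eq_comm, Real.sqrt_eq_iff_eq_sq (by positivity) (by positivity)]
    exact h1
  have e2 : m * (1 / √(m / (4 * S))) = 2 * √(S * m) := by
    rw [mul_one_div, div_eq_iff hs.ne']
    have := Real.mul_self_sqrt hR.le
    calc m = 4 * S * (√(m / (4 * S)) * √(m / (4 * S))) := by rw [this]; field_simp
      _ = 4 * (S * √(m / (4 * S))) * √(m / (4 * S)) := by ring
      _ = _ := by rw [e1]; ring
  generalize m / (4 * S) = R at hR n1 n2 hs e1 e2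
  calc _ ≤ ∫ t, (S * (Set.Iio R).indicator (fun r => 1 / √r) |a - t| + f t * (1 / √R)) := by
        refine integral_mono (ca_int_conv ca_li_sqrt h a)
          ((n1.const_mul S).add (h.ca_int.mul_const _)) fun t => ?_
        have f0 := (b t).1
        by_cases ht : |a - t| < R
        · simp only [Set.indicator_of_mem (Set.mem_Iio.2 ht)]
          exact le_add_of_le_of_nonneg (mul_le_mul_of_nonneg_right (b t).2 (by positivity))
            (by positivity)
        · simp only [Set.indicator_of_notMem (show |a - t| ∉ Set.Iio R from ht), mul_zero, zero_add]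
          exact mul_le_mul_of_nonneg_left
            (one_div_le_one_div_of_le hs (Real.sqrt_le_sqrt (not_lt.1 ht))) f0
    _ = S * (4 * √R) + (∫ t, f t) * (1 / √R) := by
        rw [integral_add (n1.const_mul S) (h.ca_int.mul_const _), integral_const_mul,
          integral_mul_const, n2]
    _ ≤ _ := by
        have := mul_le_mul_of_nonneg_right i (one_div_pos.2 hs).le
        linarith

theorem ca_ae_ne (x : Pos3) (i : Fin 3) : ∀ᵐ y : Pos3, y i ≠ x i :=
  (PiLp.volume_preserving_ofLp (Fin 3)).quasiMeasurePreserving.ae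
    (Measure.ae_eval_ne (fun _ : Fin 3 => (volume : Measure ℝ)) i (x i))

theorem ca_pt {x y : Pos3} (h0 : y 0 ≠ x 0) (h1 : y 1 ≠ x 1) :
    1 / ‖x - y‖ ≤ 3 / 4 * (1 / √|x 0 - y 0| * (1 / √|x 1 - y 1|)) := by
  have a0 : 0 < |x 0 - y 0| := abs_pos.2 (sub_ne_zero.2 h0.symm)
  have a1 : 0 < |x 1 - y 1| := abs_pos.2 (sub_ne_zero.2 h1.symm)
  have e : 3 / 4 * (1 / √|x 0 - y 0| * (1 / √|x 1 - y 1|)) =
      1 / (4 / 3 * (√|x 0 - y 0| * √|x 1 - y 1|)) := by field_simp
  rw [e]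
  refine one_div_le_one_div_of_le (by positivity) (abs_le_of_sq_le_sq' ?_ (norm_nonneg _)).2
  rw [EuclideanSpace.real_norm_sq_eq, Fin.sum_univ_three, mul_pow, mul_pow, Real.sq_sqrt a0.le,
    Real.sq_sqrt a1.le]
  simp only [PiLp.sub_apply]
  nlinarith [sq_nonneg (|x 0 - y 0| - |x 1 - y 1|), sq_abs (x 0 - y 0), sq_abs (x 1 - y 1),
    sq_nonneg (x 2 - y 2), mul_pos a0 a1]

protected theorem CCs.tp (h₁ : CCs f₁) (h₂ : CCs f₂) (h₃ : CCs f₃) : CCs (tp f₁ f₂ f₃) := by
  obtain ⟨R₁, p₁, s₁⟩ := h₁.ca_supp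
  obtain ⟨R₂, p₂, s₂⟩ := h₂.ca_supp
  obtain ⟨R₃, p₃, s₃⟩ := h₃.ca_supp
  have c₁ := h₁.1
  have c₂ := h₂.1
  have c₃ := h₃.1
  refine ⟨by unfold R338.tp; fun_prop, HasCompactSupport.intro
    (isCompact_closedBall (0 : Pos3) (R₁ + R₂ + R₃)) fun x hx => ?_⟩
  by_contra h
  simp only [R338.tp, mul_eq_zero, not_or] at h
  refine hx (mem_closedBall_zero_iff.2 (abs_le_of_sq_le_sq' ?_ (by positivity)).2)
  rw [EuclideanSpace.norm_sq_eq, Fin.sum_univ_three]
  have a₁ := pow_le_pow_left₀ (norm_nonneg _) (s₁ _ h.1.1) 2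
  have a₂ := pow_le_pow_left₀ (norm_nonneg _) (s₂ _ h.1.2) 2
  have a₃ := pow_le_pow_left₀ (norm_nonneg _) (s₃ _ h.2) 2
  nlinarith [mul_nonneg p₁ p₂, mul_nonneg p₁ p₃, mul_nonneg p₂ p₃]

theorem integral_tp (h₁ : CCs f₁) (h₂ : CCs f₂) (h₃ : CCs f₃) :
    ∫ x, tp f₁ f₂ f₃ x = (∫ x, f₁ x) * (∫ x, f₂ x) * ∫ x, f₃ x := by
  have _ := h₁
  have _ := h₂
  have _ := h₃
  exact ca_integral_tp _ _ _

theorem Cb_comm (hF : CCs F) (hG : CCs G) : Cb F G = Cb G F := by
  unfold Cb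
  rw [integral_integral_swap (f := fun x y => F x * G y / ‖x - y‖) (ca_int_prod hF hG)]
  simp only [mul_comm (F _), norm_sub_rev]

theorem Cb_add_left (hF : CCs F) (hF' : CCs F') (hG : CCs G) :
    Cb (fun x => F x + F' x) G = Cb F G + Cb F' G := by
  rw [ca_Cb_eq (F := fun x => F x + F' x) ⟨hF.1.add hF'.1, hF.2.add hF'.2⟩ hG, ca_Cb_eq hF hG, ca_Cb_eq hF' hG,
    ← integral_add (ca_int_prod hF hG) (ca_int_prod hF' hG)]
  simp only [add_mul, add_div]

theorem Cb_smul_left (t : ℝ) (F G : Pos3 → ℝ) : Cb (fun x => t * F x) G = t * Cb F G := by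
  unfold Cb
  simp only [← integral_const_mul, mul_assoc, mul_div_assoc]

theorem Cb_sum_left {κ : Type} (s : Finset κ) {T : κ → Pos3 → ℝ} (hT : ∀ e ∈ s, CCs (T e))
    (hG : CCs G) : Cb (fun x => ∑ e ∈ s, T e x) G = ∑ e ∈ s, Cb (T e) G := by
  classical
  have key : ∀ s : Finset κ, (∀ e ∈ s, CCs (T e)) → CCs (fun x => ∑ e ∈ s, T e x) ∧
      Cb (fun x => ∑ e ∈ s, T e x) G = ∑ e ∈ s, Cb (T e) G := by
    intro s
    induction s using Finset.induction_on with
    | empty => exact fun _ => ⟨⟨by simpa using continuous_const,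
        by simp only [Finset.sum_empty]; exact HasCompactSupport.zero⟩, by simp [Cb]⟩
    | insert a s ha ih =>
      intro h
      obtain ⟨h1, h2⟩ := ih fun e he => h e (Finset.mem_insert_of_mem he)
      have h3 := h a (Finset.mem_insert_self _ _)
      simp only [Finset.sum_insert ha]
      exact ⟨⟨h3.1.add h1.1, h3.2.add h1.2⟩, by rw [Cb_add_left h3 h1 hG, h2]⟩
  exact (key s hT).2

theorem abs_Cb_le (hF : CCs F) (hF' : CCs F') (hG : CCs G) (hG' : CCs G') (h : ∀ x, |F x| ≤ F' x)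
    (h' : ∀ x, |G x| ≤ G' x) : |Cb F G| ≤ Cb F' G' := by
  rw [ca_Cb_eq hF hG, ca_Cb_eq hF' hG']
  refine abs_integral_le_integral_abs.trans
    (integral_mono (ca_int_prod hF hG).abs (ca_int_prod hF' hG') fun p => ?_)
  simp only [abs_div, abs_mul, abs_norm]
  exact div_le_div_of_nonneg_right (mul_le_mul (h _) (h' _) (abs_nonneg _)
    ((abs_nonneg _).trans (h _))) (norm_nonneg _)

theorem Cb_le_pot (hF : CCs F) (hG : CCs G) (h : ∀ x, 0 ≤ F x) {P : ℝ}
    (hP : ∀ x, ∫ y, G y / ‖x - y‖ ≤ P) : Cb F G ≤ (∫ x, F x) * P := by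
  unfold Cb
  rw [← integral_mul_const]
  refine integral_mono (ca_int_prod hF hG).integral_prod_left (hF.ca_int.mul_const _) fun x => ?_
  simp only [mul_div_assoc, integral_const_mul]
  exact mul_le_mul_of_nonneg_left (hP x) (h x)

theorem pot_add (hG : CCs G) (hG' : CCs G') (x : Pos3) :
    ∫ y, (G y + G' y) / ‖x - y‖ = (∫ y, G y / ‖x - y‖) + ∫ y, G' y / ‖x - y‖ := by
  rw [← integral_add (ca_int_pot hG x) (ca_int_pot hG' x)]
  simp only [add_div]

/-- The potential of a product density. -/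
theorem pot_tp (h₁ : CCs f₁) (h₂ : CCs f₂) (h₃ : CCs f₃) {S₁ S₂ m₁ m₂ : ℝ}
    (b₁ : ∀ x, 0 ≤ f₁ x ∧ f₁ x ≤ S₁) (b₂ : ∀ x, 0 ≤ f₂ x ∧ f₂ x ≤ S₂) (b₃ : ∀ x, 0 ≤ f₃ x)
    (i₁ : ∫ x, f₁ x ≤ m₁) (i₂ : ∫ x, f₂ x ≤ m₂) (i₃ : ∫ x, f₃ x ≤ 1) (x : Pos3) :
    ∫ y, tp f₁ f₂ f₃ y / ‖x - y‖ ≤ 12 * √(S₁ * m₁ * S₂ * m₂) := by
  have j₁ := ca_int_conv ca_li_sqrt h₁ (x 0)
  have j₂ := ca_int_conv ca_li_sqrt h₂ (x 1)
  have k₁ := ca_one h₁ b₁ i₁ (x 0)
  have k₂ := ca_one h₂ b₂ i₂ (x 1)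
  have l₂ : 0 ≤ ∫ t, f₂ t * (1 / √|x 1 - t|) :=
    integral_nonneg fun t => mul_nonneg (b₂ t).1 (by positivity)
  have l₃ : 0 ≤ ∫ t, f₃ t := integral_nonneg b₃
  have p₁ : 0 ≤ S₁ * m₁ := mul_nonneg ((b₁ 0).1.trans (b₁ 0).2)
    ((integral_nonneg fun t => (b₁ t).1).trans i₁)
  calc _ ≤ ∫ y, 3 / 4 * tp (fun t => f₁ t * (1 / √|x 0 - t|)) (fun t => f₂ t * (1 / √|x 1 - t|))
        f₃ y := by
        refine integral_mono_ae (ca_int_pot (h₁.tp h₂ h₃) x)
          ((ca_integrable_tp j₁ j₂ h₃.ca_int).const_mul _) ?_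
        filter_upwards [ca_ae_ne x 0, ca_ae_ne x 1] with y y0 y1
        have := mul_le_mul_of_nonneg_left (ca_pt y0 y1)
          (mul_nonneg (mul_nonneg (b₁ (y 0)).1 (b₂ (y 1)).1) (b₃ (y 2)))
        unfold tp
        rw [mul_one_div] at this
        linarith
    _ ≤ 3 / 4 * (4 * √(S₁ * m₁) * (4 * √(S₂ * m₂)) * 1) := by
        rw [integral_const_mul, ca_integral_tp]
        exact mul_le_mul_of_nonneg_left (mul_le_mul (mul_le_mul k₁ k₂ l₂ (by positivity)) i₃ l₃
          (by positivity)) (by norm_num)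
    _ = _ := by
        rw [mul_assoc (S₁ * m₁), Real.sqrt_mul p₁]
        ring

end Crest.Agent.R338
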