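import Crest.Agent.R338.XFC

/-! Row 338: the factor in the first coordinate. -/

set_option autoImplicit false

open MeasureTheory

namespace Crest.Agent.R338

variable {d : XZ} {N m : ℕ}

theorem haz_rx (hv : d.Valid) (hm : m < d.n) : Haz (d.plam N) 1 (d.rx N m) := by
  rw [XZ.rx_eq]
  exact (xf_xa hv hm N).haz

theorem mainX_neg (hv : d.Valid) (m t : ℕ) (x : ℝ) :
    d.mainX m t (-x) = (-1) ^ t * d.mainX m t x := by
  simp only [XZ.mainX, Finset.mul_sum]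
  refine Finset.sum_congr rfl fun k _ => Finset.sum_congr rfl fun i _ =>
    Finset.sum_congr rfl fun j _ => ?_
  simp only [Fintype.sum_bool, XZ.xi, XZ.xc, rs, if_true, Bool.false_eq_true, if_false]
  push_cast
  have e1 : ∀ y, bs d.pσ (-x - -1 * y) = bs d.pσ (x - 1 * y) := fun y => by
    rw [← bs_neg hv.pσ_bd.1]; congr 1; ring
  have e2 : ∀ y, bs d.pσ (-x - 1 * y) = bs d.pσ (x - -1 * y) := fun y => by
    rw [← bs_neg hv.pσ_bd.1]; congr 1; ring
  simp only [mul_assoc (-1 : ℝ), mul_assoc (1 : ℝ), e1, e2, mul_pow]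
  have : ((-1 : ℝ) ^ t) * (-1) ^ t = 1 := by rw [← mul_pow]; simp
  linear_combination (-(d.pτ / 2 * (d.amp m k i j : ℝ) * ((d.typ m k : ℝ) ^ t * (d.side k i j : ℝ) ^ t) *
    bs d.pσ (x - -1 * ((d.side k i j : ℝ) * d.ys m k i j)))) * this

theorem mainX_pos (hv : d.Valid) (hm : m < d.n) (t : ℕ) {x : ℝ} (hx : 0 ≤ x) :
    d.mainX m t x = ((if t = 0 then d.xb0 m x else 0) + d.xb1 m x) / 2 := by
  have e0 : (if t = 0 then d.xb0 m x else 0) = ∑ k ∈ Finset.range 3, ∑ i ∈ Finset.range d.n,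
      ∑ j ∈ Finset.range d.n, (if t = 0 then 1 else 0) * ((if d.typ m k = 0 then
        d.pτ * (d.amp m k i j : ℝ) else 0) * bs d.pσ (x - d.ys m k i j)) := by
    split_ifs <;> simp [XZ.xb0]
  simp only [e0, XZ.mainX, XZ.xb1, ← Finset.sum_add_distrib, Finset.sum_div]
  refine Finset.sum_congr rfl fun k hk => Finset.sum_congr rfl fun i hi =>
    Finset.sum_congr rfl fun j hj => ?_
  rw [Finset.mem_range] at hk hi hj
  have h3 : 3 ≤ d.ys m k i j := by
    by_cases h : d.typ m k = 0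
    · exact (xf_typ0 hv hm hi hj h).1
    · linarith [(xf_typ1 hv hm hk hi hj h).1, (xf_xa hv hm 0).ρ_ge]
  have h4 : bs d.pσ (x + d.ys m k i j) = 0 :=
    bs_eq_zero hv.pσ_bd.1 (by rw [abs_of_nonneg (by linarith)]; linarith [hv.pσ_bd.2])
  simp only [Fintype.sum_bool, XZ.xi, XZ.xc, rs, if_true, Bool.false_eq_true, if_false]
  push_cast
  rcases d.side_cases k i j with h | h <;> rcases d.typ_cases m k with h' | h' <;>
    by_cases ht : t = 0 <;> simp [h, h', ht, h4] <;> ring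

/-- Density of the orbitals along the first coordinate. -/
theorem eX_density (hv : d.Valid) (hm : m < d.n) (a a' : Fin 2) (x : ℝ) :
    |d.eX N m a x * d.eX N m a' x - d.mainX m (a + a') x| ≤
      d.mainX m 0 x / d.pQ ^ 3 + 1 / d.pQ ^ 25 := by
  have hxa := xf_xa hv hm N
  have hQ := hv.pQ_ge
  have hQ0 := hv.pQ_pos
  have key : ∀ x, 0 ≤ x → |d.eX N m a x * d.eX N m a' x - d.mainX m (a + a') x| ≤
      d.mainX m 0 x / d.pQ ^ 3 + 1 / d.pQ ^ 25 := fun x hx => by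
    have h := hxa.density (xf_16 hv N) (xf_exp hv N) a a' hx
    rw [mainX_pos hv hm _ hx, mainX_pos hv hm _ hx, XZ.eX, XZ.rx_eq]
    refine h.trans (add_le_add ?_ ?_)
    · have h0 : 0 ≤ d.xb0 m x + d.xb1 m x := add_nonneg (hxa.n0 x) (hxa.n1 x)
      have h1 : 200 * d.pt ≤ 1 / 2 / d.pQ ^ 3 := by
        rw [XZ.pt, mul_one_div, div_le_div_iff₀ (by positivity) (by positivity), pow_succ d.pQ 3]
        have : 0 < d.pQ ^ 3 := by positivity
        nlinarith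
      calc _ ≤ 1 / 2 / d.pQ ^ 3 * (d.xb0 m x + d.xb1 m x) := mul_le_mul_of_nonneg_right h1 h0
        _ = _ := by simp only [if_true]; ring
    · have : 32 * d.pβ / d.pt = 32 / d.pQ ^ 26 := by
        unfold XZ.pβ XZ.pt
        field_simp
      rw [this, div_le_div_iff₀ (by positivity) (by positivity), pow_succ d.pQ 25]
      have : 0 < d.pQ ^ 25 := by positivity
      nlinarith
  rcases le_total 0 x with hx | hx
  · exact key x hx
  · have h := key (-x) (by linarith)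
    have e : ∀ a, d.eX N m a (-x) = (-1) ^ (a : ℕ) * d.eX N m a x := fun a => by
      rw [XZ.eX, XZ.rx_eq]
      exact hxa.facE_neg a x
    rw [e, e, mainX_neg hv, mainX_neg hv, pow_zero, one_mul] at h
    have e2 : (-1 : ℝ) ^ (a : ℕ) * d.eX N m a x * ((-1) ^ (a' : ℕ) * d.eX N m a' x) -
        (-1) ^ ((a : ℕ) + a') * d.mainX m (a + a') x =
        (-1) ^ ((a : ℕ) + a') * (d.eX N m a x * d.eX N m a' x - d.mainX m (a + a') x) := by ring
    rwa [e2, abs_mul, abs_pow, abs_neg, abs_one, one_pow, one_mul] at h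

theorem eX_fac : ∃ k : ℕ, ∀ (d : XZ) (N m : ℕ), d.Valid → m < d.n →
    Fac (d.plam N) (d.Wx N m) (d.eX N m) (d.pT N + 1) (d.sz N ^ k / 2 ^ N) := by
  obtain ⟨k, hk⟩ := (pn_const (10 ^ 50 * (1 + 1 / 1) ^ 2 * 1 ^ 2)).mul
    ((pn_const 1).add Inst.two_le pn_pβ_inv)
  refine ⟨k, fun d N m hv hm => ?_⟩
  have hxa := xf_xa hv hm N
  have h := hxa.fac (xf_16 hv N) (xf_exp hv N)
  rw [XZ.Wx, XZ.eX, XZ.rx_eq]
  refine ⟨h.W_cont, h.c2, h.supp, h.on, fun a x => (h.res a x).trans ?_, h.gap⟩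
  have h1 := (le_abs_self _).trans (hk ⟨(d, N), hv⟩)
  have h2 : √(hzP (xaR (d.plam N) d.pβ d.pt d.pδ (d.rho m) (d.xb0 m) (d.xb1 m)) (d.pT N)) ≤
      1 / 2 ^ N := by
    refine le_trans ?_ (exp_neg_le_two_pow (hv.N_le_pG N))
    refine Real.sqrt_le_iff.2 ⟨(Real.exp_pos _).le, hxa.p_T.trans ?_⟩
    rw [xf_βT hv N, ← Real.exp_nat_mul]
    apply le_of_eq
    congr 1
    push_cast
    ring
  rw [div_eq_mul_one_div (d.sz N ^ k)]
  refine mul_le_mul ?_ h2 (Real.sqrt_nonneg _) (pow_nonneg (by linarith [d.two_le_sz N]) _)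
  rw [one_div d.pβ]
  exact h1

theorem pj_Sd_aff {I : Type} {s : I → ℝ} (hs : ∀ i, 2 ≤ s i) {a : I → ℝ} (ha : PN s a)
    (b x : I → ℝ) : PJ 8 s (fun i y => Sd 0 (a i * y + b i)) x :=
  PJ.comp_affine (F := fun _ => Sd 0) hs ha (PJ.Sd hs (by norm_num) _)

theorem pj_bsum {I κ : Type} {s : I → ℝ} (hs : ∀ i, 2 ≤ s i) (t : I → Finset κ)
    (ht : PN s fun i => ((t i).card : ℝ)) {σ A : I → ℝ} (hσ : PN s fun i => (σ i)⁻¹) (hA : PN s A)
    (c y : I → κ → ℝ) (hc : ∀ i, ∀ p ∈ t i, |c i p| ≤ |A i|) (x : I → ℝ) :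
    PJ 8 s (fun i z => ∑ p ∈ t i, c i p * bs (σ i) (z - y i p)) x := by
  refine PJ.sum (κ := fun _ => κ) hs t ht (T := fun i p z => c i p * bs (σ i) (z - y i p)) ?_
  have hs' : ∀ j : Σ i, {e : κ // e ∈ t i}, 2 ≤ s j.1 := fun j => hs _
  have h1 : PN (fun j : Σ i, {e : κ // e ∈ t i} => s j.1) fun j => c j.1 j.2.1 :=
    (hA.comp fun j : Σ i, {e : κ // e ∈ t i} => j.1).of_le fun j => hc _ _ j.2.2
  have h2 : PJ 8 (fun j : Σ i, {e : κ // e ∈ t i} => s j.1) (fun j => bs (σ j.1))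
      fun j => 1 * x j.1 + -y j.1 j.2.1 :=
    PJ.bs hs' le_rfl (hσ.comp fun j : Σ i, {e : κ // e ∈ t i} => j.1) _
  refine ((PJ.const hs' h1).mul hs' (PJ.comp_affine hs' (PN.const hs' 1) h2)).congr
    fun j => Filter.Eventually.of_forall fun z => ?_
  simp only [one_mul, sub_eq_add_neg]

section fam

variable {I : Type} {D : I → XZ} {n m : I → ℕ}

theorem PN.inst {a : Inst → ℝ} (h : PN Inst.s a) (hv : ∀ i, (D i).Valid) (n : I → ℕ) :
    PN (fun i => (D i).sz (n i)) fun i => a ⟨(D i, n i), hv i⟩ :=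
  h.comp fun i => ⟨(D i, n i), hv i⟩

theorem hx_pj (hv : ∀ i, (D i).Valid) (hm : ∀ i, m i < (D i).n) (x : I → ℝ) :
    PJ 8 (fun i => (D i).sz (n i)) (fun i => (D i).hx (n i) (m i)) x := by
  have hs : ∀ i, 2 ≤ (D i).sz (n i) := fun i => XZ.two_le_sz _ _
  have c1 : PN (fun i => (D i).sz (n i)) fun _ => (1 : ℝ) := PN.const hs 1
  have cδ : PN (fun i => (D i).sz (n i)) fun i => ((D i).pδ)⁻¹ := pn_pδ_inv.inst hv n
  have cβ : PN (fun i => (D i).sz (n i)) fun i => (D i).pβ := pn_pβ.inst hv n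
  have cσ : PN (fun i => (D i).sz (n i)) fun i => ((D i).pσ)⁻¹ := pn_pσ_inv.inst hv n
  have cA : PN (fun i => (D i).sz (n i)) fun i => ((D i).alc : ℝ) := pn_alc.inst hv n
  have cn : PN (fun i => (D i).sz (n i)) fun i => ((D i).n : ℝ) := pn_n.inst hv n
  have cl : PN (fun i => (D i).sz (n i)) fun i => (D i).plam (n i) := pn_plam.inst hv n
  have cX : PN (fun i => (D i).sz (n i)) fun i => (D i).pXr := pn_pXr.inst hv n
  have cρ : PN (fun i => (D i).sz (n i)) fun i => (D i).rho (m i) := cX.of_le fun i => by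
    have h := xf_xa (hv i) (hm i) 0
    rw [abs_of_nonneg (by linarith [h.ρ_ge]), abs_of_nonneg (by linarith [h.ρ_ge, h.Xr_ge])]
    linarith [h.Xr_ge]
  have a1 := (PJ.const (k := 8) (x := x) hs (((PN.const hs 2).mul cl).mul cρ)).mul hs
      (pj_Sd_aff hs c1 (fun i => 2 - (D i).rho (m i)) x)
  have a2 := (PJ.const (k := 8) (x := x) hs cβ).mul hs
    (((pj_Sd_aff hs c1 (fun _ => -1) x).sub hs (pj_Sd_aff hs cδ
      (fun i => (-(D i).rho (m i) - (D i).pt) / (D i).pδ + 1) x)).add hs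
      (pj_Sd_aff hs cδ (fun i => (-(D i).rho (m i) - 1) / (D i).pδ) x))
  have a3 := pj_bsum hs
    (fun i => Finset.range 3 ×ˢ Finset.range (D i).n ×ˢ Finset.range (D i).n)
    (((PN.const hs 3).mul (cn.mul cn)).congr' fun j => by simp) cσ cA
    (fun i p => (D i).pτ * ((D i).amp (m i) p.1 p.2.1 p.2.2 : ℝ) *
      (if (D i).typ (m i) p.1 = 0 then (D i).pt else 1))
    (fun i p => (D i).ys (m i) p.1 p.2.1 p.2.2) (fun i p hp => by
      simp only [Finset.mem_product, Finset.mem_range] at hp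
      obtain ⟨b1, b2⟩ := amp_bd (hv i) (m := m i) (k := p.1) hp.2.1 hp.2.2
      have b1' : (0 : ℝ) ≤ ((D i).amp (m i) p.1 p.2.1 p.2.2 : ℝ) := by exact_mod_cast b1
      have b2' : ((D i).amp (m i) p.1 p.2.1 p.2.2 : ℝ) ≤ ((D i).alc : ℝ) := by exact_mod_cast b2
      have b3 : |(if (D i).typ (m i) p.1 = 0 then (D i).pt else 1)| ≤ 1 := by
        split_ifs
        · rw [abs_of_pos (hv i).pt_bd.1]; exact (hv i).pt_bd.2
        · simp
      rw [abs_mul, abs_mul, abs_of_pos (hv i).pτ_bd.1, abs_of_nonneg b1',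
        abs_of_nonneg (b1'.trans b2')]
      calc _ ≤ 1 * ((D i).alc : ℝ) * 1 := by
            have := (hv i).pτ_bd.2
            have := b1'.trans b2'
            gcongr
        _ = _ := by ring) x
  refine ((a1.neg.add hs a2).add hs a3).congr fun i => Filter.Eventually.of_forall fun y => ?_
  have e1 : y - (D i).rho (m i) + 2 = 1 * y + (2 - (D i).rho (m i)) := by ring
  have e2 : y - 1 = 1 * y + -1 := by ring
  have e3 : (y - (D i).rho (m i) - (D i).pt) / (D i).pδ + 1 =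
      ((D i).pδ)⁻¹ * y + ((-(D i).rho (m i) - (D i).pt) / (D i).pδ + 1) := by ring
  have e4 : (y - (D i).rho (m i) - 1) / (D i).pδ =
      ((D i).pδ)⁻¹ * y + (-(D i).rho (m i) - 1) / (D i).pδ := by ring
  simp only [XZ.hx, Finset.sum_product]
  rw [e1, e2, e3, e4]

theorem rx_pj (hv : ∀ i, (D i).Valid) (hm : ∀ i, m i < (D i).n) {x : I → ℝ}
    (hx : ∀ i, |x i| ≤ (D i).pT (n i) + 3) :
    PJ 8 (fun i => (D i).sz (n i)) (fun i => (D i).rx (n i) (m i)) x := by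
  have hs : ∀ i, 2 ≤ (D i).sz (n i) := fun i => XZ.two_le_sz _ _
  have cl : PN (fun i => (D i).sz (n i)) fun i => (D i).plam (n i) := pn_plam.inst hv n
  have cT : PN (fun i => (D i).sz (n i)) fun i => (D i).pT (n i) := pn_pT.inst hv n
  have cx : PN (fun i => (D i).sz (n i)) x :=
    (cT.add hs (PN.const hs 3)).of_le fun i => (hx i).trans (le_abs_self _)
  have a1 := (PJ.const (k := 8) hs ((PN.const hs 2).mul cl)).mul hs (PJ.id hs cx)
  have a2 := hx_pj (n := n) hv hm x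
  have a3 := PJ.comp_affine (b := fun _ => 0) hs (PN.const hs (-1))
    (hx_pj (n := n) hv hm fun i => -1 * x i + 0)
  refine ((a1.add hs a2).sub hs a3).congr fun j => Filter.Eventually.of_forall fun y => ?_
  simp [XZ.rx]

theorem xf_pj (hv : ∀ i, (D i).Valid) (hm : ∀ i, m i < (D i).n) {x : I → ℝ}
    (hx : ∀ i, |x i| ≤ (D i).pT (n i) + 3) :
    PJ 6 (fun i => (D i).sz (n i)) (fun i => (D i).Wx (n i) (m i)) x ∧
    PJ 4 (fun i => (D i).sz (n i))
      (fun i => hzF ((D i).plam (n i)) ((D i).x0 (m i)) ((D i).rx (n i) (m i))) x ∧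
    PJ 4 (fun i => (D i).sz (n i))
      (fun i => hzG ((D i).plam (n i)) ((D i).x0 (m i)) ((D i).rx (n i) (m i))) x := by
  have hs : ∀ i, 2 ≤ (D i).sz (n i) := fun i => XZ.two_le_sz _ _
  have cl : PN (fun i => (D i).sz (n i)) fun i => (D i).plam (n i) := pn_plam.inst hv n
  have cl' : PN (fun i => (D i).sz (n i)) fun i => ((D i).plam (n i))⁻¹ := pn_plam_inv.inst hv n
  have ct : PN (fun i => (D i).sz (n i)) fun i => ((D i).pt)⁻¹ := pn_pt_inv.inst hv n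
  have h5 : PJ 8 (fun j : Σ i, {x : ℝ // |x| ≤ (D i).pT (n i) + 3} => (D j.1).sz (n j.1))
      (fun j => (D j.1).rx (n j.1) (m j.1)) fun j => j.2.1 :=
    rx_pj (D := fun j : Σ i, {x : ℝ // |x| ≤ (D i).pT (n i) + 3} => D j.1) (fun j => hv _)
      (fun j => hm _) fun j => j.2.2
  have h6 : PN (fun j : Σ i, {x : ℝ // 1 ≤ x ∧ x ≤ (D i).pT (n i) + 3} => (D j.1).sz (n j.1))
      fun j => ((D j.1).rx (n j.1) (m j.1) j.2.1)⁻¹ := by
    refine ((cl'.mul ct).comp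
      fun j : Σ i, {x : ℝ // 1 ≤ x ∧ x ≤ (D i).pT (n i) + 3} => j.1).of_le fun j => ?_
    have h := xf_xa (hv j.1) (hm j.1) (n j.1)
    have h1 := (h.rest_ge j.2.2.1).trans (h.rest_le_R (by linarith [j.2.2.1]))
    have h2 := mul_pos h.lam_pos h.t_pos
    rw [← mul_inv, XZ.rx_eq, abs_of_pos (inv_pos.2 h2), abs_of_pos (inv_pos.2 (h2.trans_le h1))]
    exact inv_anti₀ h2 h1
  have h7 : PN (fun j : Σ i, {x : ℝ // 1 ≤ x ∧ x ≤ (D i).pT (n i) + 3} => (D j.1).sz (n j.1))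
      fun j => hzG ((D j.1).plam (n j.1)) ((D j.1).x0 (m j.1)) ((D j.1).rx (n j.1) (m j.1))
        j.2.1 := by
    refine (PN.const (fun j => hs _) 2).of_le fun j => ?_
    have h := xf_xa (hv j.1) (hm j.1) (n j.1)
    have h0 : 0 < j.2.1 := by linarith [j.2.2.1]
    have h1 := h.g_le_two h0 j.2.2.2
    rw [XZ.rx_eq, XZ.x0, abs_of_pos (h.haz.g_pos h.x0_pos h0), abs_two]
    linarith [h.e_le]
  have h8 : PN (fun i => (D i).sz (n i))
      fun i => (hzG ((D i).plam (n i)) ((D i).x0 (m i)) ((D i).rx (n i) (m i)) 1)⁻¹ := by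
    refine ((PN.const hs 4).mul ct).of_le fun j => ?_
    have h := xf_xa (hv j) (hm j) (n j)
    have h1 := h.g_ge_lin one_pos (by norm_num)
    have h2 := h.t_pos
    rw [XZ.rx_eq, XZ.x0, abs_of_pos (inv_pos.2 (h.haz.g_pos h.x0_pos one_pos)),
      abs_of_pos (by positivity)]
    refine (inv_anti₀ (by positivity) h1).trans (le_of_eq ?_)
    field_simp
  obtain ⟨-, k1, k2, k3⟩ := haz_pj hs (ε := fun _ => 1) (x₀ := fun i => (D i).x0 (m i))
    (R := fun i => (D i).pT (n i) + 3) (fun i => haz_rx (hv i) (hm i))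
    (fun i => (xf_xa (hv i) (hm i) (n i)).x0_pos) (fun i => by linarith [(hv i).pT_pos (n i)])
    cl cl' (PN.const hs 1) ((PN.const hs 1).congr' fun _ => inv_one) h5 h6 h7 h8
  exact ⟨k1.reindex fun i => ⟨i, x i, hx i⟩, k2.reindex fun i => ⟨i, x i, hx i⟩,
    k3.reindex fun i => ⟨i, x i, hx i⟩⟩

theorem xf_inv_sqrt {N e : ℝ} (he : e ≤ 1 / 10 ^ 8) (h : |N - 2| ≤ 72 * e) : |(√N)⁻¹| ≤ 1 := by
  have h1 : 1 ≤ √N := Real.le_sqrt_of_sq_le (by linarith [(abs_le.1 h).1])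
  rw [abs_of_nonneg (by positivity)]
  exact inv_le_one_of_one_le₀ h1

theorem eX_pj_in (hv : ∀ i, (D i).Valid) (hm : ∀ i, m i < (D i).n) {x : I → ℝ}
    (hx : ∀ i, |x i| ≤ (D i).pT (n i) + 3) (a : Fin 2) :
    PJ 4 (fun i => (D i).sz (n i)) (fun i => (D i).eX (n i) (m i) a) x := by
  have hs : ∀ i, 2 ≤ (D i).sz (n i) := fun i => XZ.two_le_sz _ _
  obtain ⟨-, hF, hG⟩ := xf_pj hv hm hx
  have hc := PJ.cut (k := 4) (a := fun i => (D i).pT (n i)) (b := fun _ => 1) hs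
    (by norm_num) ((PN.const hs 1).congr' fun _ => inv_one) x
  have hn := fun i => (xf_xa (hv i) (hm i) (n i)).norms (xf_16 (hv i) _) (xf_exp (hv i) _)
  have he := fun i => (xf_xa (hv i) (hm i) (n i)).e_le
  fin_cases a
  · refine ((hc.mul hs hF).mul hs (PJ.const hs (PN.of_le_one fun j =>
      xf_inv_sqrt (he j) (hn j).1))).congr fun j => Filter.Eventually.of_forall fun y => ?_
    simp only [XZ.eX, facE, cn, XZ.rx_eq, XZ.x0, div_eq_mul_inv, Fin.zero_eta,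
      Matrix.cons_val_zero]
  · refine ((hc.mul hs (hF.mul hs hG)).mul hs (PJ.const hs (PN.of_le_one fun j =>
      xf_inv_sqrt (he j) (hn j).2))).congr fun j => Filter.Eventually.of_forall fun y => ?_
    simp only [XZ.eX, facE, cn, XZ.rx_eq, XZ.x0, div_eq_mul_inv, Fin.mk_one,
      Matrix.cons_val_zero, Matrix.cons_val_one]

end fam

theorem Wx_pj : PJ 6 (fun j : Σ i : Inst, Fin i.1.1.n × {x : ℝ // |x| ≤ i.1.1.pT i.1.2 + 3} => j.1.s)
    (fun j => j.1.1.1.Wx j.1.1.2 j.2.1) fun j => j.2.2.1 :=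
  (xf_pj (D := fun j : Σ i : Inst, Fin i.1.1.n × {x : ℝ // |x| ≤ i.1.1.pT i.1.2 + 3} => j.1.1.1)
    (n := fun j => j.1.1.2) (m := fun j => j.2.1) (fun j => j.1.2) (fun j => j.2.1.2)
    fun j => j.2.2.2).1

theorem eX_pj (a : Fin 2) : PJ 4 (fun j : Σ i : Inst, Fin i.1.1.n × ℝ => j.1.s)
    (fun j => j.1.1.1.eX j.1.1.2 j.2.1 a) fun j => j.2.2 := by
  refine PJ.cases (fun j => Inst.two_le _) (fun j => |j.2.2| ≤ j.1.1.1.pT j.1.1.2 + 3) ?_ ?_
  · exact eX_pj_in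
      (D := fun j : {j : Σ i : Inst, Fin i.1.1.n × ℝ // |j.2.2| ≤ j.1.1.1.pT j.1.1.2 + 3} =>
        j.1.1.1.1) (n := fun j => j.1.1.1.2) (m := fun j => j.1.2.1) (fun j => j.1.1.2)
      (fun j => j.1.2.1.2) (fun j => j.2) a
  · refine PJ.of_eventually_zero (fun j => Inst.two_le _) fun j => ?_
    have h1 : j.1.1.1.1.pT j.1.1.1.2 + 1 < |j.1.2.2| := by linarith [not_le.1 j.2]
    have h2 : ∀ᶠ y in nhds j.1.2.2, j.1.1.1.1.pT j.1.1.1.2 + 1 < |y| :=
      continuous_abs.continuousAt.eventually (lt_mem_nhds h1)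
    filter_upwards [h2] with y hy
    fin_cases a <;> simp [XZ.eX, facE, cn, cut_eq_zero one_pos hy.le]

end Crest.Agent.R338
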