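import Crest.Agent.R338.YFA

/-! Row 338: the factors in the second and third coordinates. -/

set_option autoImplicit false

open MeasureTheory

namespace Crest.Agent.R338

variable {d : XZ} {N : ℕ}

namespace YF

theorem B_ge (hv : d.Valid) : (1 : ℝ) ≤ d.B := by exact_mod_cast hv.n_pos.trans hv.n_le

theorem Q_ge (hv : d.Valid) : (10 : ℝ) ^ 20 ≤ d.pQ :=
  le_mul_of_one_le_right (by positivity) (one_le_pow₀ (B_ge hv))

theorem G_ge (d : XZ) (N : ℕ) : d.pQ ≤ d.pG N := le_add_of_nonneg_left (Nat.cast_nonneg N)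

theorem β_le (hv : d.Valid) : d.pβ ≤ 1 / d.pQ ^ 5 := by
  have hQ := Q_ge hv
  exact one_div_le_one_div_of_le (by positivity) (pow_le_pow_right₀ (by linarith) (by norm_num))

theorem five_le (hv : d.Valid) : 100 * (1 / d.pQ ^ 5) ≤ 1 / d.pQ ^ 4 := by
  have hQ := Q_ge hv
  have h0 : 0 < d.pQ := by linarith
  rw [mul_one_div, div_le_div_iff₀ (by positivity) (by positivity), one_mul, pow_succ _ 4,
    mul_comm]
  exact mul_le_mul_of_nonneg_left (by linarith) (by positivity)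

theorem four_le (hv : d.Valid) : 1 / d.pQ ^ 4 ≤ 1 / 10 ^ 6 := by
  have hQ := Q_ge hv
  refine one_div_le_one_div_of_le (by positivity) ?_
  exact le_trans (by linarith) (le_self_pow₀ (by linarith) (by norm_num))

theorem Gπ (hv : d.Valid) (N : ℕ) : d.pG N * d.pπ N = 1 / d.pQ ^ 5 := by
  have hQ := Q_ge hv
  have hG := G_ge d N
  have h0 : 0 < d.pQ := by linarith
  have h1 : 0 < d.pG N := by linarith
  rw [XZ.pπ]; field_simp

theorem par (hv : d.Valid) (N : ℕ) :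
    Par (d.plam N) d.pβ (d.pπ N) d.pσ (d.pG N) (1 / d.pQ ^ 4) := by
  have hQ := Q_ge hv
  have hG := G_ge d N
  have h0 : 0 < d.pQ := by linarith
  have h1 : 0 < d.pG N := by linarith
  have hb : 0 < d.pβ := by rw [XZ.pβ]; positivity
  have hπ : 0 < d.pπ N := by rw [XZ.pπ]; positivity
  have h5 : 0 < 1 / d.pQ ^ 5 := by positivity
  refine ⟨by rw [XZ.plam]; positivity, hb, hπ, by rw [XZ.pσ]; positivity,
    one_div_le_one_div_of_le (by norm_num) (by linarith), by linarith,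
    (four_le hv).trans (by norm_num), ?_, by linarith [β_le hv, five_le hv], ?_⟩
  · rw [XZ.plam, ← mul_div_assoc, div_le_iff₀ (by positivity), mul_comm]
    refine mul_le_mul_of_nonneg_left ?_ (by positivity)
    have : (1 : ℝ) ≤ d.pQ ^ 4 := one_le_pow₀ (by linarith)
    nlinarith
  · have h2 := Gπ hv N
    have h3 : d.pπ N ≤ d.pG N * d.pπ N := le_mul_of_one_le_left hπ.le (by linarith)
    linarith [five_le hv]

theorem two_le (i : Inst) : 2 ≤ i.s := by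
  simp only [Inst.s, XZ.sz]
  push_cast
  have : (0 : ℝ) ≤ i.1.1.B := Nat.cast_nonneg _
  have : (0 : ℝ) ≤ i.1.2 := Nat.cast_nonneg _
  linarith

theorem pnB : PN Inst.s fun i => (i.1.1.B : ℝ) :=
  (PN.self two_le).of_le fun i => by
    simp only [Inst.s, XZ.sz, Nat.abs_cast]
    exact_mod_cast (by omega : i.1.1.B ≤ i.1.1.B + i.1.2 + 2)

theorem pnN : PN Inst.s fun i => (i.1.2 : ℝ) :=
  (PN.self two_le).of_le fun i => by
    simp only [Inst.s, XZ.sz, Nat.abs_cast]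
    exact_mod_cast (by omega : i.1.2 ≤ i.1.1.B + i.1.2 + 2)

theorem pnQ : PN Inst.s fun i => i.1.1.pQ := (PN.const two_le _).mul (pnB.pow 40)

theorem pnG : PN Inst.s fun i => i.1.1.pG i.1.2 := pnN.add two_le pnQ

theorem pnβ' : PN Inst.s fun i => (i.1.1.pβ)⁻¹ :=
  (pnQ.pow 30).of_le fun i => by rw [XZ.pβ, one_div, inv_inv]

theorem pnσ' : PN Inst.s fun i => (i.1.1.pσ)⁻¹ :=
  pnQ.of_le fun i => by rw [XZ.pσ, one_div, inv_inv]

theorem pnπ' : PN Inst.s fun i => (i.1.1.pπ i.1.2)⁻¹ :=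
  ((pnQ.pow 5).mul pnG).of_le fun i => by rw [XZ.pπ, one_div, inv_inv]

theorem pnl' : PN Inst.s fun i => (i.1.1.plam i.1.2)⁻¹ :=
  (((pnQ.pow 4).mul pnG).mul (pnβ'.pow 2)).of_le fun i => by
    rw [XZ.plam, inv_div, div_eq_mul_inv, inv_pow]

theorem pn_of_le_one {I : Type} {s : I → ℝ} (hs : ∀ i, 2 ≤ s i) {a : I → ℝ} (t : ℝ)
    (h : ∀ i, 0 ≤ a i ∧ a i ≤ t) : PN s a :=
  (PN.const hs t).of_le fun i => by
    rw [abs_of_nonneg (h i).1]; exact (h i).2.trans (le_abs_self _)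

theorem pnβ : PN Inst.s fun i => i.1.1.pβ :=
  pn_of_le_one two_le 1 fun i => by
    have h := par i.2 i.1.2
    exact ⟨h.β_pos.le, by linarith [h.β_le, h.ε_le]⟩

theorem pnl : PN Inst.s fun i => i.1.1.plam i.1.2 :=
  pn_of_le_one two_le 1 fun i => by
    have h := par i.2 i.1.2
    exact ⟨h.lam_pos.le, by linarith [h.β_le, h.ε_le, h.lam_le]⟩

theorem pnπ : PN Inst.s fun i => i.1.1.pπ i.1.2 :=
  pn_of_le_one two_le 1 fun i => by
    have h := par i.2 i.1.2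
    exact ⟨h.π_pos.le, h.π_le_one⟩

theorem hy_pj {J : Type} (φ : J → Inst) (x : J → ℝ) :
    PJ 8 (fun j => (φ j).s) (fun j => (φ j).1.1.hy (φ j).1.2) x := by
  have hs : ∀ j, 2 ≤ (φ j).s := fun j => two_le _
  have c1 : PN (fun j => (φ j).s) fun j => 1 - (φ j).1.1.pπ (φ j).1.2 :=
    (PN.const hs 1).sub hs (pnπ.comp φ)
  have hS : ∀ b : ℝ, PJ 8 (fun j => (φ j).s) (fun _ y => Sd 0 (4 * y + b)) x := fun b =>
    PJ.comp_affine hs (F := fun _ => Sd 0) (b := fun _ => b) (PN.const hs 4)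
      (PJ.Sd hs (by omega) _)
  have hb : PJ 8 (fun j => (φ j).s) (fun j y => bs (φ j).1.1.pσ (1 * y + -1)) x :=
    PJ.comp_affine hs (F := fun j => bs (φ j).1.1.pσ) (b := fun _ => -1) (PN.const hs 1)
      (PJ.bs hs le_rfl (pnσ'.comp φ) _)
  have hD0 : PJ 8 (fun j => (φ j).s)
      (fun j y => Sd 0 (((φ j).1.1.pσ)⁻¹ * y + (1 / 2 - ((φ j).1.1.pσ)⁻¹))) x :=
    PJ.comp_affine hs (F := fun _ => Sd 0) (b := fun j => 1 / 2 - ((φ j).1.1.pσ)⁻¹) (pnσ'.comp φ)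
      (PJ.Sd hs (by omega) _)
  have hD : PJ 8 (fun j => (φ j).s) (fun j => DD ((φ j).1.1.pπ (φ j).1.2) (φ j).1.1.pσ) x := by
    refine ((PJ.const hs (pnπ.comp φ)).add hs ((PJ.const hs c1).mul hs
      ((PJ.const hs (PN.const hs 1)).sub hs hD0))).congr fun j => .of_forall fun y => ?_
    simp only [DD]
    congr 4
    ring
  have hDi : PN (fun j => (φ j).s) fun j => (DD ((φ j).1.1.pπ (φ j).1.2) (φ j).1.1.pσ (x j))⁻¹ :=
    (pnπ'.comp φ).of_le fun j => by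
      have h := par (φ j).2 (φ j).1.2
      rw [abs_of_pos (inv_pos.2 (h.D_pos _)), abs_of_pos (inv_pos.2 h.π_pos)]
      exact inv_anti₀ h.π_pos (h.D_ge _)
  refine ((((PJ.const hs (pnβ.comp φ)).mul hs (hS (-1))).add hs
    (((PJ.const hs c1).mul hs hb).div hs hD (fun j => ((par (φ j).2 (φ j).1.2).D_pos _).ne')
      hDi)).add hs ((PJ.const hs ((PN.const hs 4).mul (pnG.comp φ))).mul hs (hS (-5)))).congr
    fun j => .of_forall fun y => ?_
  simp only [XZ.hy, DD, one_mul, sub_eq_add_neg]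

theorem all_pj :
    PJ 6 (fun j : Σ _ : Inst, {x : ℝ // |x| ≤ 7 / 2} => j.1.s)
        (fun j => hzW (j.1.1.1.plam j.1.1.2) (j.1.1.1.ry j.1.1.2)) (fun j => j.2.1) ∧
      PJ 4 (fun j : Σ _ : Inst, {x : ℝ // |x| ≤ 7 / 2} => j.1.s)
        (fun j => hzF (j.1.1.1.plam j.1.1.2) (1 / 2) (j.1.1.1.ry j.1.1.2)) (fun j => j.2.1) ∧
      PJ 4 (fun j : Σ _ : Inst, {x : ℝ // |x| ≤ 7 / 2} => j.1.s)
        (fun j => hzG (j.1.1.1.plam j.1.1.2) (1 / 2) (j.1.1.1.ry j.1.1.2)) (fun j => j.2.1) := by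
  refine (haz_pj (I := Inst) (s := Inst.s) two_le (lam := fun i => i.1.1.plam i.1.2)
    (ε := fun _ => 1 / 4) (x₀ := fun _ => 1 / 2) (R := fun _ => 7 / 2)
    (r := fun i => i.1.1.ry i.1.2) (fun i => (par i.2 i.1.2).haz) (fun _ => by norm_num)
    (fun _ => by norm_num) pnl pnl' (PN.const two_le _) (PN.const two_le _) ?_ ?_ ?_ ?_).2
  · have hs : ∀ j : Σ _ : Inst, {x : ℝ // |x| ≤ 7 / 2}, 2 ≤ j.1.s := fun j => two_le _
    have h1 := hy_pj (fun j : Σ _ : Inst, {x : ℝ // |x| ≤ 7 / 2} => j.1) fun j => j.2.1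
    have h2 : PJ 8 (fun j : Σ _ : Inst, {x : ℝ // |x| ≤ 7 / 2} => j.1.s)
        (fun j y => j.1.1.1.hy j.1.1.2 (-1 * y + 0)) fun j => j.2.1 :=
      PJ.comp_affine hs (F := fun j => j.1.1.1.hy j.1.1.2) (b := fun _ => 0) (PN.const hs (-1))
        (hy_pj (fun j : Σ _ : Inst, {x : ℝ // |x| ≤ 7 / 2} => j.1) _)
    have h3 : PJ 8 (fun j : Σ _ : Inst, {x : ℝ // |x| ≤ 7 / 2} => j.1.s) (fun _ y => y)
        fun j => j.2.1 :=
      PJ.id hs ((PN.const hs (7 / 2)).of_le fun j => j.2.2.trans (le_abs_self _))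
    refine ((((PJ.const hs ((PN.const hs 2).mul (pnl.comp Sigma.fst))).mul hs h3).add hs
      h1).sub hs h2).congr fun j => .of_forall fun y => ?_
    simp only [XZ.ry, neg_mul, one_mul, add_zero]
  · have hs : ∀ j : Σ _ : Inst, {x : ℝ // 1 / 4 ≤ x ∧ x ≤ 7 / 2}, 2 ≤ j.1.s := fun j => two_le _
    refine ((PN.const hs 2).mul (pnl'.comp Sigma.fst)).of_le fun j => ?_
    have h := par j.1.2 j.1.1.2
    have hl := h.lam_pos
    have hx := j.2.2.1
    have h1 : j.1.1.1.plam j.1.1.2 / 2 ≤ j.1.1.1.ry j.1.1.2 j.2.1 :=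
      le_trans (by nlinarith) (h.rr_ge (y := j.2.1) (by linarith))
    have h2 : 0 < j.1.1.1.plam j.1.1.2 / 2 := by positivity
    rw [abs_of_pos (inv_pos.2 (h2.trans_le h1)), abs_of_pos (by positivity)]
    refine (inv_anti₀ h2 h1).trans_eq ?_
    rw [inv_div, div_eq_mul_inv]
  · refine pn_of_le_one (fun j => two_le _) 2 fun j => ?_
    have h := par j.1.2 j.1.1.2
    exact ⟨h.sl.g_nonneg (by linarith [j.2.2.1]), (h.g_le j.2.2.2).trans (by linarith [h.ε_le])⟩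
  · refine pn_of_le_one two_le 2 fun i => ?_
    have h := par i.2 i.1.2
    have h1 : 2 * (1 / 4) ≤ hzG (i.1.1.plam i.1.2) (1 / 2) (i.1.1.ry i.1.2) (1 / 4) :=
      h.g_ge (by norm_num) (by norm_num)
    exact ⟨inv_nonneg.2 (by linarith), (inv_anti₀ (by norm_num) h1).trans (by norm_num)⟩

end YF

open YF

theorem haz_ry (hv : d.Valid) : Haz (d.plam N) (1 / 4) (d.ry N) := (par hv N).haz

/-- Density of the orbitals along the second coordinate. -/
theorem eY_density (hv : d.Valid) (a a' : Fin 2) (y : ℝ) :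
    |d.eY N a y * d.eY N a' y - d.mainY (a + a') y| ≤ d.mainY 0 y / d.pQ ^ 3 + 1 / d.pQ ^ 4 := by
  have h := par hv N
  have key := h.density a a' y
  have hQ := Q_ge hv
  have h0 : 0 < d.pQ := by linarith
  have e : ∀ t : ℕ, d.mainY t y =
      1 / 2 * bs d.pσ (y - 1) + 1 / 2 * (-1) ^ t * bs d.pσ (y + 1) := fun t => by
    simp [XZ.mainY, rs, add_comm]
  rw [e, e]
  refine key.trans (add_le_add ?_ ?_)
  · have hb := add_nonneg (bs_nonneg h.σ_pos (y - 1)) (bs_nonneg h.σ_pos (y + 1))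
    have h1 : 6 * (1 / d.pQ ^ 4) ≤ 1 / 2 / d.pQ ^ 3 := by
      rw [mul_one_div, div_le_div_iff₀ (by positivity) (by positivity), pow_succ _ 3]
      have : 0 < d.pQ ^ 3 := by positivity
      nlinarith
    refine (mul_le_mul_of_nonneg_right h1 hb).trans_eq ?_
    ring
  · rw [mul_assoc, Gπ hv]
    linarith [β_le hv, five_le hv, h.lam_le, h.β_pos]

theorem eY_fac : ∃ k : ℕ, ∀ (d : XZ) (N : ℕ), d.Valid →
    Fac (d.plam N) (d.Wy N) (d.eY N) (5 / 2) (d.sz N ^ k / 2 ^ N) := by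
  obtain ⟨k, hk⟩ : PN Inst.s fun i => 10 ^ 50 * (1 + 1 / (1 / 2)) ^ 2 *
      (4 * i.1.1.pG i.1.2 + 1) ^ 2 * (1 + (i.1.1.pβ)⁻¹) :=
    ((PN.const two_le _).mul
      ((((PN.const two_le 4).mul pnG).add two_le (PN.const two_le 1)).pow 2)).mul
      ((PN.const two_le 1).add two_le pnβ')
  refine ⟨k, fun d N hv => ?_⟩
  have h := par hv N
  have hF := h.fac (h.π_le.trans (four_le hv))
  rw [show (2 + 1 / 2 : ℝ) = 5 / 2 by norm_num] at hF
  refine ⟨hF.W_cont, hF.c2, hF.supp, hF.on, fun a x => (hF.res a x).trans ?_, hF.gap⟩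
  have h1 := (le_abs_self _).trans (hk ⟨(d, N), hv⟩)
  have h2 : √(hzP (rr (d.plam N) d.pβ (d.pπ N) d.pσ (d.pG N)) 2) ≤ (2 ^ N)⁻¹ := by
    refine Real.sqrt_le_iff.2 ⟨by positivity, h.p_two.trans ?_⟩
    have h3 : (N : ℝ) ≤ d.pG N := le_add_of_nonneg_right (by linarith [Q_ge hv])
    have h4 : (2 : ℝ) ^ N ≤ Real.exp (d.pG N) := by
      refine le_trans ?_ (Real.exp_le_exp.2 h3)
      rw [← mul_one (N : ℝ), Real.exp_nat_mul]
      exact pow_le_pow_left₀ zero_le_two (by linarith [Real.add_one_le_exp 1]) N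
    rw [Real.exp_neg, show 2 * d.pG N = (2 : ℕ) * d.pG N by norm_num, Real.exp_nat_mul, inv_pow]
    exact inv_anti₀ (by positivity) (pow_le_pow_left₀ (by positivity) h4 2)
  rw [div_eq_mul_inv (d.sz N ^ k), one_div d.pβ]
  exact mul_le_mul h1 h2 (Real.sqrt_nonneg _) ((abs_nonneg _).trans (hk ⟨(d, N), hv⟩))

theorem Wy_pj : PJ 6 (fun j : Inst × {x : ℝ // |x| ≤ 7 / 2} => j.1.s)
    (fun j => j.1.1.1.Wy j.1.1.2) fun j => j.2.1 :=
  all_pj.1.reindex fun j : Inst × {x : ℝ // |x| ≤ 7 / 2} => ⟨j.1, j.2⟩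

theorem eY_pj (a : Fin 2) : PJ 4 (fun j : Inst × ℝ => j.1.s)
    (fun j => j.1.1.1.eY j.1.1.2 a) fun j => j.2 := by
  refine PJ.cases (fun j => two_le _) (fun j => |j.2| ≤ 7 / 2) ?_ ?_
  · have hs : ∀ j : {j : Inst × ℝ // |j.2| ≤ 7 / 2}, 2 ≤ j.1.1.s := fun j => two_le _
    have hF := all_pj.2.1.reindex fun j : {j : Inst × ℝ // |j.2| ≤ 7 / 2} => ⟨j.1.1, j.1.2, j.2⟩
    have hG := all_pj.2.2.reindex fun j : {j : Inst × ℝ // |j.2| ≤ 7 / 2} => ⟨j.1.1, j.1.2, j.2⟩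
    have hc : PJ 4 (fun j : {j : Inst × ℝ // |j.2| ≤ 7 / 2} => j.1.1.s) (fun _ => cut 2 (1 / 2))
        fun j => j.1.2 :=
      PJ.cut hs (a := fun _ => 2) (b := fun _ => 1 / 2) (by omega) (PN.const hs _) _
    have hn : PN (fun j : {j : Inst × ℝ // |j.2| ≤ 7 / 2} => j.1.1.s) fun j =>
        (√(∫ z, (cut 2 (1 / 2) z * (hzF (j.1.1.1.1.plam j.1.1.1.2) (1 / 2) (j.1.1.1.1.ry j.1.1.1.2) z *
          hzG (j.1.1.1.1.plam j.1.1.1.2) (1 / 2) (j.1.1.1.1.ry j.1.1.1.2) z ^ (a : ℕ))) ^ 2))⁻¹ := by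
      refine pn_of_le_one hs 1 fun j => ⟨by positivity, inv_le_one_of_one_le₀ ?_⟩
      have h := par j.1.1.2 j.1.1.1.2
      have h1 := (abs_le.1 (h.norms' a)).1
      exact Real.one_le_sqrt.2 (le_trans (by linarith [h.ε_le]) (le_sub_iff_add_le.1 h1))
    refine ((hc.mul hs (hF.mul hs (hG.pow hs a))).mul hs (PJ.const hs hn)).congr
      fun j => .of_forall fun y => ?_
    simp only [XZ.eY, facE_eq, div_eq_mul_inv]
  · refine PJ.of_eventually_zero (fun j => two_le _) fun j => ?_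
    have h1 : 5 / 2 < |j.1.2| := by linarith [not_le.1 j.2]
    refine (continuousAt_const.eventually_lt continuous_abs.continuousAt h1).mono fun y hy => ?_
    simp only [XZ.eY, facE_eq]
    rw [cut_eq_zero (by norm_num) (by linarith), zero_mul, zero_div]

end Crest.Agent.R338
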