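import Crest.Agent.R338.CK
import Crest.Agent.R338.XF
import Crest.Agent.R338.YF

/-! Row 338: the orbital densities as sums of dots. -/

set_option autoImplicit false

open MeasureTheory Crest.MathPhysics.ElectronicCoulomb

namespace Crest.Agent.R338

namespace XZ

variable (d : XZ)

noncomputable def dX (e : Dot d.n) : ℝ :=
  d.xm e.1 + d.xc e.1 e.2.1.1 e.2.1.2.1 e.2.1.2.2 e.2.2.1

noncomputable def dY (e : Dot d.n) : ℝ := 8 * (e.1 : ℕ) + (rs e.2.2.2 : ℝ)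

noncomputable def dB (c : ℝ) (e : Dot d.n) : Pos3 → ℝ :=
  dotB d.pσ (fun z => d.eZ c z ^ 2) (d.dX e) (d.dY e)

end XZ

variable {d : XZ} {N : ℕ} {c lam η : ℝ} {W : ℝ → ℝ} {U : ℚ}

theorem cd_B (hv : d.Valid) : (1 : ℝ) ≤ d.B := by exact_mod_cast hv.n_pos.trans hv.n_le

theorem cd_QB (hv : d.Valid) : 10 ^ 20 * (d.B : ℝ) ^ 10 ≤ d.pQ :=
  mul_le_mul_of_nonneg_left (pow_le_pow_right₀ (cd_B hv) (by norm_num)) (by norm_num)

theorem cd_Q (hv : d.Valid) : 10 ^ 20 ≤ d.pQ :=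
  (le_mul_of_one_le_right (by norm_num) (one_le_pow₀ (cd_B hv))).trans (cd_QB hv)

theorem cd_Q0 (hv : d.Valid) : 0 < d.pQ := lt_of_lt_of_le (by norm_num) (cd_Q hv)

theorem cd_Q1 (hv : d.Valid) : 1 ≤ d.pQ := le_trans (by norm_num) (cd_Q hv)

theorem cd_σ (hv : d.Valid) : 0 < d.pσ := one_div_pos.2 (cd_Q0 hv)

/-! ### Geometry -/

def cdP {n : ℕ} (e : Dot n) : ℕ := (e.2.1.1 * n + e.2.1.2.1) * n + e.2.1.2.2 + 1

def cdT (d : XZ) (s : Fin 3 × Fin d.n × Fin d.n) : ℤ :=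
  if (s.1 : ℕ) = 1 ∧ d.zx s.2.1 s.2.2 < 0 then -1 else 1

def cdS (d : XZ) (e : Dot d.n) : ℤ := (if e.2.2.1 then -1 else 1) * cdT d e.2.1

def cdM {n : ℕ} (e : Dot n) : ℕ := if e.2.2.1 then e.1 else 0

def cdZ (d : XZ) (e : Dot d.n) : ℤ := 2 * d.B * (cdS d e * cdP e) + cdM e

/-- Dots in the same column. -/
def cdCol {n : ℕ} (e e' : Dot n) : Prop :=
  e.2.1 = e'.2.1 ∧ e.2.2.1 = e'.2.2.1 ∧ (e.2.2.1 = true → e.1 = e'.1)

theorem cd_dX (e : Dot d.n) : d.dX e = 2 * d.pQ * (cdZ d e : ℝ) := by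
  obtain ⟨m, ⟨k, i, j⟩, mir, r⟩ := e
  simp only [XZ.dX, XZ.xc, XZ.ys, XZ.pos, XZ.xm, XZ.pΛ, XZ.side, rs, cdZ, cdS, cdT, cdP, cdM]
  cases mir <;> split_ifs <;> simp_all <;> ring

theorem cd_uniq {n a b a' b' : ℕ} (hb : b < n) (hb' : b' < n) (h : a * n + b = a' * n + b') :
    a = a' ∧ b = b' := by
  have h1 := congrArg (· % n) h
  simp only [Nat.mul_add_mod', Nat.mod_eq_of_lt hb, Nat.mod_eq_of_lt hb'] at h1
  subst h1
  exact ⟨Nat.eq_of_mul_eq_mul_right (by omega) (Nat.add_right_cancel h), rfl⟩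

theorem cd_T (s : Fin 3 × Fin d.n × Fin d.n) : cdT d s = 1 ∨ cdT d s = -1 := by
  unfold cdT; split_ifs <;> simp

theorem cd_S (e : Dot d.n) : cdS d e = 1 ∨ cdS d e = -1 := by
  unfold cdS
  rcases cd_T e.2.1 with h | h <;> rw [h] <;> split_ifs <;> simp

theorem cd_M (hv : d.Valid) (e : Dot d.n) : cdM e < d.B := by
  have := hv.n_pos
  have := hv.n_le
  have := e.1.2
  unfold cdM; split_ifs <;> omega

theorem cd_col (hv : d.Valid) {e e' : Dot d.n} (h : cdZ d e = cdZ d e') : cdCol e e' := by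
  have h1 : (cdM e : ℤ) < d.B := by exact_mod_cast cd_M hv e
  have h2 : (cdM e' : ℤ) < d.B := by exact_mod_cast cd_M hv e'
  have h3 : (0 : ℤ) ≤ cdM e := by positivity
  have h4 : (0 : ℤ) ≤ cdM e' := by positivity
  unfold cdZ at h
  have h5 : cdS d e * cdP e = cdS d e' * cdP e' := by
    by_contra hne
    rcases lt_or_gt_of_ne hne with hl | hl <;> nlinarith [Int.add_one_le_iff.2 hl]
  have h6 : cdM e = cdM e' := by
    rw [h5] at h
    exact_mod_cast add_left_cancel h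
  have p1 : (1 : ℤ) ≤ cdP e := by exact_mod_cast Nat.le_add_left 1 _
  have p2 : (1 : ℤ) ≤ cdP e' := by exact_mod_cast Nat.le_add_left 1 _
  have h7 : cdS d e = cdS d e' ∧ (cdP e : ℤ) = cdP e' := by
    rcases cd_S e with a | a <;> rcases cd_S e' with b | b <;> rw [a, b] at h5 ⊢ <;>
      constructor <;> omega
  have h8 : cdP e = cdP e' := by exact_mod_cast h7.2
  obtain ⟨u1, u2⟩ := cd_uniq e.2.1.2.2.2 e'.2.1.2.2.2 (Nat.add_right_cancel h8)
  obtain ⟨u3, u4⟩ := cd_uniq e.2.1.2.1.2 e'.2.1.2.1.2 u1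
  have h9 : e.2.1 = e'.2.1 := Prod.ext (Fin.ext u3) (Prod.ext (Fin.ext u4) (Fin.ext u2))
  have h10 : e.2.2.1 = e'.2.2.1 := by
    have := h7.1
    unfold cdS at this
    rw [h9] at this
    rcases cd_T e'.2.1 with a | a <;> rw [a] at this <;>
      cases h : e.2.2.1 <;> cases h' : e'.2.2.1 <;> simp_all
  refine ⟨h9, h10, fun ht => Fin.ext ?_⟩
  unfold cdM at h6
  rwa [← h10, if_pos ht, if_pos ht] at h6

theorem cd_dX_eq {e e' : Dot d.n} (h : cdCol e e') : d.dX e = d.dX e' := by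
  obtain ⟨h1, h2, h3⟩ := h
  have : cdM e = cdM e' := by
    unfold cdM
    rw [← h2]
    split_ifs with h
    · rw [h3 h]
    · rfl
  rw [cd_dX, cd_dX, cdZ, cdZ, cdS, cdS, cdP, cdP, this, h1, h2]

theorem cd_dX_far (hv : d.Valid) {e e' : Dot d.n} (h : ¬ cdCol e e') :
    2 * d.pQ ≤ |d.dX e - d.dX e'| := by
  have h1 : cdZ d e - cdZ d e' ≠ 0 := fun h' => h (cd_col hv (sub_eq_zero.1 h'))
  have h2 : (1 : ℝ) ≤ |((cdZ d e - cdZ d e' : ℤ) : ℝ)| := by exact_mod_cast Int.one_le_abs h1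
  have := cd_Q0 hv
  rw [cd_dX, cd_dX, ← mul_sub, abs_mul, abs_of_pos (by positivity : 0 < 2 * d.pQ)]
  push_cast at h2
  exact le_mul_of_one_le_right (by positivity) h2

theorem cd_dY_far {e e' : Dot d.n} (h : e ≠ e') (hc : cdCol e e') : 2 ≤ |d.dY e - d.dY e'| := by
  obtain ⟨m, s, mir, r⟩ := e
  obtain ⟨m', s', mir', r'⟩ := e'
  obtain ⟨h1, h2, -⟩ := hc
  simp only at h1 h2
  subst h1 h2
  simp only [XZ.dY, rs]
  by_cases hm : m = m'
  · subst hm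
    cases r <;> cases r' <;> simp at h ⊢ <;> norm_num
  · have h3 : (m : ℕ) + 1 ≤ m' ∨ (m' : ℕ) + 1 ≤ m := by
      have : (m : ℕ) ≠ m' := fun e => hm (Fin.ext e)
      omega
    rcases h3 with h3 | h3
    · have h4 : ((m : ℕ) : ℝ) + 1 ≤ (m' : ℕ) := by exact_mod_cast h3
      rw [le_abs]; right
      cases r <;> cases r' <;> simp <;> linarith
    · have h4 : ((m' : ℕ) : ℝ) + 1 ≤ (m : ℕ) := by exact_mod_cast h3
      rw [le_abs]; left
      cases r <;> cases r' <;> simp <;> linarith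

theorem cd_Kb_col {e e' : Dot d.n} (h : e ≠ e') (hc : cdCol e e') (U : ℚ) :
    (Kb U e e' : ℝ) = 1 / |d.dY e - d.dY e'| := by
  obtain ⟨m, s, mir, r⟩ := e
  obtain ⟨m', s', mir', r'⟩ := e'
  obtain ⟨h1, h2, h3⟩ := hc
  simp only at h1 h2 h3
  subst h1 h2
  by_cases hm : m = m'
  · subst hm
    simp only [XZ.dY, rs, Kb]
    cases r <;> cases r' <;> simp at h ⊢ <;> norm_num
  · have h4 : mir = false := by
      cases mir
      · rfl
      · exact absurd (h3 rfl) hm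
    subst h4
    simp only [XZ.dY, Kb, if_neg hm, and_self, if_true]
    push_cast
    rw [← abs_neg]
    congr 2
    ring

theorem cd_Kb_zero {n : ℕ} {e e' : Dot n} (hc : ¬ cdCol e e') (U : ℚ) : Kb U e e' = 0 := by
  unfold Kb
  split_ifs with h1 h2 h3 h4 h5
  · exact absurd ⟨h1, h3, fun _ => h2⟩ hc
  · exact absurd ⟨h1, h3, fun _ => h2⟩ hc
  · rfl
  · exact absurd ⟨h1, h5.1.trans h5.2.symm, fun h => by simp [h5.1] at h⟩ hc
  · rfl
  · rfl

/-- Different dots are far apart. -/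
theorem dot_sep (hv : d.Valid) {e e' : Dot d.n} (h : e ≠ e') :
    2 ≤ |d.dX e - d.dX e'| ∨ 2 ≤ |d.dY e - d.dY e'| := by
  by_cases hc : cdCol e e'
  · exact Or.inr (cd_dY_far h hc)
  · exact Or.inl (le_trans (by linarith [cd_Q1 hv]) (cd_dX_far hv hc))

/-! ### Functions of one variable -/

theorem cd_supp {f : ℝ → ℝ} {T : ℝ} (h : ∀ x, T ≤ |x| → f x = 0) : HasCompactSupport f :=
  HasCompactSupport.intro (isCompact_Icc (a := -T) (b := T)) fun x hx => h x (by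
    by_contra hc
    exact hx (abs_le.1 (not_le.1 hc).le))

theorem cd_add {f g : ℝ → ℝ} (hf : CCs f) (hg : CCs g) : CCs fun x => f x + g x :=
  ⟨hf.1.add hg.1, hf.2.add hg.2⟩

theorem cd_smul {f : ℝ → ℝ} (hf : CCs f) (t : ℝ) : CCs fun x => t * f x :=
  ⟨continuous_const.mul hf.1, hf.2.mul_left⟩

theorem cd_zero {X : Type} [TopologicalSpace X] : CCs fun _ : X => (0 : ℝ) :=
  ⟨continuous_const, HasCompactSupport.zero⟩

theorem cd_sum {κ : Type} (s : Finset κ) {f : κ → ℝ → ℝ} (hf : ∀ i ∈ s, CCs (f i)) :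
    CCs fun x => ∑ i ∈ s, f i x := by
  classical
  induction s using Finset.induction_on with
  | empty => simpa using cd_zero
  | insert j s hj ih =>
    simp only [Finset.sum_insert hj]
    exact cd_add (hf j (by simp)) (ih fun i hi => hf i (by simp [hi]))

theorem cd_shift {f : ℝ → ℝ} (hf : CCs f) (t : ℝ) : CCs fun x => f (x - t) :=
  ⟨hf.1.comp (by fun_prop), hf.2.comp_homeomorph (Homeomorph.subRight t)⟩

theorem cd_mono {f g : ℝ → ℝ} (hf : Continuous f) (hg : CCs g) (h0 : ∀ x, 0 ≤ f x)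
    (h : ∀ x, f x ≤ g x) : CCs f :=
  ⟨hf, hg.2.mono fun x hx hx' => hx (le_antisymm (hx' ▸ h x) (h0 x))⟩

theorem cd_int {f : ℝ → ℝ} (hf : CCs f) : Integrable f :=
  hf.1.integrable_of_hasCompactSupport hf.2

theorem cd_bs {σ : ℝ} (hσ : 0 < σ) (t : ℝ) : CCs fun x => bs σ (x - t) :=
  cd_shift ⟨(bs_contDiff σ).continuous, bs_hasCompactSupport hσ⟩ t

theorem cd_cut : CCs (cut (5 / 2) (1 / 2)) :=
  ⟨(cut_contDiff _ _).continuous, cut_hasCompactSupport (by norm_num)⟩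

theorem cd_int_cut : ∫ x, cut (5 / 2) (1 / 2) x ≤ 6 := by
  have h : ∫ x, cut (5 / 2) (1 / 2) x ≤ ∫ x, (Set.Icc (-3 : ℝ) 3).indicator (fun _ => (1 : ℝ)) x := by
    refine integral_mono (cd_int cd_cut)
      ((integrable_indicator_iff measurableSet_Icc).2 (integrableOn_const (by simp))) fun x => ?_
    by_cases hx : x ∈ Set.Icc (-3 : ℝ) 3
    · rw [Set.indicator_of_mem hx]; exact cut_le_one _ _ _
    · rw [Set.indicator_of_notMem hx, cut_eq_zero (by norm_num)]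
      by_contra hc
      exact hx (abs_le.1 (by linarith [not_le.1 hc]))
  refine h.trans ?_
  rw [integral_indicator measurableSet_Icc]
  simp only [integral_const, MeasurableSet.univ, measureReal_restrict_apply, Set.univ_inter,
    Real.volume_real_Icc, smul_eq_mul]
  norm_num

theorem cd_fac {e : Fin 2 → ℝ → ℝ} {T : ℝ} (h : Fac lam W e T η) (a b : Fin 2) :
    CCs fun x => e a x * e b x :=
  ⟨(h.c2 a).continuous.mul (h.c2 b).continuous, cd_supp fun x hx => by rw [h.supp a x hx, zero_mul]⟩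

theorem cd_fac_abs {e : Fin 2 → ℝ → ℝ} {T : ℝ} (h : Fac lam W e T η) (a b : Fin 2) :
    CCs (fun x => |e a x * e b x|) ∧ ∫ x, |e a x * e b x| ≤ 1 := by
  have h1 : CCs fun x => |e a x * e b x| := ⟨(cd_fac h a b).1.abs, (cd_fac h a b).2.abs⟩
  refine ⟨h1, ?_⟩
  have h2 := cd_add (cd_smul (cd_fac h a a) (1 / 2)) (cd_smul (cd_fac h b b) (1 / 2))
  refine (integral_mono (cd_int h1) (cd_int h2) fun x => ?_).trans ?_
  · simp only
    rw [abs_le]
    constructor <;> nlinarith [sq_nonneg (e a x - e b x), sq_nonneg (e a x + e b x)]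
  · rw [integral_add (cd_int (cd_smul (cd_fac h a a) _)) (cd_int (cd_smul (cd_fac h b b) _)),
      integral_const_mul, integral_const_mul, h.on, h.on]
    norm_num

theorem cd_Z (hZ : Fac1 lam W (d.eZ c) (2 * d.pw) η) :
    CCs (fun z => d.eZ c z ^ 2) ∧ (∀ z, 0 ≤ d.eZ c z ^ 2) ∧ ∫ z, d.eZ c z ^ 2 = 1 ∧
      ∀ z, 2 * d.pw ≤ |z| → d.eZ c z ^ 2 = 0 := by
  have h : ∀ z, 2 * d.pw ≤ |z| → d.eZ c z ^ 2 = 0 := fun z hz => by rw [hZ.supp z hz]; simp
  exact ⟨⟨hZ.c2.continuous.pow 2, cd_supp h⟩, fun z => sq_nonneg _, by simpa only [sq] using hZ.on, h⟩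

theorem Cb_dB (hv : d.Valid) (hZ : Fac1 lam W (d.eZ c) (2 * d.pw) η)
    (hU : |(U : ℝ) - ustar * d.pQ| ≤ 1 / d.pQ) (e e' : Dot d.n) :
    |Cb (d.dB c e) (d.dB c e') - (Kb U e e' : ℝ)| ≤ 10 / d.pQ := by
  obtain ⟨z1, z2, z3, z4⟩ := cd_Z hZ
  have hQ := cd_Q hv
  have hQ0 := cd_Q0 hv
  have hw : 0 < 2 * d.pw := by unfold XZ.pw; positivity
  have hQ1 : 1 / d.pQ ≤ 1 / 10 ^ 20 := one_div_le_one_div_of_le (by norm_num) hQ
  have hq0 : 0 < 1 / d.pQ := by positivity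
  have e10 : 10 / d.pQ = 10 * (1 / d.pQ) := by ring
  by_cases h : e = e'
  · subst h
    have h1 := Cb_dot_self (cd_σ hv) z1 z2 z3 hw z4 (d.dX e) (d.dY e)
    have h2 : Kb U e e = U := by simp [Kb]
    have h3 : ustar / d.pσ = ustar * d.pQ := by unfold XZ.pσ; field_simp
    have h4 : 300 * (2 * d.pw) / d.pσ ^ 2 = 600 * (1 / d.pQ) * (1 / d.pQ) := by
      unfold XZ.pσ XZ.pw; field_simp; norm_num
    rw [h3, h4] at h1
    rw [h2, e10]
    have h5 := abs_sub_le (Cb (d.dB c e) (d.dB c e)) (ustar * d.pQ) U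
    rw [abs_sub_comm (ustar * d.pQ)] at h5
    unfold XZ.dB at h5 ⊢
    nlinarith
  · have hw4 : d.pw ≤ 1 / d.pQ :=
      one_div_le_one_div_of_le hQ0 (le_self_pow₀ (cd_Q1 hv) (by norm_num))
    have hD : 2 ≤ √((d.dX e - d.dX e') ^ 2 + (d.dY e - d.dY e') ^ 2) := by
      refine Real.le_sqrt_of_sq_le ?_
      rcases dot_sep hv h with h1 | h1
      · nlinarith [sq_abs (d.dX e - d.dX e'), sq_nonneg (d.dY e - d.dY e')]
      · nlinarith [sq_abs (d.dY e - d.dY e'), sq_nonneg (d.dX e - d.dX e')]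
    have h1 := Cb_dot_far (cd_σ hv) (by unfold XZ.pσ; linarith) z1 z2 z3 hw (by linarith) z4 hD
    have h2 : |1 / √((d.dX e - d.dX e') ^ 2 + (d.dY e - d.dY e') ^ 2) - (Kb U e e' : ℝ)| ≤
        1 / d.pQ := by
      by_cases hc : cdCol e e'
      · rw [cd_Kb_col h hc, cd_dX_eq hc, sub_self, zero_pow two_ne_zero, zero_add, Real.sqrt_sq_eq_abs,
          sub_self, abs_zero]
        exact hq0.le
      · rw [cd_Kb_zero hc, Rat.cast_zero, sub_zero, abs_of_nonneg (by positivity)]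
        refine one_div_le_one_div_of_le hQ0 (Real.le_sqrt_of_sq_le ?_)
        nlinarith [sq_abs (d.dX e - d.dX e'), sq_nonneg (d.dY e - d.dY e'), cd_dX_far hv hc]
    have h5 := abs_sub_le (Cb (d.dB c e) (d.dB c e'))
      (1 / √((d.dX e - d.dX e') ^ 2 + (d.dY e - d.dY e') ^ 2)) (Kb U e e' : ℝ)
    unfold XZ.dB at h5 ⊢
    unfold XZ.pσ at h1 h5 ⊢
    linarith

/-! ### The main parts -/

theorem cd_xi (d : XZ) (m k i j : ℕ) (mir : Bool) : |(d.xi m k i j mir : ℝ)| ≤ 1 := by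
  unfold XZ.xi XZ.typ XZ.side rs
  split_ifs <;> simp

theorem cd_τ (hv : d.Valid) : 0 < d.pτ := by
  have := cd_Q0 hv
  unfold XZ.pτ; positivity

theorem cd_amp (hv : d.Valid) (m k : ℕ) {i j : ℕ} (hi : i ∈ Finset.range d.n)
    (hj : j ∈ Finset.range d.n) :
    0 ≤ (d.amp m k i j : ℝ) ∧ (d.amp m k i j : ℝ) ≤ 10 ^ 4 * (d.B : ℝ) ^ 8 := by
  obtain ⟨h1, h2⟩ := amp_bd (m := m) (k := k) hv (Finset.mem_range.1 hi) (Finset.mem_range.1 hj)
  unfold XZ.alc at h2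
  exact ⟨by exact_mod_cast h1, by exact_mod_cast h2⟩

theorem cd_mainX_cc (hv : d.Valid) (m t : ℕ) : CCs (d.mainX m t) :=
  cd_sum _ fun _ _ => cd_sum _ fun _ _ => cd_sum _ fun _ _ => cd_sum _ fun _ _ =>
    cd_smul (cd_bs (cd_σ hv) _) _

theorem cd_mainX_abs (hv : d.Valid) (m t : ℕ) (x : ℝ) : |d.mainX m t x| ≤ d.mainX m 0 x := by
  unfold XZ.mainX
  refine (Finset.abs_sum_le_sum_abs _ _).trans (Finset.sum_le_sum fun k _ => ?_)
  refine (Finset.abs_sum_le_sum_abs _ _).trans (Finset.sum_le_sum fun i hi => ?_)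
  refine (Finset.abs_sum_le_sum_abs _ _).trans (Finset.sum_le_sum fun j hj => ?_)
  refine (Finset.abs_sum_le_sum_abs _ _).trans (Finset.sum_le_sum fun mir _ => ?_)
  have h1 := (cd_amp hv m k hi hj).1
  have h2 := cd_τ hv
  have h3 := bs_nonneg (cd_σ hv) (x - d.xc m k i j mir)
  rw [abs_mul, abs_mul, abs_of_nonneg h3, abs_of_nonneg (by positivity), pow_zero, abs_pow]
  gcongr
  exact pow_le_one₀ (abs_nonneg _) (cd_xi d m k i j mir)

theorem cd_sum_le (hv : d.Valid) (m : ℕ) {F : ℕ → ℕ → ℕ → Bool → ℝ} {S : ℝ} (hS : 0 ≤ S)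
    (hF : ∀ k i j mir, F k i j mir ≤ S) :
    ∑ k ∈ Finset.range 3, ∑ i ∈ Finset.range d.n, ∑ j ∈ Finset.range d.n, ∑ mir : Bool,
      d.pτ / 2 * (d.amp m k i j : ℝ) * (d.xi m k i j mir : ℝ) ^ 0 * F k i j mir ≤
      S * (d.pτ * (3 * 10 ^ 4 * (d.B : ℝ) ^ 10)) := by
  have h2 := cd_τ hv
  have hn : (d.n : ℝ) ≤ d.B := by exact_mod_cast hv.n_le
  calc _ ≤ ∑ _k ∈ Finset.range 3, ∑ _i ∈ Finset.range d.n, ∑ _j ∈ Finset.range d.n, ∑ _mir : Bool,
        d.pτ / 2 * (10 ^ 4 * (d.B : ℝ) ^ 8) * S := by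
        refine Finset.sum_le_sum fun k _ => Finset.sum_le_sum fun i hi =>
          Finset.sum_le_sum fun j hj => Finset.sum_le_sum fun mir _ => ?_
        obtain ⟨h3, h4⟩ := cd_amp hv m k hi hj
        rw [pow_zero, mul_one]
        calc _ ≤ d.pτ / 2 * (d.amp m k i j : ℝ) * S := by gcongr; exact hF k i j mir
          _ ≤ _ := by gcongr
    _ = S * (d.pτ * (3 * 10 ^ 4 * ((d.n : ℝ) ^ 2 * (d.B : ℝ) ^ 8))) := by
        simp only [Finset.sum_const, Finset.card_range, Finset.card_univ, Fintype.card_bool,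
          nsmul_eq_mul]
        push_cast
        ring
    _ ≤ S * (d.pτ * (3 * 10 ^ 4 * ((d.B : ℝ) ^ 2 * (d.B : ℝ) ^ 8))) := by gcongr
    _ = _ := by ring

theorem cd_mainX_le (hv : d.Valid) (m : ℕ) (x : ℝ) :
    d.mainX m 0 x ≤ 4 * d.pQ * (d.pτ * (3 * 10 ^ 4 * (d.B : ℝ) ^ 10)) :=
  cd_sum_le hv m (by have := cd_Q0 hv; positivity) fun k i j mir =>
    (bs_le (cd_σ hv) _).trans (le_of_eq (by unfold XZ.pσ; field_simp))

theorem cd_mainX_int (hv : d.Valid) (m : ℕ) :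
    ∫ x, d.mainX m 0 x ≤ d.pτ * (3 * 10 ^ 4 * (d.B : ℝ) ^ 10) := by
  have hσ := cd_σ hv
  unfold XZ.mainX
  rw [integral_finsetSum _ fun _ _ => cd_int (cd_sum _ fun _ _ => cd_sum _ fun _ _ =>
    cd_sum _ fun _ _ => cd_smul (cd_bs hσ _) _)]
  refine le_trans (le_of_eq (Finset.sum_congr rfl fun k _ => ?_))
    ((cd_sum_le hv m (F := fun _ _ _ _ => 1) zero_le_one fun _ _ _ _ => le_rfl).trans (one_mul _).le)
  rw [integral_finsetSum _ fun _ _ => cd_int (cd_sum _ fun _ _ =>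
    cd_sum _ fun _ _ => cd_smul (cd_bs hσ _) _)]
  refine Finset.sum_congr rfl fun i _ => ?_
  rw [integral_finsetSum _ fun _ _ => cd_int (cd_sum _ fun _ _ => cd_smul (cd_bs hσ _) _)]
  refine Finset.sum_congr rfl fun j _ => ?_
  rw [integral_finsetSum _ fun _ _ => cd_int (cd_smul (cd_bs hσ _) _)]
  refine Finset.sum_congr rfl fun mir _ => ?_
  rw [integral_const_mul, bs_integral hσ]

theorem cd_mainY_eq (d : XZ) (t : ℕ) (y : ℝ) :
    d.mainY t y = 1 / 2 * (-1) ^ t * bs d.pσ (y - -1) + 1 / 2 * bs d.pσ (y - 1) := by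
  simp [XZ.mainY, rs]

theorem cd_mainY_cc (hv : d.Valid) (t : ℕ) : CCs (d.mainY t) :=
  cd_sum _ fun _ _ => cd_smul (cd_bs (cd_σ hv) _) _

theorem cd_mainY_abs (hv : d.Valid) (t : ℕ) (y : ℝ) : |d.mainY t y| ≤ d.mainY 0 y := by
  have h1 := bs_nonneg (cd_σ hv) (y - -1)
  have h2 := bs_nonneg (cd_σ hv) (y - 1)
  rw [cd_mainY_eq, cd_mainY_eq, abs_le]
  rcases neg_one_pow_eq_or ℝ t with h | h <;> rw [h] <;> constructor <;> linarith

theorem cd_mainY_le (hv : d.Valid) (y : ℝ) : d.mainY 0 y ≤ 4 * d.pQ := by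
  have h1 := bs_le (cd_σ hv) (y - -1)
  have h2 := bs_le (cd_σ hv) (y - 1)
  have e : 4 / d.pσ = 4 * d.pQ := by unfold XZ.pσ; field_simp
  rw [cd_mainY_eq]
  linarith

theorem cd_mainY_int (hv : d.Valid) : ∫ y, d.mainY 0 y = 1 := by
  have hσ := cd_σ hv
  simp only [cd_mainY_eq]
  rw [integral_add (cd_int (cd_smul (cd_bs hσ _) _)) (cd_int (cd_smul (cd_bs hσ _) _)),
    integral_const_mul, integral_const_mul, bs_integral hσ, bs_integral hσ]
  norm_num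

theorem cd_mainY_zero (hv : d.Valid) (t : ℕ) {y : ℝ} (hy : 5 / 2 ≤ |y|) : d.mainY t y = 0 := by
  have hσ := cd_σ hv
  have h1 : d.pσ ≤ 1 := (div_le_one (cd_Q0 hv)).2 (cd_Q1 hv)
  have h2 := abs_sub_abs_le_abs_sub y (-1)
  have h3 := abs_sub_abs_le_abs_sub y 1
  rw [abs_neg, abs_one] at h2
  rw [abs_one] at h3
  rw [cd_mainY_eq, bs_eq_zero hσ (by linarith), bs_eq_zero hσ (by linarith)]
  ring

theorem cd_dVec (e : Dot d.n) (b : Fin 3) : (d.dVec e b : ℝ) =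
    (d.xi e.1 e.2.1.1 e.2.1.2.1 e.2.1.2.2 e.2.2.1 : ℝ) ^ (ix b : ℕ) * (rs e.2.2.2 : ℝ) ^ (iy b : ℕ) := by
  fin_cases b <;> simp [XZ.dVec, ix, iy]

theorem cd_sum_eq (m : Fin d.n) (b b' : Fin 3) (x : Pos3) :
    ∑ e : Dot d.n, d.pτ / 4 * (d.dT e (m, b) (m, b') : ℝ) * d.dB c e x =
      d.mainX m (ix b + ix b') (x 0 - d.xm m) * d.mainY (iy b + iy b') (x 1 - 8 * (m : ℕ)) *
        d.eZ c (x 2) ^ 2 := by
  rw [Fintype.sum_prod_type]
  rw [Finset.sum_eq_single m]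
  · simp only [XZ.mainX, Finset.sum_range, Fintype.sum_prod_type, Finset.sum_mul]
    simp only [XZ.mainY, Finset.sum_mul, Finset.mul_sum]
    refine Finset.sum_congr rfl fun k _ => Finset.sum_congr rfl fun i _ =>
      Finset.sum_congr rfl fun j _ => Finset.sum_congr rfl fun mir _ =>
      Finset.sum_congr rfl fun r _ => ?_
    simp only [XZ.dT, and_self, if_true, XZ.dAmp, XZ.dB, dotB, tp, XZ.dX, XZ.dY, sub_add_eq_sub_sub]
    push_cast
    rw [cd_dVec, cd_dVec]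
    ring
  · intro m' _ hm
    refine Finset.sum_eq_zero fun e _ => ?_
    simp [XZ.dT, hm.symm]
  · simp

theorem cd_ptw {X Xm Xb Y Ym Yb dx dy q : ℝ} (hq0 : 0 ≤ q) (hq : q ≤ 1) (h1 : |Xm| ≤ Xb)
    (h2 : |Ym| ≤ Yb) (h3 : |X - Xm| ≤ q * Xb + dx) (h4 : |Y - Ym| ≤ q * Yb + dy) (h5 : 0 ≤ dy) :
    |X * Y - Xm * Ym| ≤ Xb * (3 * q * Yb + 2 * dy) + dx * |Y| := by
  have a0 : 0 ≤ Xb := (abs_nonneg _).trans h1
  have a1 : 0 ≤ Yb := (abs_nonneg _).trans h2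
  have a2 : |Y| ≤ 2 * Yb + dy := by
    have := abs_sub_abs_le_abs_sub Y Ym
    nlinarith
  have e : X * Y - Xm * Ym = (X - Xm) * Y + Xm * (Y - Ym) := by ring
  have a3 : |(X - Xm) * Y| ≤ (q * Xb + dx) * |Y| := by
    rw [abs_mul]; exact mul_le_mul_of_nonneg_right h3 (abs_nonneg _)
  have a4 : |Xm * (Y - Ym)| ≤ Xb * (q * Yb + dy) := by
    rw [abs_mul]; exact mul_le_mul h1 h4 (abs_nonneg _) a0
  have a5 : q * Xb * |Y| ≤ q * Xb * (2 * Yb + dy) := mul_le_mul_of_nonneg_left a2 (by positivity)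
  have a6 : q * (Xb * dy) ≤ 1 * (Xb * dy) := mul_le_mul_of_nonneg_right hq (by positivity)
  rw [e]
  refine (abs_add_le _ _).trans ?_
  nlinarith

theorem cd_chi_zero (hv : d.Valid) {a a' : Fin d.n × Fin 3} (h : a.1 ≠ a'.1) (x : Pos3) :
    d.chi N c a x * d.chi N c a' x = 0 := by
  obtain ⟨k, hk⟩ := eY_fac
  have hs := (hk d N hv).supp
  unfold XZ.chi
  by_cases h1 : 5 / 2 ≤ |x 1 - 8 * (a.1 : ℕ)|
  · rw [hs _ _ h1]; ring
  by_cases h2 : 5 / 2 ≤ |x 1 - 8 * (a'.1 : ℕ)|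
  · rw [hs _ _ h2]; ring
  exfalso
  obtain ⟨h3, h4⟩ := abs_lt.1 (not_le.1 h1)
  obtain ⟨h5, h6⟩ := abs_lt.1 (not_le.1 h2)
  have h7 : ((a.1 : ℕ) : ℝ) < (a'.1 : ℕ) + 1 := by linarith
  have h8 : ((a'.1 : ℕ) : ℝ) < (a.1 : ℕ) + 1 := by linarith
  have h9 : (a.1 : ℕ) < (a'.1 : ℕ) + 1 := by exact_mod_cast h7
  have h10 : (a'.1 : ℕ) < (a.1 : ℕ) + 1 := by exact_mod_cast h8
  exact h (Fin.ext (by omega))

/-- Decomposition of the density: dots, a remainder of small mass `R₁`, and a remainder `R₂` that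
is spread out along the first coordinate. -/
theorem chi_decomp (hv : d.Valid) (hZ : Fac1 lam W (d.eZ c) (2 * d.pw) η)
    (a a' : Fin d.n × Fin 3) : ∃ (R₁ : Pos3 → ℝ) (f₁ f₂ : ℝ → ℝ), CCs R₁ ∧ CCs f₁ ∧ CCs f₂ ∧
      (∀ x, |d.chi N c a x * d.chi N c a' x -
          ∑ e : Dot d.n, d.pτ / 4 * (d.dT e a a' : ℝ) * d.dB c e x| ≤
        R₁ x + tp f₁ f₂ (fun z => d.eZ c z ^ 2) x) ∧
      (∀ x, 0 ≤ R₁ x) ∧ (∫ x, R₁ x ≤ d.pτ * (10 ^ 6 * (d.B : ℝ) ^ 10) / d.pQ ^ 3) ∧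
      (∀ x, ∫ y, R₁ y / ‖x - y‖ ≤ d.pτ * (10 ^ 7 * (d.B : ℝ) ^ 10) * d.pQ) ∧
      (∀ x, 0 ≤ f₁ x ∧ f₁ x ≤ 1 / d.pQ ^ 25) ∧ (∫ x, f₁ x ≤ 2) ∧
      (∀ y, 0 ≤ f₂ y ∧ f₂ y ≤ 9 * d.pQ) ∧ (∫ y, f₂ y ≤ 1) := by
  have hQ := cd_Q hv
  have hQ0 := cd_Q0 hv
  have hQ1 := cd_Q1 hv
  have hτ := cd_τ hv
  have hB := cd_B hv
  by_cases hm : a.1 = a'.1
  swap
  · refine ⟨fun _ => 0, fun _ => 0, fun _ => 0, cd_zero, cd_zero, cd_zero, fun x => ?_,
      fun _ => le_rfl, ?_, fun x => ?_, fun _ => ⟨le_rfl, by positivity⟩, by simp,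
      fun _ => ⟨le_rfl, by positivity⟩, by simp⟩
    · rw [cd_chi_zero hv hm, Finset.sum_eq_zero fun e _ => ?_]
      · simp [tp]
      · rw [XZ.dT, if_neg fun h => hm (h.1.trans h.2.symm)]
        simp
    · simp only [integral_zero]; positivity
    · simp only [zero_div, integral_zero]; positivity
  obtain ⟨m, b⟩ := a
  obtain ⟨m', b'⟩ := a'
  simp only at hm
  subst hm
  obtain ⟨z1, z2, z3, -⟩ := cd_Z hZ
  obtain ⟨kx, hkx⟩ := eX_fac
  obtain ⟨ky, hky⟩ := eY_fac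
  have fX := hkx d N m hv m.2
  have fY := hky d N hv
  obtain ⟨x1, x2⟩ := cd_fac_abs fX (ix b) (ix b')
  obtain ⟨y1, y2⟩ := cd_fac_abs fY (iy b) (iy b')
  have dX := eX_density (N := N) hv m.2 (ix b) (ix b')
  have dY := eY_density (N := N) hv (iy b) (iy b')
  set q : ℝ := 1 / d.pQ ^ 3 with hq
  have hq0 : 0 < q := by positivity
  have hq1 : q ≤ 1 := (div_le_one (by positivity)).2 (one_le_pow₀ hQ1)
  set u : ℝ := 1 / d.pQ ^ 4 with hu
  have hu0 : 0 < u := by positivity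
  have huq : u * d.pQ = q := by rw [hu, hq]; field_simp
  have hqQ : q * d.pQ * 10 ^ 20 ≤ 1 := by
    have : q * d.pQ * d.pQ ^ 2 = 1 := by rw [hq]; field_simp
    have h2 : 10 ^ 20 ≤ d.pQ ^ 2 := hQ.trans (le_self_pow₀ hQ1 two_ne_zero)
    nlinarith [mul_pos hq0 hQ0]
  have hu1 : 12 * u ≤ q := by nlinarith
  set M : ℝ := d.pτ * (3 * 10 ^ 4 * (d.B : ℝ) ^ 10) with hM
  have hM0 : 0 ≤ M := by positivity
  have hM1 : M ≤ 1 := by
    have h1 := cd_QB hv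
    have h2 : d.pQ ≤ d.pQ ^ 5 := le_self_pow₀ hQ1 (by norm_num)
    rw [hM, XZ.pτ, one_div, inv_mul_le_iff₀ (by positivity)]
    nlinarith [pow_pos (lt_of_lt_of_le one_pos hB) 10]
  let X : ℝ → ℝ := fun x => d.eX N m (ix b) x * d.eX N m (ix b') x
  let Y : ℝ → ℝ := fun y => d.eY N (iy b) y * d.eY N (iy b') y
  let dx : ℝ → ℝ := fun x => max (|X x - d.mainX m (ix b + ix b') x| - q * d.mainX m 0 x) 0
  let g : ℝ → ℝ := fun y => 3 * q * d.mainY 0 y + 2 * (u * cut (5 / 2) (1 / 2) y)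
  have Xb0 : ∀ x, 0 ≤ d.mainX m 0 x := fun x => (abs_nonneg _).trans (cd_mainX_abs hv m 0 x)
  have Yb0 : ∀ y, 0 ≤ d.mainY 0 y := fun y => (abs_nonneg _).trans (cd_mainY_abs hv 0 y)
  have hdx : ∀ x, dx x ≤ |X x| + d.mainX m 0 x := fun x => by
    refine max_le ?_ (add_nonneg (abs_nonneg _) (Xb0 x))
    have h1 := abs_sub (X x) (d.mainX m (ix b + ix b') x)
    have h2 := cd_mainX_abs hv m (ix b + ix b') x
    have h3 := mul_nonneg hq0.le (Xb0 x)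
    linarith
  have c1 := cd_add x1 (cd_mainX_cc hv m 0)
  have cdx : CCs dx := cd_mono
    (((((cd_fac fX _ _).1.sub (cd_mainX_cc hv m _).1).abs).sub
      (continuous_const.mul (cd_mainX_cc hv m 0).1)).max continuous_const) c1
    (fun x => le_max_right _ _) hdx
  have cg : CCs g := cd_add (cd_smul (cd_mainY_cc hv 0) _) (cd_smul (cd_smul cd_cut _) _)
  have g0 : ∀ y, 0 ≤ g y := fun y => by
    have := Yb0 y
    have := cut_nonneg (5 / 2) (1 / 2) y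
    positivity
  have g1 : ∀ y, g y ≤ 1 := fun y => by
    have h1 := mul_le_mul_of_nonneg_left (cd_mainY_le hv y) hq0.le
    have h2 := mul_le_mul_of_nonneg_left (cut_le_one (5 / 2) (1 / 2) y) hu0.le
    have h3 : q ≤ q * d.pQ := le_mul_of_one_le_right hq0.le hQ1
    simp only [g]
    nlinarith
  have ig : ∫ y, g y ≤ 4 * q := by
    simp only [g]
    rw [integral_add (cd_int (cd_smul (cd_mainY_cc hv 0) _)) (cd_int (cd_smul (cd_smul cd_cut _) _)),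
      integral_const_mul, integral_const_mul, integral_const_mul, cd_mainY_int hv]
    have := mul_le_mul_of_nonneg_left cd_int_cut hu0.le
    linarith
  have hY : ∀ y, |Y y - d.mainY (iy b + iy b') y| ≤
      q * d.mainY 0 y + u * cut (5 / 2) (1 / 2) y := fun y => by
    by_cases hy : |y| ≤ 5 / 2
    · rw [cut_eq_one (by norm_num) hy, mul_one]
      exact (dY y).trans (le_of_eq (by rw [hq]; ring))
    · have hy' := (not_le.1 hy).le
      simp only [Y]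
      rw [fY.supp _ _ hy', cd_mainY_zero hv _ hy', cd_mainY_zero hv _ hy']
      simpa using mul_nonneg hu0.le (cut_nonneg (5 / 2) (1 / 2) y)
  have cXs := cd_shift (cd_mainX_cc hv m 0) (d.xm m)
  have cgs := cd_shift cg (8 * (m : ℕ))
  have iXs : ∫ x, d.mainX m 0 (x - d.xm m) ≤ M := by
    rw [integral_sub_right_eq_self (d.mainX m 0)]; exact cd_mainX_int hv m
  have igs : ∫ y, g (y - 8 * (m : ℕ)) ≤ 4 * q := by
    rw [integral_sub_right_eq_self g]; exact ig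
  refine ⟨tp (fun x => d.mainX m 0 (x - d.xm m)) (fun y => g (y - 8 * (m : ℕ)))
    fun z => d.eZ c z ^ 2, fun x => dx (x - d.xm m), fun y => |Y (y - 8 * (m : ℕ))|,
    cXs.tp cgs z1, cd_shift cdx _, cd_shift y1 _, fun x => ?_, fun x => ?_, ?_, fun x => ?_,
    fun x => ⟨le_max_right _ _, max_le ?_ (by positivity)⟩, ?_, fun y => ⟨abs_nonneg _, ?_⟩, ?_⟩
  · have e : d.chi N c (m, b) x * d.chi N c (m, b') x =
        X (x 0 - d.xm m) * Y (x 1 - 8 * (m : ℕ)) * d.eZ c (x 2) ^ 2 := by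
      simp only [XZ.chi, X, Y]; ring
    rw [e, cd_sum_eq, ← sub_mul, abs_mul, abs_of_nonneg (z2 _)]
    simp only [tp]
    rw [← add_mul]
    refine mul_le_mul_of_nonneg_right ?_ (z2 _)
    refine cd_ptw hq0.le hq1 (cd_mainX_abs hv _ _ _) (cd_mainY_abs hv _ _) ?_ (hY _)
      (mul_nonneg hu0.le (cut_nonneg _ _ _))
    have := le_max_left (|X (x 0 - d.xm m) - d.mainX m (ix b + ix b') (x 0 - d.xm m)| -
      q * d.mainX m 0 (x 0 - d.xm m)) 0
    simp only [dx]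
    linarith
  · exact mul_nonneg (mul_nonneg (Xb0 _) (g0 _)) (z2 _)
  · rw [integral_tp cXs cgs z1, z3, mul_one]
    refine (mul_le_mul iXs igs (integral_nonneg fun y => g0 _) hM0).trans ?_
    have e : d.pτ * (10 ^ 6 * (d.B : ℝ) ^ 10) / d.pQ ^ 3 = M * (100 / 3 * q) := by
      rw [hM, hq]; ring
    rw [e]
    exact mul_le_mul_of_nonneg_left (by linarith) hM0
  · have iq : 4 * q ≤ 1 := by
      have h3 : q ≤ q * d.pQ := le_mul_of_one_le_right hq0.le hQ1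
      nlinarith
    refine (pot_tp cXs cgs z1 (S₁ := 4 * d.pQ * M) (S₂ := 1) (m₁ := M) (m₂ := 1)
      (fun x => ⟨Xb0 _, cd_mainX_le hv m _⟩) (fun y => ⟨g0 _, g1 _⟩) z2 iXs (igs.trans iq) z3.le
      x).trans ?_
    have h1 : √(4 * d.pQ * M * M * 1 * 1) ≤ 2 * d.pQ * M := by
      refine Real.sqrt_le_iff.2 ⟨by positivity, ?_⟩
      have := mul_le_mul_of_nonneg_right hQ1 (by positivity : 0 ≤ 4 * d.pQ * M * M)
      nlinarith
    have e : d.pτ * (10 ^ 7 * (d.B : ℝ) ^ 10) * d.pQ = 1000 / 3 * (d.pQ * M) := by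
      rw [hM]; ring
    rw [e]
    nlinarith [mul_nonneg hQ0.le hM0]
  · have := dX (x - d.xm m)
    have e : d.mainX m 0 (x - d.xm m) / d.pQ ^ 3 = q * d.mainX m 0 (x - d.xm m) := by
      rw [hq]; ring
    simp only [X]
    linarith
  · rw [integral_sub_right_eq_self dx]
    refine (integral_mono (cd_int cdx) (cd_int c1) hdx).trans ?_
    rw [integral_add (cd_int x1) (cd_int (cd_mainX_cc hv m 0))]
    linarith [cd_mainX_int hv m]
  · have h1 := hY (y - 8 * (m : ℕ))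
    have h2 := abs_sub_abs_le_abs_sub (Y (y - 8 * (m : ℕ))) (d.mainY (iy b + iy b') (y - 8 * (m : ℕ)))
    have h3 := cd_mainY_abs hv (iy b + iy b') (y - 8 * (m : ℕ))
    have h4 := cd_mainY_le hv (y - 8 * (m : ℕ))
    have h5 := mul_le_mul_of_nonneg_left (cut_le_one (5 / 2) (1 / 2) (y - 8 * (m : ℕ))) hu0.le
    have h6 := mul_le_mul_of_nonneg_right hq1 (Yb0 (y - 8 * (m : ℕ)))
    linarith
  · rw [integral_sub_right_eq_self (fun y => |Y y|)]
    exact y2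

end Crest.Agent.R338
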