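import Crest.Agent.R338.CA

/-! Row 338: the Coulomb interaction of two dots. -/

set_option autoImplicit false

open MeasureTheory Crest.MathPhysics.ElectronicCoulomb

namespace Crest.Agent.R338

/-- A dot of width `σ` centred at `(X, Y, 0)`. -/
noncomputable def dotB (σ : ℝ) (Z : ℝ → ℝ) (X Y : ℝ) : Pos3 → ℝ :=
  tp (fun x => bs σ (x - X)) (fun y => bs σ (y - Y)) Z

variable {σ w : ℝ} {Z : ℝ → ℝ}

theorem ck_avg {α : Type*} [MeasurableSpace α] {μ : Measure α} {F Φ : α → ℝ} (hF : Integrable F μ)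
    (h0 : ∀ x, 0 ≤ F x) (h1 : ∫ x, F x ∂μ = 1) (hΦ : AEStronglyMeasurable Φ μ) {c ε : ℝ}
    (h : ∀ᵐ x ∂μ, F x ≠ 0 → |Φ x - c| ≤ ε) :
    Integrable (fun x => F x * Φ x) μ ∧ |∫ x, F x * Φ x ∂μ - c| ≤ ε := by
  have hb : ∀ᵐ x ∂μ, ‖F x * (Φ x - c)‖ ≤ ε * F x := by
    filter_upwards [h] with x hx
    by_cases h2 : F x = 0
    · simp [h2]
    · rw [Real.norm_eq_abs, abs_mul, abs_of_nonneg (h0 x), mul_comm]
      exact mul_le_mul_of_nonneg_right (hx h2) (h0 x)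
  have hi : Integrable (fun x => F x * (Φ x - c)) μ :=
    (hF.const_mul ε).mono' (hF.1.mul (hΦ.sub aestronglyMeasurable_const)) hb
  have e : (fun x => F x * Φ x) = fun x => F x * (Φ x - c) + c * F x := by
    funext x; ring
  rw [e]
  refine ⟨hi.add (hF.const_mul c), ?_⟩
  rw [integral_add hi (hF.const_mul c), integral_const_mul, h1, mul_one, add_sub_cancel_right]
  have := norm_integral_le_of_norm_le (hF.const_mul ε) hb
  rwa [integral_const_mul, h1, mul_one] at this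

theorem ck_rad {s : ℝ} (hs : 0 < s) : ∫ r in Set.Ioi (0 : ℝ), (1 - r / √(r ^ 2 + s ^ 2)) = s := by
  have hp : ∀ r : ℝ, 0 < r ^ 2 + s ^ 2 := fun r => by positivity
  have hd : ∀ r : ℝ, HasDerivAt (fun r : ℝ => r - √(r ^ 2 + s ^ 2))
      (1 - r / √(r ^ 2 + s ^ 2)) r := fun r => by
    have h1 := (((hasDerivAt_pow 2 r).add_const (s ^ 2)).sqrt (hp r).ne')
    have h2 := (hasDerivAt_id' r).sub h1
    refine h2.congr_deriv ?_
    have := (Real.sqrt_pos.2 (hp r)).ne'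
    norm_num
    field_simp
  have hle : ∀ r : ℝ, r ≤ √(r ^ 2 + s ^ 2) := fun r =>
    Real.le_sqrt_of_sq_le (by nlinarith)
  have ht : Filter.Tendsto (fun r : ℝ => r - √(r ^ 2 + s ^ 2)) Filter.atTop (nhds 0) := by
    have h3 : Filter.Tendsto (fun r : ℝ => -(s ^ 2 * r⁻¹)) Filter.atTop (nhds 0) := by
      simpa using (tendsto_inv_atTop_zero.const_mul (s ^ 2)).neg
    refine tendsto_of_tendsto_of_tendsto_of_le_of_le' h3 tendsto_const_nhds ?_
      (.of_forall fun r => by linarith [hle r])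
    filter_upwards [Filter.eventually_gt_atTop 0] with r hr
    have : √(r ^ 2 + s ^ 2) ≤ r + s ^ 2 * r⁻¹ := by
      refine Real.sqrt_le_iff.2 ⟨by positivity, ?_⟩
      have e : (r + s ^ 2 * r⁻¹) ^ 2 = r ^ 2 + 2 * s ^ 2 + (s ^ 2 * r⁻¹) ^ 2 := by
        field_simp; ring
      rw [e]; nlinarith [sq_nonneg (s ^ 2 * r⁻¹)]
    linarith
  rw [integral_Ioi_of_hasDerivAt_of_nonneg (hd 0).continuousAt.continuousWithinAt
    (fun r _ => hd r) (fun r _ => by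
      have := (div_le_one (Real.sqrt_pos.2 (hp r))).2 (hle r); linarith) ht]
  simp [Real.sqrt_sq hs.le]

noncomputable def ck_k (s : ℝ) (p : ℝ × ℝ) : ℝ :=
  |1 / √(p.1 ^ 2 + p.2 ^ 2) - 1 / √(p.1 ^ 2 + p.2 ^ 2 + s ^ 2)|

theorem ck_k_integral {s : ℝ} (hs : 0 < s) : ∫ p, ck_k s p = 2 * Real.pi * s := by
  rw [← integral_comp_polarCoord_symm]
  have e : ∫ p in polarCoord.target, p.1 • ck_k s (polarCoord.symm p) =
      ∫ p in Set.Ioi (0 : ℝ) ×ˢ Set.Ioo (-Real.pi) Real.pi,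
        (1 - p.1 / √(p.1 ^ 2 + s ^ 2)) * (1 : ℝ) := by
    refine setIntegral_congr_fun polarCoord.open_target.measurableSet fun p hp => ?_
    have hr : 0 < p.1 := hp.1
    have e1 : (p.1 * Real.cos p.2) ^ 2 + (p.1 * Real.sin p.2) ^ 2 = p.1 ^ 2 := by
      nlinarith [Real.sin_sq_add_cos_sq p.2]
    have h2 : p.1 ≤ √(p.1 ^ 2 + s ^ 2) := Real.le_sqrt_of_sq_le (by nlinarith)
    simp only [ck_k, polarCoord_symm_apply, e1, Real.sqrt_sq hr.le, smul_eq_mul]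
    rw [abs_of_nonneg (sub_nonneg.2 (one_div_le_one_div_of_le hr h2))]
    field_simp
  rw [e, Measure.volume_eq_prod, setIntegral_prod_mul (fun r : ℝ => 1 - r / √(r ^ 2 + s ^ 2))
    (fun _ : ℝ => (1 : ℝ)), ck_rad hs]
  have := Real.pi_pos
  simp [Real.volume_real_Ioo_of_le (show -Real.pi ≤ Real.pi by linarith)]
  ring

theorem ck_k_int {s : ℝ} (hs : 0 < s) : Integrable (ck_k s) :=
  Integrable.of_integral_ne_zero (by rw [ck_k_integral hs]; have := Real.pi_pos; positivity)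

theorem ck_kT {s : ℝ} (hs : 0 < s) (p : ℝ × ℝ) :
    Integrable (fun p' => ck_k s (p - p')) ∧ ∫ p', ck_k s (p - p') = 2 * Real.pi * s :=
  ⟨(ck_k_int hs).comp_sub_left p, by rw [integral_sub_left_eq_self, ck_k_integral hs]⟩

noncomputable def ck_e (q : ℝ × (ℝ × ℝ)) : Pos3 := !₂[q.2.1, q.2.2, q.1]

theorem ck_int (f : Pos3 → ℝ) : ∫ x, f x = ∫ q, f (ck_e q) := by
  have h1 := (volume_preserving_piFinSuccAbove (fun _ : Fin 3 => ℝ) 2).symm
  have h2 := (volume_preserving_finTwoArrow ℝ).symm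
  have h3 := (MeasurePreserving.id (volume : Measure ℝ)).prod h2
  have h4 := EuclideanSpace.volume_preserving_symm_measurableEquiv_toLp (Fin 3)
  have h5 := h4.symm
  let e : ℝ × (ℝ × ℝ) ≃ᵐ Pos3 :=
    (((MeasurableEquiv.refl ℝ).prodCongr (MeasurableEquiv.finTwoArrow (α := ℝ)).symm).trans
      (MeasurableEquiv.piFinSuccAbove (fun _ : Fin 3 => ℝ) 2).symm).trans
      (MeasurableEquiv.toLp 2 (Fin 3 → ℝ))
  have he : MeasurePreserving e := (h5.comp h1).comp h3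
  rw [← he.integral_comp']
  congr 1
  funext q
  congr 1
  ext i
  fin_cases i <;> rfl

noncomputable def ck_b (σ X Y : ℝ) (p : ℝ × ℝ) : ℝ := bs σ (p.1 - X) * bs σ (p.2 - Y)

theorem ck_bs_ccs (hσ : 0 < σ) (X : ℝ) : CCs fun x => bs σ (x - X) :=
  ⟨(bs_contDiff σ).continuous.comp (continuous_sub_right X),
    (bs_hasCompactSupport hσ).comp_homeomorph (Homeomorph.subRight X)⟩

theorem ck_ccs_int {f : ℝ → ℝ} (h : CCs f) : Integrable f :=
  h.1.integrable_of_hasCompactSupport h.2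

theorem ck_b_int (hσ : 0 < σ) (X Y : ℝ) : Integrable (ck_b σ X Y) :=
  (ck_ccs_int (ck_bs_ccs hσ X)).mul_prod (ck_ccs_int (ck_bs_ccs hσ Y))

theorem ck_b_integral (hσ : 0 < σ) (X Y : ℝ) : ∫ p, ck_b σ X Y p = 1 := by
  have := integral_prod_mul (μ := volume) (ν := volume) (fun x => bs σ (x - X))
    (fun y => bs σ (y - Y))
  rw [bs_integral hσ, bs_integral hσ, mul_one] at this
  exact this

theorem ck_b_nonneg (hσ : 0 < σ) (X Y : ℝ) (p : ℝ × ℝ) : 0 ≤ ck_b σ X Y p :=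
  mul_nonneg (bs_nonneg hσ _) (bs_nonneg hσ _)

theorem ck_b_le (hσ : 0 < σ) (X Y : ℝ) (p : ℝ × ℝ) : ck_b σ X Y p ≤ 16 / σ ^ 2 := by
  have := mul_le_mul (bs_le hσ (p.1 - X)) (bs_le hσ (p.2 - Y)) (bs_nonneg hσ _) (by positivity)
  refine this.trans (le_of_eq ?_)
  field_simp; norm_num

theorem ck_b_cont (σ X Y : ℝ) : Continuous (ck_b σ X Y) := by
  have := (bs_contDiff σ).continuous
  unfold ck_b
  fun_prop

theorem ck_b_supp (hσ : 0 < σ) {X Y : ℝ} {p : ℝ × ℝ} (h : ck_b σ X Y p ≠ 0) :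
    |p.1 - X| < σ / 2 ∧ |p.2 - Y| < σ / 2 :=
  ⟨lt_of_not_ge fun h1 => h (by rw [ck_b, bs_eq_zero hσ h1, zero_mul]),
    lt_of_not_ge fun h1 => h (by rw [ck_b, bs_eq_zero hσ h1, mul_zero])⟩

/-- The planar kernel. -/
noncomputable def ck_r (p p' : ℝ × ℝ) : ℝ := 1 / √((p.1 - p'.1) ^ 2 + (p.2 - p'.2) ^ 2)

theorem ck_r_meas : Measurable (Function.uncurry ck_r) := by
  unfold ck_r Function.uncurry
  fun_prop

theorem ck_r_nonneg (p p' : ℝ × ℝ) : 0 ≤ ck_r p p' := by unfold ck_r; positivity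

theorem ck_r_le {s : ℝ} (hs : 0 < s) (p p' : ℝ × ℝ) : ck_r p p' ≤ ck_k s (p - p') + 1 / s := by
  have h1 : s ≤ √((p.1 - p'.1) ^ 2 + (p.2 - p'.2) ^ 2 + s ^ 2) :=
    Real.le_sqrt_of_sq_le (by nlinarith [sq_nonneg (p.1 - p'.1), sq_nonneg (p.2 - p'.2)])
  have h2 := one_div_le_one_div_of_le hs h1
  have h3 := le_abs_self (1 / √((p.1 - p'.1) ^ 2 + (p.2 - p'.2) ^ 2) -
    1 / √((p.1 - p'.1) ^ 2 + (p.2 - p'.2) ^ 2 + s ^ 2))
  simp only [ck_r, ck_k, Prod.fst_sub, Prod.snd_sub]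
  linarith

/-- The planar potential. -/
noncomputable def ck_P (σ X Y : ℝ) (p : ℝ × ℝ) : ℝ := ∫ p', ck_b σ X Y p' * ck_r p p'

theorem ck_P_meas (σ X Y : ℝ) : StronglyMeasurable (ck_P σ X Y) := by
  have : Measurable (Function.uncurry fun p p' : ℝ × ℝ => ck_b σ X Y p' * ck_r p p') :=
    ((ck_b_cont σ X Y).measurable.comp measurable_snd).mul ck_r_meas
  exact this.stronglyMeasurable.integral_prod_right

theorem ck_P_bd (hσ : 0 < σ) (X Y : ℝ) (p : ℝ × ℝ) {s : ℝ} (hs : 0 < s) :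
    Integrable (fun p' => ck_b σ X Y p' * ck_r p p') ∧
      ck_P σ X Y p ≤ 16 / σ ^ 2 * (2 * Real.pi * s) + 1 / s := by
  have hi : Integrable fun p' => 16 / σ ^ 2 * ck_k s (p - p') + 1 / s * ck_b σ X Y p' :=
    ((ck_kT hs p).1.const_mul _).add ((ck_b_int hσ X Y).const_mul _)
  have hb : ∀ p', ‖ck_b σ X Y p' * ck_r p p'‖ ≤
      16 / σ ^ 2 * ck_k s (p - p') + 1 / s * ck_b σ X Y p' := fun p' => by
    have h1 := ck_b_nonneg hσ X Y p'
    have h2 := ck_b_le hσ X Y p'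
    have h3 := ck_r_le hs p p'
    have h4 : 0 ≤ ck_k s (p - p') := abs_nonneg _
    rw [Real.norm_eq_abs, abs_of_nonneg (mul_nonneg h1 (ck_r_nonneg _ _))]
    nlinarith [mul_le_mul_of_nonneg_left h3 h1, mul_le_mul_of_nonneg_right h2 h4]
  refine ⟨hi.mono' ((ck_b_cont σ X Y).measurable.mul
    (ck_r_meas.of_uncurry_left)).aestronglyMeasurable (.of_forall hb), ?_⟩
  have := norm_integral_le_of_norm_le hi (.of_forall hb)
  rw [integral_add ((ck_kT hs p).1.const_mul _) ((ck_b_int hσ X Y).const_mul _),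
    integral_const_mul, integral_const_mul, (ck_kT hs p).2, ck_b_integral hσ, mul_one] at this
  exact (le_abs_self _).trans this

theorem ck_P_nonneg (hσ : 0 < σ) (X Y : ℝ) (p : ℝ × ℝ) : 0 ≤ ck_P σ X Y p :=
  integral_nonneg fun p' => mul_nonneg (ck_b_nonneg hσ X Y p') (ck_r_nonneg _ _)

theorem ck_ustar_eq : ustar = ∫ p, ck_b 1 0 0 p * ck_P 1 0 0 p := by
  unfold ustar ck_P
  congr 1
  funext p
  rw [← integral_const_mul]
  congr 1
  funext p'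
  simp only [ck_b, ck_r, sub_zero]
  ring

theorem ck_ae_ne (p : ℝ × ℝ) :
    ∀ᵐ p' : ℝ × ℝ, 0 < (p.1 - p'.1) ^ 2 + (p.2 - p'.2) ^ 2 := by
  have : ∀ᵐ p' : ℝ × ℝ, p' ≠ p := by
    simp [ae_iff]
  filter_upwards [this] with p' h
  by_contra h1
  have h2 : p.1 - p'.1 = 0 := by nlinarith [sq_nonneg (p.1 - p'.1), sq_nonneg (p.2 - p'.2)]
  have h3 : p.2 - p'.2 = 0 := by nlinarith [sq_nonneg (p.1 - p'.1), sq_nonneg (p.2 - p'.2)]
  exact h (Prod.ext (by linarith) (by linarith))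

theorem ustar_bd : 7 / 10 ≤ ustar ∧ ustar ≤ 48 := by
  have h := (ck_avg (ck_b_int one_pos 0 0) (ck_b_nonneg one_pos 0 0) (ck_b_integral one_pos 0 0)
    (ck_P_meas 1 0 0).aestronglyMeasurable (c := 487 / 20) (ε := 473 / 20)
    (.of_forall fun p hp => ?_)).2
  · rw [← ck_ustar_eq, abs_le] at h
    constructor <;> linarith [h.1, h.2]
  obtain ⟨hi, hle⟩ := ck_P_bd one_pos 0 0 p (s := 1 / 10) (by norm_num)
  have hge : 7 / 10 ≤ ck_P 1 0 0 p := by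
    have h1 : ∫ p', 7 / 10 * ck_b 1 0 0 p' = 7 / 10 := by
      rw [integral_const_mul, ck_b_integral one_pos, mul_one]
    rw [← h1]
    refine integral_mono_ae ((ck_b_int one_pos 0 0).const_mul _) hi ?_
    filter_upwards [ck_ae_ne p] with p' hp'
    by_cases h0 : ck_b 1 0 0 p' = 0
    · simp [h0]
    obtain ⟨a1, a2⟩ := ck_b_supp one_pos hp
    obtain ⟨b1, b2⟩ := ck_b_supp one_pos h0
    rw [abs_lt] at a1 a2 b1 b2
    rw [mul_comm]
    refine mul_le_mul_of_nonneg_left ?_ (ck_b_nonneg one_pos 0 0 p')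
    have h2 : √((p.1 - p'.1) ^ 2 + (p.2 - p'.2) ^ 2) ≤ 10 / 7 := by
      refine Real.sqrt_le_iff.2 ⟨by norm_num, ?_⟩
      have c1 : (p.1 - p'.1) ^ 2 ≤ 1 := by nlinarith [a1.1, a1.2, b1.1, b1.2]
      have c2 : (p.2 - p'.2) ^ 2 ≤ 1 := by nlinarith [a2.1, a2.2, b2.1, b2.2]
      linarith
    have h3 := one_div_le_one_div_of_le (Real.sqrt_pos.2 hp') h2
    exact le_trans (by norm_num) h3
  have := Real.pi_lt_d2
  rw [abs_le]
  constructor <;> nlinarith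

theorem ck_scale (hσ : 0 < σ) (c : ℝ × ℝ) (f : ℝ × ℝ → ℝ) :
    ∫ p, f p = σ ^ 2 * ∫ u, f (c + σ • u) := by
  have h := Measure.integral_comp_smul (volume : Measure (ℝ × ℝ)) (fun u => f (c + u)) σ
  rw [h, integral_add_left_eq_self]
  simp only [Module.finrank_prod, Module.finrank_self, smul_eq_mul]
  rw [abs_of_nonneg (by positivity)]
  field_simp

theorem ck_b_scale (hσ : 0 < σ) (X Y : ℝ) (u : ℝ × ℝ) :
    ck_b σ X Y ((X, Y) + σ • u) = ck_b 1 0 0 u / σ ^ 2 := by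
  have e : ∀ a t : ℝ, bs σ (a + σ * t - a) = bs 1 (t - 0) / σ := fun a t => by
    rw [bs, bs]
    congr 1
    rw [div_one]
    congr 1
    field_simp
    ring
  simp only [ck_b, Prod.fst_add, Prod.snd_add, Prod.smul_fst, Prod.smul_snd, smul_eq_mul, e]
  field_simp

theorem ck_r_scale (hσ : 0 < σ) (c u u' : ℝ × ℝ) :
    ck_r (c + σ • u) (c + σ • u') = ck_r u u' / σ := by
  simp only [ck_r, Prod.fst_add, Prod.snd_add, Prod.smul_fst, Prod.smul_snd, smul_eq_mul]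
  rw [show (c.1 + σ * u.1 - (c.1 + σ * u'.1)) ^ 2 + (c.2 + σ * u.2 - (c.2 + σ * u'.2)) ^ 2 =
    σ ^ 2 * ((u.1 - u'.1) ^ 2 + (u.2 - u'.2) ^ 2) by ring, Real.sqrt_mul (by positivity),
    Real.sqrt_sq hσ.le, div_div, mul_comm]

theorem ck_self_plane (hσ : 0 < σ) (X Y : ℝ) :
    ∫ p, ck_b σ X Y p * ck_P σ X Y p = ustar / σ := by
  have hP : ∀ u, ck_P σ X Y ((X, Y) + σ • u) = ck_P 1 0 0 u / σ := fun u => by
    rw [ck_P, ck_scale hσ (X, Y), ck_P, ← integral_const_mul, ← integral_div]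
    congr 1
    funext u'
    rw [ck_b_scale hσ, ck_r_scale hσ]
    field_simp
  rw [ck_scale hσ (X, Y), ck_ustar_eq, ← integral_const_mul, ← integral_div]
  congr 1
  funext u
  rw [ck_b_scale hσ, hP]
  field_simp

noncomputable def ck_R (q q' : ℝ × (ℝ × ℝ)) : ℝ :=
  1 / √((q.2.1 - q'.2.1) ^ 2 + (q.2.2 - q'.2.2) ^ 2 + (q.1 - q'.1) ^ 2)

theorem ck_R_meas : Measurable (Function.uncurry ck_R) := by
  unfold ck_R Function.uncurry
  fun_prop

theorem ck_Cb (X Y : ℝ) : Cb (dotB σ Z X Y) (dotB σ Z X Y) =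
    ∫ q : ℝ × (ℝ × ℝ), Z q.1 * ck_b σ X Y q.2 *
      ∫ q' : ℝ × (ℝ × ℝ), Z q'.1 * ck_b σ X Y q'.2 * ck_R q q' := by
  rw [Cb, ck_int]
  congr 1
  funext q
  rw [ck_int, ← integral_const_mul]
  congr 1
  funext q'
  have e : ‖ck_e q - ck_e q'‖ =
      √((q.2.1 - q'.2.1) ^ 2 + (q.2.2 - q'.2.2) ^ 2 + (q.1 - q'.1) ^ 2) := by
    rw [EuclideanSpace.norm_eq]
    simp [Fin.sum_univ_three, ck_e]
  have e2 : ∀ q, dotB σ Z X Y (ck_e q) = Z q.1 * ck_b σ X Y q.2 := fun q => by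
    simp only [dotB, tp, ck_b]
    exact mul_comm _ _
  rw [e, e2, e2, ck_R]
  ring

theorem ck_pot (hσ : 0 < σ) (hZ : CCs Z) (h0 : ∀ z, 0 ≤ Z z) (h1 : ∫ z, Z z = 1) (hw : 0 < w)
    (h2 : ∀ z, w ≤ |z| → Z z = 0) (X Y : ℝ) {q : ℝ × (ℝ × ℝ)} (hq : |q.1| < w) :
    |(∫ q' : ℝ × (ℝ × ℝ), Z q'.1 * ck_b σ X Y q'.2 * ck_R q q') - ck_P σ X Y q.2| ≤
      16 / σ ^ 2 * (2 * Real.pi * (2 * w)) := by
  have hw2 : 0 < 2 * w := by positivity
  have iZ := ck_ccs_int hZ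
  have i1 : Integrable fun q' : ℝ × (ℝ × ℝ) => Z q'.1 * (ck_b σ X Y q'.2 * ck_r q.2 q'.2) :=
    iZ.mul_prod (ck_P_bd hσ X Y q.2 one_pos).1
  have e1 : ∫ q' : ℝ × (ℝ × ℝ), Z q'.1 * (ck_b σ X Y q'.2 * ck_r q.2 q'.2) = ck_P σ X Y q.2 := by
    have := integral_prod_mul (μ := volume) (ν := volume) Z
      (fun p' : ℝ × ℝ => ck_b σ X Y p' * ck_r q.2 p')
    rw [h1, one_mul] at this
    exact this
  have i2 : Integrable fun q' : ℝ × (ℝ × ℝ) =>
      Z q'.1 * (16 / σ ^ 2 * ck_k (2 * w) (q.2 - q'.2)) :=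
    iZ.mul_prod ((ck_kT hw2 q.2).1.const_mul _)
  have e2 : ∫ q' : ℝ × (ℝ × ℝ), Z q'.1 * (16 / σ ^ 2 * ck_k (2 * w) (q.2 - q'.2)) =
      16 / σ ^ 2 * (2 * Real.pi * (2 * w)) := by
    have := integral_prod_mul (μ := volume) (ν := volume) Z
      (fun p' : ℝ × ℝ => 16 / σ ^ 2 * ck_k (2 * w) (q.2 - p'))
    rw [h1, one_mul, integral_const_mul, (ck_kT hw2 q.2).2] at this
    exact this
  have hb : ∀ᵐ q' : ℝ × (ℝ × ℝ), ‖Z q'.1 * ck_b σ X Y q'.2 * ck_R q q' -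
      Z q'.1 * (ck_b σ X Y q'.2 * ck_r q.2 q'.2)‖ ≤
      Z q'.1 * (16 / σ ^ 2 * ck_k (2 * w) (q.2 - q'.2)) := by
    filter_upwards [Measure.quasiMeasurePreserving_snd.ae (ck_ae_ne q.2)] with q' hq'
    by_cases hz : Z q'.1 = 0
    · simp [hz]
    have hz' : |q'.1| < w := lt_of_not_ge fun h => hz (h2 _ h)
    have hs : (q.1 - q'.1) ^ 2 ≤ (2 * w) ^ 2 := by
      rw [abs_lt] at hq hz'
      exact sq_le_sq' (by linarith [hq.1, hz'.2]) (by linarith [hq.2, hz'.1])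
    have k1 : |ck_R q q' - ck_r q.2 q'.2| ≤ ck_k (2 * w) (q.2 - q'.2) := by
      simp only [ck_R, ck_r, ck_k, Prod.fst_sub, Prod.snd_sub]
      generalize (q.2.1 - q'.2.1) ^ 2 + (q.2.2 - q'.2.2) ^ 2 = a at hq' ⊢
      have a1 := one_div_le_one_div_of_le (Real.sqrt_pos.2 hq')
        (Real.sqrt_le_sqrt (show a ≤ a + (q.1 - q'.1) ^ 2 by nlinarith))
      have a2 := one_div_le_one_div_of_le
        (Real.sqrt_pos.2 (show 0 < a + (q.1 - q'.1) ^ 2 by positivity))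
        (Real.sqrt_le_sqrt (show a + (q.1 - q'.1) ^ 2 ≤ a + (2 * w) ^ 2 by linarith))
      rw [abs_sub_comm, abs_of_nonneg (by linarith), abs_of_nonneg (by linarith)]
      linarith
    rw [mul_assoc, ← mul_sub, ← mul_sub, Real.norm_eq_abs, abs_mul, abs_mul, abs_of_nonneg (h0 _),
      abs_of_nonneg (ck_b_nonneg hσ X Y _)]
    exact mul_le_mul_of_nonneg_left (mul_le_mul (ck_b_le hσ X Y _) k1 (abs_nonneg _)
      (by positivity)) (h0 _)
  have m1 : Measurable fun q' : ℝ × (ℝ × ℝ) => Z q'.1 * ck_b σ X Y q'.2 * ck_R q q' :=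
    ((hZ.1.measurable.comp measurable_fst).mul
      ((ck_b_cont σ X Y).measurable.comp measurable_snd)).mul ck_R_meas.of_uncurry_left
  have i3 := i2.mono' (m1.aestronglyMeasurable.sub i1.1) hb
  have i4 : Integrable fun q' : ℝ × (ℝ × ℝ) => Z q'.1 * ck_b σ X Y q'.2 * ck_R q q' := by
    simpa using i3.add i1
  rw [← e1, ← integral_sub i4 i1, ← e2]
  exact norm_integral_le_of_norm_le i2 hb

theorem Cb_dot_self (hσ : 0 < σ) (hZ : CCs Z) (h0 : ∀ z, 0 ≤ Z z) (h1 : ∫ z, Z z = 1) (hw : 0 < w)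
    (h2 : ∀ z, w ≤ |z| → Z z = 0) (X Y : ℝ) :
    |Cb (dotB σ Z X Y) (dotB σ Z X Y) - ustar / σ| ≤ 300 * w / σ ^ 2 := by
  have iZ := ck_ccs_int hZ
  have iF : Integrable fun q : ℝ × (ℝ × ℝ) => Z q.1 * ck_b σ X Y q.2 :=
    iZ.mul_prod (ck_b_int hσ X Y)
  have eF : ∫ q : ℝ × (ℝ × ℝ), Z q.1 * ck_b σ X Y q.2 = 1 := by
    have := integral_prod_mul (μ := volume) (ν := volume) Z (ck_b σ X Y)
    rw [h1, one_mul, ck_b_integral hσ] at this
    exact this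
  have mΦ : StronglyMeasurable fun q : ℝ × (ℝ × ℝ) =>
      ∫ q' : ℝ × (ℝ × ℝ), Z q'.1 * ck_b σ X Y q'.2 * ck_R q q' := by
    have : Measurable (Function.uncurry fun q q' : ℝ × (ℝ × ℝ) =>
        Z q'.1 * ck_b σ X Y q'.2 * ck_R q q') :=
      ((hZ.1.measurable.comp (measurable_fst.comp measurable_snd)).mul
        ((ck_b_cont σ X Y).measurable.comp (measurable_snd.comp measurable_snd))).mul ck_R_meas
    exact this.stronglyMeasurable.integral_prod_right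
  have mP : StronglyMeasurable fun q : ℝ × (ℝ × ℝ) => ck_P σ X Y q.2 :=
    (ck_P_meas σ X Y).comp_measurable measurable_snd
  obtain ⟨i1, b1⟩ := ck_avg iF (fun q => mul_nonneg (h0 _) (ck_b_nonneg hσ X Y _)) eF
    (mΦ.sub mP).aestronglyMeasurable (c := 0) (ε := 16 / σ ^ 2 * (2 * Real.pi * (2 * w)))
    (.of_forall fun q hq => by
      rw [sub_zero]
      exact ck_pot hσ hZ h0 h1 hw h2 X Y (lt_of_not_ge fun h => hq (by rw [h2 _ h, zero_mul])))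
  have iP := (ck_avg (ck_b_int hσ X Y) (ck_b_nonneg hσ X Y) (ck_b_integral hσ X Y)
    (ck_P_meas σ X Y).aestronglyMeasurable (c := 0)
    (ε := 16 / σ ^ 2 * (2 * Real.pi * 1) + 1 / 1) (.of_forall fun p _ => by
      rw [sub_zero, abs_of_nonneg (ck_P_nonneg hσ X Y p)]
      exact (ck_P_bd hσ X Y p one_pos).2)).1
  have i2 : Integrable fun q : ℝ × (ℝ × ℝ) => Z q.1 * (ck_b σ X Y q.2 * ck_P σ X Y q.2) :=
    iZ.mul_prod iP
  have e2 : ∫ q : ℝ × (ℝ × ℝ), Z q.1 * (ck_b σ X Y q.2 * ck_P σ X Y q.2) = ustar / σ := by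
    have := integral_prod_mul (μ := volume) (ν := volume) Z
      (fun p => ck_b σ X Y p * ck_P σ X Y p)
    rw [h1, one_mul, ck_self_plane hσ] at this
    exact this
  have e3 := integral_add i1 i2
  rw [e2] at e3
  rw [sub_zero, eq_sub_of_add_eq e3.symm] at b1
  refine le_trans (le_of_eq ?_) (b1.trans ?_)
  · rw [ck_Cb]
    congr 3
    funext q
    simp only [Pi.sub_apply]
    ring
  rw [div_mul_eq_mul_div]
  refine div_le_div_of_nonneg_right ?_ (by positivity)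
  nlinarith [Real.pi_lt_d2]

theorem ck_dot (hσ : 0 < σ) (hZ : CCs Z) (h0 : ∀ z, 0 ≤ Z z) (h1 : ∫ z, Z z = 1) (X Y : ℝ) :
    Integrable (dotB σ Z X Y) ∧ (∀ x, 0 ≤ dotB σ Z X Y x) ∧ (∫ x, dotB σ Z X Y x = 1) ∧
      Continuous (dotB σ Z X Y) := by
  have hi : ∫ x, dotB σ Z X Y x = 1 := by
    have := integral_prod_mul (μ := volume) (ν := volume) Z (ck_b σ X Y)
    rw [h1, one_mul, ck_b_integral hσ] at this
    rw [ck_int, ← this]
    congr 1
    funext q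
    simp only [dotB, tp, ck_b]
    exact mul_comm _ _
  refine ⟨Integrable.of_integral_ne_zero (by rw [hi]; exact one_ne_zero), fun x =>
    mul_nonneg (mul_nonneg (bs_nonneg hσ _) (bs_nonneg hσ _)) (h0 _), hi, ?_⟩
  have := (bs_contDiff σ).continuous
  have := hZ.1
  unfold dotB tp
  fun_prop

theorem ck_dot_supp (hσ : 0 < σ) (h2 : ∀ z, w ≤ |z| → Z z = 0) {X Y : ℝ} {x : Pos3}
    (h : dotB σ Z X Y x ≠ 0) : |x 0 - X| < σ / 2 ∧ |x 1 - Y| < σ / 2 ∧ |x 2| < w := by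
  refine ⟨lt_of_not_ge fun h1 => h ?_, lt_of_not_ge fun h1 => h ?_, lt_of_not_ge fun h1 => h ?_⟩
  · simp only [dotB, tp, bs_eq_zero hσ h1, zero_mul]
  · simp only [dotB, tp, bs_eq_zero hσ h1, zero_mul, mul_zero]
  · simp only [dotB, tp, h2 _ h1, mul_zero]

theorem Cb_dot_far (hσ : 0 < σ) (hσ' : σ ≤ 1 / 4) (hZ : CCs Z) (h0 : ∀ z, 0 ≤ Z z)
    (h1 : ∫ z, Z z = 1) (hw : 0 < w) (hw' : w ≤ 1 / 4) (h2 : ∀ z, w ≤ |z| → Z z = 0)
    {X Y X' Y' : ℝ} (hD : 2 ≤ √((X - X') ^ 2 + (Y - Y') ^ 2)) :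
    |Cb (dotB σ Z X Y) (dotB σ Z X' Y') - 1 / √((X - X') ^ 2 + (Y - Y') ^ 2)| ≤ 2 * (σ + w) := by
  obtain ⟨a1, a2, a3, -⟩ := ck_dot hσ hZ h0 h1 X Y
  obtain ⟨b1, b2, b3, b4⟩ := ck_dot hσ hZ h0 h1 X' Y'
  have e : Cb (dotB σ Z X Y) (dotB σ Z X' Y') =
      ∫ x, dotB σ Z X Y x * ∫ y, dotB σ Z X' Y' y * (1 / ‖x - y‖) := by
    rw [Cb]
    congr 1
    funext x
    rw [← integral_const_mul]
    congr 1
    funext y
    ring
  have m : Measurable (Function.uncurry fun x y : Pos3 => dotB σ Z X' Y' y * (1 / ‖x - y‖)) :=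
    (b4.measurable.comp measurable_snd).mul (by fun_prop)
  rw [e]
  refine (ck_avg a1 a2 a3 m.stronglyMeasurable.integral_prod_right.aestronglyMeasurable
    (.of_forall fun x hx => ?_)).2
  refine (ck_avg b1 b2 b3 (Measurable.aestronglyMeasurable (by fun_prop))
    (.of_forall fun y hy => ?_)).2
  obtain ⟨x0, x1, x2⟩ := ck_dot_supp hσ h2 hx
  obtain ⟨y0, y1, y2⟩ := ck_dot_supp hσ h2 hy
  rw [abs_lt] at x0 x1 x2 y0 y1 y2
  set d : Pos3 := !₂[X - X', Y - Y', 0] with hd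
  have nd : ‖d‖ = √((X - X') ^ 2 + (Y - Y') ^ 2) := by
    rw [EuclideanSpace.norm_eq]
    simp [Fin.sum_univ_three, hd]
  have n2 : ‖x - y - d‖ ≤ 2 * (σ + w) := by
    rw [EuclideanSpace.norm_eq]
    refine Real.sqrt_le_iff.2 ⟨by positivity, ?_⟩
    have c0 : (x 0 - y 0 - (X - X')) ^ 2 ≤ σ ^ 2 :=
      sq_le_sq' (by linarith [x0.1, y0.2]) (by linarith [x0.2, y0.1])
    have c1 : (x 1 - y 1 - (Y - Y')) ^ 2 ≤ σ ^ 2 :=
      sq_le_sq' (by linarith [x1.1, y1.2]) (by linarith [x1.2, y1.1])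
    have c2 : (x 2 - y 2) ^ 2 ≤ (2 * w) ^ 2 :=
      sq_le_sq' (by linarith [x2.1, y2.2]) (by linarith [x2.2, y2.1])
    simp only [Fin.sum_univ_three, hd, PiLp.sub_apply, Real.norm_eq_abs, sq_abs,
      Matrix.cons_val_zero, Matrix.cons_val_one, Matrix.cons_val, sub_zero]
    nlinarith [mul_pos hσ hw]
  have n3 := (abs_norm_sub_norm_le (x - y) d).trans n2
  rw [← nd] at hD ⊢
  generalize ‖x - y‖ = r at n3 ⊢
  generalize ‖d‖ = D at n3 hD ⊢
  have r1 : 1 ≤ r := by linarith [(abs_le.1 n3).1]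
  rw [div_sub_div _ _ (by positivity) (by positivity), abs_div, one_mul, mul_one, abs_sub_comm,
    abs_of_pos (show 0 < r * D by positivity)]
  exact (div_le_self (abs_nonneg _) (by nlinarith)).trans n3

end Crest.Agent.R338
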