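import Crest.Agent.R338.Defs

/-! Row 338: the dot model (finite dimensional), and the interfaces of the design of a smooth
potential and of its discretisation by point nuclei. -/

set_option autoImplicit false

open MeasureTheory Crest.MathPhysics.ElectronicCoulomb Crest.Agent.Lib.PT

namespace Crest.Agent.R338

/-! ### The dot model

Molecule `m < n` has the orbitals `(m, 0)` (core), `(m, 1)` (`Z = +1`), `(m, 2)` (`Z = -1`).
A dot is given by a molecule `m`, a slot `(k, i, j)`, a flag (`false`: primary, `true`: mirror)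
and a row (`false`: `+1`, `true`: `-1`). -/

/-- The sign of a row. -/
def rs (r : Bool) : ℚ := if r then -1 else 1

namespace XZ

variable (d : XZ)

/-- Amplitude of the charging dots. -/
def alc : ℚ := 10 ^ 4 * (d.B : ℚ) ^ 8

/-- The amplitude of the dots of molecule `m` in slot `(k, i, j)`. -/
def amp (m k i j : ℕ) : ℚ :=
  if i = j then (if m = i then (if k = 0 then 1 else if k = 2 then d.alc else 0) else 0)
  else if m = j then 1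
  else if m = i then
    (if k = 0 then d.zz i j * 4 / (2 / (8 * |(i : ℚ) - j|) + 1 / (8 * |(i : ℚ) - j| + 2) +
        1 / (8 * |(i : ℚ) - j| - 2))
     else if k = 1 then |d.zx i j| * ((8 * |(i : ℚ) - j|) ^ 2 - 4) / 2
     else d.xx i j * (8 * |(i : ℚ) - j|) * ((8 * |(i : ℚ) - j|) ^ 2 - 4) / 8)
  else 0

/-- The side of the primary dots of a slot. -/
def side (k i j : ℕ) : ℚ := if k = 1 ∧ d.zx i j < 0 then -1 else 1

/-- `0` for dots of `Z` type, `1` for dots of `X` type. -/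
def typ (m k : ℕ) : ℚ := if k = 0 then 0 else if k = 1 ∧ m < d.nd then 0 else 1

/-- The value of the orbital `(m, 1)` relative to the core orbital. -/
def xi (m k i j : ℕ) (mir : Bool) : ℚ := rs mir * d.typ m k * d.side k i j

def cc (m k : ℕ) : ℚ := (d.typ m k + 1) / 2

/-- Field on the `Z` column. -/
def phi (m : ℕ) : ℚ :=
  -d.az m - ∑ k ∈ Finset.range 3, ∑ i ∈ Finset.range d.n, ∑ j ∈ Finset.range d.n,
    2 * d.amp m k i j ^ 2 * d.cc m k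

/-- The strength of the weak potential on a dot. -/
def pot (U : ℚ) (m k i j : ℕ) (mir r : Bool) : ℚ :=
  -(U + 1) * d.amp m k i j -
    (if mir = true then 0 else ∑ m' ∈ Finset.range d.n, if m' = m then 0 else
      d.amp m' k i j * (2 + d.cc m' k) *
        (1 / |8 * ((m' : ℚ) - m) + 1 - rs r| + 1 / |8 * ((m' : ℚ) - m) - 1 - rs r|)) +
    (if mir = false ∧ i = j ∧ m = i then
      (if k = 0 then d.phi m else if k = 2 then rs r * d.ax m / (2 * d.alc) else 0) else 0)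

end XZ

/-- Dots: molecule, slot, mirror flag, row. -/
abbrev Dot (n : ℕ) : Type := Fin n × (Fin 3 × Fin n × Fin n) × Bool × Bool

/-- The idealised Coulomb kernel between dots. -/
def Kb {n : ℕ} (U : ℚ) (e e' : Dot n) : ℚ :=
  if e.2.1 = e'.2.1 then
    (if e.1 = e'.1 then (if e.2.2.1 = e'.2.2.1 then (if e.2.2.2 = e'.2.2.2 then U else 1 / 2) else 0)
     else if e.2.2.1 = false ∧ e'.2.2.1 = false then
       1 / |8 * (((e'.1 : ℕ) : ℚ) - (e.1 : ℕ)) + rs e'.2.2.2 - rs e.2.2.2| else 0)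
  else 0

namespace XZ

variable (d : XZ)

def dAmp (e : Dot d.n) : ℚ := d.amp e.1 e.2.1.1 e.2.1.2.1 e.2.1.2.2

def dPot (U : ℚ) (e : Dot d.n) : ℚ := d.pot U e.1 e.2.1.1 e.2.1.2.1 e.2.1.2.2 e.2.2.1 e.2.2.2

/-- The values `(1, ξ, r)` of the three orbitals on a dot, relative to the core orbital. -/
def dVec (e : Dot d.n) : Fin 3 → ℚ :=
  ![1, d.xi e.1 e.2.1.1 e.2.1.2.1 e.2.1.2.2 e.2.2.1, rs e.2.2.2]

/-- The matrix of the charge of a dot. -/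
def dT (e : Dot d.n) (a a' : Fin d.n × Fin 3) : ℚ :=
  if a.1 = e.1 ∧ a'.1 = e.1 then d.dAmp e * (d.dVec e a.2 * d.dVec e a'.2) else 0

def wbar (U : ℚ) (a a' b b' : Fin d.n × Fin 3) : ℝ :=
  ((∑ e : Dot d.n, ∑ e' : Dot d.n, d.dT e a a' * Kb U e e' * d.dT e' b b' : ℚ) : ℝ)

def vbar (U : ℚ) (a a' : Fin d.n × Fin 3) : ℝ :=
  ((∑ e : Dot d.n, d.dPot U e * d.dT e a a' : ℚ) : ℝ)

end XZ

/-- Core orbitals. -/
abbrev core3 {n : ℕ} (a : Fin n × Fin 3) : Prop := a.2 = 0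

/-! ### Smooth potentials -/

/-- Rational points. -/
abbrev Q3 : Type := ℚ × ℚ × ℚ

def Q3.vec (p : Q3) : Fin 3 → ℚ := ![p.1, p.2.1, p.2.2]

noncomputable def rp (p : Q3) : Pos3 := Crest.MathPhysics.CoulombProblem.realPos p.vec

/-- `C^k` with all derivatives of order at most `k` bounded by `A`. -/
def SB (k : ℕ) (A : ℝ) (f : Pos3 → ℝ) : Prop :=
  ContDiff ℝ k f ∧ ∀ j ≤ k, ∀ x, ‖iteratedFDeriv ℝ j f x‖ ≤ A

def SuppIn (r : ℝ) (f : Pos3 → ℝ) : Prop := ∀ x, r ≤ ‖x‖ → f x = 0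

noncomputable def lap (f : Pos3 → ℝ) (x : Pos3) : ℝ := ∑ k, pd k (pd k f) x

/-- Dirichlet integral. -/
noncomputable def dir (u : Pos3 → ℝ) : ℝ := ∑ k, ∫ x, pd k u x ^ 2

/-- A potential `κ |x|² + Vc` that can be produced by a positive charge density. -/
structure DiscIn (κ r₀ A : ℝ) (Vc : Pos3 → ℝ) : Prop where
  A_ge : 2 ≤ A
  κ_bd : 1 ≤ κ ∧ κ ≤ A
  r_bd : 1 ≤ r₀ ∧ r₀ ≤ A
  sb : SB 6 A Vc
  supp : SuppIn r₀ Vc
  lap_le : ∀ x, |lap Vc x| ≤ 5 * κ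

/-- The attraction `-q Vn R` of the nuclei approximates `E₀ + κ |x|² + Vc`. -/
structure DiscOut (κ r₀ : ℝ) (Vc : Pos3 → ℝ) (q E₀ : ℝ) {K : ℕ} (R : Fin K → Pos3)
    (δ₁ δ₂ δ₃ : ℝ) : Prop where
  d1 : ∀ u : Pos3 → ℝ, ContDiff ℝ 1 u → HasCompactSupport u →
    (∫ x, (q * Vn R x + (E₀ + κ * min (‖x‖ ^ 2) (r₀ ^ 2) + Vc x)) * u x ^ 2) ≤
      δ₁ * (dir u + ∫ x, u x ^ 2)
  d2 : ∫ x in Metric.ball (0 : Pos3) r₀, (q * Vn R x + (E₀ + κ * ‖x‖ ^ 2 + Vc x)) ^ 2 ≤ δ₂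
  d3 : ∀ (g : Pos3 → ℝ) (G : ℝ), SB 4 G g → SuppIn r₀ g →
    |∫ x, (q * Vn R x + (E₀ + κ * ‖x‖ ^ 2 + Vc x)) * g x| ≤ δ₃ * G

/-- The one-body problem for the smooth potential `c²/2 min(|x|², r₀²) + V₀`. -/
structure OB0 {ι : Type} [Fintype ι] [DecidableEq ι] (χ : ι → Pos3 → ℝ) (core : ι → Prop)
    [DecidablePred core] (V₀ : Pos3 → ℝ) (lam c r₀ A η₀ : ℝ) : Prop where
  lam_bd : 1 / A ≤ lam ∧ lam ≤ 1
  c_bd : 2 ≤ c ∧ c ^ 2 ≤ A
  r_bd : 1 ≤ r₀ ∧ r₀ ≤ A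
  V_sb : SB 6 A V₀
  V_supp : SuppIn r₀ V₀
  V_lap : ∀ x, |lap V₀ x| ≤ 9 / 4 * c ^ 2
  χ_sb : ∀ a, SB 4 A (χ a)
  χ_supp : ∀ a, SuppIn r₀ (χ a)
  on : ∀ a b, ∫ x, χ a x * χ b x = if a = b then 1 else 0
  res : ∀ a, ∀ u : Pos3 → ℝ, ContDiff ℝ 1 u → HasCompactSupport u →
    |qf (fun x => -(c ^ 2 / 2 * min (‖x‖ ^ 2) (r₀ ^ 2) + V₀ x)) (χ a) u -
      (c / 2 + if core a then 0 else lam) * ∫ x, χ a x * u x| ≤ η₀ * √(∫ x, u x ^ 2)
  gap : ∀ u : Pos3 → ℝ, ContDiff ℝ 1 u → HasCompactSupport u → (∀ a, ∫ x, χ a x * u x = 0) →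
    (c / 2 + 7 / 4 * lam) * ∫ x, u x ^ 2 ≤
      qf (fun x => -(c ^ 2 / 2 * min (‖x‖ ^ 2) (r₀ ^ 2) + V₀ x)) u u

/-- The smooth design realises the dot model of `d`. -/
structure Design (d : XZ) (U : ℚ) (m lam c r₀ A η₀ : ℝ) (V₀ v : Pos3 → ℝ)
    (χ : Fin d.n × Fin 3 → Pos3 → ℝ) : Prop where
  ob : OB0 χ core3 V₀ lam c r₀ A η₀
  U_bd : (1 / 2 : ℚ) ≤ U ∧ (U : ℝ) ≤ A
  m_bd : 1 / A ≤ m ∧ m ≤ 1
  v_sb : SB 6 A v
  v_supp : SuppIn r₀ v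
  w_near : ∀ a a' b b', |coul χ a a' b b' - m ^ 2 * d.wbar U a a' b b'| ≤
    m ^ 2 / (2000 * (d.B : ℝ) ^ 5)
  v_near : ∀ a a', |(∫ x, v x * (χ a x * χ a' x)) - m ^ 2 * d.vbar U a a'| ≤
    m ^ 2 / (2000 * (d.B : ℝ) ^ 5)

end Crest.Agent.R338
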