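import Crest.Agent.R338.MDefs
import Crest.Agent.R338.Defs2

/-! Row 338: integrability of the Coulomb singularities, and the one-body forms as bilinear maps
on the space of `C¹_c` functions. -/

set_option autoImplicit false

open MeasureTheory Crest.MathPhysics.ElectronicCoulomb

namespace Crest.Agent.R338

/-! ### local integrability -/

theorem oi_li_translate {f : Pos3 → ℝ} (h : LocallyIntegrable f) (z : Pos3) :
    LocallyIntegrable fun x => f (x - z) := by
  rw [locallyIntegrable_iff] at h ⊢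
  intro K hK
  have hK' : IsCompact ((fun x => x - z) '' K) := hK.image (by fun_prop)
  have h1 := h _ hK'
  have h2 := (measurePreserving_sub_right (volume : Measure Pos3) z).integrableOn_comp_preimage
    (Homeomorph.subRight z).measurableEmbedding (f := f) (s := (fun x => x - z) '' K)
  exact (h2.2 h1).mono_set (Set.subset_preimage_image _ _)

theorem oi_li_inv (z : Pos3) : LocallyIntegrable fun x : Pos3 => 1 / ‖x - z‖ := by
  refine oi_li_translate (f := fun x => 1 / ‖x‖) ?_ z
  refine locallyIntegrable_of_norm_le_rpow (by simp) (C := 1) (α := 1) (by simp) ?_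
    (Measurable.aestronglyMeasurable (by fun_prop))
  refine ae_of_all _ fun x => ?_
  rw [Real.rpow_neg (norm_nonneg _), Real.rpow_one, Real.norm_of_nonneg (by positivity)]
  simp

theorem oi_li_inv_sq (z : Pos3) : LocallyIntegrable fun x : Pos3 => 1 / ‖x - z‖ ^ 2 := by
  refine oi_li_translate (f := fun x => 1 / ‖x‖ ^ 2) ?_ z
  refine locallyIntegrable_of_norm_le_rpow (by simp) (C := 1) (α := 2) (by simp; norm_num) ?_
    (Measurable.aestronglyMeasurable (by fun_prop))
  refine ae_of_all _ fun x => ?_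
  rw [Real.rpow_neg (norm_nonneg _), Real.rpow_two, Real.norm_of_nonneg (by positivity)]
  simp

theorem oi_measurable_Vn {K : ℕ} (R : Fin K → Pos3) : Measurable (Vn R) := by
  unfold Vn; fun_prop

theorem oi_Vn_nonneg {K : ℕ} (R : Fin K → Pos3) (x : Pos3) : 0 ≤ Vn R x :=
  Finset.sum_nonneg fun _ _ => by positivity

theorem oi_li_Vn {K : ℕ} (R : Fin K → Pos3) : LocallyIntegrable (Vn R) :=
  locallyIntegrable_finsetSum _ fun α _ => oi_li_inv (R α)

theorem oi_li_const_mul {f : Pos3 → ℝ} (h : LocallyIntegrable f) (c : ℝ) :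
    LocallyIntegrable fun x => c * f x := h.smul c

theorem oi_li_Vn_sq {K : ℕ} (R : Fin K → Pos3) : LocallyIntegrable fun x => Vn R x ^ 2 := by
  have h : LocallyIntegrable fun x : Pos3 => (K : ℝ) * ∑ α, 1 / ‖x - R α‖ ^ 2 :=
    oi_li_const_mul (locallyIntegrable_finsetSum _ fun α _ => oi_li_inv_sq (R α)) _
  refine h.mono ((oi_measurable_Vn R).pow_const 2).aestronglyMeasurable (ae_of_all _ fun x => ?_)
  rw [Real.norm_of_nonneg (sq_nonneg _), Real.norm_of_nonneg (by positivity)]
  have := sq_sum_le_card_mul_sum_sq (s := Finset.univ) (f := fun α => 1 / ‖x - R α‖)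
  simpa [Vn] using this

/-- `(q Vn + g)²` is locally integrable for continuous `g`. -/
theorem oi_li_sq {K : ℕ} (R : Fin K → Pos3) (q : ℝ) {g : Pos3 → ℝ} (hg : Continuous g) :
    LocallyIntegrable fun x => (q * Vn R x + g x) ^ 2 := by
  have h : LocallyIntegrable fun x : Pos3 => 2 * q ^ 2 * Vn R x ^ 2 + 2 * g x ^ 2 :=
    (oi_li_const_mul (oi_li_Vn_sq R) _).add (Continuous.locallyIntegrable (by fun_prop))
  refine h.mono ((((oi_measurable_Vn R).const_mul q).add hg.measurable).pow_const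
    2).aestronglyMeasurable (ae_of_all _ fun x => ?_)
  rw [Real.norm_of_nonneg (sq_nonneg _), Real.norm_of_nonneg (by positivity)]
  nlinarith [sq_nonneg (q * Vn R x - g x)]

theorem oi_int_mul {V f : Pos3 → ℝ} (hV : LocallyIntegrable V) (hf : CC f) :
    Integrable fun x => V x * f x :=
  hV.integrable_smul_right_of_hasCompactSupport hf.1 hf.2

theorem oi_int {f : Pos3 → ℝ} (hf : CC f) : Integrable f :=
  hf.1.integrable_of_hasCompactSupport hf.2

theorem oi_cc_mul {f g : Pos3 → ℝ} (hf : CC f) (hg : Continuous g) : CC fun x => f x * g x :=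
  ⟨hf.1.mul hg, hf.2.mul_right⟩

theorem oi_cc_sq {f : Pos3 → ℝ} (hf : CC f) : CC fun x => f x ^ 2 := by
  simpa only [sq] using oi_cc_mul hf hf.1

theorem oi_cc_pd {f : Pos3 → ℝ} (h : C1 f) (k : Fin 3) : CC (pd k f) :=
  ⟨(h.1.continuous_fderiv one_ne_zero).clm_apply continuous_const,
    h.2.fderiv_apply (𝕜 := ℝ) _⟩

theorem oi_cs_of_suppIn {r : ℝ} {f : Pos3 → ℝ} (h : SuppIn r f) : HasCompactSupport f :=
  HasCompactSupport.intro (isCompact_closedBall (0 : Pos3) r) fun x hx =>
    h x (by rw [mem_closedBall_zero_iff, not_le] at hx; exact hx.le)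

theorem SB.oi_abs_le {k : ℕ} {A : ℝ} {f : Pos3 → ℝ} (h : SB k A f) (x : Pos3) : |f x| ≤ A := by
  simpa using h.2 0 (Nat.zero_le _) x

theorem SB.oi_mul {A B : ℝ} {f g : Pos3 → ℝ} (hf : SB 4 A f) (hg : SB 4 B g) :
    SB 4 (16 * (A * B)) fun x => f x * g x := by
  refine ⟨hf.1.mul hg.1, fun j hj x => ?_⟩
  have hA : 0 ≤ A := (abs_nonneg _).trans (hf.oi_abs_le 0)
  have hB : 0 ≤ B := (abs_nonneg _).trans (hg.oi_abs_le 0)
  refine (norm_iteratedFDeriv_mul_le hf.1 hg.1 x (n := j) (by exact_mod_cast hj)).trans ?_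
  calc ∑ i ∈ Finset.range (j + 1),
        (j.choose i : ℝ) * ‖iteratedFDeriv ℝ i f x‖ * ‖iteratedFDeriv ℝ (j - i) g x‖
      ≤ ∑ i ∈ Finset.range (j + 1), (j.choose i : ℝ) * (A * B) := by
        refine Finset.sum_le_sum fun i hi => ?_
        have hi' : i ≤ 4 := by have := Finset.mem_range.1 hi; omega
        rw [mul_assoc]
        exact mul_le_mul_of_nonneg_left (mul_le_mul (hf.2 i hi' x) (hg.2 _ (by omega) x)
          (norm_nonneg _) hA) (Nat.cast_nonneg _)
    _ = (2 : ℝ) ^ j * (A * B) := by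
        rw [← Finset.sum_mul, ← Nat.cast_sum, Nat.sum_range_choose]; norm_num
    _ ≤ 16 * (A * B) := by
        refine mul_le_mul_of_nonneg_right ?_ (mul_nonneg hA hB)
        calc (2 : ℝ) ^ j ≤ 2 ^ 4 := pow_le_pow_right₀ (by norm_num) hj
          _ = 16 := by norm_num

/-- `∫_{B(y,1)} |x-y|⁻² = 4π`. -/
theorem oi_integral_ball (y : Pos3) :
    ∫ x in Metric.ball y 1, 1 / ‖x - y‖ ^ 2 = 4 * Real.pi := by
  have h1 : ∫ x in Metric.ball y 1, 1 / ‖x - y‖ ^ 2 =
      ∫ x : Pos3, (Set.Iio (1 : ℝ)).indicator (fun r => 1 / r ^ 2) ‖x - y‖ := by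
    rw [← integral_indicator Metric.isOpen_ball.measurableSet]
    refine integral_congr_ae (ae_of_all _ fun x => ?_)
    simp only [Set.indicator, Metric.mem_ball, dist_eq_norm, Set.mem_Iio]
  rw [h1, integral_sub_right_eq_self
    (fun x : Pos3 => (Set.Iio (1 : ℝ)).indicator (fun r => 1 / r ^ 2) ‖x‖) y,
    integral_fun_norm_addHaar volume ((Set.Iio (1 : ℝ)).indicator fun r => 1 / r ^ 2)]
  have h2 : ∫ r in Set.Ioi (0 : ℝ), r ^ (Module.finrank ℝ Pos3 - 1) •
      (Set.Iio (1 : ℝ)).indicator (fun r => 1 / r ^ 2) r = 1 := by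
    have h3 : ∫ r in Set.Ioi (0 : ℝ), r ^ (Module.finrank ℝ Pos3 - 1) •
        (Set.Iio (1 : ℝ)).indicator (fun r => 1 / r ^ 2) r =
        ∫ r in Set.Ioi (0 : ℝ), (Set.Iio (1 : ℝ)).indicator (fun _ => (1 : ℝ)) r := by
      refine setIntegral_congr_fun measurableSet_Ioi fun r hr => ?_
      have hr' : r ≠ 0 := (Set.mem_Ioi.1 hr).ne'
      by_cases h : r < 1
      · simp only [finrank_euclideanSpace, Fintype.card_fin, Set.indicator, Set.mem_Iio, h, if_true,
          smul_eq_mul]
        field_simp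
      · simp [Set.indicator, h]
    rw [h3, integral_indicator measurableSet_Iio, Measure.restrict_restrict measurableSet_Iio,
      Set.Iio_inter_Ioi]
    simp
  rw [h2]
  simp only [finrank_euclideanSpace, Fintype.card_fin, Measure.real,
    EuclideanSpace.volume_ball_fin_three, ENNReal.ofReal_one, one_pow, one_mul, smul_eq_mul, mul_one,
    nsmul_eq_mul]
  rw [ENNReal.toReal_ofReal (by positivity)]
  push_cast
  ring

/-! ### forms on `C¹_c` -/

/-- The space of `C¹` functions with compact support. -/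
def oiS : Submodule ℝ (Pos3 → ℝ) where
  carrier := {u | C1 u}
  add_mem' := fun ha hb => ⟨ha.1.add hb.1, ha.2.add hb.2⟩
  zero_mem' := ⟨contDiff_const, HasCompactSupport.zero⟩
  smul_mem' := fun c _ ha => ⟨ha.1.const_smul c, ha.2.smul_left (f := fun _ => c)⟩

theorem oiS.c1 (u : oiS) : C1 u.1 := u.2

theorem oi_pd_add {u w : Pos3 → ℝ} (hu : C1 u) (hw : C1 w) (k : Fin 3) (x : Pos3) :
    pd k (u + w) x = pd k u x + pd k w x := by
  unfold pd
  rw [fderiv_add (hu.1.differentiable one_ne_zero x) (hw.1.differentiable one_ne_zero x)]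
  rfl

theorem oi_pd_smul {u : Pos3 → ℝ} (hu : C1 u) (c : ℝ) (k : Fin 3) (x : Pos3) :
    pd k (c • u) x = c * pd k u x := by
  unfold pd
  rw [fderiv_const_smul (hu.1.differentiable one_ne_zero x)]
  rfl

theorem oi_qf_symm (V u w : Pos3 → ℝ) : qf V u w = qf V w u := by
  unfold qf
  simp only [mul_comm (u _), mul_comm (pd _ u _)]

theorem oi_qf_add {V u w u' : Pos3 → ℝ} (hV : LocallyIntegrable V) (hu : C1 u) (hw : C1 w)
    (hu' : C1 u') : qf V (u + w) u' = qf V u u' + qf V w u' := by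
  unfold qf
  have h1 : ∀ k, ∫ x, pd k (u + w) x * pd k u' x =
      (∫ x, pd k u x * pd k u' x) + ∫ x, pd k w x * pd k u' x := by
    intro k
    rw [← integral_add (oi_int (oi_cc_mul (oi_cc_pd hu k) (oi_cc_pd hu' k).1))
      (oi_int (oi_cc_mul (oi_cc_pd hw k) (oi_cc_pd hu' k).1))]
    refine integral_congr_ae (ae_of_all _ fun x => ?_)
    simp only [oi_pd_add hu hw, add_mul]
  have h2 : ∫ x, V x * ((u + w) x * u' x) = (∫ x, V x * (u x * u' x)) + ∫ x, V x * (w x * u' x) := by
    rw [← integral_add (oi_int_mul hV (oi_cc_mul hu.cc hu'.cc.1))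
      (oi_int_mul hV (oi_cc_mul hw.cc hu'.cc.1))]
    refine integral_congr_ae (ae_of_all _ fun x => ?_)
    simp only [Pi.add_apply]; ring
  simp only [h1, h2, Finset.sum_add_distrib]
  ring

theorem oi_qf_smul (V : Pos3 → ℝ) {u : Pos3 → ℝ} (hu : C1 u) (c : ℝ) (u' : Pos3 → ℝ) :
    qf V (c • u) u' = c * qf V u u' := by
  unfold qf
  have h1 : ∀ k, ∫ x, pd k (c • u) x * pd k u' x = c * ∫ x, pd k u x * pd k u' x := by
    intro k
    rw [← integral_const_mul]
    refine integral_congr_ae (ae_of_all _ fun x => ?_)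
    simp only [oi_pd_smul hu, mul_assoc]
  have h2 : ∫ x, V x * ((c • u) x * u' x) = c * ∫ x, V x * (u x * u' x) := by
    rw [← integral_const_mul]
    refine integral_congr_ae (ae_of_all _ fun x => ?_)
    simp only [Pi.smul_apply, smul_eq_mul]; ring
  simp only [h1, h2, ← Finset.mul_sum]
  ring

/-- `qf V` as a bilinear map. -/
noncomputable def oiQ {V : Pos3 → ℝ} (hV : LocallyIntegrable V) : oiS →ₗ[ℝ] oiS →ₗ[ℝ] ℝ :=
  LinearMap.mk₂ ℝ (fun u w => qf V u.1 w.1)
    (fun u u' w => oi_qf_add hV u.2 u'.2 w.2)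
    (fun c u w => oi_qf_smul V u.2 c w.1)
    (fun u w w' => by
      rw [oi_qf_symm, oi_qf_symm V u.1, oi_qf_symm V u.1]
      exact oi_qf_add hV w.2 w'.2 u.2)
    (fun c u w => by
      rw [oi_qf_symm, oi_qf_symm V u.1]
      exact oi_qf_smul V w.2 c u.1)

theorem oiQ_apply {V : Pos3 → ℝ} (hV : LocallyIntegrable V) (u w : oiS) :
    oiQ hV u w = qf V u.1 w.1 := rfl

/-- The `L²` inner product as a bilinear map. -/
noncomputable def oiN : oiS →ₗ[ℝ] oiS →ₗ[ℝ] ℝ :=
  LinearMap.mk₂ ℝ (fun u w => ∫ x, u.1 x * w.1 x)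
    (fun u u' w => by
      rw [← integral_add (oi_int (oi_cc_mul u.2.cc w.2.cc.1)) (oi_int (oi_cc_mul u'.2.cc w.2.cc.1))]
      exact integral_congr_ae (ae_of_all _ fun x => add_mul _ _ _))
    (fun c u w => by
      rw [smul_eq_mul, ← integral_const_mul]
      exact integral_congr_ae (ae_of_all _ fun x => mul_assoc _ _ _))
    (fun u w w' => by
      rw [← integral_add (oi_int (oi_cc_mul u.2.cc w.2.cc.1)) (oi_int (oi_cc_mul u.2.cc w'.2.cc.1))]
      exact integral_congr_ae (ae_of_all _ fun x => mul_add _ _ _))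
    (fun c u w => by
      rw [smul_eq_mul, ← integral_const_mul]
      exact integral_congr_ae (ae_of_all _ fun x => mul_left_comm _ _ _))

theorem oiN_apply (u w : oiS) : oiN u w = ∫ x, u.1 x * w.1 x := rfl

theorem oiN_self (u : oiS) : oiN u u = ∫ x, u.1 x ^ 2 := by
  simp only [oiN_apply, sq]

theorem oiN_symm (u w : oiS) : oiN u w = oiN w u := by
  simp only [oiN_apply, mul_comm]

/-- Changing the potential. -/
theorem oi_qf_pot {V V' u w : Pos3 → ℝ} (hV : LocallyIntegrable V) (hV' : LocallyIntegrable V')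
    (hu : C1 u) (hw : C1 w) :
    qf V u w = qf V' u w - ∫ x, (V x - V' x) * (u x * w x) := by
  unfold qf
  have h : ∫ x, (V x - V' x) * (u x * w x) =
      (∫ x, V x * (u x * w x)) - ∫ x, V' x * (u x * w x) := by
    rw [← integral_sub (oi_int_mul hV (oi_cc_mul hu.cc hw.cc.1))
      (oi_int_mul hV' (oi_cc_mul hu.cc hw.cc.1))]
    exact integral_congr_ae (ae_of_all _ fun x => sub_mul _ _ _)
  rw [h]; ring

theorem oi_dir_eq (V u : Pos3 → ℝ) : dir u = 2 * (qf V u u + ∫ x, V x * (u x * u x)) := by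
  unfold qf dir
  simp only [sq]
  ring

end Crest.Agent.R338
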