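import Crest.Agent.R338.DDefs
import Crest.Agent.R338.OInt

/-! Row 338, module D: derivatives along coordinate lines. -/

set_option autoImplicit false

open MeasureTheory Crest.MathPhysics.ElectronicCoulomb Finset

namespace Crest.Agent.R338.Disc

lemma contDiff_line {f : Pos3 → ℝ} {k : WithTop ℕ∞} (hf : ContDiff ℝ k f) (i : Fin 3) (y : Pos3) :
    ContDiff ℝ k fun t : ℝ => f (y + t • uv i) := by
  exact hf.comp (contDiff_const.add (contDiff_id.smul contDiff_const))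

lemma iteratedDeriv_line (f : Pos3 → ℝ) (i : Fin 3) (j : ℕ) (y : Pos3) (s : ℝ) :
    iteratedDeriv j (fun t : ℝ => f (y + t • uv i)) s = LD f i j (y + s • uv i) := by
  have := congrFun (iteratedDeriv_comp_const_add j (fun t : ℝ => f (y + t • uv i)) s) 0
  simp only [add_zero] at this
  rw [← this, LD]
  simp only [add_smul, add_assoc]

lemma LD_zero (f : Pos3 → ℝ) (i : Fin 3) (y : Pos3) : LD f i 0 y = f y := by
  simp [LD]

lemma dprod_LD_eq {f : Pos3 → ℝ} {k j : ℕ} (hf : ContDiff ℝ k f) (hj : j ≤ k) (i : Fin 3)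
    (y : Pos3) : LD f i j y = iteratedFDeriv ℝ j f y fun _ => uv i := by
  have h := (ContinuousLinearMap.toSpanSingleton ℝ (uv i)).iteratedFDeriv_comp_right
    (f := fun z => f (y + z)) (hf.comp (contDiff_const.add contDiff_id)) (0 : ℝ) (i := j)
    (by exact_mod_cast hj)
  have e : (fun t : ℝ => f (y + t • uv i)) =
      (fun z => f (y + z)) ∘ ContinuousLinearMap.toSpanSingleton ℝ (uv i) := rfl
  rw [LD, iteratedDeriv, e, h, iteratedFDeriv_comp_add_left]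
  simp

lemma abs_LD_le {f : Pos3 → ℝ} {k j : ℕ} (hf : ContDiff ℝ k f) (hj : j ≤ k) (i : Fin 3) (y : Pos3) :
    |LD f i j y| ≤ ‖iteratedFDeriv ℝ j f y‖ := by
  rw [dprod_LD_eq hf hj]
  simpa [norm_uv] using (iteratedFDeriv ℝ j f y).le_opNorm fun _ => uv i

lemma dprod_ev {f : Pos3 → ℝ} {r : ℝ} (hf : SuppIn r f) {y : Pos3} (hy : r < ‖y‖) :
    f =ᶠ[nhds y] fun _ => 0 := by
  filter_upwards [(isOpen_lt continuous_const continuous_norm).mem_nhds hy] with x hx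
  exact hf x (le_of_lt hx)

lemma LD_eq_zero {f : Pos3 → ℝ} {r : ℝ} (hf : SuppIn r f) (i : Fin 3) (j : ℕ) {y : Pos3}
    (hy : r < ‖y‖) : LD f i j y = 0 := by
  have hc : Continuous fun t : ℝ => y + t • uv i := by fun_prop
  have h := (hc.tendsto' 0 y (by simp)).eventually (dprod_ev hf hy)
  rw [LD, Filter.EventuallyEq.iteratedDeriv_eq j (g := fun _ => 0) h]
  simp

lemma pd_pd_eq {f : Pos3 → ℝ} (hf : ContDiff ℝ 2 f) (i : Fin 3) (y : Pos3) :
    pd i (pd i f) y = LD f i 2 y := by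
  rw [dprod_LD_eq (k := 2) hf le_rfl, iteratedFDeriv_two_apply]
  have h : DifferentiableAt ℝ (fderiv ℝ f) y :=
    (hf.fderiv_right (m := 1) (by norm_num)).differentiable one_ne_zero y
  unfold pd
  rw [fderiv_clm_apply h (differentiableAt_const _)]
  simp [uv]

lemma dprod_pd_ev {f : Pos3 → ℝ} {y : Pos3} (h : f =ᶠ[nhds y] fun _ => 0) (i : Fin 3) :
    pd i f =ᶠ[nhds y] fun _ => 0 := by
  filter_upwards [h.fderiv (𝕜 := ℝ)] with x hx
  simp [pd, hx]

lemma suppIn_lap {f : Pos3 → ℝ} {r r' : ℝ} (hf : SuppIn r f) (hr : r < r') :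
    SuppIn r' (lap f) := by
  intro x hx
  refine Finset.sum_eq_zero fun k _ => ?_
  exact (dprod_pd_ev (dprod_pd_ev (dprod_ev hf (hr.trans_le hx)) k) k).eq_of_nhds

lemma Env.nonneg {f : Pos3 → ℝ} {x₀ : Pos3} {l M : ℝ} (h : Env f x₀ l M) (hl : 0 < l) : 0 ≤ M := by
  have h1 := (abs_nonneg _).trans (h.2 0 0 x₀ (by norm_num))
  have h2 := pow_pos (rho_pos hl (x₀ - x₀)) (0 + 1)
  exact (div_nonneg_iff.1 h1).elim (fun h => h.1) fun h => absurd h.2 (not_le.2 h2)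

lemma Sym.nonneg {a : Pos3 → ℝ} {Λ : ℝ} (h : Sym a Λ) : 0 ≤ Λ := by
  simpa using (abs_nonneg _).trans (h.2 0 0 0 (by norm_num))

lemma Sym.abs_le {a : Pos3 → ℝ} {Λ : ℝ} (h : Sym a Λ) (y : Pos3) : |a y| ≤ Λ := by
  simpa [LD_zero] using h.2 0 0 y (by norm_num)

lemma Env.abs_le {f : Pos3 → ℝ} {x₀ : Pos3} {l M : ℝ} (h : Env f x₀ l M) (hl : 0 < l) (y : Pos3) :
    |f y| ≤ M / l := by
  have h1 := h.2 0 0 y (by norm_num)
  rw [LD_zero, zero_add, pow_one] at h1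
  exact h1.trans (div_le_div_of_nonneg_left (h.nonneg hl) hl (le_rho _ _))

lemma Env.lip {f : Pos3 → ℝ} {x₀ : Pos3} {l M : ℝ} (h : Env f x₀ l M) (hl : 0 < l) (i : Fin 3)
    (y : Pos3) (t : ℝ) : |f (y + t • uv i) - f y| ≤ M / l ^ 2 * |t| := by
  have hd : Differentiable ℝ fun t : ℝ => f (y + t • uv i) :=
    (contDiff_line h.1 i y).differentiable (by norm_num)
  have := convex_univ.norm_image_sub_le_of_norm_deriv_le (f := fun t : ℝ => f (y + t • uv i))
    (C := M / l ^ 2) (fun s _ => hd s) (fun s _ => ?_) (Set.mem_univ 0) (Set.mem_univ t)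
  · simpa using this
  rw [← iteratedDeriv_one, iteratedDeriv_line, Real.norm_eq_abs]
  refine (h.2 i 1 _ (by norm_num)).trans
    (div_le_div_of_nonneg_left (h.nonneg hl) (by positivity) ?_)
  exact pow_le_pow_left₀ hl.le (le_rho _ _) 2

lemma dprod_sb_pd {f : Pos3 → ℝ} {k : ℕ} {A : ℝ} (h : SB (k + 1) A f) (i : Fin 3) :
    SB k A (pd i f) := by
  have h1 : ContDiff ℝ k (fderiv ℝ f) := h.1.fderiv_right (by norm_cast)
  refine ⟨h1.clm_apply contDiff_const, fun j hj x => ?_⟩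
  refine (norm_iteratedFDeriv_clm_apply_const h1.contDiffAt (by exact_mod_cast hj)).trans ?_
  rw [norm_iteratedFDeriv_fderiv]
  simpa using h.2 (j + 1) (by omega) x

lemma dprod_rho_pow {r : ℝ} (hr : 1 ≤ r) {y : Pos3} (hy : ‖y‖ ≤ r) {j k : ℕ} (hj : j ≤ k) :
    rho 1 y ^ j ≤ (2 * r) ^ k :=
  (pow_le_pow_left₀ (rho_nonneg _ _) ((rho_le zero_le_one y).trans (by linarith)) j).trans
    (pow_le_pow_right₀ (by linarith) hj)

/-- `‖D^j lap V‖ ≤ 3 A` for `j ≤ 4`; on the support `rho 1 y ≤ 2 r`. -/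
lemma sym_lap {V : Pos3 → ℝ} {A r : ℝ} (hV : SB 6 A V) (hs : SuppIn r V) (hr : 1 ≤ r) :
    Sym (lap V) (48 * A * r ^ 4) := by
  have h1 : ∀ k, SB 4 A (pd k (pd k V)) := fun k => dprod_sb_pd (dprod_sb_pd hV k) k
  have hA : 0 ≤ A := (abs_nonneg _).trans (hV.oi_abs_le 0)
  have h2 : ContDiff ℝ (4 : ℕ) (lap V) := ContDiff.sum fun k _ => (h1 k).1
  refine ⟨h2, fun i j y hj => ?_⟩
  have hρ := pow_pos (rho_pos one_pos y) j
  rcases lt_or_ge r ‖y‖ with hy | hy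
  · rw [LD_eq_zero (suppIn_lap hs (r' := (r + ‖y‖) / 2) (by linarith)) i j (by linarith), abs_zero]
    positivity
  have h3 : ‖iteratedFDeriv ℝ j (lap V) y‖ ≤ 3 * A := by
    unfold lap
    rw [iteratedFDeriv_fun_sum_apply fun k _ =>
      ((h1 k).1.of_le (by exact_mod_cast hj)).contDiffAt]
    refine (norm_sum_le_of_le _ fun k _ => (h1 k).2 j hj y).trans ?_
    simp
  refine ((abs_LD_le h2 hj i y).trans h3).trans ?_
  rw [le_div_iff₀ hρ]
  calc 3 * A * rho 1 y ^ j ≤ 3 * A * (2 * r) ^ 4 := by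
        have := dprod_rho_pow hr hy hj
        gcongr
    _ = _ := by ring

lemma env_shift {g : Pos3 → ℝ} {G r : ℝ} (hg : SB 4 G g) (hs : SuppIn r g) (hr : 1 ≤ r)
    (u : Pos3) : Env (fun y => g (y + u)) (-u) 1 (32 * G * r ^ 5) := by
  have hG : 0 ≤ G := (abs_nonneg _).trans (hg.oi_abs_le 0)
  refine ⟨hg.1.comp (contDiff_id.add contDiff_const), fun i j y hj => ?_⟩
  have e : LD (fun y => g (y + u)) i j y = LD g i j (y + u) := by
    simp only [LD, add_right_comm]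
  rw [e, sub_neg_eq_add]
  have hρ := pow_pos (rho_pos one_pos (y + u)) (j + 1)
  rcases lt_or_ge r ‖y + u‖ with hy | hy
  · rw [LD_eq_zero hs i j hy, abs_zero]
    positivity
  refine ((abs_LD_le hg.1 hj i _).trans (hg.2 j hj _)).trans ?_
  rw [le_div_iff₀ hρ]
  calc G * rho 1 (y + u) ^ (j + 1) ≤ G * (2 * r) ^ 5 := by
        have := dprod_rho_pow hr hy (show j + 1 ≤ 5 by omega)
        gcongr
    _ = _ := by ring

lemma dprod_inv {σ ρ : ℝ} (hσ : 0 < σ) (hρ : 0 < ρ) {j : ℕ} (hj : j ≤ 4) :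
    1 / σ ^ j * (1 / ρ ^ (4 - j + 1)) ≤ 1 / ρ ^ 5 + 1 / σ ^ 5 := by
  rw [one_div_mul_one_div]
  have e : 5 = j + (4 - j + 1) := by omega
  rcases le_total σ ρ with h | h
  · refine le_add_of_nonneg_of_le (by positivity) (one_div_le_one_div_of_le (by positivity) ?_)
    conv_lhs => rw [e, pow_add]
    gcongr
  · refine le_add_of_le_of_nonneg (one_div_le_one_div_of_le (by positivity) ?_) (by positivity)
    conv_lhs => rw [e, pow_add]
    gcongr

/-- `iteratedDeriv_fun_mul`, and `1 / (σ^j ρ^(5-j)) ≤ 1/σ^5 + 1/ρ^5`. -/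
lemma leibniz4 {a f : Pos3 → ℝ} {Λ l M : ℝ} {x₀ : Pos3} (ha : Sym a Λ) (hf : Env f x₀ l M)
    (hl : 0 < l) (i : Fin 3) (y : Pos3) :
    |LD (fun y => a y * f y) i 4 y| ≤
      16 * Λ * M / rho l (y - x₀) ^ 5 + 16 * Λ * M / rho 1 y ^ 5 := by
  have hΛ := ha.nonneg
  have hM := hf.nonneg hl
  have e : LD (fun y => a y * f y) i 4 y =
      ∑ j ∈ range (4 + 1), ((4 : ℕ).choose j : ℝ) * LD a i j y * LD f i (4 - j) y :=
    iteratedDeriv_fun_mul (n := 4) (contDiff_line ha.1 i y).contDiffAt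
      (contDiff_line hf.1 i y).contDiffAt
  rw [e]
  have key : ∀ j ∈ range (4 + 1), |((4 : ℕ).choose j : ℝ) * LD a i j y * LD f i (4 - j) y| ≤
      ((4 : ℕ).choose j : ℝ) * (Λ * M * (1 / rho l (y - x₀) ^ 5 + 1 / rho 1 y ^ 5)) := by
    intro j hj
    have hj' : j ≤ 4 := by simpa [Nat.lt_succ_iff] using hj
    rw [mul_assoc, abs_mul, abs_mul, Nat.abs_cast]
    refine mul_le_mul_of_nonneg_left ?_ (Nat.cast_nonneg _)
    calc |LD a i j y| * |LD f i (4 - j) y|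
        ≤ Λ / rho 1 y ^ j * (M / rho l (y - x₀) ^ (4 - j + 1)) :=
          mul_le_mul (ha.2 i j y hj') (hf.2 i _ y (by omega)) (abs_nonneg _)
            ((abs_nonneg _).trans (ha.2 i j y hj'))
      _ = Λ * M * (1 / rho 1 y ^ j * (1 / rho l (y - x₀) ^ (4 - j + 1))) := by ring
      _ ≤ _ := mul_le_mul_of_nonneg_left (dprod_inv (rho_pos one_pos y) (rho_pos hl _) hj')
          (mul_nonneg hΛ hM)
  refine ((abs_sum_le_sum_abs _ _).trans (sum_le_sum key)).trans_eq ?_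
  rw [← sum_mul, ← Nat.cast_sum, Nat.sum_range_choose]
  push_cast
  ring

lemma dprod_taylor {g : ℝ → ℝ} {A : ℝ} (hg : ContDiff ℝ (3 : ℕ) g)
    (hA : ∀ t, |iteratedDeriv 3 g t| ≤ A) {x : ℝ} (hx : x ≠ 0) :
    |g x - (g 0 + x * iteratedDeriv 1 g 0 + x ^ 2 / 2 * iteratedDeriv 2 g 0)| ≤
      A * |x| ^ 3 / 6 := by
  obtain ⟨z, -, hz⟩ := taylor_mean_remainder_lagrange_iteratedDeriv (f := g) (n := 2) hx.symm
    (by exact_mod_cast hg.contDiffOn)
  have hu : UniqueDiffOn ℝ (Set.uIcc 0 x) := uniqueDiffOn_uIcc hx.symm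
  have h1 : ∀ k ≤ 3, iteratedDerivWithin k g (Set.uIcc 0 x) 0 = iteratedDeriv k g 0 := fun k hk =>
    iteratedDerivWithin_eq_iteratedDeriv hu (hg.of_le (by exact_mod_cast hk)).contDiffAt
      Set.left_mem_uIcc
  have e : taylorWithinEval g 2 (Set.uIcc 0 x) 0 x =
      g 0 + x * iteratedDeriv 1 g 0 + x ^ 2 / 2 * iteratedDeriv 2 g 0 := by
    rw [taylor_within_apply, sum_range_succ, sum_range_succ, sum_range_one, h1 0 (by norm_num),
      h1 1 (by norm_num), h1 2 (by norm_num)]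
    simp [Nat.factorial]
    ring_nf
    simp
  rw [← e, hz, sub_zero, abs_div, abs_mul, abs_pow]
  have : |((2 + 1).factorial : ℝ)| = 6 := by norm_num [Nat.factorial]
  rw [this]
  have := hA z
  gcongr

/-- central second differences (Taylor's formula along the line) -/
lemma diff2 {V : Pos3 → ℝ} {A η : ℝ} (hV : SB 6 A V) (hη : 0 < η) (i : Fin 3) (y : Pos3) :
    |(V (y + η • uv i) + V (y + (-η) • uv i) - 2 * V y) / η ^ 2 - pd i (pd i V) y| ≤ A * η := by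
  have hg : ContDiff ℝ (3 : ℕ) fun t : ℝ => V (y + t • uv i) :=
    contDiff_line (hV.1.of_le (by exact_mod_cast (by norm_num : 3 ≤ 6))) i y
  have hA : ∀ t, |iteratedDeriv 3 (fun t : ℝ => V (y + t • uv i)) t| ≤ A := fun t => by
    rw [iteratedDeriv_line]
    exact (abs_LD_le hV.1 (by norm_num) i _).trans (hV.2 3 (by norm_num) _)
  have hA0 : 0 ≤ A := (abs_nonneg _).trans (hA 0)
  have h1 := dprod_taylor hg hA hη.ne'
  have h2 := dprod_taylor hg hA (neg_ne_zero.2 hη.ne')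
  rw [abs_neg] at h2
  rw [abs_of_pos hη] at h1 h2
  rw [pd_pd_eq (hV.1.of_le (by exact_mod_cast (by norm_num : 2 ≤ 6))), LD]
  simp only [zero_smul, add_zero] at h1 h2
  set d1 := iteratedDeriv 1 (fun t : ℝ => V (y + t • uv i)) 0
  set d2 := iteratedDeriv 2 (fun t : ℝ => V (y + t • uv i)) 0
  have e : (V (y + η • uv i) + V (y + (-η) • uv i) - 2 * V y) / η ^ 2 - d2 =
      ((V (y + η • uv i) - (V y + η * d1 + η ^ 2 / 2 * d2)) +
        (V (y + (-η) • uv i) - (V y + -η * d1 + (-η) ^ 2 / 2 * d2))) / η ^ 2 := by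
    field_simp
    ring
  rw [e, abs_div, abs_of_pos (pow_pos hη 2), div_le_iff₀ (pow_pos hη 2)]
  refine (abs_add_le _ _).trans ((add_le_add h1 h2).trans ?_)
  have : 0 ≤ A * η ^ 3 := by positivity
  nlinarith

end Crest.Agent.R338.Disc
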