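import Crest.Agent.R338.DConsA
import Crest.Agent.R338.DProd

/-! Row 338, module D: the construction has the properties listed in `LatD`. -/

set_option autoImplicit false

open MeasureTheory Crest.MathPhysics.ElectronicCoulomb Finset Crest.Agent.Lib.PT

namespace Crest.Agent.R338.Disc

lemma dConsB_nodup_flatMap {α β : Type*} {l : List α} {f : α → List β} (hl : l.Nodup)
    (h1 : ∀ a, (f a).Nodup) (h2 : ∀ a a' x, x ∈ f a → x ∈ f a' → a = a') :
    (l.flatMap f).Nodup :=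
  List.nodup_flatMap.2 ⟨fun a _ => h1 a,
    List.Pairwise.imp (fun {a a'} hne x hx hx' => hne (h2 a a' x hx hx')) hl⟩

lemma dConsB_cq_inj {H : ℕ} (hH : 2 ≤ H) {a a' : ℕ} (h : cq H a = cq H a') : a = a' := by
  have h0 : (H : ℚ) ≠ 0 := by exact_mod_cast (by omega : H ≠ 0)
  unfold cq at h
  rw [div_left_inj' h0, sub_left_inj] at h
  exact_mod_cast h

lemma dConsB_first_inj {H : ℕ} (hH : 2 ≤ H) {a a' m m' : ℕ} (hm : m < 240) (hm' : m' < 240)
    (h : cq H a + (m : ℚ) / (H : ℚ) ^ 30 = cq H a' + (m' : ℚ) / (H : ℚ) ^ 30) : a = a' := by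
  have h0 : (H : ℚ) ≠ 0 := by exact_mod_cast (by omega : H ≠ 0)
  have h1 : ((m + H ^ 29 * a : ℕ) : ℚ) = (m' + H ^ 29 * a' : ℕ) := by
    unfold cq at h
    field_simp at h
    push_cast
    linear_combination h
  have h2 : m + H ^ 29 * a = m' + H ^ 29 * a' := by exact_mod_cast h1
  have h3 : 240 ≤ H ^ 29 := le_trans (by norm_num) (Nat.pow_le_pow_left hH 29)
  have h4 : 0 < H ^ 29 := by omega
  have := congrArg (· / H ^ 29) h2
  simpa [Nat.add_mul_div_left _ _ h4, Nat.div_eq_of_lt (hm.trans_le h3),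
    Nat.div_eq_of_lt (hm'.trans_le h3)] using this

lemma dConsB_wq_le (κ : ℚ) (H : ℕ) (V : Q3 → ℚ) (a b c : ℕ) : wq κ H V a b c ≤ 240 :=
  min_le_left _ _

lemma dConsB_sum_flatMap {β : Type*} (n : ℕ) (f : ℕ → List β) (g : β → ℝ) :
    (((List.range n).flatMap f).map g).sum = ∑ a ∈ range n, ((f a).map g).sum := by
  induction n with
  | zero => simp
  | succ n ih => simp [List.range_succ, List.flatMap_append, sum_range_succ, ih]

lemma dConsB_sum_map {β : Type*} (n : ℕ) (f : ℕ → β) (g : β → ℝ) :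
    (((List.range n).map f).map g).sum = ∑ a ∈ range n, g (f a) := by
  induction n with
  | zero => simp
  | succ n ih =>
    rw [List.range_succ, List.map_append, List.map_append, List.sum_append, ih, sum_range_succ]
    simp

lemma dConsB_cum_succ (u : ℕ → ℚ) (a : ℕ) : cum u (a + 1) = cum u a + u a := sum_range_succ _ _

/-- The first coordinates `cq H a + m / H^30`, `m < 240`, determine `a` and `m`
(`List.nodup_flatMap`, or identify the list with the image of a duplicate-free index list under an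
injective map). -/
lemma nodup_nucq (κ : ℚ) {H : ℕ} (hH : 2 ≤ H) (V : Q3 → ℚ) : (nucq κ H V).Nodup := by
  have h0 : (H : ℚ) ≠ 0 := by exact_mod_cast (by omega : H ≠ 0)
  unfold nucq
  refine dConsB_nodup_flatMap List.nodup_range (fun a => ?_) fun a a' x hx hx' => ?_
  · refine dConsB_nodup_flatMap List.nodup_range (fun b => ?_) fun b b' x hx hx' => ?_
    · refine dConsB_nodup_flatMap List.nodup_range (fun c => ?_) fun c c' x hx hx' => ?_
      · refine List.nodup_range.map fun m m' h => ?_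
        have h1 := congrArg Prod.fst h
        simp only [add_right_inj] at h1
        rw [div_left_inj' (pow_ne_zero _ h0)] at h1
        exact_mod_cast h1
      · obtain ⟨m, -, rfl⟩ := List.mem_map.1 hx
        obtain ⟨m', -, h⟩ := List.mem_map.1 hx'
        exact (dConsB_cq_inj hH (congrArg (fun p : Q3 => p.2.2) h)).symm
    · obtain ⟨c, -, hx⟩ := List.mem_flatMap.1 hx
      obtain ⟨c', -, hx'⟩ := List.mem_flatMap.1 hx'
      obtain ⟨m, -, rfl⟩ := List.mem_map.1 hx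
      obtain ⟨m', -, h⟩ := List.mem_map.1 hx'
      exact (dConsB_cq_inj hH (congrArg (fun p : Q3 => p.2.1) h)).symm
  · obtain ⟨b, -, hx⟩ := List.mem_flatMap.1 hx
    obtain ⟨b', -, hx'⟩ := List.mem_flatMap.1 hx'
    obtain ⟨c, -, hx⟩ := List.mem_flatMap.1 hx
    obtain ⟨c', -, hx'⟩ := List.mem_flatMap.1 hx'
    obtain ⟨m, hm, rfl⟩ := List.mem_map.1 hx
    obtain ⟨m', hm', h⟩ := List.mem_map.1 hx'
    exact (dConsB_first_inj hH ((List.mem_range.1 hm').trans_le (dConsB_wq_le _ _ _ _ _ _))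
      ((List.mem_range.1 hm).trans_le (dConsB_wq_le _ _ _ _ _ _))
      (congrArg (fun p : Q3 => p.1) h)).symm

lemma sum_nucq (κ : ℚ) (H : ℕ) (V : Q3 → ℚ) (f : Pos3 → ℝ) :
    ∑ α : Fin (nucq κ H V).length, f (rp ((nucq κ H V).get α)) = S3 (H ^ 5) fun a b c =>
      ∑ m ∈ range (wq κ H V a b c), f (LP H a b c + ((m : ℝ) / (H : ℝ) ^ 30) • uv 0) := by
  have h1 : ∑ α : Fin (nucq κ H V).length, f (rp ((nucq κ H V).get α)) =
      ((nucq κ H V).map fun p => f (rp p)).sum := by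
    rw [← List.sum_ofFn]
    congr 1
    conv_rhs => rw [← List.ofFn_get (nucq κ H V), List.map_ofFn]
    rfl
  rw [h1]
  unfold nucq S3
  simp only [dConsB_sum_flatMap, dConsB_sum_map]
  refine sum_congr rfl fun a _ => sum_congr rfl fun b _ => sum_congr rfl fun c _ =>
    sum_congr rfl fun m _ => ?_
  rw [rp_eq, LP, lpt, mk3_add_uv0, ← cq_cast, ← cq_cast, ← cq_cast]
  push_cast
  rfl

/-- `cum u (a+1) - cum u a = u a`, four times -/
lemma d4_sq4 (κ : ℚ) (H : ℕ) (V : Q3 → ℚ) (a b c : ℕ) :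
    d4 (fun a => (sq4 κ H V b c a : ℝ)) a = yq κ H V a b c := by
  simp only [d4, sq4, show a + 4 = a + 1 + 1 + 1 + 1 from rfl, show a + 3 = a + 1 + 1 + 1 from rfl,
    show a + 2 = a + 1 + 1 from rfl, dConsB_cum_succ]
  push_cast
  ring

lemma sq4_init (κ : ℚ) (H : ℕ) (V : Q3 → ℚ) {a : ℕ} (ha : a < 4) (b c : ℕ) :
    sq4 κ H V b c a = 0 := by
  interval_cases a <;> simp [sq4, cum, sum_range_succ]

/-- `diff2` in the three directions -/
lemma yq_near {κ : ℚ} {r₀ A : ℝ} {Vc : Pos3 → ℝ} {H : ℕ} {V : Q3 → ℚ} (hD : DiscIn κ r₀ A Vc)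
    (hV : ∀ p, Vc (rp p) = V p) (hH : 1 ≤ H) (a b c : ℕ) :
    |(yq κ H V a b c : ℝ) - 20 * lap Vc (LP H a b c) / κ| ≤ 60 * A / (H : ℝ) ^ 20 := by
  have hH0 : (0 : ℝ) < H := by exact_mod_cast hH
  have hη : (0 : ℝ) < 1 / (H : ℝ) ^ 20 := by positivity
  have hκ := hD.κ_bd.1
  have hκ0 : (0 : ℝ) < κ := by linarith
  have d0 := diff2 hD.sb hη 0 (LP H a b c)
  have d1 := diff2 hD.sb hη 1 (LP H a b c)
  have d2 := diff2 hD.sb hη 2 (LP H a b c)
  have hV' : ∀ x y z : ℚ, (V (x, y, z) : ℝ) = Vc (mk3 x y z) := fun x y z => by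
    rw [← hV, rp_eq]
  have e : (lapq H V (cq H a) (cq H b) (cq H c) : ℝ) =
      (Vc (LP H a b c + (1 / (H : ℝ) ^ 20) • uv 0) + Vc (LP H a b c + (-(1 / (H : ℝ) ^ 20)) • uv 0) -
        2 * Vc (LP H a b c)) / (1 / (H : ℝ) ^ 20) ^ 2 +
      (Vc (LP H a b c + (1 / (H : ℝ) ^ 20) • uv 1) + Vc (LP H a b c + (-(1 / (H : ℝ) ^ 20)) • uv 1) -
        2 * Vc (LP H a b c)) / (1 / (H : ℝ) ^ 20) ^ 2 +
      (Vc (LP H a b c + (1 / (H : ℝ) ^ 20) • uv 2) + Vc (LP H a b c + (-(1 / (H : ℝ) ^ 20)) • uv 2) -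
        2 * Vc (LP H a b c)) / (1 / (H : ℝ) ^ 20) ^ 2 := by
    simp only [lapq, LP, lpt, mk3_add_uv0, mk3_add_uv1, mk3_add_uv2, ← cq_cast, ← sub_eq_add_neg]
    push_cast
    simp only [hV']
    push_cast
    field_simp
    ring
  have hl : |(lapq H V (cq H a) (cq H b) (cq H c) : ℝ) - lap Vc (LP H a b c)| ≤
      3 * (A * (1 / (H : ℝ) ^ 20)) := by
    rw [e, lap, Fin.sum_univ_three, abs_le]
    rw [abs_le] at d0 d1 d2
    constructor <;> linarith [d0.1, d0.2, d1.1, d1.2, d2.1, d2.2]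
  have hA : 0 ≤ A * (1 / (H : ℝ) ^ 20) := mul_nonneg (by linarith [hD.A_ge]) hη.le
  have e2 : (yq κ H V a b c : ℝ) - 20 * lap Vc (LP H a b c) / κ =
      20 * ((lapq H V (cq H a) (cq H b) (cq H c) : ℝ) - lap Vc (LP H a b c)) / κ := by
    simp only [yq]
    push_cast
    ring
  rw [e2, abs_div, abs_mul, abs_of_pos hκ0, abs_of_pos (by norm_num : (0 : ℝ) < 20),
    div_le_iff₀ hκ0, show 60 * A / (H : ℝ) ^ 20 = 60 * (A * (1 / (H : ℝ) ^ 20)) by ring]
  nlinarith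

lemma yq_out {κ : ℚ} {r₀ A : ℝ} {Vc : Pos3 → ℝ} {H : ℕ} {V : Q3 → ℚ} (hD : DiscIn κ r₀ A Vc)
    (hV : ∀ p, Vc (rp p) = V p) (hH : 1 ≤ H) (a : ℕ) {b c : ℕ}
    (h : r₀ + 1 ≤ |cr (1 / (H : ℝ)) (H ^ 5) b| ∨ r₀ + 1 ≤ |cr (1 / (H : ℝ)) (H ^ 5) c|) :
    yq κ H V a b c = 0 := by
  have hH1 : (1 : ℝ) ≤ H := by exact_mod_cast hH
  have hη : (0 : ℝ) < 1 / (H : ℝ) ^ 20 := by positivity
  have hη1 : 1 / (H : ℝ) ^ 20 ≤ 1 := by
    rw [div_le_one (by positivity)]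
    exact one_le_pow₀ hH1
  have hz : ∀ x y z : ℚ, |(y : ℝ) - cq H b| ≤ 1 → |(z : ℝ) - cq H c| ≤ 1 → V (x, y, z) = 0 := by
    intro x y z hy hz
    have : (V (x, y, z) : ℝ) = 0 := by
      rw [← hV, rp_eq]
      refine hD.supp _ ?_
      have h1 := abs_coord_le (mk3 x y z) 1
      have h2 := abs_coord_le (mk3 x y z) 2
      rw [mk3_one] at h1
      rw [mk3_two] at h2
      rw [← cq_cast, ← cq_cast] at h
      have h3 := abs_sub_abs_le_abs_sub (cq H b : ℝ) y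
      have h4 := abs_sub_abs_le_abs_sub (cq H c : ℝ) z
      rw [abs_sub_comm] at h3 h4
      rcases h with h | h <;> linarith
    exact_mod_cast this
  have a0 : ∀ t : ℚ, |(t : ℝ) - t| ≤ 1 := fun t => by simp
  have ap : ∀ t : ℚ, |((t + 1 / (H : ℚ) ^ 20 : ℚ) : ℝ) - t| ≤ 1 := fun t => by
    push_cast
    rw [add_sub_cancel_left, abs_of_pos hη]
    exact hη1
  have am : ∀ t : ℚ, |((t - 1 / (H : ℚ) ^ 20 : ℚ) : ℝ) - t| ≤ 1 := fun t => by
    push_cast
    rw [sub_sub_cancel_left, abs_neg, abs_of_pos hη]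
    exact hη1
  unfold yq lapq
  rw [hz _ _ _ (a0 _) (a0 _), hz _ _ _ (a0 _) (a0 _), hz _ _ _ (ap _) (a0 _),
    hz _ _ _ (am _) (a0 _), hz _ _ _ (a0 _) (ap _), hz _ _ _ (a0 _) (am _),
    hz _ _ _ (a0 _) (a0 _)]
  simp

/-- With `φ = Int.fract (sq4 …)`, `zq = yq - d4 φ`, `|yq| ≤ 101`, `|d4 φ| ≤ 8`, so that the clamp in
`wq` is inactive and `wq ≥ 11`. -/
theorem exists_latD {κ : ℚ} {r₀ A : ℝ} {Vc : Pos3 → ℝ} {H : ℕ} {V : Q3 → ℚ}
    (hD : DiscIn κ r₀ A Vc) (hV : ∀ p, Vc (rp p) = V p) (hH : A ^ 3 ≤ H) :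
    nucq κ H V ≠ [] ∧ ∃ D : LatD, D.κ = κ ∧ D.r₀ = r₀ ∧ D.A = A ∧ D.Vc = Vc ∧ D.H = H ∧
      ∀ δ₁ δ₂ δ₃ : ℝ, DiscOut D.κ D.r₀ D.Vc D.q D.E₀ D.R δ₁ δ₂ δ₃ →
        DiscOut κ r₀ Vc (qq κ H) (E0q κ H)
          (fun i : Fin (nucq κ H V).length => rp ((nucq κ H V).get i)) δ₁ δ₂ δ₃ := by
  have hA := hD.A_ge
  have hH8 : (8 : ℝ) ≤ H := by
    have : (2 : ℝ) ^ 3 ≤ A ^ 3 := by gcongr
    linarith
  have hH8' : 8 ≤ H := by exact_mod_cast hH8
  have hH1 : 1 ≤ H := by omega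
  have hκ := hD.κ_bd.1
  have hκ0 : (0 : ℝ) < κ := by linarith
  have hκq : (1 : ℚ) ≤ κ := by exact_mod_cast hκ
  have hsm : 60 * A / (H : ℝ) ^ 20 ≤ 1 := by
    have h1 : A ≤ H := by
      have : 1 ≤ A ^ 2 := by nlinarith
      nlinarith
    have h2 : (8 : ℝ) ^ 19 ≤ (H : ℝ) ^ 19 := by gcongr
    rw [div_le_one (by positivity), pow_succ' _ 19]
    nlinarith
  have hy : ∀ a b c, |(yq κ H V a b c : ℝ)| ≤ 101 := by
    intro a b c
    have h1 := yq_near hD hV hH1 a b c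
    have h2 : |20 * lap Vc (LP H a b c) / κ| ≤ 100 := by
      rw [abs_div, abs_mul, abs_of_pos hκ0, abs_of_pos (by norm_num : (0 : ℝ) < 20),
        div_le_iff₀ hκ0]
      linarith [hD.lap_le (LP H a b c)]
    have h3 := abs_sub_abs_le_abs_sub (yq κ H V a b c : ℝ) (20 * lap Vc (LP H a b c) / κ)
    linarith
  set φ : ℕ → ℕ → ℕ → ℝ := fun a b c => ((Int.fract (sq4 κ H V b c a) : ℚ) : ℝ) with hφ
  have hφ0 : ∀ a b c, 0 ≤ φ a b c := fun a b c => by
    simp only [hφ]; exact_mod_cast Int.fract_nonneg _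
  have hφ1 : ∀ a b c, φ a b c ≤ 1 := fun a b c => by
    simp only [hφ]; exact_mod_cast (Int.fract_lt_one _).le
  have hz : ∀ a b c, (zq κ H V a b c : ℝ) = yq κ H V a b c - d4 (fun a => φ a b c) a := by
    intro a b c
    rw [← d4_sq4]
    simp only [zq, d4, hφ, Int.fract]
    push_cast
    ring
  have hzb : ∀ a b c, -109 ≤ zq κ H V a b c ∧ zq κ H V a b c ≤ 109 := by
    intro a b c
    have h1 := abs_le.1 (hy a b c)
    have h2 := hz a b c
    simp only [d4] at h2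
    constructor
    · have : (-109 : ℝ) ≤ zq κ H V a b c := by
        linarith [h1.1, hφ0 (a + 3) b c, hφ0 (a + 1) b c, hφ1 (a + 4) b c, hφ1 (a + 2) b c,
          hφ1 a b c]
      exact_mod_cast this
    · have : (zq κ H V a b c : ℝ) ≤ 109 := by
        linarith [h1.2, hφ1 (a + 3) b c, hφ1 (a + 1) b c, hφ0 (a + 4) b c, hφ0 (a + 2) b c,
          hφ0 a b c]
      exact_mod_cast this
  have hw : ∀ a b c, (wq κ H V a b c : ℤ) = 120 + zq κ H V a b c := by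
    intro a b c
    have := hzb a b c
    unfold wq
    omega
  refine ⟨?_, ⟨κ, r₀, A, Vc, H, qq κ H, piq H, E0q κ H, (nucq κ H V).length,
    fun i => rp ((nucq κ H V).get i), wq κ H V, fun a b c => yq κ H V a b c, φ, hD, hH,
    sum_nucq κ H V, dConsB_wq_le κ H V, fun a b c => ?_, fun a b c => ?_, fun a b c ha => ?_,
    fun a b c h => ?_, yq_near hD hV hH1, ?_, piq_near hH1, E0q_near hκq hH8'⟩,
    rfl, rfl, rfl, rfl, rfl, fun _ _ _ h => h⟩
  · refine List.ne_nil_of_mem (a := (cq H 0 + ((0 : ℕ) : ℚ) / (H : ℚ) ^ 30, cq H 0, cq H 0)) ?_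
    unfold nucq
    refine List.mem_flatMap.2 ⟨0, List.mem_range.2 (Nat.succ_pos _), List.mem_flatMap.2
      ⟨0, List.mem_range.2 (Nat.succ_pos _), List.mem_flatMap.2
        ⟨0, List.mem_range.2 (Nat.succ_pos _), List.mem_map.2 ⟨0, List.mem_range.2 ?_, rfl⟩⟩⟩⟩
    have h1 := hw 0 0 0
    have h2 := hzb 0 0 0
    omega
  · have h1 : (wq κ H V a b c : ℝ) = 120 + zq κ H V a b c := by exact_mod_cast hw a b c
    rw [h1, hz]
    ring
  · rw [abs_of_nonneg (hφ0 a b c)]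
    exact hφ1 a b c
  · simp [hφ, sq4_init κ H V ha]
  · have h0 : ∀ a, yq κ H V a b c = 0 := fun a => yq_out hD hV hH1 a h
    have h1 : sq4 κ H V b c a = 0 := by simp [sq4, cum, h0]
    simp [hφ, h1]
  · simp only [qq]
    push_cast
    rfl

end Crest.Agent.R338.Disc
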