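import Crest.Agent.R338.DOut
import Crest.Agent.R338.DConsB

/-! Row 338, module D: discretisation of a smooth positive charge density by point nuclei. -/

set_option autoImplicit false

open MeasureTheory Crest.MathPhysics.ElectronicCoulomb Crest.Agent.Lib.PT

namespace Crest.Agent.R338

theorem Disc.disc_out : ∃ k : ℕ, 3 ≤ k ∧ ∀ D : Disc.LatD, DiscOut D.κ D.r₀ D.Vc D.q D.E₀ D.R
    (D.A ^ k / √(D.H : ℝ)) (D.A ^ k * √(D.H : ℝ) / (D.H : ℝ) ^ 4)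
    (D.A ^ k * √(D.H : ℝ) / (D.H : ℝ) ^ 4) := by
  obtain ⟨C1, hC1, h1⟩ := Disc.out1
  obtain ⟨C2, hC2, h2⟩ := Disc.out2
  obtain ⟨C3, hC3, h3⟩ := Disc.out3
  obtain ⟨m, hm⟩ := pow_unbounded_of_one_lt (C1 + C2 + C3) (one_lt_two (α := ℝ))
  refine ⟨m + 13, by omega, fun D => ?_⟩
  have hA := D.A_ge
  have hH := D.H_ge
  have hA1 : 1 ≤ D.A := by linarith
  have hm' : C1 + C2 + C3 ≤ D.A ^ m := hm.le.trans (by gcongr)
  have key : ∀ (C : ℝ) (j : ℕ), C ≤ C1 + C2 + C3 → j ≤ 13 → C * D.A ^ j ≤ D.A ^ (m + 13) := by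
    intro C j hC hj
    rw [pow_add]
    exact mul_le_mul (hC.trans hm') (pow_le_pow_right₀ hA1 hj) (by positivity) (by positivity)
  have hs : 1 ≤ √(D.H : ℝ) := Real.one_le_sqrt.2 (by linarith)
  have key2 : ∀ (C : ℝ) (j : ℕ), C ≤ C1 + C2 + C3 → j ≤ 13 →
      C * D.A ^ j / (D.H : ℝ) ^ 4 ≤ D.A ^ (m + 13) * √(D.H : ℝ) / (D.H : ℝ) ^ 4 := by
    intro C j hC hj
    exact div_le_div_of_nonneg_right
      ((key C j hC hj).trans (le_mul_of_one_le_right (by positivity) hs)) (by positivity)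
  refine ⟨fun u hu hc => (h1 D u hu hc).trans ?_, (h2 D).trans (key2 _ _ (by linarith) le_rfl),
    fun g G hg hs => (h3 D g G hg hs).trans ?_⟩
  · refine mul_le_mul_of_nonneg_right ?_ (add_nonneg (Finset.sum_nonneg fun k _ =>
      integral_nonneg fun x => sq_nonneg _) (integral_nonneg fun x => sq_nonneg _))
    gcongr
    exact key _ _ (by linarith) (by norm_num)
  · exact mul_le_mul_of_nonneg_right (key2 _ _ (by linarith) (by norm_num))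
      ((abs_nonneg _).trans (hg.oi_abs_le 0))

theorem disc : ∃ k : ℕ, ∀ (κ : List Bool → ℚ) (H : List Bool → ℕ), PT κ → PT H → PB H →
    ∃ q : List Bool → ℚ, PT q ∧
      (∀ x, 1 ≤ κ x → 1 ≤ H x → 1 / (1000 * (H x : ℚ) ^ 3) ≤ q x ∧ q x ≤ κ x / (H x : ℚ) ^ 3) ∧
      ∀ Vq : List Bool → Q3 → ℚ, PT (fun p : List Bool × Q3 => Vq p.1 p.2) →
        ∃ (E₀ : List Bool → ℚ) (nuc : List Bool → List Q3), PT E₀ ∧ PT nuc ∧
          ∀ x (r₀ A : ℝ) (Vc : Pos3 → ℝ), DiscIn (κ x) r₀ A Vc → (∀ p, Vc (rp p) = Vq x p) →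
            A ^ k ≤ H x → nuc x ≠ [] ∧ (nuc x).Nodup ∧
              DiscOut (κ x) r₀ Vc (q x) (E₀ x) (fun i : Fin (nuc x).length => rp ((nuc x).get i))
                (A ^ k / √(H x)) (A ^ k * √(H x) / (H x : ℝ) ^ 4) (A ^ k * √(H x) / (H x : ℝ) ^ 4) := by
  obtain ⟨k, hk, h⟩ := Disc.disc_out
  refine ⟨k, fun κ H hκ hH hb => ⟨fun x => Disc.qq (κ x) (H x), Disc.pt_qq hκ hH hb,
    fun x h1 h2 => Disc.qq_bounds h1 h2, fun Vq hV => ⟨fun x => Disc.E0q (κ x) (H x),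
      fun x => Disc.nucq (κ x) (H x) (Vq x), Disc.pt_E0q hκ hH hb, Disc.pt_nucq hκ hH hb hV,
      fun x r₀ A Vc hD hVc hA => ?_⟩⟩⟩
  have hA1 : 1 ≤ A := by linarith [hD.A_ge]
  have h3 : A ^ 3 ≤ H x := (pow_le_pow_right₀ hA1 hk).trans hA
  obtain ⟨hne, D, e1, e2, e3, e4, e5, hout⟩ := Disc.exists_latD hD hVc h3
  have hH2 : 2 ≤ H x := by
    have := D.H_ge
    rw [e5] at this
    exact_mod_cast (show (2 : ℝ) ≤ H x by linarith)
  refine ⟨hne, Disc.nodup_nucq _ hH2 _, hout _ _ _ ?_⟩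
  have := h D
  rwa [e3, e5] at this

end Crest.Agent.R338
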