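import Crest.Agent.R338.DDefs

/-! Row 338, module D: polynomial time, and the numerical approximations.
PT toolkit: `Crest.Agent.Lib.PT.*` (`fun_prop`; side goals `PB …` with `disch := fun_prop` or by hand:
`PT.rat_sum_range`, `PT.ratPow`, `PT.flatMap`, `PT.map`, `PT.range`, `PT.ratFloor`, …). -/

set_option autoImplicit false

open MeasureTheory Crest.MathPhysics.ElectronicCoulomb Finset Crest.Agent.Lib.PT

namespace Crest.Agent.R338.Disc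

section ptaux

variable {α : Type} [Enc α]

lemma DConsA_pt_piq {H : α → ℕ} (hH : PT H) (hb : PB H) : PT fun x => piq (H x) := by
  have h : PT fun x => 4 * ∑ i ∈ range (H x ^ 6),
      (if Even i then (1 : ℚ) else -1) / (2 * (i : ℚ) + 1) := by
    refine PT.ratMul (by fun_prop) (PT.rat_sum_range (n := fun x => H x ^ 6)
      (g := fun _ i => (if Even i then (1 : ℚ) else -1) / (2 * (i : ℚ) + 1))
      (hH.pow (by fun_prop) (by fun_prop)) (hb.pow 6) (by fun_prop))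
  refine h.congr fun x => ?_
  simp only [piq, neg_one_pow_eq_ite]

lemma DConsA_pt_hpow {H : α → ℕ} (hH : PT H) (k : ℕ) : PT fun x => ((H x : ℕ) : ℚ) ^ k :=
  PT.ratPow hH.ratNatCast (by fun_prop) (by fun_prop)

lemma DConsA_pt_sq {s : α → ℚ} (hs : PT s) : PT fun x => s x ^ 2 :=
  PT.ratPow hs (by fun_prop) (by fun_prop)

lemma DConsA_pt_qq {κ : α → ℚ} {H : α → ℕ} (hκ : PT κ) (hH : PT H) (hb : PB H) :
    PT fun x => qq (κ x) (H x) := by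
  have h1 := DConsA_pt_piq hH hb
  have h2 := DConsA_pt_hpow hH 3
  unfold qq
  exact hκ.ratDiv (((PT.const _).ratMul h1).ratMul h2)

lemma DConsA_pt_cq {H a : α → ℕ} (hH : PT H) (ha : PT a) : PT fun x => cq (H x) (a x) := by
  unfold cq
  exact (ha.ratNatCast.ratSub (DConsA_pt_hpow hH 5)).ratDiv hH.ratNatCast

lemma DConsA_pt_isq {H : α → ℕ} {s : α → ℚ} (hH : PT H) (hb : PB H) (hs : PT s) :
    PT fun x => isq (H x) (s x) := by
  unfold isq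
  refine PT.ratDiv (PT.rat_sum_range (n := fun x => H x ^ 20)
    (g := fun x j => if ((j : ℚ) + 1) ^ 2 * s x ≤ (H x : ℚ) ^ 40 then (1 : ℚ) else 0)
    (hH.pow (by fun_prop) (by fun_prop)) (hb.pow 20) ?_) (DConsA_pt_hpow hH 20)
  have h1 : PT fun p : α × ℕ => ((p.2 : ℚ) + 1) ^ 2 * s p.1 :=
    (DConsA_pt_sq (by fun_prop)).ratMul (hs.comp (by fun_prop))
  have h2 : PT fun p : α × ℕ => ((H p.1 : ℕ) : ℚ) ^ 40 :=
    DConsA_pt_hpow (H := fun p : α × ℕ => H p.1) (hH.comp (by fun_prop)) 40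
  exact PT.ite (PT.rat_decide_le h1 h2) (PT.const _) (PT.const _)

lemma DConsA_pt_k2q {H : α → ℕ} {s : α → ℚ} (hH : PT H) (hb : PB H) (hs : PT s) :
    PT fun x => k2q (H x) (s x) := by
  unfold k2q
  exact (DConsA_pt_isq (s := fun x => s x + 1) hH hb (by fun_prop)).ratMul (by fun_prop)

lemma DConsA_pt_N {H : α → ℕ} (hH : PT H) : PT fun x => 2 * H x ^ 5 + 1 :=
  ((PT.const 2).mul (hH.pow (PT.const 5) (PB.const 5))).add (PT.const 1)

lemma DConsA_pb_N {H : α → ℕ} (hb : PB H) : PB fun x => 2 * H x ^ 5 + 1 :=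
  ((PB.const 2).mul (hb.pow 5)).add (PB.const 1)

lemma DConsA_pt_lapq {H : α → ℕ} {V : α → Q3 → ℚ} {x y z : α → ℚ} (hH : PT H)
    (hV : PT fun p : α × Q3 => V p.1 p.2) (hx : PT x) (hy : PT y) (hz : PT z) :
    PT fun a => lapq (H a) (V a) (x a) (y a) (z a) := by
  have hd : PT fun a => 1 / ((H a : ℕ) : ℚ) ^ 20 := (PT.const _).ratDiv (DConsA_pt_hpow hH 20)
  have hV' : ∀ {x y z : α → ℚ}, PT x → PT y → PT z → PT fun a => V a (x a, y a, z a) :=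
    fun {x y z} hx hy hz => hV.comp (f := fun a => (a, (x a, y a, z a)))
      (PT.id.pair (hx.pair (hy.pair hz)))
  unfold lapq
  exact (DConsA_pt_hpow hH 40).ratMul
    (((((((hV' (hx.ratAdd hd) hy hz).ratAdd (hV' (hx.ratSub hd) hy hz)).ratAdd
      (hV' hx (hy.ratAdd hd) hz)).ratAdd (hV' hx (hy.ratSub hd) hz)).ratAdd
      (hV' hx hy (hz.ratAdd hd))).ratAdd (hV' hx hy (hz.ratSub hd))).ratSub
      ((PT.const _).ratMul (hV' hx hy hz)))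

lemma DConsA_pt_yq {κ : α → ℚ} {H a b c : α → ℕ} {V : α → Q3 → ℚ} (hκ : PT κ) (hH : PT H)
    (hV : PT fun p : α × Q3 => V p.1 p.2) (ha : PT a) (hb : PT b) (hc : PT c) :
    PT fun x => yq (κ x) (H x) (V x) (a x) (b x) (c x) := by
  unfold yq
  exact ((PT.const _).ratMul (DConsA_pt_lapq hH hV (DConsA_pt_cq hH ha) (DConsA_pt_cq hH hb)
    (DConsA_pt_cq hH hc))).ratDiv hκ

/-- clamped cumulative sums -/
def DConsA_cumM (B : ℕ) (u : ℕ → ℚ) (a : ℕ) : ℚ := cum u (min a B)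

lemma DConsA_pt_cumM {B : α → ℕ} {u : α → ℕ → ℚ} (hB : PT B) (hb : PB B)
    (hu : PT fun p : α × ℕ => u p.1 p.2) :
    PT fun p : α × ℕ => DConsA_cumM (B p.1) (u p.1) p.2 := by
  unfold DConsA_cumM cum
  refine PT.rat_sum_range (n := fun p : α × ℕ => min p.2 (B p.1))
    (g := fun p j => u p.1 j) (PT.id.snd.min (hB.comp PT.id.fst))
    (PB.min_right _ (hb.comp PT.id.fst)) ?_
  exact hu.comp (f := fun q : (α × ℕ) × ℕ => (q.1.1, q.2)) (by fun_prop)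

lemma DConsA_cumM_eq {B : ℕ} {u v : ℕ → ℚ} (h : ∀ j, j ≤ B → u j = v j) :
    ∀ a, a ≤ B → DConsA_cumM B u a = cum v a := by
  intro a ha
  unfold DConsA_cumM cum
  rw [min_eq_left ha]
  exact sum_congr rfl fun j hj => h j ((mem_range.1 hj).le.trans ha)

/-- clamped version of `sq4` -/
def DConsA_sq4M (B : ℕ) (κ : ℚ) (H : ℕ) (V : Q3 → ℚ) (b c : ℕ) : ℕ → ℚ :=
  DConsA_cumM B (DConsA_cumM B (DConsA_cumM B (DConsA_cumM B fun a => yq κ H V a b c)))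

lemma DConsA_sq4M_eq (B : ℕ) (κ : ℚ) (H : ℕ) (V : Q3 → ℚ) (b c a : ℕ) (ha : a ≤ B) :
    DConsA_sq4M B κ H V b c a = sq4 κ H V b c a :=
  DConsA_cumM_eq (DConsA_cumM_eq (DConsA_cumM_eq (DConsA_cumM_eq fun _ _ => rfl))) a ha

lemma DConsA_pt_sq4M {κ : α → ℚ} {B H a b c : α → ℕ} {V : α → Q3 → ℚ} (hκ : PT κ) (hH : PT H)
    (hB : PT B) (hBb : PB B)
    (hV : PT fun p : α × Q3 => V p.1 p.2) (ha : PT a) (hb : PT b) (hc : PT c) :
    PT fun x => DConsA_sq4M (B x) (κ x) (H x) (V x) (b x) (c x) (a x) := by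
  have h0 : PT fun p : α × ℕ => yq (κ p.1) (H p.1) (V p.1) p.2 (b p.1) (c p.1) :=
    DConsA_pt_yq (V := fun p : α × ℕ => V p.1) (hκ.comp PT.id.fst) (hH.comp PT.id.fst)
      (hV.comp (f := fun q : (α × ℕ) × Q3 => (q.1.1, q.2)) (by fun_prop)) PT.id.snd
      (hb.comp PT.id.fst) (hc.comp PT.id.fst)
  have h1 := DConsA_pt_cumM (u := fun x a => yq (κ x) (H x) (V x) a (b x) (c x)) hB hBb h0
  have h2 := DConsA_pt_cumM (u := fun x => DConsA_cumM (B x)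
    fun a => yq (κ x) (H x) (V x) a (b x) (c x)) hB hBb h1
  have h3 := DConsA_pt_cumM (u := fun x => DConsA_cumM (B x) (DConsA_cumM (B x)
    fun a => yq (κ x) (H x) (V x) a (b x) (c x))) hB hBb h2
  have h4 := DConsA_pt_cumM (u := fun x => DConsA_cumM (B x) (DConsA_cumM (B x)
    (DConsA_cumM (B x) fun a => yq (κ x) (H x) (V x) a (b x) (c x)))) hB hBb h3
  exact h4.comp (f := fun x => (x, a x)) (PT.id.pair ha)

/-- clamped version of `wq` -/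
def DConsA_wqM (κ : ℚ) (H : ℕ) (V : Q3 → ℚ) (a b c : ℕ) : ℕ :=
  min 240 (120 + (⌊DConsA_sq4M (2 * H ^ 5 + 1 + 4) κ H V b c (a + 4)⌋ -
    4 * ⌊DConsA_sq4M (2 * H ^ 5 + 1 + 4) κ H V b c (a + 3)⌋ +
    6 * ⌊DConsA_sq4M (2 * H ^ 5 + 1 + 4) κ H V b c (a + 2)⌋ -
    4 * ⌊DConsA_sq4M (2 * H ^ 5 + 1 + 4) κ H V b c (a + 1)⌋ +
    ⌊DConsA_sq4M (2 * H ^ 5 + 1 + 4) κ H V b c (a + 0)⌋)).toNat

lemma DConsA_wqM_eq (κ : ℚ) (H : ℕ) (V : Q3 → ℚ) (a b c : ℕ) (ha : a < 2 * H ^ 5 + 1) :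
    DConsA_wqM κ H V a b c = wq κ H V a b c := by
  unfold DConsA_wqM wq zq
  rw [DConsA_sq4M_eq _ _ _ _ _ _ _ (by omega), DConsA_sq4M_eq _ _ _ _ _ _ _ (by omega),
    DConsA_sq4M_eq _ _ _ _ _ _ _ (by omega), DConsA_sq4M_eq _ _ _ _ _ _ _ (by omega),
    DConsA_sq4M_eq _ _ _ _ _ _ _ (by omega), add_zero]

lemma DConsA_pt_wqM {κ : α → ℚ} {H a b c : α → ℕ} {V : α → Q3 → ℚ} (hκ : PT κ) (hH : PT H)
    (hHb : PB H) (hV : PT fun p : α × Q3 => V p.1 p.2) (ha : PT a) (hb : PT b) (hc : PT c) :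
    PT fun x => DConsA_wqM (κ x) (H x) (V x) (a x) (b x) (c x) := by
  have h : ∀ k : ℕ, PT fun x => ⌊DConsA_sq4M (2 * H x ^ 5 + 1 + 4) (κ x) (H x) (V x) (b x) (c x)
      (a x + k)⌋ := fun k =>
    (DConsA_pt_sq4M (B := fun x => 2 * H x ^ 5 + 1 + 4) hκ hH
      ((DConsA_pt_N hH).add (PT.const 4)) ((DConsA_pb_N hHb).add (PB.const 4)) hV
      (ha.add (PT.const k)) hb hc).ratFloor
  unfold DConsA_wqM
  exact (PT.const 240).min (((PT.const _).intAdd (((((h 4).intSub ((PT.const _).intMul (h 3))).intAdd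
    ((PT.const _).intMul (h 2))).intSub ((PT.const _).intMul (h 1))).intAdd (h 0))).toNat')

lemma DConsA_wqM_le (κ : ℚ) (H : ℕ) (V : Q3 → ℚ) (a b c : ℕ) : DConsA_wqM κ H V a b c ≤ 240 :=
  min_le_left _ _

/-- the nuclei of one cell -/
def DConsA_cell (H a b c w : ℕ) : List Q3 :=
  (List.range w).map fun m : ℕ => (cq H a + (m : ℚ) / (H : ℚ) ^ 30, cq H b, cq H c)

/-- the nuclei of the grid, for a multiplicity function `w` -/
def DConsA_grid (H : ℕ) (w : ℕ → ℕ → ℕ → ℕ) : List Q3 :=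
  (List.range (2 * H ^ 5 + 1)).flatMap fun a => (List.range (2 * H ^ 5 + 1)).flatMap fun b =>
    (List.range (2 * H ^ 5 + 1)).flatMap fun c => DConsA_cell H a b c (w a b c)

lemma DConsA_pt_cell {H a b c w : α → ℕ} (hH : PT H) (ha : PT a) (hb : PT b) (hc : PT c)
    (hw : PT w) (hwb : PB w) : PT fun x => DConsA_cell (H x) (a x) (b x) (c x) (w x) := by
  unfold DConsA_cell
  refine (hw.range hwb).map (g := fun x (m : ℕ) =>
    ((cq (H x) (a x) + (m : ℚ) / (H x : ℚ) ^ 30, cq (H x) (b x), cq (H x) (c x)) : Q3)) ?_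
  have hH' : PT fun r : α × ℕ => H r.1 := hH.comp PT.id.fst
  exact ((DConsA_pt_cq hH' (ha.comp PT.id.fst)).ratAdd
    (PT.id.snd.ratNatCast.ratDiv (DConsA_pt_hpow hH' 30))).pair
    ((DConsA_pt_cq hH' (hb.comp PT.id.fst)).pair (DConsA_pt_cq hH' (hc.comp PT.id.fst)))

lemma DConsA_pt_flatN {β : Type} [Enc β] {H : α → ℕ} {g : α → ℕ → List β} (hH : PT H)
    (hb : PB H) (hg : PT fun p : α × ℕ => g p.1 p.2) :
    PT fun x => (List.range (2 * H x ^ 5 + 1)).flatMap (g x) :=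
  ((DConsA_pt_N hH).range (DConsA_pb_N hb)).flatMap hg

lemma DConsA_pt_grid {H : α → ℕ} {w : α → ℕ → ℕ → ℕ → ℕ} (hH : PT H) (hb : PB H)
    (hw : PT fun r : ((α × ℕ) × ℕ) × ℕ => w r.1.1.1 r.1.1.2 r.1.2 r.2)
    (hwb : PB fun r : ((α × ℕ) × ℕ) × ℕ => w r.1.1.1 r.1.1.2 r.1.2 r.2) :
    PT fun x => DConsA_grid (H x) (w x) := by
  have h3 : PT fun r : ((α × ℕ) × ℕ) × ℕ =>
      DConsA_cell (H r.1.1.1) r.1.1.2 r.1.2 r.2 (w r.1.1.1 r.1.1.2 r.1.2 r.2) :=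
    DConsA_pt_cell (hH.comp PT.id.fst.fst.fst) PT.id.fst.fst.snd PT.id.fst.snd PT.id.snd hw hwb
  have h2 := DConsA_pt_flatN (H := fun r : (α × ℕ) × ℕ => H r.1.1)
    (g := fun r c => DConsA_cell (H r.1.1) r.1.2 r.2 c (w r.1.1 r.1.2 r.2 c))
    (hH.comp PT.id.fst.fst) (hb.comp PT.id.fst.fst) h3
  have h1 := DConsA_pt_flatN (H := fun r : α × ℕ => H r.1)
    (g := fun r b => (List.range (2 * H r.1 ^ 5 + 1)).flatMap fun c =>
      DConsA_cell (H r.1) r.2 b c (w r.1 r.2 b c))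
    (hH.comp PT.id.fst) (hb.comp PT.id.fst) h2
  unfold DConsA_grid
  exact DConsA_pt_flatN (g := fun x a => (List.range (2 * H x ^ 5 + 1)).flatMap fun b =>
      (List.range (2 * H x ^ 5 + 1)).flatMap fun c => DConsA_cell (H x) a b c (w x a b c))
    hH hb h1

end ptaux

section pt

variable {κ : List Bool → ℚ} {H : List Bool → ℕ} {V : List Bool → Q3 → ℚ}

lemma pt_qq (hκ : PT κ) (hH : PT H) (hb : PB H) : PT fun x => qq (κ x) (H x) :=
  DConsA_pt_qq hκ hH hb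

lemma pt_E0q (hκ : PT κ) (hH : PT H) (hb : PB H) : PT fun x => E0q (κ x) (H x) := by
  have h3 : PT fun r : ((List Bool × ℕ) × ℕ) × ℕ => k2q (H r.1.1.1)
      (cq (H r.1.1.1) r.1.1.2 ^ 2 + cq (H r.1.1.1) r.1.2 ^ 2 + cq (H r.1.1.1) r.2 ^ 2) := by
    have hH' : PT fun r : ((List Bool × ℕ) × ℕ) × ℕ => H r.1.1.1 := hH.comp (by fun_prop)
    have hb' : PB fun r : ((List Bool × ℕ) × ℕ) × ℕ => H r.1.1.1 := hb.comp (by fun_prop)
    exact DConsA_pt_k2q hH' hb' (((DConsA_pt_sq (DConsA_pt_cq hH' (by fun_prop))).ratAdd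
      (DConsA_pt_sq (DConsA_pt_cq hH' (by fun_prop)))).ratAdd
      (DConsA_pt_sq (DConsA_pt_cq hH' (by fun_prop))))
  have h2 : PT fun r : (List Bool × ℕ) × ℕ => ∑ c ∈ range (2 * H r.1.1 ^ 5 + 1), k2q (H r.1.1)
      (cq (H r.1.1) r.1.2 ^ 2 + cq (H r.1.1) r.2 ^ 2 + cq (H r.1.1) c ^ 2) :=
    PT.rat_sum_range (n := fun r : (List Bool × ℕ) × ℕ => 2 * H r.1.1 ^ 5 + 1)
      (g := fun r c => k2q (H r.1.1)
        (cq (H r.1.1) r.1.2 ^ 2 + cq (H r.1.1) r.2 ^ 2 + cq (H r.1.1) c ^ 2))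
      (DConsA_pt_N (hH.comp (by fun_prop))) (DConsA_pb_N (hb.comp (by fun_prop))) h3
  have h1 : PT fun r : List Bool × ℕ => ∑ b ∈ range (2 * H r.1 ^ 5 + 1),
      ∑ c ∈ range (2 * H r.1 ^ 5 + 1), k2q (H r.1)
      (cq (H r.1) r.2 ^ 2 + cq (H r.1) b ^ 2 + cq (H r.1) c ^ 2) :=
    PT.rat_sum_range (n := fun r : List Bool × ℕ => 2 * H r.1 ^ 5 + 1)
      (g := fun r b => ∑ c ∈ range (2 * H r.1 ^ 5 + 1), k2q (H r.1)
        (cq (H r.1) r.2 ^ 2 + cq (H r.1) b ^ 2 + cq (H r.1) c ^ 2))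
      (DConsA_pt_N (hH.comp (by fun_prop))) (DConsA_pb_N (hb.comp (by fun_prop))) h2
  have h0 : PT fun x : List Bool => ∑ a ∈ range (2 * H x ^ 5 + 1), ∑ b ∈ range (2 * H x ^ 5 + 1),
      ∑ c ∈ range (2 * H x ^ 5 + 1), k2q (H x)
      (cq (H x) a ^ 2 + cq (H x) b ^ 2 + cq (H x) c ^ 2) :=
    PT.rat_sum_range (n := fun x : List Bool => 2 * H x ^ 5 + 1)
      (g := fun x a => ∑ b ∈ range (2 * H x ^ 5 + 1), ∑ c ∈ range (2 * H x ^ 5 + 1), k2q (H x)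
        (cq (H x) a ^ 2 + cq (H x) b ^ 2 + cq (H x) c ^ 2))
      (DConsA_pt_N hH) (DConsA_pb_N hb) h1
  unfold E0q
  exact ((((PT.const _).ratMul (pt_qq hκ hH hb)).ratMul h0).ratAdd
    (((PT.const _).ratMul hκ).ratDiv (PT.const _))).ratNeg

lemma pt_nucq (hκ : PT κ) (hH : PT H) (hb : PB H) (hV : PT fun p : List Bool × Q3 => V p.1 p.2) :
    PT fun x => nucq (κ x) (H x) (V x) := by
  have h0 := DConsA_pt_grid (w := fun x a b c => DConsA_wqM (κ x) (H x) (V x) a b c) hH hb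
    (DConsA_pt_wqM (V := fun r : ((List Bool × ℕ) × ℕ) × ℕ => V r.1.1.1)
        (hκ.comp PT.id.fst.fst.fst) (hH.comp PT.id.fst.fst.fst) (hb.comp PT.id.fst.fst.fst)
        (hV.comp (f := fun q : (((List Bool × ℕ) × ℕ) × ℕ) × Q3 => (q.1.1.1.1, q.2))
          (PT.id.fst.fst.fst.fst.pair PT.id.snd))
        PT.id.fst.fst.snd PT.id.fst.snd PT.id.snd)
    ((PB.const 240).of_le fun r => DConsA_wqM_le _ _ _ _ _ _)
  refine h0.congr fun x => ?_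
  unfold nucq DConsA_grid DConsA_cell
  refine List.flatMap_congr fun a ha => ?_
  simp only [DConsA_wqM_eq _ _ _ a _ _ (List.mem_range.1 ha)]

end pt

/-- `Real.tendsto_sum_pi_div_four`, `Antitone.alternating_series_le_tendsto`,
`Antitone.tendsto_le_alternating_series` -/
lemma piq_near {H : ℕ} (hH : 1 ≤ H) : |(piq H : ℝ) - Real.pi| ≤ 2 / (H : ℝ) ^ 6 := by
  set f : ℕ → ℝ := fun i => 1 / (2 * (i : ℝ) + 1) with hf
  have hlim : Filter.Tendsto (fun n => ∑ i ∈ range n, (-1 : ℝ) ^ i * f i) Filter.atTop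
      (nhds (Real.pi / 4)) := by
    simpa only [hf, mul_one_div] using Real.tendsto_sum_pi_div_four
  have hanti : Antitone f := fun i j hij => by
    have : (i : ℝ) ≤ j := by exact_mod_cast hij
    simp only [hf]
    gcongr
  have key : ∀ n : ℕ, |∑ i ∈ range n, (-1 : ℝ) ^ i * f i - Real.pi / 4| ≤ f n := by
    intro n
    obtain ⟨k, rfl | rfl⟩ := Nat.even_or_odd' n
    · have h1 := hanti.alternating_series_le_tendsto hlim k
      have h2 := hanti.tendsto_le_alternating_series hlim k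
      rw [sum_range_succ, pow_mul, neg_one_sq, one_pow, one_mul] at h2
      have : 0 ≤ f (2 * k) := by simp only [hf]; positivity
      rw [abs_le]; constructor <;> linarith
    · have h1 := hanti.alternating_series_le_tendsto hlim (k + 1)
      have h2 := hanti.tendsto_le_alternating_series hlim k
      rw [show 2 * (k + 1) = 2 * k + 1 + 1 by ring, sum_range_succ _ (2 * k + 1), pow_succ,
        pow_mul, neg_one_sq, one_pow] at h1
      have : 0 ≤ f (2 * k + 1) := by simp only [hf]; positivity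
      rw [abs_le]; constructor <;> linarith
  have h1 := key (H ^ 6)
  have h2 : (piq H : ℝ) = 4 * ∑ i ∈ range (H ^ 6), (-1 : ℝ) ^ i * f i := by
    simp only [piq, hf, mul_one_div]; push_cast; rfl
  have hH' : (1 : ℝ) ≤ (H : ℝ) ^ 6 := one_le_pow₀ (by exact_mod_cast hH)
  have h3 : f (H ^ 6) ≤ 1 / (2 * (H : ℝ) ^ 6) := by
    simp only [hf]; push_cast
    gcongr
    linarith
  have h4 : (piq H : ℝ) - Real.pi =
      4 * (∑ i ∈ range (H ^ 6), (-1 : ℝ) ^ i * f i - Real.pi / 4) := by rw [h2]; ring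
  rw [h4, abs_mul, abs_of_pos (by norm_num : (0 : ℝ) < 4)]
  calc _ ≤ 4 * (1 / (2 * (H : ℝ) ^ 6)) := by gcongr; exact h1.trans h3
    _ = _ := by field_simp; norm_num

lemma DConsA_piq_bounds {H : ℕ} (hH : 1 ≤ H) : 1 ≤ piq H ∧ piq H ≤ 6 := by
  have h := abs_le.1 (piq_near hH)
  have hH' : (1 : ℝ) ≤ (H : ℝ) ^ 6 := one_le_pow₀ (by exact_mod_cast hH)
  have h2 : 2 / (H : ℝ) ^ 6 ≤ 2 := div_le_self (by norm_num) hH'
  have := Real.pi_gt_d2
  have := Real.pi_lt_d2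
  constructor
  · have : (1 : ℝ) ≤ (piq H : ℝ) := by linarith [h.1]
    exact_mod_cast this
  · have : (piq H : ℝ) ≤ 6 := by linarith [h.2]
    exact_mod_cast this

lemma qq_bounds {κ : ℚ} {H : ℕ} (hκ : 1 ≤ κ) (hH : 1 ≤ H) :
    1 / (1000 * (H : ℚ) ^ 3) ≤ qq κ H ∧ qq κ H ≤ κ / (H : ℚ) ^ 3 := by
  obtain ⟨h1, h2⟩ := DConsA_piq_bounds hH
  have hH' : (0 : ℚ) < (H : ℚ) ^ 3 := by
    have : (0 : ℚ) < H := by exact_mod_cast hH
    positivity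
  unfold qq
  constructor
  · gcongr
    linarith
  · refine div_le_div_of_nonneg_left (by linarith) hH' ?_
    nlinarith

private lemma abs_le_abs_iff_sq_le_sq_aux {a b : ℝ} (ha : 0 ≤ a) (hb : 0 ≤ b) :
    a ^ 2 ≤ b ^ 2 ↔ a ≤ b := pow_le_pow_iff_left₀ ha hb (by norm_num)

/-- the sum counts the `j ≥ 1` with `j ≤ H^20 / √s` -/
lemma isq_near {H : ℕ} (hH : 1 ≤ H) {s : ℚ} (hs : 1 ≤ s) :
    |(isq H s : ℝ) - 1 / √(s : ℝ)| ≤ 1 / (H : ℝ) ^ 20 := by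
  have hs' : (1 : ℝ) ≤ (s : ℝ) := by exact_mod_cast hs
  have hr : 1 ≤ √(s : ℝ) := Real.one_le_sqrt.2 hs'
  have hr2 : √(s : ℝ) ^ 2 = s := Real.sq_sqrt (by linarith)
  have hM : (0 : ℝ) < (H : ℝ) ^ 20 := by
    have : (0 : ℝ) < H := by exact_mod_cast hH
    positivity
  set t : ℝ := (H : ℝ) ^ 20 / √(s : ℝ) with ht
  have ht0 : 0 ≤ t := by positivity
  have htM : t ≤ (H : ℝ) ^ 20 := div_le_self hM.le hr
  have hiff : ∀ j : ℕ, (((j : ℚ) + 1) ^ 2 * s ≤ (H : ℚ) ^ 40) ↔ j < ⌊t⌋₊ := by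
    intro j
    rw [← Nat.add_one_le_iff, Nat.le_floor_iff ht0, ht, le_div_iff₀ (by linarith)]
    rw [← Rat.cast_le (K := ℝ)]
    push_cast
    rw [← abs_le_abs_iff_sq_le_sq_aux (by positivity) hM.le, mul_pow, hr2, ← pow_mul]
  have hfl : ⌊t⌋₊ ≤ H ^ 20 := Nat.floor_le_of_le (by exact_mod_cast htM)
  have hsum : (∑ j ∈ range (H ^ 20),
      if ((j : ℚ) + 1) ^ 2 * s ≤ (H : ℚ) ^ 40 then (1 : ℚ) else 0) = (⌊t⌋₊ : ℚ) := by
    simp only [hiff]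
    rw [← sum_filter]
    have : (range (H ^ 20)).filter (fun j => j < ⌊t⌋₊) = range ⌊t⌋₊ := by
      ext j; simp only [mem_filter, mem_range]; omega
    rw [this]; simp
  have h1 : (isq H s : ℝ) = (⌊t⌋₊ : ℝ) / (H : ℝ) ^ 20 := by
    rw [isq, hsum]; push_cast; rfl
  have h2 : 1 / √(s : ℝ) = t / (H : ℝ) ^ 20 := by rw [ht]; field_simp
  rw [h1, h2, ← sub_div, abs_div, abs_of_pos hM]
  gcongr
  have := Nat.floor_le ht0
  have := Nat.lt_floor_add_one t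
  rw [abs_le]; constructor <;> linarith

lemma k2q_near {H : ℕ} (hH : 1 ≤ H) (a b c : ℕ) :
    |(k2q H (cq H a ^ 2 + cq H b ^ 2 + cq H c ^ 2) : ℝ) - K2 1 (LP H a b c)| ≤
      2 / (H : ℝ) ^ 20 := by
  set s : ℚ := cq H a ^ 2 + cq H b ^ 2 + cq H c ^ 2 with hs
  have hs0 : 0 ≤ s := by positivity
  have hn : ‖LP H a b c‖ ^ 2 = (s : ℝ) := by
    rw [LP, lpt, norm_sq_mk3, hs]; push_cast; simp only [cq_cast]
  have hrho : rho 1 (LP H a b c) = √(((s + 1 : ℚ) : ℝ)) := by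
    rw [rho, hn]; push_cast; simp
  have h1 := isq_near hH (s := s + 1) (by linarith)
  have hs' : (1 : ℝ) ≤ ((s + 1 : ℚ) : ℝ) := by exact_mod_cast (by linarith : (1 : ℚ) ≤ s + 1)
  set u : ℝ := ((s + 1 : ℚ) : ℝ) with hu
  have hr : 1 ≤ √u := Real.one_le_sqrt.2 hs'
  have hr2 : √u ^ 2 = u := Real.sq_sqrt (by linarith)
  have hK : K2 1 (LP H a b c) = 1 / √u * (1 + 1 / (2 * u)) := by
    rw [K2, hrho, pow_succ _ 2, hr2]; field_simp
  have hk : (k2q H s : ℝ) = (isq H (s + 1) : ℝ) * (1 + 1 / (2 * u)) := by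
    rw [k2q, hu]; push_cast; rfl
  have hw0 : 0 ≤ 1 / (2 * u) := by positivity
  have hw1 : 1 / (2 * u) ≤ 1 := by rw [div_le_one (by linarith)]; linarith
  rw [hK, hk, ← sub_mul, abs_mul, abs_of_nonneg (by linarith : 0 ≤ 1 + 1 / (2 * u))]
  calc _ ≤ 1 / (H : ℝ) ^ 20 * 2 := by gcongr; linarith
    _ = _ := by ring

/-- `120 q (2 H^5 + 1)³ · 2 / H^20 ≤ κ / H^4` -/
lemma E0q_near {κ : ℚ} {H : ℕ} (hκ : 1 ≤ κ) (hH : 8 ≤ H) :
    |(E0q κ H : ℝ) + (Bk (qq κ H) H (K2 1) + 3 * (κ : ℝ) / 2)| ≤ (κ : ℝ) / (H : ℝ) ^ 4 := by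
  have hH1 : 1 ≤ H := by omega
  have hH8 : (8 : ℝ) ≤ H := by exact_mod_cast hH
  have hκ' : (1 : ℝ) ≤ κ := by exact_mod_cast hκ
  obtain ⟨hq1, hq2⟩ := qq_bounds hκ hH1
  have hq0 : (0 : ℝ) ≤ (qq κ H : ℝ) := by
    have : (0 : ℚ) ≤ qq κ H := le_trans (by positivity) hq1
    exact_mod_cast this
  have hq2' : (qq κ H : ℝ) ≤ (κ : ℝ) / (H : ℝ) ^ 3 := by exact_mod_cast hq2
  have h1 : (E0q κ H : ℝ) + (Bk (qq κ H) H (K2 1) + 3 * (κ : ℝ) / 2) =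
      -(120 * (qq κ H : ℝ) * S3 (H ^ 5) fun a b c =>
        (k2q H (cq H a ^ 2 + cq H b ^ 2 + cq H c ^ 2) : ℝ) - K2 1 (LP H a b c)) := by
    rw [S3_sub, E0q, Bk]
    simp only [S3]
    push_cast
    ring
  have h2 := abs_S3_le_const (H ^ 5) (t := 2 / (H : ℝ) ^ 20)
    (F := fun a b c => (k2q H (cq H a ^ 2 + cq H b ^ 2 + cq H c ^ 2) : ℝ) - K2 1 (LP H a b c))
    fun a b c _ _ _ => k2q_near hH1 a b c
  have h5 : (8 : ℝ) ^ 5 ≤ (H : ℝ) ^ 5 := by gcongr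
  have h4 : (8 : ℝ) ^ 4 ≤ (H : ℝ) ^ 4 := by gcongr
  have h3 : (2 * ((H ^ 5 : ℕ) : ℝ) + 1) ^ 3 ≤ (5 / 2 * (H : ℝ) ^ 5) ^ 3 := by
    push_cast; gcongr; linarith
  rw [h1, abs_neg, abs_mul, abs_of_nonneg (by positivity)]
  have hH0 : (0 : ℝ) < H := by linarith
  calc _ ≤ 120 * ((κ : ℝ) / (H : ℝ) ^ 3) * ((5 / 2 * (H : ℝ) ^ 5) ^ 3 * (2 / (H : ℝ) ^ 20)) := by
        gcongr
        exact h2.trans (by gcongr)
    _ = (κ : ℝ) / (H : ℝ) ^ 4 * (3750 / (H : ℝ) ^ 4) := by field_simp; norm_num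
    _ ≤ _ := by
        refine mul_le_of_le_one_right (by positivity) ?_
        rw [div_le_one (by positivity)]
        linarith

end Crest.Agent.R338.Disc
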