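import Crest.Agent.R338.DRep
import Crest.Agent.R338.DProd

/-! Row 338, module D: the cut-off of the background. -/

set_option autoImplicit false

open MeasureTheory Crest.MathPhysics.ElectronicCoulomb Finset

namespace Crest.Agent.R338.Disc

lemma contDiff_bcut {k : ℕ} : ContDiff ℝ k bcut := by
  have h : ContDiff ℝ k Real.smoothTransition := by
    exact_mod_cast Real.smoothTransition.contDiff (n := k)
  exact contDiff_id.mul (h.comp ((contDiff_const.sub contDiff_id).mul contDiff_const))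

lemma dcut_zero {t : ℝ} (ht : 1 / 4 ≤ t) : bcut t = 0 := by
  rw [bcut, Real.smoothTransition.zero_of_nonpos (by linarith), mul_zero]

lemma dcut_id {t : ℝ} (ht : t ≤ 1 / 16) : bcut t = t := by
  rw [bcut, Real.smoothTransition.one_of_one_le (by linarith), mul_one]

lemma dcut_deriv {k : ℕ} : ContDiff ℝ k (deriv bcut) :=
  (contDiff_succ_iff_deriv.1 (by exact_mod_cast contDiff_bcut (k := k + 1))).2.2

lemma dcut_Zf {k : ℕ} : ContDiff ℝ k Zf := by
  have h : ContDiff ℝ k (deriv (deriv bcut)) :=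
    (contDiff_succ_iff_deriv.1 (by exact_mod_cast dcut_deriv (k := k + 1))).2.2
  exact dcut_deriv.add ((contDiff_const.mul contDiff_id).mul h)

lemma contDiff_Psi (R : ℝ) {k : ℕ} : ContDiff ℝ k (Psi R) := by
  exact contDiff_const.mul (contDiff_bcut.comp ((contDiff_norm_sq ℝ).div_const _))

lemma suppIn_Psi {R : ℝ} (hR : 0 < R) : SuppIn (R / 2) (Psi R) := by
  intro y hy
  have h : 1 / 4 ≤ ‖y‖ ^ 2 / R ^ 2 := by
    rw [le_div_iff₀ (by positivity)]
    nlinarith
  rw [Psi, dcut_zero h, mul_zero]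

lemma Psi_eq {R : ℝ} (hR : 0 < R) {y : Pos3} (hy : ‖y‖ ≤ R / 4) : Psi R y = ‖y‖ ^ 2 := by
  have h : ‖y‖ ^ 2 / R ^ 2 ≤ 1 / 16 := by
    rw [div_le_iff₀ (by positivity)]
    nlinarith [norm_nonneg y]
  rw [Psi, dcut_id h]
  field_simp

/-- `lap_radial` with `β t = R² bcut (t / R²)` -/
lemma lap_Psi {R : ℝ} (hR : 0 < R) (y : Pos3) : lap (Psi R) y = 6 * Zf (‖y‖ ^ 2 / R ^ 2) := by
  have hR2 : R ^ 2 ≠ 0 := by positivity
  have hb : ContDiff ℝ 2 fun t : ℝ => R ^ 2 * bcut (t / R ^ 2) :=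
    contDiff_const.mul ((contDiff_bcut (k := 2)).comp (contDiff_id.div_const _))
  have h := lap_radial (β := fun t : ℝ => R ^ 2 * bcut (t / R ^ 2)) 0 y hb.contDiffAt
  simp only [sub_zero] at h
  have h1 : deriv (fun t : ℝ => R ^ 2 * bcut (t / R ^ 2)) = fun t => deriv bcut (t / R ^ 2) := by
    funext t
    have h2 := (((contDiff_bcut (k := 1)).differentiable (by simp) (t / R ^ 2)).hasDerivAt.comp t
      ((hasDerivAt_id t).div_const (R ^ 2))).const_mul (R ^ 2)
    refine Eq.trans h2.deriv ?_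
    field_simp
  have h3 : deriv (fun t => deriv bcut (t / R ^ 2)) (‖y‖ ^ 2) =
      deriv (deriv bcut) (‖y‖ ^ 2 / R ^ 2) * (1 / R ^ 2) := by
    have h2 := ((dcut_deriv (k := 1)).differentiable (by simp) (‖y‖ ^ 2 / R ^ 2)).hasDerivAt.comp
      (‖y‖ ^ 2) ((hasDerivAt_id (‖y‖ ^ 2)).div_const (R ^ 2))
    exact h2.deriv
  rw [h1, h3] at h
  refine Eq.trans h ?_
  rw [Zf]
  ring

lemma Zf_eq_one {t : ℝ} (ht : t < 1 / 16) : Zf t = 1 := by
  have h1 : bcut =ᶠ[nhds t] fun s => s :=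
    (eventually_lt_nhds ht).mono fun s hs => dcut_id hs.le
  have h2 := h1.deriv
  rw [deriv_id''] at h2
  rw [Zf, h2.deriv_eq, h2.eq_of_nhds]
  simp

lemma Zf_eq_zero {t : ℝ} (ht : 1 / 4 < t) : Zf t = 0 := by
  have h1 : bcut =ᶠ[nhds t] fun _ => 0 :=
    (eventually_gt_nhds ht).mono fun s hs => dcut_zero hs.le
  have h2 := h1.deriv
  rw [deriv_const'] at h2
  rw [Zf, h2.deriv_eq, h2.eq_of_nhds]
  simp

lemma suppIn_lap_Psi {R : ℝ} (hR : 0 < R) : SuppIn (3 * R / 4) (lap (Psi R)) := by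
  exact suppIn_lap (suppIn_Psi hR) (by linarith)

/-- `lap (Psi R) y = a₁ (R⁻¹ • y)` with the fixed smooth compactly supported `a₁ = lap (Psi 1)`, all
of whose derivatives of order `≤ 4` are bounded; `LD (lap (Psi R)) i j y = R^(-j) LD a₁ i j (R⁻¹ • y)`
(`iteratedDeriv_comp_const_mul`), and `rho 1 y ≤ 2 R` on the support. -/
lemma cut_bounds : ∃ C : ℝ, 1 ≤ C ∧ (∀ t, |Zf t| ≤ C) ∧ ∀ R : ℝ, 1 ≤ R → Sym (lap (Psi R)) C := by
  obtain ⟨C₀, hC₀⟩ := (isCompact_Icc (a := (1 / 16 : ℝ)) (b := 1 / 4)).exists_bound_of_continuousOn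
    (dcut_Zf (k := 0)).continuous.continuousOn
  have e1 : lap (Psi 1) = fun y => 6 * Zf (‖y‖ ^ 2) := by
    funext y
    rw [lap_Psi one_pos, one_pow, div_one]
  have ha : ContDiff ℝ (4 : ℕ) (lap (Psi 1)) := by
    rw [e1]
    exact contDiff_const.mul (dcut_Zf.comp (contDiff_norm_sq ℝ))
  have hcs : HasCompactSupport (lap (Psi 1)) := suppIn_cs (suppIn_lap_Psi one_pos)
  have hB : ∀ j : Fin 5, ∃ B : ℝ, ∀ y, ‖iteratedFDeriv ℝ j (lap (Psi 1)) y‖ ≤ B := fun j =>
    (ha.continuous_iteratedFDeriv (by exact_mod_cast Nat.lt_succ_iff.1 j.2)).bounded_above_of_compact_support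
      (hcs.iteratedFDeriv j)
  choose B hB using hB
  have hB0 : ∀ j, 0 ≤ B j := fun j => (norm_nonneg _).trans (hB j 0)
  have hS0 : 0 ≤ ∑ j, B j := sum_nonneg fun j _ => hB0 j
  refine ⟨1 + |C₀| + 16 * ∑ j, B j, by linarith [abs_nonneg C₀], fun t => ?_, fun R hR => ?_⟩
  · rcases lt_or_ge t (1 / 16) with h | h
    · rw [Zf_eq_one h, abs_one]
      linarith [abs_nonneg C₀]
    · rcases lt_or_ge (1 / 4) t with h' | h'
      · rw [Zf_eq_zero h', abs_zero]
        linarith [abs_nonneg C₀]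
      · have := hC₀ t ⟨h, h'⟩
        rw [Real.norm_eq_abs] at this
        linarith [le_abs_self C₀]
  · have hR0 : 0 < R := by linarith
    have e2 : ∀ y, lap (Psi R) y = lap (Psi 1) (R⁻¹ • y) := by
      intro y
      rw [lap_Psi hR0, e1]
      simp only [norm_smul, norm_inv, Real.norm_of_nonneg hR0.le]
      congr 2
      field_simp
    refine ⟨?_, fun i j y hj => ?_⟩
    · rw [show lap (Psi R) = fun y => lap (Psi 1) (R⁻¹ • y) from funext e2]
      exact ha.comp (contDiff_const_smul _)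
    have hρ := rho_pos one_pos y
    rcases lt_or_ge (3 * R / 4) ‖y‖ with hy | hy
    · rw [LD_eq_zero (suppIn_lap_Psi hR0) i j hy, abs_zero]
      have := abs_nonneg C₀
      positivity
    have e3 : LD (lap (Psi R)) i j y = R⁻¹ ^ j * LD (lap (Psi 1)) i j (R⁻¹ • y) := by
      have h1 := iteratedDeriv_comp_const_mul (n := j)
        (contDiff_line (ha.of_le (by exact_mod_cast hj)) i (R⁻¹ • y)) R⁻¹
      have h2 := congrFun h1 0
      rw [mul_zero] at h2
      rw [LD, LD, ← h2]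
      simp only [e2, smul_add, smul_smul]
    have h3 : |LD (lap (Psi 1)) i j (R⁻¹ • y)| ≤ ∑ j, B j :=
      ((abs_LD_le ha hj i _).trans (hB ⟨j, by omega⟩ _)).trans
        (single_le_sum (fun j _ => hB0 j) (mem_univ _))
    have h4 : rho 1 y ≤ 2 * R := by linarith [rho_le zero_le_one y]
    have h5 : rho 1 y ^ j ≤ 16 * R ^ j := by
      calc rho 1 y ^ j ≤ (2 * R) ^ j := by gcongr
        _ = 2 ^ j * R ^ j := mul_pow _ _ _
        _ ≤ 2 ^ 4 * R ^ j := by gcongr; norm_num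
        _ = 16 * R ^ j := by norm_num
    rw [e3, abs_mul, abs_of_nonneg (by positivity), le_div_iff₀ (by positivity)]
    calc R⁻¹ ^ j * |LD (lap (Psi 1)) i j (R⁻¹ • y)| * rho 1 y ^ j
        ≤ R⁻¹ ^ j * (∑ j, B j) * (16 * R ^ j) := by gcongr
      _ = 16 * ∑ j, B j := by rw [inv_pow]; field_simp
      _ ≤ _ := by linarith [abs_nonneg C₀]

end Crest.Agent.R338.Disc
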