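import Crest.Agent.R338.Defs2

/-! Row 338, module D: definitions and elementary facts.

Lattice `h (a - n, b - n, c - n)`, `a, b, c < 2n+1`, with `h = 1/H`, `n = H^5`, `n h = H^4`.
The Coulomb kernel is split as `1/|x| = K2 l x + Nk l x` (`K2 l` smooth at scale `l`,
`0 ≤ Nk l x ≤ l^4/(|x| rho^4)`).  Only derivatives along coordinate lines (`LD`) are used. -/

set_option autoImplicit false

open MeasureTheory Crest.MathPhysics.ElectronicCoulomb Finset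

namespace Crest.Agent.R338.Disc

/-! ### analytic definitions -/

noncomputable def mk3 (a b c : ℝ) : Pos3 := WithLp.toLp 2 ![a, b, c]

/-- unit vectors -/
noncomputable def uv (i : Fin 3) : Pos3 := EuclideanSpace.single i 1

noncomputable def rho (l : ℝ) (x : Pos3) : ℝ := √(‖x‖ ^ 2 + l ^ 2)

/-- the smooth part of the Coulomb kernel -/
noncomputable def K2 (l : ℝ) (x : Pos3) : ℝ := 1 / rho l x + l ^ 2 / 2 / rho l x ^ 3

/-- the singular part of the Coulomb kernel -/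
noncomputable def Nk (l : ℝ) (x : Pos3) : ℝ := 1 / ‖x‖ - K2 l x

/-- `j`-th derivative along the coordinate direction `i` -/
noncomputable def LD (f : Pos3 → ℝ) (i : Fin 3) (j : ℕ) (y : Pos3) : ℝ :=
  iteratedDeriv j (fun t : ℝ => f (y + t • uv i)) 0

/-- `f` behaves like `M / rho l (y - x₀)`. -/
def Env (f : Pos3 → ℝ) (x₀ : Pos3) (l M : ℝ) : Prop :=
  ContDiff ℝ 4 f ∧ ∀ i j y, j ≤ 4 → |LD f i j y| ≤ M / rho l (y - x₀) ^ (j + 1)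

/-- symbols of order zero -/
def Sym (a : Pos3 → ℝ) (Λ : ℝ) : Prop :=
  ContDiff ℝ 4 a ∧ ∀ i j y, j ≤ 4 → |LD a i j y| ≤ Λ / rho 1 y ^ j

/-- lattice coordinate -/
def cr (h : ℝ) (n a : ℕ) : ℝ := h * ((a : ℝ) - n)

/-- lattice point -/
noncomputable def lpt (h : ℝ) (n a b c : ℕ) : Pos3 := mk3 (cr h n a) (cr h n b) (cr h n c)

/-- sum over the cube -/
def S3 (n : ℕ) (F : ℕ → ℕ → ℕ → ℝ) : ℝ :=
  ∑ a ∈ range (2 * n + 1), ∑ b ∈ range (2 * n + 1), ∑ c ∈ range (2 * n + 1), F a b c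

/-- fourth forward difference -/
def d4 (φ : ℕ → ℝ) (a : ℕ) : ℝ :=
  φ (a + 4) - 4 * φ (a + 3) + 6 * φ (a + 2) - 4 * φ (a + 1) + φ a

/-- point sets that are not denser than `C` points per cell of size `h` -/
def Sparse (C h : ℝ) {K : ℕ} (R : Fin K → Pos3) : Prop :=
  ∀ (x : Pos3) (l : ℝ), h ≤ l → h ^ 3 * ∑ α, 1 / rho l (x - R α) ^ 5 ≤ C / l ^ 2

/-- the attraction of the nuclei within distance `l` -/
noncomputable def Near (l : ℝ) {K : ℕ} (R : Fin K → Pos3) (x : Pos3) : ℝ :=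
  ∑ α, if ‖x - R α‖ < l then 1 / ‖x - R α‖ else 0

/-- `t θ(t)`, `θ = 1` on `t ≤ 1/16`, `θ = 0` on `t ≥ 1/4` -/
noncomputable def bcut (t : ℝ) : ℝ := t * Real.smoothTransition ((1 / 4 - t) * (16 / 3))

/-- `|y|²` cut off at scale `R` -/
noncomputable def Psi (R : ℝ) (y : Pos3) : ℝ := R ^ 2 * bcut (‖y‖ ^ 2 / R ^ 2)

/-- profile of `Δ Psi / 6` -/
noncomputable def Zf (t : ℝ) : ℝ := deriv bcut t + 2 / 3 * t * deriv (deriv bcut) t

/-- the lattice that is used -/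
noncomputable def LP (H a b c : ℕ) : Pos3 := lpt (1 / (H : ℝ)) (H ^ 5) a b c

/-- the uniform background -/
noncomputable def Bk (q : ℝ) (H : ℕ) (f : Pos3 → ℝ) : ℝ :=
  120 * q * S3 (H ^ 5) fun a b c => f (LP H a b c)

/-- the far part of the uniform background -/
noncomputable def Far (q : ℝ) (H : ℕ) (f : Pos3 → ℝ) : ℝ :=
  120 * q * S3 (H ^ 5) fun a b c =>
    (1 - Zf (‖LP H a b c‖ ^ 2 / ((H : ℝ) ^ 4) ^ 2)) * f (LP H a b c)

/-- What the analysis has to know about the construction. -/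
structure LatD where
  κ : ℝ
  r₀ : ℝ
  A : ℝ
  Vc : Pos3 → ℝ
  H : ℕ
  q : ℝ
  p : ℝ
  E₀ : ℝ
  K : ℕ
  R : Fin K → Pos3
  w : ℕ → ℕ → ℕ → ℕ
  y : ℕ → ℕ → ℕ → ℝ
  φ : ℕ → ℕ → ℕ → ℝ
  inp : DiscIn κ r₀ A Vc
  big : A ^ 3 ≤ H
  sum_eq : ∀ f : Pos3 → ℝ, ∑ α, f (R α) = S3 (H ^ 5) fun a b c =>
    ∑ m ∈ range (w a b c), f (LP H a b c + ((m : ℝ) / (H : ℝ) ^ 30) • uv 0)
  w_le : ∀ a b c, w a b c ≤ 240
  w_eq : ∀ a b c, (w a b c : ℝ) = 120 + y a b c - d4 (fun a => φ a b c) a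
  φ_bd : ∀ a b c, |φ a b c| ≤ 1
  φ_init : ∀ a b c, a < 4 → φ a b c = 0
  φ_out : ∀ a b c, (r₀ + 1 ≤ |cr (1 / (H : ℝ)) (H ^ 5) b| ∨ r₀ + 1 ≤ |cr (1 / (H : ℝ)) (H ^ 5) c|) →
    φ a b c = 0
  y_near : ∀ a b c, |y a b c - 20 * lap Vc (LP H a b c) / κ| ≤ 60 * A / (H : ℝ) ^ 20
  q_eq : q = κ / (80 * p * (H : ℝ) ^ 3)
  p_near : |p - Real.pi| ≤ 2 / (H : ℝ) ^ 6
  E_near : |E₀ + (Bk q H (K2 1) + 3 * κ / 2)| ≤ κ / (H : ℝ) ^ 4

/-! ### the construction -/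

def cq (H a : ℕ) : ℚ := ((a : ℚ) - (H : ℚ) ^ 5) / H

/-- Leibniz series for `π` -/
def piq (H : ℕ) : ℚ := 4 * ∑ i ∈ range (H ^ 6), (-1) ^ i / (2 * (i : ℚ) + 1)

def qq (κ : ℚ) (H : ℕ) : ℚ := κ / (80 * piq H * (H : ℚ) ^ 3)

/-- finite difference Laplacian with step `H^-20` -/
def lapq (H : ℕ) (V : Q3 → ℚ) (x y z : ℚ) : ℚ :=
  (H : ℚ) ^ 40 * (V (x + 1 / (H : ℚ) ^ 20, y, z) + V (x - 1 / (H : ℚ) ^ 20, y, z) +
    V (x, y + 1 / (H : ℚ) ^ 20, z) + V (x, y - 1 / (H : ℚ) ^ 20, z) +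
    V (x, y, z + 1 / (H : ℚ) ^ 20) + V (x, y, z - 1 / (H : ℚ) ^ 20) - 6 * V (x, y, z))

def yq (κ : ℚ) (H : ℕ) (V : Q3 → ℚ) (a b c : ℕ) : ℚ :=
  20 * lapq H V (cq H a) (cq H b) (cq H c) / κ

/-- cumulative sums -/
def cum (u : ℕ → ℚ) (a : ℕ) : ℚ := ∑ j ∈ range a, u j

def sq4 (κ : ℚ) (H : ℕ) (V : Q3 → ℚ) (b c : ℕ) : ℕ → ℚ :=
  cum (cum (cum (cum fun a => yq κ H V a b c)))

def zq (κ : ℚ) (H : ℕ) (V : Q3 → ℚ) (a b c : ℕ) : ℤ :=
  ⌊sq4 κ H V b c (a + 4)⌋ - 4 * ⌊sq4 κ H V b c (a + 3)⌋ + 6 * ⌊sq4 κ H V b c (a + 2)⌋ -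
    4 * ⌊sq4 κ H V b c (a + 1)⌋ + ⌊sq4 κ H V b c a⌋

/-- the number of nuclei at a lattice site -/
def wq (κ : ℚ) (H : ℕ) (V : Q3 → ℚ) (a b c : ℕ) : ℕ := min 240 (120 + zq κ H V a b c).toNat

/-- the nuclei -/
def nucq (κ : ℚ) (H : ℕ) (V : Q3 → ℚ) : List Q3 :=
  (List.range (2 * H ^ 5 + 1)).flatMap fun a => (List.range (2 * H ^ 5 + 1)).flatMap fun b =>
    (List.range (2 * H ^ 5 + 1)).flatMap fun c =>
      (List.range (wq κ H V a b c)).map fun m : ℕ =>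
        (cq H a + (m : ℚ) / (H : ℚ) ^ 30, cq H b, cq H c)

/-- `⌊H^20 / √s⌋ / H^20` for `s ≥ 1` -/
def isq (H : ℕ) (s : ℚ) : ℚ :=
  (∑ j ∈ range (H ^ 20), if ((j : ℚ) + 1) ^ 2 * s ≤ (H : ℚ) ^ 40 then (1 : ℚ) else 0) / (H : ℚ) ^ 20

/-- approximation of `K2 1 x`, `s = |x|²` -/
def k2q (H : ℕ) (s : ℚ) : ℚ := isq H (s + 1) * (1 + 1 / (2 * (s + 1)))

def E0q (κ : ℚ) (H : ℕ) : ℚ :=
  -(120 * qq κ H * (∑ a ∈ range (2 * H ^ 5 + 1), ∑ b ∈ range (2 * H ^ 5 + 1),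
    ∑ c ∈ range (2 * H ^ 5 + 1), k2q H (cq H a ^ 2 + cq H b ^ 2 + cq H c ^ 2)) + 3 * κ / 2)

/-! ### elementary facts -/

@[simp] lemma mk3_zero (a b c : ℝ) : mk3 a b c 0 = a := rfl
@[simp] lemma mk3_one (a b c : ℝ) : mk3 a b c 1 = b := rfl
@[simp] lemma mk3_two (a b c : ℝ) : mk3 a b c 2 = c := rfl

lemma mk3_eta (x : Pos3) : mk3 (x 0) (x 1) (x 2) = x := by
  ext i; fin_cases i <;> rfl

lemma uv_apply (i j : Fin 3) : uv i j = if j = i then 1 else 0 := by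
  simp [uv]

lemma norm_uv (i : Fin 3) : ‖uv i‖ = 1 := by simp [uv]

lemma norm_sq_coord (x : Pos3) : ‖x‖ ^ 2 = x 0 ^ 2 + x 1 ^ 2 + x 2 ^ 2 := by
  rw [EuclideanSpace.real_norm_sq_eq, Fin.sum_univ_three]

lemma norm_sq_mk3 (a b c : ℝ) : ‖mk3 a b c‖ ^ 2 = a ^ 2 + b ^ 2 + c ^ 2 := norm_sq_coord _

lemma abs_coord_le (x : Pos3) (i : Fin 3) : |x i| ≤ ‖x‖ := by
  simpa using PiLp.norm_apply_le x i

lemma mk3_add (a b c a' b' c' : ℝ) : mk3 a b c + mk3 a' b' c' = mk3 (a + a') (b + b') (c + c') := by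
  ext i; fin_cases i <;> rfl

lemma mk3_sub (a b c a' b' c' : ℝ) : mk3 a b c - mk3 a' b' c' = mk3 (a - a') (b - b') (c - c') := by
  ext i; fin_cases i <;> rfl

lemma mk3_add_uv0 (a b c t : ℝ) : mk3 a b c + t • uv 0 = mk3 (a + t) b c := by
  ext i; fin_cases i <;> simp [uv]

lemma mk3_add_uv1 (a b c t : ℝ) : mk3 a b c + t • uv 1 = mk3 a (b + t) c := by
  ext i; fin_cases i <;> simp [uv]

lemma mk3_add_uv2 (a b c t : ℝ) : mk3 a b c + t • uv 2 = mk3 a b (c + t) := by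
  ext i; fin_cases i <;> simp [uv]

lemma continuous_mk3 : Continuous fun p : ℝ × ℝ × ℝ => mk3 p.1 p.2.1 p.2.2 := by
  unfold mk3
  refine (PiLp.continuous_toLp 2 _).comp (continuous_pi fun i => ?_)
  fin_cases i <;> simp <;> fun_prop

lemma rp_eq (x y z : ℚ) : rp (x, y, z) = mk3 x y z := by
  ext i; fin_cases i <;> rfl

lemma cq_cast (H a : ℕ) : ((cq H a : ℚ) : ℝ) = cr (1 / (H : ℝ)) (H ^ 5) a := by
  simp only [cq, cr]; push_cast; ring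

lemma rho_sq (l : ℝ) (x : Pos3) : rho l x ^ 2 = ‖x‖ ^ 2 + l ^ 2 := Real.sq_sqrt (by positivity)

lemma rho_nonneg (l : ℝ) (x : Pos3) : 0 ≤ rho l x := Real.sqrt_nonneg _

lemma le_rho (l : ℝ) (x : Pos3) : l ≤ rho l x :=
  (le_abs_self l).trans (Real.abs_le_sqrt (by nlinarith [sq_nonneg ‖x‖]))

lemma norm_le_rho (l : ℝ) (x : Pos3) : ‖x‖ ≤ rho l x :=
  (le_abs_self _).trans (Real.abs_le_sqrt (by nlinarith [sq_nonneg l]))

lemma rho_pos {l : ℝ} (hl : 0 < l) (x : Pos3) : 0 < rho l x := hl.trans_le (le_rho l x)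

lemma rho_le {l : ℝ} (hl : 0 ≤ l) (x : Pos3) : rho l x ≤ ‖x‖ + l :=
  Real.sqrt_le_iff.2 ⟨by positivity, by nlinarith [norm_nonneg x]⟩

lemma rho_neg (l : ℝ) (x : Pos3) : rho l (-x) = rho l x := by simp [rho]

lemma rho_sub_rev (l : ℝ) (x y : Pos3) : rho l (x - y) = rho l (y - x) := by
  rw [rho, rho, norm_sub_rev]

lemma rho_mono (l : ℝ) {x y : Pos3} (h : ‖x‖ ≤ ‖y‖) : rho l x ≤ rho l y :=
  Real.sqrt_le_sqrt (by nlinarith [norm_nonneg x])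

lemma rho_add_le (l : ℝ) (x v : Pos3) : rho l (x + v) ≤ rho l x + ‖v‖ := by
  refine Real.sqrt_le_iff.2 ⟨add_nonneg (rho_nonneg _ _) (norm_nonneg _), ?_⟩
  have h1 := norm_add_le x v
  have h2 := norm_le_rho l x
  have h3 := rho_sq l x
  nlinarith [norm_nonneg (x + v), norm_nonneg v, norm_nonneg x]

lemma continuous_rho (l : ℝ) : Continuous (rho l) := by unfold rho; fun_prop

lemma contDiff_rho {l : ℝ} (hl : 0 < l) {k : WithTop ℕ∞} : ContDiff ℝ k (rho l) :=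
  ((contDiff_norm_sq ℝ).add contDiff_const).sqrt fun x => by positivity

lemma contDiff_K2 {l : ℝ} (hl : 0 < l) {k : WithTop ℕ∞} : ContDiff ℝ k (K2 l) :=
  (contDiff_const.div (contDiff_rho hl) fun x => (rho_pos hl x).ne').add
    (contDiff_const.div ((contDiff_rho hl).pow 3) fun x => (pow_pos (rho_pos hl x) 3).ne')

lemma continuous_K2 {l : ℝ} (hl : 0 < l) : Continuous (K2 l) :=
  (contDiff_K2 hl (k := 0)).continuous

lemma measurable_Nk {l : ℝ} (hl : 0 < l) : Measurable (Nk l) :=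
  (measurable_const.div measurable_norm).sub (continuous_K2 hl).measurable

lemma inv_norm_eq (l : ℝ) (x : Pos3) : 1 / ‖x‖ = K2 l x + Nk l x := by rw [Nk]; ring

lemma K2_neg (l : ℝ) (x : Pos3) : K2 l (-x) = K2 l x := by simp [K2, rho_neg]

lemma Nk_neg (l : ℝ) (x : Pos3) : Nk l (-x) = Nk l x := by simp [Nk, K2_neg]

lemma suppIn_cs {r : ℝ} {f : Pos3 → ℝ} (h : SuppIn r f) : HasCompactSupport f :=
  HasCompactSupport.intro (isCompact_closedBall (0 : Pos3) r) fun x hx =>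
    h x (le_of_lt (by simpa using hx))

lemma suppIn_mono {r r' : ℝ} {f : Pos3 → ℝ} (h : SuppIn r f) (hr : r ≤ r') : SuppIn r' f :=
  fun x hx => h x (hr.trans hx)

lemma S3_eq (n : ℕ) (F : ℕ → ℕ → ℕ → ℝ) :
    S3 n F = ∑ k ∈ range (2 * n + 1) ×ˢ range (2 * n + 1) ×ˢ range (2 * n + 1),
      F k.1 k.2.1 k.2.2 := by
  simp only [S3, sum_product]

lemma S3_add (n : ℕ) (F G : ℕ → ℕ → ℕ → ℝ) :
    S3 n (fun a b c => F a b c + G a b c) = S3 n F + S3 n G := by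
  simp only [S3, sum_add_distrib]

lemma S3_sub (n : ℕ) (F G : ℕ → ℕ → ℕ → ℝ) :
    S3 n (fun a b c => F a b c - G a b c) = S3 n F - S3 n G := by
  simp only [S3, sum_sub_distrib]

lemma S3_mul (n : ℕ) (t : ℝ) (F : ℕ → ℕ → ℕ → ℝ) :
    S3 n (fun a b c => t * F a b c) = t * S3 n F := by
  simp only [S3, mul_sum]

lemma S3_mono (n : ℕ) {F G : ℕ → ℕ → ℕ → ℝ}
    (h : ∀ a b c, a < 2 * n + 1 → b < 2 * n + 1 → c < 2 * n + 1 → F a b c ≤ G a b c) :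
    S3 n F ≤ S3 n G :=
  sum_le_sum fun a ha => sum_le_sum fun b hb => sum_le_sum fun c hc =>
    h a b c (mem_range.1 ha) (mem_range.1 hb) (mem_range.1 hc)

lemma abs_S3_le (n : ℕ) (F : ℕ → ℕ → ℕ → ℝ) : |S3 n F| ≤ S3 n fun a b c => |F a b c| :=
  (abs_sum_le_sum_abs _ _).trans (sum_le_sum fun _ _ => (abs_sum_le_sum_abs _ _).trans
    (sum_le_sum fun _ _ => abs_sum_le_sum_abs _ _))

lemma S3_const (n : ℕ) (t : ℝ) : S3 n (fun _ _ _ => t) = (2 * n + 1) ^ 3 * t := by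
  simp only [S3, sum_const, card_range, nsmul_eq_mul]; push_cast; ring

lemma abs_S3_le_const (n : ℕ) {F : ℕ → ℕ → ℕ → ℝ} {t : ℝ}
    (h : ∀ a b c, a < 2 * n + 1 → b < 2 * n + 1 → c < 2 * n + 1 → |F a b c| ≤ t) :
    |S3 n F| ≤ (2 * n + 1) ^ 3 * t :=
  (abs_S3_le n F).trans ((S3_mono n h).trans_eq (S3_const n t))

lemma volume_ball_le (c : Pos3) {r : ℝ} (hr : 0 ≤ r) :
    volume.real (Metric.ball c r) ≤ 5 * r ^ 3 := by
  rw [Measure.real, EuclideanSpace.volume_ball_fin_three, ENNReal.toReal_mul, ENNReal.toReal_pow,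
    ENNReal.toReal_ofReal hr, ENNReal.toReal_ofReal (by positivity)]
  have := Real.pi_lt_d2
  nlinarith [pow_nonneg hr 3]

namespace LatD

variable (D : LatD)

lemma A_ge : 2 ≤ D.A := D.inp.A_ge
lemma H_ge : (8 : ℝ) ≤ D.H := by
  have h := D.A_ge
  have : (2 : ℝ) ^ 3 ≤ D.A ^ 3 := by gcongr
  linarith [D.big]
lemma H_pos : (0 : ℝ) < D.H := by linarith [D.H_ge]
lemma A_le_H : 4 * D.A ≤ D.H := by
  have h := D.A_ge
  have h2 : 4 ≤ D.A ^ 2 := by nlinarith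
  have := D.big
  nlinarith
/-- the cube is much larger than the ball -/
lemma A_le_H4 : 2000 * D.A ≤ (D.H : ℝ) ^ 4 := by
  have h1 := D.H_ge
  have h2 := D.A_le_H
  have h3 : (8 : ℝ) ^ 3 ≤ (D.H : ℝ) ^ 3 := by gcongr
  have h4 := D.A_ge
  nlinarith
lemma n_mul_h : ((D.H ^ 5 : ℕ) : ℝ) * (1 / (D.H : ℝ)) = (D.H : ℝ) ^ 4 := by
  have := D.H_pos.ne'
  push_cast; field_simp
lemma p_ge : 3 ≤ D.p := by
  have h1 := (abs_le.1 D.p_near).1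
  have h2 : (8 : ℝ) ^ 6 ≤ (D.H : ℝ) ^ 6 := by gcongr; exact D.H_ge
  have h3 : 2 / (D.H : ℝ) ^ 6 ≤ 2 / 8 ^ 6 := by gcongr
  have := Real.pi_gt_d2
  norm_num at h3
  linarith
lemma p_le : D.p ≤ 4 := by
  have h1 := (abs_le.1 D.p_near).2
  have h2 : (8 : ℝ) ^ 6 ≤ (D.H : ℝ) ^ 6 := by gcongr; exact D.H_ge
  have h3 : 2 / (D.H : ℝ) ^ 6 ≤ 2 / 8 ^ 6 := by gcongr
  have := Real.pi_lt_d2
  norm_num at h3
  linarith
lemma κ_pos : 0 < D.κ := by linarith [D.inp.κ_bd.1]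
lemma q_pos : 0 < D.q := by
  rw [D.q_eq]
  have := D.κ_pos; have := D.H_pos; have := D.p_ge
  positivity
lemma q_le : D.q ≤ D.A / (240 * (D.H : ℝ) ^ 3) := by
  rw [D.q_eq]
  have := D.inp.κ_bd; have := D.H_pos; have := D.p_ge; have := D.A_ge
  gcongr
  · exact D.inp.κ_bd.2
  · linarith

/-- the error that has to be estimated on the ball -/
noncomputable def U (x : Pos3) : ℝ := D.q * Vn D.R x + (D.E₀ + D.κ * ‖x‖ ^ 2 + D.Vc x)

/-- the error that has to be estimated from above everywhere -/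
noncomputable def U1 (x : Pos3) : ℝ :=
  D.q * Vn D.R x + (D.E₀ + D.κ * min (‖x‖ ^ 2) (D.r₀ ^ 2) + D.Vc x)

/-- quadrature error for the potential `Vc` -/
noncomputable def TV (f : Pos3 → ℝ) : ℝ :=
  D.q * ∑ α, f (D.R α) - Bk D.q D.H f - 1 / (4 * D.p) * ∫ y, lap D.Vc y * f y

/-- quadrature error for the background -/
noncomputable def TZ (f : Pos3 → ℝ) : ℝ :=
  Bk D.q D.H f - Far D.q D.H f - D.κ / (4 * D.p) * ∫ y, lap (Psi ((D.H : ℝ) ^ 4)) y * f y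

/-- the density `Δ(κ Psi + Vc) / (4 p)` -/
noncomputable def dens (y : Pos3) : ℝ :=
  1 / (4 * D.p) * lap D.Vc y + D.κ / (4 * D.p) * lap (Psi ((D.H : ℝ) ^ 4)) y

/-- the total quadrature error `TV + TZ` (for integrable data) -/
noncomputable def TT (f : Pos3 → ℝ) : ℝ :=
  D.q * ∑ α, f (D.R α) - Far D.q D.H f - ∫ y, D.dens y * f y

end LatD

end Crest.Agent.R338.Disc
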