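import Crest.Agent.R338.DDefs

/-! Row 338, module D: one-dimensional quadrature and lattice sums. -/

set_option autoImplicit false

open MeasureTheory Crest.MathPhysics.ElectronicCoulomb Finset

namespace Crest.Agent.R338.Disc

lemma dem_hasDeriv {φ : ℝ → ℝ} (hφ : ContDiff ℝ 4 φ) {j : ℕ} (hj : j < 4) (t : ℝ) :
    HasDerivAt (iteratedDeriv j φ) (iteratedDeriv (j + 1) φ t) t := by
  rw [iteratedDeriv_succ]
  exact (hφ.differentiable_iteratedDeriv j (by exact_mod_cast hj) t).hasDerivAt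

lemma dem_cell {φ m : ℝ → ℝ} (hφ : ContDiff ℝ 4 φ) {h : ℝ} (hh : 0 < h) (hm : Integrable m)
    (hb : ∀ t, |iteratedDeriv 4 φ t| ≤ m t) (c : ℝ) :
    |h / 2 * (φ c + φ (c + h)) - h ^ 2 / 12 * (iteratedDeriv 1 φ (c + h) - iteratedDeriv 1 φ c) -
      ∫ t in c..c + h, φ t| ≤ h ^ 4 * ∫ t in c..c + h, m t := by
  have c4 : Continuous (iteratedDeriv 4 φ) := hφ.continuous_iteratedDeriv 4 le_rfl
  have c0 : Continuous φ := hφ.continuous
  have hd : ∀ t, HasDerivAt (fun t => (t - c - h / 2) * iteratedDeriv 0 φ t -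
      ((t - c) ^ 2 / 2 - h * (t - c) / 2 + h ^ 2 / 12) * iteratedDeriv 1 φ t +
      ((t - c) ^ 3 / 6 - h * (t - c) ^ 2 / 4 + h ^ 2 * (t - c) / 12) * iteratedDeriv 2 φ t -
      ((t - c) ^ 4 / 24 - h * (t - c) ^ 3 / 12 + h ^ 2 * (t - c) ^ 2 / 24) * iteratedDeriv 3 φ t)
      (φ t - (t - c) ^ 2 * (h - (t - c)) ^ 2 / 24 * iteratedDeriv 4 φ t) t := by
    intro t
    have u : HasDerivAt (fun t : ℝ => t - c) 1 t := (hasDerivAt_id t).sub_const c
    have q1 := u.sub_const (h / 2)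
    have q2 := (((u.pow 2).div_const 2).sub ((u.const_mul h).div_const 2)).add_const (h ^ 2 / 12)
    have q3 := (((u.pow 3).div_const 6).sub (((u.pow 2).const_mul h).div_const 4)).add
      ((u.const_mul (h ^ 2)).div_const 12)
    have q4 := (((u.pow 4).div_const 24).sub (((u.pow 3).const_mul h).div_const 12)).add
      (((u.pow 2).const_mul (h ^ 2)).div_const 24)
    have := (((q1.mul (dem_hasDeriv hφ (j := 0) (by norm_num) t)).sub
      (q2.mul (dem_hasDeriv hφ (j := 1) (by norm_num) t))).add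
      (q3.mul (dem_hasDeriv hφ (j := 2) (by norm_num) t))).sub
      (q4.mul (dem_hasDeriv hφ (j := 3) (by norm_num) t))
    refine this.congr_deriv ?_
    simp only [iteratedDeriv_zero, Pi.add_apply, Pi.sub_apply, Pi.pow_apply, Nat.cast_ofNat,
      Nat.reduceAdd, Nat.add_one_sub_one, zero_add]
    ring
  have c5 : Continuous fun t => (t - c) ^ 2 * (h - (t - c)) ^ 2 / 24 * iteratedDeriv 4 φ t := by
    fun_prop
  have h1 := intervalIntegral.integral_eq_sub_of_hasDerivAt (fun t _ => hd t)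
    ((c0.sub c5).intervalIntegrable c (c + h))
  rw [intervalIntegral.integral_sub (c0.intervalIntegrable _ _) (c5.intervalIntegrable _ _)] at h1
  have h2 : h / 2 * (φ c + φ (c + h)) -
      h ^ 2 / 12 * (iteratedDeriv 1 φ (c + h) - iteratedDeriv 1 φ c) - ∫ t in c..c + h, φ t
      = -∫ t in c..c + h, (t - c) ^ 2 * (h - (t - c)) ^ 2 / 24 * iteratedDeriv 4 φ t := by
    simp only [iteratedDeriv_zero] at h1
    linear_combination -h1
  rw [h2, abs_neg, ← intervalIntegral.integral_const_mul]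
  refine (intervalIntegral.abs_integral_le_integral_abs (by linarith)).trans
    (intervalIntegral.integral_mono_on (by linarith) (c5.abs.intervalIntegrable _ _)
      (hm.const_mul _).intervalIntegrable fun t ht => ?_)
  rw [abs_mul]
  refine mul_le_mul ?_ (hb t) (abs_nonneg _) (by positivity)
  rw [abs_of_nonneg (by positivity)]
  have a1 : (t - c) ^ 2 ≤ h ^ 2 := pow_le_pow_left₀ (by linarith [ht.1]) (by linarith [ht.2]) 2
  have a2 : (h - (t - c)) ^ 2 ≤ h ^ 2 :=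
    pow_le_pow_left₀ (by linarith [ht.2]) (by linarith [ht.1]) 2
  have a3 : (t - c) ^ 2 * (h - (t - c)) ^ 2 ≤ h ^ 2 * h ^ 2 :=
    mul_le_mul a1 a2 (sq_nonneg _) (sq_nonneg _)
  have a4 : 0 ≤ h ^ 4 := by positivity
  nlinarith

lemma dem_cr_succ (h : ℝ) (n a : ℕ) : cr h n (a + 1) = cr h n a + h := by
  simp only [cr]
  push_cast
  ring

lemma dem_sum {φ m : ℝ → ℝ} (hφ : ContDiff ℝ 4 φ) {h : ℝ} (hh : 0 < h) (hm : Integrable m)
    (hb : ∀ t, |iteratedDeriv 4 φ t| ≤ m t) (n N : ℕ) :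
    |h * ∑ a ∈ range (N + 1), φ (cr h n a) - h / 2 * (φ (cr h n 0) + φ (cr h n N)) -
      h ^ 2 / 12 * (iteratedDeriv 1 φ (cr h n N) - iteratedDeriv 1 φ (cr h n 0)) -
      ∫ t in cr h n 0..cr h n N, φ t| ≤ h ^ 4 * ∫ t in cr h n 0..cr h n N, m t := by
  induction N with
  | zero =>
    simp only [zero_add, range_one, sum_singleton, intervalIntegral.integral_same, sub_self,
      mul_zero, sub_zero]
    rw [show h * φ (cr h n 0) - h / 2 * (φ (cr h n 0) + φ (cr h n 0)) = 0 by ring, abs_zero]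
  | succ N ih =>
    have h1 := dem_cell hφ hh hm hb (cr h n N)
    rw [← dem_cr_succ] at h1
    rw [← intervalIntegral.integral_add_adjacent_intervals (b := cr h n N)
      (hφ.continuous.intervalIntegrable _ _) (hφ.continuous.intervalIntegrable _ _),
      ← intervalIntegral.integral_add_adjacent_intervals (b := cr h n N)
      hm.intervalIntegrable hm.intervalIntegrable, sum_range_succ _ (N + 1)]
    rw [abs_le] at ih h1 ⊢
    constructor <;> linarith [ih.1, ih.2, h1.1, h1.2]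

lemma dem_int_le {m : ℝ → ℝ} (hm : Integrable m) (h0 : ∀ t, 0 ≤ m t) {a b : ℝ} (hab : a ≤ b) :
    ∫ t in a..b, m t ≤ ∫ t, m t := by
  rw [intervalIntegral.integral_of_le hab]
  exact setIntegral_le_integral hm (Filter.Eventually.of_forall h0)

/-- Euler–Maclaurin.  On a cell, with `s = (t - t₀)/h`, `p1 = s - 1/2`, `p2 = s²/2 - s/2 + 1/12`,
`p3 = s³/6 - s²/4 + s/12`, `p4 = s²(1-s)²/24`:
`d/dt (h p1 φ - h² p2 φ' + h³ p3 φ'' - h⁴ p4 φ''') = φ - h⁴ p4 φ''''`.  Sum over the cells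
`[cr a, cr (a+1)]`, `a < 2n`; `φ` and `φ'` vanish at the two ends. -/
lemma em1 {φ m : ℝ → ℝ} (hφ : ContDiff ℝ 4 φ) {h R : ℝ} {n : ℕ} (hh : 0 < h) (hR : R < n * h)
    (h0 : ∀ t, R ≤ |t| → φ t = 0) (hm : Integrable m) (hb : ∀ t, |iteratedDeriv 4 φ t| ≤ m t) :
    |h * ∑ a ∈ range (2 * n + 1), φ (cr h n a) - ∫ t, φ t| ≤ h ^ 4 * ∫ t, m t := by
  have hn : 0 ≤ (n : ℝ) * h := mul_nonneg (Nat.cast_nonneg n) hh.le
  have e0 : cr h n 0 = -(n * h) := by simp only [cr]; push_cast; ring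
  have e1 : cr h n (2 * n) = n * h := by simp only [cr]; push_cast; ring
  have hz : ∀ t, R < |t| → φ t = 0 ∧ iteratedDeriv 1 φ t = 0 := fun t ht => by
    refine ⟨h0 t ht.le, ?_⟩
    have : φ =ᶠ[nhds t] fun _ => 0 :=
      (continuousAt_const.eventually_lt continuous_abs.continuousAt ht).mono fun y hy => h0 y hy.le
    rw [iteratedDeriv_one, this.deriv_eq, deriv_const]
  have z0 := hz (-(n * h)) (by rwa [abs_neg, abs_of_nonneg hn])
  have z1 := hz (n * h) (by rwa [abs_of_nonneg hn])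
  have h1 := dem_sum hφ hh hm hb n (2 * n)
  rw [e0, e1, z0.1, z0.2, z1.1, z1.2, intervalIntegral.integral_eq_integral_of_support_subset
    (f := φ)] at h1
  · simp only [add_zero, mul_zero, sub_zero, sub_self] at h1
    refine h1.trans (mul_le_mul_of_nonneg_left ?_ (by positivity))
    exact dem_int_le hm (fun t => (abs_nonneg _).trans (hb t)) (by linarith)
  · intro t ht
    have h2 : ¬ R ≤ |t| := fun h' => ht (h0 t h')
    have h3 := le_abs_self t
    have h4 := neg_abs_le t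
    exact ⟨by linarith [not_le.1 h2], by linarith [not_le.1 h2]⟩

lemma dem_cauchy_eq {s : ℝ} (hs : 0 < s) (t : ℝ) :
    1 / (t ^ 2 + s ^ 2) = (s ^ 2)⁻¹ * (1 + (t / s) ^ 2)⁻¹ := by
  field_simp
  ring

lemma integrable_cauchy {s : ℝ} (hs : 0 < s) (x : ℝ) :
    Integrable fun t : ℝ => 1 / ((t - x) ^ 2 + s ^ 2) := by
  simp only [dem_cauchy_eq hs]
  exact ((integrable_inv_one_add_sq.comp_div hs.ne').comp_sub_right x).const_mul _

lemma integral_cauchy {s : ℝ} (hs : 0 < s) (x : ℝ) :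
    ∫ t : ℝ, 1 / ((t - x) ^ 2 + s ^ 2) = Real.pi / s := by
  rw [integral_sub_right_eq_self (fun t : ℝ => 1 / (t ^ 2 + s ^ 2)) x]
  simp only [dem_cauchy_eq hs]
  rw [integral_const_mul, Measure.integral_comp_div (fun t : ℝ => (1 + t ^ 2)⁻¹) s,
    integral_univ_inv_one_add_sq, abs_of_pos hs, smul_eq_mul]
  field_simp

/-- each term is at most `3/h` times the integral over the cell to its right -/
lemma sum_cauchy {h s : ℝ} (hh : 0 < h) (hs : h ≤ s) (n N : ℕ) (x : ℝ) :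
    h * ∑ a ∈ range N, 1 / ((cr h n a - x) ^ 2 + s ^ 2) ≤ 10 / s := by
  have hs0 : 0 < s := hh.trans_le hs
  have hi := integrable_cauchy hs0 x
  have cell : ∀ c : ℝ, h * (1 / ((c - x) ^ 2 + s ^ 2)) ≤
      3 * ∫ t in c..c + h, 1 / ((t - x) ^ 2 + s ^ 2) := fun c => by
    rw [← intervalIntegral.integral_const_mul]
    have h1 : h * (1 / ((c - x) ^ 2 + s ^ 2)) = ∫ _ in c..c + h, 1 / ((c - x) ^ 2 + s ^ 2) := by
      rw [intervalIntegral.integral_const, add_sub_cancel_left, smul_eq_mul]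
    rw [h1]
    refine intervalIntegral.integral_mono_on (by linarith) intervalIntegrable_const
      (hi.const_mul 3).intervalIntegrable fun t ht => ?_
    rw [mul_one_div, div_le_div_iff₀ (by positivity) (by positivity)]
    have a1 : (t - c) ^ 2 ≤ s ^ 2 := pow_le_pow_left₀ (by linarith [ht.1]) (by linarith [ht.2]) 2
    nlinarith [sq_nonneg (t - c - (c - x)), sq_nonneg (c - x)]
  have key : ∀ M : ℕ, h * ∑ a ∈ range M, 1 / ((cr h n a - x) ^ 2 + s ^ 2) ≤
      3 * ∫ t in cr h n 0..cr h n M, 1 / ((t - x) ^ 2 + s ^ 2) := fun M => by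
    induction M with
    | zero => simp
    | succ M ih =>
      have h1 := cell (cr h n M)
      rw [← dem_cr_succ] at h1
      rw [← intervalIntegral.integral_add_adjacent_intervals (b := cr h n M)
        hi.intervalIntegrable hi.intervalIntegrable, sum_range_succ]
      linarith
  have hle : cr h n 0 ≤ cr h n N := by
    simp only [cr]
    refine mul_le_mul_of_nonneg_left ?_ hh.le
    have := Nat.cast_nonneg (α := ℝ) N
    push_cast
    linarith
  have h2 := dem_int_le hi (fun t => by positivity) hle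
  rw [integral_cauchy hs0] at h2
  refine (key N).trans ((mul_le_mul_of_nonneg_left h2 (by norm_num)).trans ?_)
  rw [← mul_div_assoc]
  exact div_le_div_of_nonneg_right (by linarith [Real.pi_lt_d2]) hs0.le

/-- the basic majorant: `s² = v² + w² + l²` -/
lemma inv_rho5_le {l : ℝ} (hl : 0 < l) {u v w ρ : ℝ} (hρ : 0 < ρ)
    (h : ρ ^ 2 = u ^ 2 + v ^ 2 + w ^ 2 + l ^ 2) :
    1 / ρ ^ 5 ≤ 1 / √(v ^ 2 + w ^ 2 + l ^ 2) ^ 3 * (1 / (u ^ 2 + √(v ^ 2 + w ^ 2 + l ^ 2) ^ 2)) := by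
  have h0 : 0 < v ^ 2 + w ^ 2 + l ^ 2 := by positivity
  have h1 : 0 < √(v ^ 2 + w ^ 2 + l ^ 2) := Real.sqrt_pos.2 h0
  have h2 : √(v ^ 2 + w ^ 2 + l ^ 2) ≤ ρ :=
    Real.sqrt_le_iff.2 ⟨hρ.le, by rw [h]; nlinarith [sq_nonneg u]⟩
  have h3 : u ^ 2 + √(v ^ 2 + w ^ 2 + l ^ 2) ^ 2 = ρ ^ 2 := by
    rw [Real.sq_sqrt h0.le, h]
    ring
  rw [h3, show 1 / ρ ^ 5 = 1 / ρ ^ 3 * (1 / ρ ^ 2) by field_simp]
  gcongr

lemma inv_s4_le {l : ℝ} (hl : 0 < l) (v w : ℝ) :
    1 / √(v ^ 2 + w ^ 2 + l ^ 2) ^ 4 ≤ 1 / (v ^ 2 + l ^ 2) * (1 / (w ^ 2 + l ^ 2)) := by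
  have h0 : 0 < v ^ 2 + w ^ 2 + l ^ 2 := by positivity
  have h1 : √(v ^ 2 + w ^ 2 + l ^ 2) ^ 4 = (v ^ 2 + w ^ 2 + l ^ 2) * (v ^ 2 + w ^ 2 + l ^ 2) := by
    rw [show (4 : ℕ) = 2 * 2 from rfl, pow_mul, Real.sq_sqrt h0.le, sq]
  rw [h1, one_div_mul_one_div]
  refine one_div_le_one_div_of_le (by positivity) ?_
  exact mul_le_mul (by nlinarith [sq_nonneg w]) (by nlinarith [sq_nonneg v]) (by positivity) h0.le

/-- the basic lattice sum -/
lemma lattice5 {h l : ℝ} (hh : 0 < h) (hl : h ≤ l) (n : ℕ) (x : Pos3) :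
    h ^ 3 * S3 n (fun a b c => 1 / rho l (lpt h n a b c - x) ^ 5) ≤ 1000 / l ^ 2 := by
  have hl0 : 0 < l := hh.trans_le hl
  have inner : ∀ a b : ℕ, h * ∑ c ∈ range (2 * n + 1), 1 / rho l (lpt h n a b c - x) ^ 5 ≤
      10 * (1 / ((cr h n a - x 0) ^ 2 + l ^ 2) * (1 / ((cr h n b - x 1) ^ 2 + l ^ 2))) := by
    intro a b
    set S := √((cr h n a - x 0) ^ 2 + (cr h n b - x 1) ^ 2 + l ^ 2) with hS
    have hlS : l ≤ S := (le_abs_self l).trans (Real.abs_le_sqrt (by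
      nlinarith [sq_nonneg (cr h n a - x 0), sq_nonneg (cr h n b - x 1)]))
    have hS0 : 0 < S := hl0.trans_le hlS
    have h1 : ∑ c ∈ range (2 * n + 1), 1 / rho l (lpt h n a b c - x) ^ 5 ≤
        ∑ c ∈ range (2 * n + 1), 1 / S ^ 3 * (1 / ((cr h n c - x 2) ^ 2 + S ^ 2)) := by
      refine sum_le_sum fun c _ => inv_rho5_le hl0 (rho_pos hl0 _) ?_
      rw [rho_sq, norm_sq_coord]
      simp only [lpt, PiLp.sub_apply, mk3_zero, mk3_one, mk3_two]
      ring
    have h2 := sum_cauchy hh (hl.trans hlS) n (2 * n + 1) (x 2)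
    have h3 := inv_s4_le hl0 (cr h n a - x 0) (cr h n b - x 1)
    rw [← mul_sum] at h1
    calc _ ≤ h * (1 / S ^ 3 * ∑ c ∈ range (2 * n + 1), 1 / ((cr h n c - x 2) ^ 2 + S ^ 2)) :=
          mul_le_mul_of_nonneg_left h1 hh.le
      _ = 1 / S ^ 3 * (h * ∑ c ∈ range (2 * n + 1), 1 / ((cr h n c - x 2) ^ 2 + S ^ 2)) := by ring
      _ ≤ 1 / S ^ 3 * (10 / S) := mul_le_mul_of_nonneg_left h2 (by positivity)
      _ = 10 * (1 / S ^ 4) := by field_simp
      _ ≤ _ := mul_le_mul_of_nonneg_left h3 (by norm_num)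
  have h1 := sum_cauchy hh hl n (2 * n + 1) (x 0)
  have h2 := sum_cauchy hh hl n (2 * n + 1) (x 1)
  have p2 : 0 ≤ h * ∑ b ∈ range (2 * n + 1), 1 / ((cr h n b - x 1) ^ 2 + l ^ 2) :=
    mul_nonneg hh.le (sum_nonneg fun b _ => by positivity)
  calc _ = h ^ 2 * ∑ a ∈ range (2 * n + 1), ∑ b ∈ range (2 * n + 1),
        h * ∑ c ∈ range (2 * n + 1), 1 / rho l (lpt h n a b c - x) ^ 5 := by
        simp only [S3, ← mul_sum]
        ring
    _ ≤ h ^ 2 * ∑ a ∈ range (2 * n + 1), ∑ b ∈ range (2 * n + 1),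
        10 * (1 / ((cr h n a - x 0) ^ 2 + l ^ 2) * (1 / ((cr h n b - x 1) ^ 2 + l ^ 2))) :=
        mul_le_mul_of_nonneg_left (sum_le_sum fun a _ => sum_le_sum fun b _ => inner a b)
          (by positivity)
    _ = 10 * ((h * ∑ a ∈ range (2 * n + 1), 1 / ((cr h n a - x 0) ^ 2 + l ^ 2)) *
        (h * ∑ b ∈ range (2 * n + 1), 1 / ((cr h n b - x 1) ^ 2 + l ^ 2))) := by
        simp only [← mul_sum, ← sum_mul]
        ring
    _ ≤ 10 * (10 / l * (10 / l)) :=
        mul_le_mul_of_nonneg_left (mul_le_mul h1 h2 p2 (by positivity)) (by norm_num)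
    _ = 1000 / l ^ 2 := by
        field_simp
        norm_num

/-- the number of lattice coordinates in an interval -/
lemma count_cr {h r : ℝ} (hh : 0 < h) (hr : h ≤ r) (n N : ℕ) :
    ∑ a ∈ range N, (if |cr h n a| < r then (1 : ℝ) else 0) ≤ 20 * r / h := by
  have hr0 : 0 < r := hh.trans_le hr
  have h1 := sum_cauchy hh hr n N 0
  have h2 : ∑ a ∈ range N, (if |cr h n a| < r then (1 : ℝ) else 0) ≤
      ∑ a ∈ range N, 2 * r ^ 2 * (1 / ((cr h n a - 0) ^ 2 + r ^ 2)) := by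
    refine sum_le_sum fun a _ => ?_
    split_ifs with ha
    · rw [mul_one_div, le_div_iff₀ (by positivity), sub_zero]
      have := sq_lt_sq' (abs_lt.1 ha).1 (abs_lt.1 ha).2
      linarith
    · positivity
  rw [← mul_sum] at h2
  refine h2.trans ?_
  rw [le_div_iff₀ hh]
  calc _ = 2 * r ^ 2 * (h * ∑ a ∈ range N, 1 / ((cr h n a - 0) ^ 2 + r ^ 2)) := by ring
    _ ≤ 2 * r ^ 2 * (10 / r) := mul_le_mul_of_nonneg_left h1 (by positivity)
    _ = 20 * r := by
        field_simp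
        norm_num

end Crest.Agent.R338.Disc
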