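import Crest.Agent.R338.DKer

/-! Row 338, module D: the far part of the background (cube symmetry). -/

set_option autoImplicit false

open MeasureTheory Crest.MathPhysics.ElectronicCoulomb Finset

namespace Crest.Agent.R338.Disc

lemma dfar_core {e t a : ℝ} (he : |e| ≤ t) (ht : t ≤ 1 / 25) (ha : |a| ≤ t)
    (h : (1 + e) ^ 2 = 1 - 2 * a + t ^ 2) :
    |1 / (1 + e) - 1 - (a + (3 * a ^ 2 - t ^ 2) / 2)| ≤ 40 * t ^ 3 := by
  have ht0 : 0 ≤ t := (abs_nonneg e).trans he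
  obtain ⟨he1, he2⟩ := abs_le.1 he
  have hw : 0 < 1 + e := by linarith
  have ea : a = (t ^ 2 - 2 * e - e ^ 2) / 2 := by linarith
  have key : 1 / (1 + e) - 1 - (a + (3 * a ^ 2 - t ^ 2) / 2) =
      -(e ^ 3 * ((5 / 2 + 15 / 8 * e + 3 / 8 * e ^ 2) / (1 + e))) +
        t ^ 2 * (3 / 8 * t ^ 2 - 3 / 2 * a) := by
    rw [ea]; field_simp; ring
  have h1 : |(5 / 2 + 15 / 8 * e + 3 / 8 * e ^ 2) / (1 + e)| ≤ 3 := by
    rw [abs_div, abs_of_pos hw, div_le_iff₀ hw, abs_le]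
    constructor <;> nlinarith
  have h2 : |3 / 8 * t ^ 2 - 3 / 2 * a| ≤ 2 * t := by
    obtain ⟨ha1, ha2⟩ := abs_le.1 ha
    rw [abs_le]
    constructor <;> nlinarith
  rw [key]
  refine (abs_add_le _ _).trans ?_
  rw [abs_neg, abs_mul, abs_mul, abs_pow, abs_pow, abs_of_nonneg ht0]
  have h3 : |e| ^ 3 ≤ t ^ 3 := pow_le_pow_left₀ (abs_nonneg e) he 3
  have h4 := mul_le_mul h3 h1 (abs_nonneg _) (by positivity)
  have h5 := mul_le_mul_of_nonneg_left h2 (sq_nonneg t)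
  nlinarith [pow_nonneg ht0 3]

/-- `1/‖x - y‖ = (1 + u)^(-1/2) / ‖y‖`, `u = (‖x‖² - 2⟨x,y⟩)/‖y‖²`, `|u| ≤ 3‖x‖/‖y‖ ≤ 1/8`, and
`|(1+u)^(-1/2) - (1 - u/2 + 3u²/8)| ≤ |u|³`. -/
lemma multipole {x y : Pos3} (hy : y ≠ 0) (h : 25 * ‖x‖ ≤ ‖y‖) :
    |1 / ‖x - y‖ - 1 / ‖y‖ - ((x 0 * y 0 + x 1 * y 1 + x 2 * y 2) / ‖y‖ ^ 3 +
      (3 * (x 0 * y 0 + x 1 * y 1 + x 2 * y 2) ^ 2 - ‖x‖ ^ 2 * ‖y‖ ^ 2) / (2 * ‖y‖ ^ 5))| ≤
      40 * ‖x‖ ^ 3 / ‖y‖ ^ 4 := by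
  have hr : 0 < ‖y‖ := norm_pos_iff.2 hy
  have hd : ‖x - y‖ ^ 2 = ‖y‖ ^ 2 - 2 * (x 0 * y 0 + x 1 * y 1 + x 2 * y 2) + ‖x‖ ^ 2 := by
    simp only [norm_sq_coord, PiLp.sub_apply]; ring
  have hp : |x 0 * y 0 + x 1 * y 1 + x 2 * y 2| ≤ ‖x‖ * ‖y‖ := by
    refine abs_le_of_sq_le_sq ?_ (by positivity)
    rw [mul_pow, norm_sq_coord, norm_sq_coord]
    nlinarith [sq_nonneg (x 0 * y 1 - x 1 * y 0), sq_nonneg (x 0 * y 2 - x 2 * y 0),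
      sq_nonneg (x 1 * y 2 - x 2 * y 1)]
  have ht : |‖x - y‖ - ‖y‖| ≤ ‖x‖ := by
    have := abs_norm_sub_norm_le (x - y) (-y)
    simpa using this
  have hd0 : ‖x - y‖ ≠ 0 := by
    have := (abs_le.1 ht).1
    exact ne_of_gt (by linarith [norm_nonneg x])
  generalize x 0 * y 0 + x 1 * y 1 + x 2 * y 2 = p at hd hp ⊢
  generalize ‖x - y‖ = d at hd ht hd0 ⊢
  generalize ‖x‖ = s at h hd hp ht ⊢
  generalize ‖y‖ = r at h hd hp ht hr ⊢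
  have := dfar_core (e := (d - r) / r) (t := s / r) (a := p / r ^ 2)
    (by rw [abs_div, abs_of_pos hr]; gcongr) (by rw [div_le_iff₀ hr]; linarith)
    (by rw [abs_div, abs_of_pos (pow_pos hr 2), div_le_div_iff₀ (pow_pos hr 2) hr]; nlinarith)
    (by field_simp; linarith)
  have e : 1 / d - 1 / r - (p / r ^ 3 + (3 * p ^ 2 - s ^ 2 * r ^ 2) / (2 * r ^ 5)) =
      (1 / (1 + (d - r) / r) - 1 - (p / r ^ 2 + (3 * (p / r ^ 2) ^ 2 - (s / r) ^ 2) / 2)) / r := by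
    rw [show 1 + (d - r) / r = d / r by field_simp; ring]
    field_simp
  rw [e, abs_div, abs_of_pos hr, div_le_iff₀ hr]
  refine this.trans (le_of_eq ?_)
  field_simp

/-- sums of functions of the coordinates -/
def dfarT (h : ℝ) (n : ℕ) (G : ℝ → ℝ → ℝ → ℝ) : ℝ :=
  S3 n fun a b c => G (cr h n a) (cr h n b) (cr h n c)

lemma dfar_refl (h : ℝ) (n : ℕ) (g : ℝ → ℝ) :
    ∑ a ∈ range (2 * n + 1), g (cr h n a) = ∑ a ∈ range (2 * n + 1), g (-cr h n a) := by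
  rw [← sum_range_reflect]
  refine sum_congr rfl fun a ha => ?_
  have ha' : a ≤ 2 * n := Nat.lt_succ_iff.1 (mem_range.1 ha)
  rw [show 2 * n + 1 - 1 - a = 2 * n - a by omega, cr, cr, Nat.cast_sub ha']
  congr 1
  push_cast; ring

lemma dfar_swap01 (h : ℝ) (n : ℕ) (G : ℝ → ℝ → ℝ → ℝ) :
    dfarT h n G = dfarT h n fun u v w => G v u w := by
  unfold dfarT S3; exact sum_comm

lemma dfar_swap12 (h : ℝ) (n : ℕ) (G : ℝ → ℝ → ℝ → ℝ) :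
    dfarT h n G = dfarT h n fun u v w => G u w v := by
  unfold dfarT S3; exact sum_congr rfl fun _ _ => sum_comm

lemma dfar_odd0 (h : ℝ) (n : ℕ) (G : ℝ → ℝ → ℝ → ℝ) (hG : ∀ u v w, G (-u) v w = -G u v w) :
    dfarT h n G = 0 := by
  have := dfar_refl h n fun u => ∑ b ∈ range (2 * n + 1), ∑ c ∈ range (2 * n + 1),
    G u (cr h n b) (cr h n c)
  simp only [hG, sum_neg_distrib] at this
  unfold dfarT S3
  linarith

lemma dfar_odd1 (h : ℝ) (n : ℕ) (G : ℝ → ℝ → ℝ → ℝ) (hG : ∀ u v w, G u (-v) w = -G u v w) :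
    dfarT h n G = 0 := by
  rw [dfar_swap01]; exact dfar_odd0 h n _ fun u v w => hG v u w

lemma dfar_odd2 (h : ℝ) (n : ℕ) (G : ℝ → ℝ → ℝ → ℝ) (hG : ∀ u v w, G u v (-w) = -G u v w) :
    dfarT h n G = 0 := by
  rw [dfar_swap12]; exact dfar_odd1 h n _ fun u v w => hG u w v

lemma dfar_cancel (h : ℝ) (n : ℕ) (α β : ℝ → ℝ) (x y z : ℝ) :
    dfarT h n (fun u v w => α (u ^ 2 + v ^ 2 + w ^ 2) * (x * u + y * v + z * w) +
      β (u ^ 2 + v ^ 2 + w ^ 2) * (3 * (x * u + y * v + z * w) ^ 2 -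
        (x ^ 2 + y ^ 2 + z ^ 2) * (u ^ 2 + v ^ 2 + w ^ 2))) = 0 := by
  have a0 := dfar_odd0 h n (fun u v w => α (u ^ 2 + v ^ 2 + w ^ 2) * u) fun u v w => by simp
  have a1 := dfar_odd1 h n (fun u v w => α (u ^ 2 + v ^ 2 + w ^ 2) * v) fun u v w => by simp
  have a2 := dfar_odd2 h n (fun u v w => α (u ^ 2 + v ^ 2 + w ^ 2) * w) fun u v w => by simp
  have b0 := dfar_odd0 h n (fun u v w => β (u ^ 2 + v ^ 2 + w ^ 2) * (u * v)) fun u v w => by simp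
  have b1 := dfar_odd0 h n (fun u v w => β (u ^ 2 + v ^ 2 + w ^ 2) * (u * w)) fun u v w => by simp
  have b2 := dfar_odd1 h n (fun u v w => β (u ^ 2 + v ^ 2 + w ^ 2) * (v * w)) fun u v w => by simp
  have c1 : dfarT h n (fun u v w => β (u ^ 2 + v ^ 2 + w ^ 2) * v ^ 2) =
      dfarT h n (fun u v w => β (u ^ 2 + v ^ 2 + w ^ 2) * u ^ 2) := by
    rw [dfar_swap01]
    congr 1
    funext u v w
    rw [add_comm (v ^ 2)]
  have c2 : dfarT h n (fun u v w => β (u ^ 2 + v ^ 2 + w ^ 2) * w ^ 2) =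
      dfarT h n (fun u v w => β (u ^ 2 + v ^ 2 + w ^ 2) * v ^ 2) := by
    rw [dfar_swap12]
    congr 1
    funext u v w
    rw [add_right_comm]
  have e : dfarT h n (fun u v w => α (u ^ 2 + v ^ 2 + w ^ 2) * (x * u + y * v + z * w) +
      β (u ^ 2 + v ^ 2 + w ^ 2) * (3 * (x * u + y * v + z * w) ^ 2 -
        (x ^ 2 + y ^ 2 + z ^ 2) * (u ^ 2 + v ^ 2 + w ^ 2))) =
      x * dfarT h n (fun u v w => α (u ^ 2 + v ^ 2 + w ^ 2) * u) +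
      y * dfarT h n (fun u v w => α (u ^ 2 + v ^ 2 + w ^ 2) * v) +
      z * dfarT h n (fun u v w => α (u ^ 2 + v ^ 2 + w ^ 2) * w) +
      6 * x * y * dfarT h n (fun u v w => β (u ^ 2 + v ^ 2 + w ^ 2) * (u * v)) +
      6 * x * z * dfarT h n (fun u v w => β (u ^ 2 + v ^ 2 + w ^ 2) * (u * w)) +
      6 * y * z * dfarT h n (fun u v w => β (u ^ 2 + v ^ 2 + w ^ 2) * (v * w)) +
      (2 * x ^ 2 - y ^ 2 - z ^ 2) * dfarT h n (fun u v w => β (u ^ 2 + v ^ 2 + w ^ 2) * u ^ 2) +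
      (2 * y ^ 2 - x ^ 2 - z ^ 2) * dfarT h n (fun u v w => β (u ^ 2 + v ^ 2 + w ^ 2) * v ^ 2) +
      (2 * z ^ 2 - x ^ 2 - y ^ 2) * dfarT h n (fun u v w => β (u ^ 2 + v ^ 2 + w ^ 2) * w ^ 2) := by
    simp only [dfarT, ← S3_mul, ← S3_add]
    congr 1
    funext a b c
    ring
  rw [e, a0, a1, a2, b0, b1, b2, c2, c1]
  ring

lemma dfar_far {r : ℝ} (hr : 0 < r) {c : ℝ → ℝ} (hc : ∀ t, t < r ^ 2 / 16 → c t = 0) {y : Pos3}
    (h : c (‖y‖ ^ 2) ≠ 0) : r / 4 ≤ ‖y‖ := by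
  by_contra h1
  refine h (hc _ ?_)
  nlinarith [norm_nonneg y, not_le.1 h1]

lemma dfar_card {h : ℝ} {n : ℕ} (hh : 0 < h) (hn : 1 ≤ n) :
    h ^ 3 * (2 * (n : ℝ) + 1) ^ 3 ≤ 27 * (n * h) ^ 3 := by
  have h1 : (1 : ℝ) ≤ n := by exact_mod_cast hn
  have h2 : (2 * (n : ℝ) + 1) ^ 3 ≤ (3 * n) ^ 3 := by gcongr; linarith
  nlinarith [pow_pos hh 3]

/-- The first and second order terms cancel: `cr h n (2n - a) = -cr h n a`
(`Finset.sum_range_reflect` / `Finset.sum_flip`) kills the terms that are odd in a coordinate, and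
`Finset.sum_comm` shows that the sums of `y_i² ψ(‖y‖²)` do not depend on `i`. -/
lemma sym_cancel (h : ℝ) (n : ℕ) (c : ℝ → ℝ) (x : Pos3) :
    S3 n (fun i j k => c (‖lpt h n i j k‖ ^ 2) *
      ((x 0 * lpt h n i j k 0 + x 1 * lpt h n i j k 1 + x 2 * lpt h n i j k 2) / ‖lpt h n i j k‖ ^ 3 +
      (3 * (x 0 * lpt h n i j k 0 + x 1 * lpt h n i j k 1 + x 2 * lpt h n i j k 2) ^ 2 -
        ‖x‖ ^ 2 * ‖lpt h n i j k‖ ^ 2) / (2 * ‖lpt h n i j k‖ ^ 5))) = 0 := by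
  rw [← dfar_cancel h n (fun N => c N / √N ^ 3) (fun N => c N / (2 * √N ^ 5)) (x 0) (x 1) (x 2),
    dfarT]
  congr 1
  funext i j k
  rw [← norm_sq_mk3, ← norm_sq_coord, Real.sqrt_sq (norm_nonneg _)]
  simp only [lpt, mk3_zero, mk3_one, mk3_two]
  ring

/-- only sites with `‖y‖ ≥ n h / 4` contribute; there are at most `(2n+1)³ ≤ 27 n³` sites -/
theorem far_K : ∃ C : ℝ, 0 < C ∧ ∀ (h Λ : ℝ) (n : ℕ) (c : ℝ → ℝ) (x : Pos3), 0 < h → 1 ≤ n →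
    (∀ t, |c t| ≤ Λ) → (∀ t, t < (n * h) ^ 2 / 16 → c t = 0) → 100 * ‖x‖ ≤ n * h →
    |h ^ 3 * S3 n (fun i j k => c (‖lpt h n i j k‖ ^ 2) * (1 / ‖x - lpt h n i j k‖)) -
      h ^ 3 * S3 n (fun i j k => c (‖lpt h n i j k‖ ^ 2) * (1 / ‖0 - lpt h n i j k‖))| ≤
      C * Λ * ‖x‖ ^ 3 / (n * h) := by
  refine ⟨27 * 40 * 4 ^ 4, by norm_num, fun h Λ n c x hh hn hc h0 hx => ?_⟩
  have hn' : (0 : ℝ) < n := by exact_mod_cast hn
  have hr : 0 < n * h := by positivity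
  have hΛ : 0 ≤ Λ := (abs_nonneg _).trans (hc 0)
  rw [← mul_sub, ← sub_zero (_ - _ : ℝ), ← sym_cancel h n c x, ← S3_sub, ← S3_sub, abs_mul,
    abs_of_pos (pow_pos hh 3)]
  refine (mul_le_mul_of_nonneg_left (abs_S3_le_const n
    (t := Λ * (40 * ‖x‖ ^ 3 / (n * h / 4) ^ 4)) fun i j k _ _ _ => ?_) (pow_pos hh 3).le).trans ?_
  · rw [← mul_sub, ← mul_sub, abs_mul, zero_sub, norm_neg]
    by_cases h1 : c (‖lpt h n i j k‖ ^ 2) = 0
    · rw [h1, abs_zero, zero_mul]; positivity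
    · have h2 := dfar_far hr h0 h1
      refine mul_le_mul (hc _) ((multipole (norm_pos_iff.1 (by linarith)) (by linarith)).trans ?_)
        (abs_nonneg _) hΛ
      gcongr
  · rw [← mul_assoc]
    refine (mul_le_mul_of_nonneg_right (dfar_card hh hn) (by positivity)).trans (le_of_eq ?_)
    field_simp

/-- `abs_Nk_le`, `‖x - y‖ ≥ n h / 5` -/
theorem far_N : ∃ C : ℝ, 0 < C ∧ ∀ (h Λ l : ℝ) (n : ℕ) (c : ℝ → ℝ) (x : Pos3), 0 < h → 1 ≤ n →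
    0 < l → (∀ t, |c t| ≤ Λ) → (∀ t, t < (n * h) ^ 2 / 16 → c t = 0) → 100 * ‖x‖ ≤ n * h →
    |h ^ 3 * S3 n fun i j k => c (‖lpt h n i j k‖ ^ 2) * Nk l (x - lpt h n i j k)| ≤
      C * Λ * l ^ 4 / (n * h) ^ 2 := by
  refine ⟨27 * 5 ^ 5, by norm_num, fun h Λ l n c x hh hn hl hc h0 hx => ?_⟩
  have hn' : (0 : ℝ) < n := by exact_mod_cast hn
  have hr : 0 < n * h := by positivity
  have hΛ : 0 ≤ Λ := (abs_nonneg _).trans (hc 0)
  rw [abs_mul, abs_of_pos (pow_pos hh 3)]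
  refine (mul_le_mul_of_nonneg_left (abs_S3_le_const n
    (t := Λ * (l ^ 4 / (n * h / 5) ^ 5)) fun i j k _ _ _ => ?_) (pow_pos hh 3).le).trans ?_
  · rw [abs_mul]
    by_cases h1 : c (‖lpt h n i j k‖ ^ 2) = 0
    · rw [h1, abs_zero, zero_mul]; positivity
    · have h2 := dfar_far hr h0 h1
      have h3 : n * h / 5 ≤ ‖x - lpt h n i j k‖ := by
        have := norm_sub_norm_le (lpt h n i j k) x
        rw [norm_sub_rev] at this
        linarith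
      refine mul_le_mul (hc _) ((abs_Nk_le hl (norm_pos_iff.1 (by linarith))).trans ?_)
        (abs_nonneg _) hΛ
      gcongr
  · rw [← mul_assoc]
    refine (mul_le_mul_of_nonneg_right (dfar_card hh hn) (by positivity)).trans (le_of_eq ?_)
    field_simp

end Crest.Agent.R338.Disc
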