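import Crest.Agent.R338.DDefs
import Crest.Agent.R338.OInt

/-! Row 338, module D: a local Hardy inequality. -/

set_option autoImplicit false

open MeasureTheory Crest.MathPhysics.ElectronicCoulomb Finset

namespace Crest.Agent.R338.Disc

lemma dhardy_int_pd {F : Pos3 → ℝ} (h : C1 F) (k : Fin 3) : ∫ x, pd k F x = 0 := by
  have := integral_mul_fderiv_eq_neg_fderiv_mul_of_integrable (μ := (volume : Measure Pos3))
    (f := fun _ => (1 : ℝ)) (g := F) (v := EuclideanSpace.single k 1) (by simp)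
    (by simp only [one_mul]; exact oi_int (oi_cc_pd h k)) (by simpa using oi_int h.cc)
    (fun _ _ => differentiableAt_const _) (fun x _ => h.1.differentiable one_ne_zero x)
  simpa [pd] using this

/-- the radial profile of the vector field -/
noncomputable def dhardyPhi (l d s : ℝ) : ℝ := (√(s + d ^ 2))⁻¹ * (l ^ 6 / (s + l ^ 2) ^ 3)

lemma dhardy_deriv {l d s : ℝ} (hl : 0 < l) (hd : 0 < d) (hs : 0 ≤ s) :
    HasDerivAt (dhardyPhi l d)
      (dhardyPhi l d s * (-(1 / (2 * (s + d ^ 2))) - 3 / (s + l ^ 2))) s := by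
  have h1 : 0 < s + d ^ 2 := by positivity
  have h2 : 0 < s + l ^ 2 := by positivity
  have h3 : 0 < √(s + d ^ 2) := Real.sqrt_pos.2 h1
  have a := (((hasDerivAt_id s).add_const (d ^ 2)).sqrt h1.ne').inv h3.ne'
  have b := (hasDerivAt_const s (l ^ 6)).div (((hasDerivAt_id s).add_const (l ^ 2)).pow 3)
    (pow_pos h2 3).ne'
  refine (a.mul b).congr_deriv ?_
  simp only [dhardyPhi, id, Pi.inv_apply, Pi.div_apply, Pi.pow_apply]
  rw [Real.sq_sqrt h1.le]
  field_simp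
  norm_num
  ring

lemma dhardy_c1 {l d : ℝ} (hl : 0 < l) (hd : 0 < d) (c : Pos3) {u : Pos3 → ℝ} (hu : C1 u)
    (k : Fin 3) : C1 fun x => (x k - c k) * dhardyPhi l d (‖x - c‖ ^ 2) * u x ^ 2 := by
  have hS : ContDiff ℝ 1 fun x : Pos3 => ‖x - c‖ ^ 2 :=
    (contDiff_norm_sq ℝ).comp (contDiff_id.sub contDiff_const)
  refine ⟨?_, ?_⟩
  · refine ContDiff.mul (ContDiff.mul (by fun_prop) ?_) (hu.1.pow 2)
    exact (((hS.add contDiff_const).sqrt fun x => by positivity).inv fun x => by positivity).mul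
      (contDiff_const.div ((hS.add contDiff_const).pow 3) fun x => by positivity)
  · exact (oi_cc_sq hu.cc).2.mul_left

lemma dhardy_pd {l d : ℝ} (hl : 0 < l) (hd : 0 < d) (c : Pos3) {u : Pos3 → ℝ} (hu : C1 u)
    (k : Fin 3) (x : Pos3) :
    pd k (fun x => (x k - c k) * dhardyPhi l d (‖x - c‖ ^ 2) * u x ^ 2) x =
      dhardyPhi l d (‖x - c‖ ^ 2) * ((1 + 2 * (x k - c k) ^ 2 *
        (-(1 / (2 * (‖x - c‖ ^ 2 + d ^ 2))) - 3 / (‖x - c‖ ^ 2 + l ^ 2))) * u x ^ 2 +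
        2 * (x k - c k) * u x * pd k u x) := by
  have h1 : HasFDerivAt (fun x : Pos3 => x k - c k) (EuclideanSpace.proj k : Pos3 →L[ℝ] ℝ) x :=
    (EuclideanSpace.proj k : Pos3 →L[ℝ] ℝ).hasFDerivAt.sub_const _
  have h2 := ((hasFDerivAt_id x).sub_const c).norm_sq
  have h3 := (dhardy_deriv hl hd (sq_nonneg ‖x - c‖)).comp_hasFDerivAt x h2
  have h4 := (hu.1.differentiable one_ne_zero x).hasFDerivAt.pow 2
  have h5 : HasFDerivAt (fun x : Pos3 => (x k - c k) * dhardyPhi l d (‖x - c‖ ^ 2) * u x ^ 2) _ x :=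
    (h1.mul h3).mul h4
  unfold pd
  rw [h5.fderiv]
  simp [EuclideanSpace.inner_single_right]
  ring

lemma dhardy_alg {l d s u φ : ℝ} {y p : Fin 3 → ℝ} (hl : 0 < l) (hl1 : l ≤ 1) (hd : 0 < d)
    (hs : s = ∑ k, y k ^ 2) (hφ : φ = dhardyPhi l d s) :
    φ * u ^ 2 ≤ ∑ k, φ * ((1 + 2 * y k ^ 2 * (-(1 / (2 * (s + d ^ 2))) - 3 / (s + l ^ 2))) * u ^ 2 +
      2 * y k * u * p k) + 13 / l * (l ^ 6 / (s + l ^ 2) ^ 3 * (∑ k, p k ^ 2 + u ^ 2)) := by
  have hs0 : 0 ≤ s := hs ▸ sum_nonneg fun _ _ => sq_nonneg _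
  have h1 : 0 < s + d ^ 2 := by positivity
  have h2 : 0 < s + l ^ 2 := by positivity
  set a := (√(s + d ^ 2))⁻¹ with ha
  set W := l ^ 6 / (s + l ^ 2) ^ 3 with hW
  have ha0 : 0 < a := by positivity
  have hW0 : 0 < W := by positivity
  have ha2 : a ^ 2 * (s + d ^ 2) = 1 := by
    rw [ha, inv_pow, Real.sq_sqrt h1.le, inv_mul_cancel₀ h1.ne']
  have hφ' : φ = a * W := hφ
  have has : a ^ 2 * s ≤ 1 := by nlinarith [sq_nonneg (a * d)]
  have e1 : ∑ k, φ * ((1 + 2 * y k ^ 2 * (-(1 / (2 * (s + d ^ 2))) - 3 / (s + l ^ 2))) * u ^ 2 +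
      2 * y k * u * p k) = W * (a * (3 - s / (s + d ^ 2) - 6 * (s / (s + l ^ 2))) * u ^ 2 +
        ∑ k, 2 * (a * y k * u) * p k) := by
    rw [hφ']
    simp only [Fin.sum_univ_three] at hs ⊢
    have e : s / (s + d ^ 2) = 2 * s * (1 / (2 * (s + d ^ 2))) := by field_simp
    have e' : 6 * (s / (s + l ^ 2)) = 2 * s * (3 / (s + l ^ 2)) := by ring
    rw [e, e']
    generalize 1 / (2 * (s + d ^ 2)) = t1
    generalize 3 / (s + l ^ 2) = t2
    rw [hs]; ring
  have e2 : -(∑ k, p k ^ 2 + u ^ 2) ≤ ∑ k, 2 * (a * y k * u) * p k := by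
    simp only [Fin.sum_univ_three] at hs ⊢
    have : (a * y 0 * u) ^ 2 + (a * y 1 * u) ^ 2 + (a * y 2 * u) ^ 2 = a ^ 2 * s * u ^ 2 := by
      rw [hs]; ring
    nlinarith [sq_nonneg (a * y 0 * u + p 0), sq_nonneg (a * y 1 * u + p 1),
      sq_nonneg (a * y 2 * u + p 2), mul_le_mul_of_nonneg_right has (sq_nonneg u)]
  have e3 : a - 12 / l ≤ a * (3 - s / (s + d ^ 2) - 6 * (s / (s + l ^ 2))) := by
    have b1 : s / (s + d ^ 2) ≤ 1 := div_le_one_of_le₀ (by nlinarith) h1.le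
    have b2 : s / (s + l ^ 2) ≤ 1 := div_le_one_of_le₀ (by nlinarith) h2.le
    rcases le_total (5 * s) (l ^ 2) with h | h
    · have b3 : s / (s + l ^ 2) ≤ 1 / 6 := by rw [div_le_iff₀ h2]; linarith
      have : 0 < 12 / l := by positivity
      nlinarith
    · have b4 : 5 * a ≤ 12 / l := by
        rw [le_div_iff₀ hl]
        refine (abs_le_of_sq_le_sq' ?_ (by norm_num)).2
        nlinarith [mul_le_mul_of_nonneg_left h (sq_nonneg a)]
      nlinarith
  have hP : 0 ≤ ∑ k, p k ^ 2 := sum_nonneg fun _ _ => sq_nonneg _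
  have hl' : 1 ≤ 1 / l := by rw [le_div_iff₀ hl]; linarith
  rw [e1, hφ']
  have e4 : a * u ^ 2 ≤ a * (3 - s / (s + d ^ 2) - 6 * (s / (s + l ^ 2))) * u ^ 2 +
      ∑ k, 2 * (a * y k * u) * p k + 13 / l * (∑ k, p k ^ 2 + u ^ 2) := by
    have b1 := mul_le_mul_of_nonneg_right e3 (sq_nonneg u)
    have b2 := mul_le_mul_of_nonneg_right hl' (add_nonneg hP (sq_nonneg u))
    have b3 : 0 ≤ 1 / l * ∑ k, p k ^ 2 := by positivity
    have b4 : 12 / l = 12 * (1 / l) := by ring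
    have b5 : 13 / l = 13 * (1 / l) := by ring
    rw [b4] at b1
    rw [b5]
    nlinarith
  have := mul_le_mul_of_nonneg_left e4 hW0.le
  linarith

lemma dhardy_cc_rhs {l : ℝ} (hl : 0 < l) (c : Pos3) {u : Pos3 → ℝ} (hu : C1 u) :
    Integrable fun x => l ^ 5 / rho l (x - c) ^ 5 * (∑ k, pd k u x ^ 2 + u x ^ 2) := by
  have h1 : Continuous fun x : Pos3 => l ^ 5 / rho l (x - c) ^ 5 :=
    continuous_const.div (((continuous_rho l).comp (by fun_prop)).pow 5)
      fun x => (pow_pos (rho_pos hl _) 5).ne'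
  simp only [mul_add, mul_sum]
  exact (integrable_finsetSum _ fun k _ => oi_int_mul h1.locallyIntegrable
    (oi_cc_sq (oi_cc_pd hu k))).add (oi_int_mul h1.locallyIntegrable (oi_cc_sq hu.cc))

lemma dhardy_int_one (l : ℝ) (c : Pos3) {u : Pos3 → ℝ} (hu : CC u) :
    Integrable fun x => (if ‖x - c‖ < l then 1 / ‖x - c‖ else 0) * u x ^ 2 := by
  refine oi_int_mul ((oi_li_inv c).mono ?_ (ae_of_all _ fun x => ?_)) (oi_cc_sq hu)
  · exact (Measurable.ite (measurableSet_lt (by fun_prop) measurable_const) (by fun_prop)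
      measurable_const).aestronglyMeasurable
  · split_ifs
    · exact le_rfl
    · simp

lemma dhardy_reg {l d : ℝ} (hl : 0 < l) (hl1 : l ≤ 1) (hd : 0 < d) (c : Pos3) {u : Pos3 → ℝ}
    (hu : C1 u) :
    (∫ x, (if ‖x - c‖ < l then (√(‖x - c‖ ^ 2 + d ^ 2))⁻¹ else 0) * u x ^ 2) ≤
      104 / l * ∫ x, l ^ 5 / rho l (x - c) ^ 5 * (∑ k, pd k u x ^ 2 + u x ^ 2) := by
  have hI := fun k => oi_int (oi_cc_pd (dhardy_c1 hl hd c hu k) k)
  have h0 : ∫ x, ∑ k, pd k (fun x => (x k - c k) * dhardyPhi l d (‖x - c‖ ^ 2) * u x ^ 2) x = 0 := by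
    rw [integral_finsetSum _ fun k _ => hI k]
    exact sum_eq_zero fun k _ => dhardy_int_pd (dhardy_c1 hl hd c hu k) k
  have hI2 := ((integrable_finsetSum univ fun k _ => hI k).const_mul 8).add
    ((dhardy_cc_rhs hl c hu).const_mul (104 / l))
  refine le_trans (integral_mono_of_nonneg (ae_of_all _ fun x => ?_) hI2 (ae_of_all _ fun x => ?_))
    (le_of_eq ?_)
  · refine mul_nonneg ?_ (sq_nonneg _)
    split_ifs
    · positivity
    · exact le_rfl
  · simp only [Pi.add_apply, dhardy_pd hl hd c hu]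
    have h1 := dhardy_alg (u := u x) (y := fun k => x k - c k) (p := fun k => pd k u x)
      (s := ‖x - c‖ ^ 2) hl hl1 hd (by rw [EuclideanSpace.real_norm_sq_eq]; rfl) rfl
    have hρ := rho_pos hl (x - c)
    have h2 : l ^ 6 / (‖x - c‖ ^ 2 + l ^ 2) ^ 3 ≤ l ^ 5 / rho l (x - c) ^ 5 := by
      rw [← rho_sq, div_le_div_iff₀ (by positivity) (by positivity)]
      have := mul_le_mul_of_nonneg_left (le_rho l (x - c))
        (show 0 ≤ l ^ 5 * rho l (x - c) ^ 5 by positivity)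
      nlinarith
    have h3 : (if ‖x - c‖ < l then (√(‖x - c‖ ^ 2 + d ^ 2))⁻¹ else 0) ≤
        8 * dhardyPhi l d (‖x - c‖ ^ 2) := by
      unfold dhardyPhi
      split_ifs with h
      · have b1 : ‖x - c‖ ^ 2 + l ^ 2 ≤ 2 * l ^ 2 := by nlinarith [norm_nonneg (x - c)]
        have b2 : 1 ≤ 8 * (l ^ 6 / (‖x - c‖ ^ 2 + l ^ 2) ^ 3) := by
          rw [← mul_div_assoc, le_div_iff₀ (by positivity)]
          have := pow_le_pow_left₀ (by positivity) b1 3
          nlinarith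
        have b3 : 0 ≤ (√(‖x - c‖ ^ 2 + d ^ 2))⁻¹ := by positivity
        nlinarith
      · positivity
    have h4 := mul_le_mul_of_nonneg_right h3 (sq_nonneg (u x))
    have h5 : 0 ≤ ∑ k, pd k u x ^ 2 + u x ^ 2 :=
      add_nonneg (sum_nonneg fun _ _ => sq_nonneg _) (sq_nonneg _)
    have h6 := mul_le_mul_of_nonneg_left (mul_le_mul_of_nonneg_right h2 h5)
      (show 0 ≤ 13 / l by positivity)
    have h7 : 104 / l = 8 * (13 / l) := by ring
    rw [h7]
    linarith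
  · simp only [Pi.add_apply]
    rw [integral_add ((integrable_finsetSum univ fun k _ => hI k).const_mul 8)
      ((dhardy_cc_rhs hl c hu).const_mul (104 / l)), integral_const_mul, integral_const_mul, h0,
      mul_zero, zero_add]

/-- Vector field `G(x) = (x - c) φ(‖x - c‖²)`, `φ(s) = (s + d²)^(-1/2) W`, `W = (l²/(s + l²))³`:
`div G = 3φ + 2sφ' ≥ φ (2 - 6s/(s + l²))`, hence `φ ≤ div G + 12 W / l` (if `5 s ≤ l²` the first term
suffices, otherwise `φ - div G ≤ 5φ ≤ 5 √5 W / l`); `‖G‖ ≤ W`;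
`∫ div G u² = -2 ∫ u G·∇u ≤ ∫ W (u² + |∇u|²)`.  Let `d → 0` (dominated convergence, `oi_li_inv`), and
use `1[r < l] ≤ 8 W`, `W ≤ l⁵ / rho⁵`. -/
theorem hardy_one : ∃ C : ℝ, 0 < C ∧ ∀ (l : ℝ) (c : Pos3) (u : Pos3 → ℝ), 0 < l → l ≤ 1 →
    ContDiff ℝ 1 u → HasCompactSupport u →
    (∫ x, (if ‖x - c‖ < l then 1 / ‖x - c‖ else 0) * u x ^ 2) ≤
      C / l * ∫ x, l ^ 5 / rho l (x - c) ^ 5 * (∑ k, pd k u x ^ 2 + u x ^ 2) := by
  refine ⟨104, by norm_num, fun l c u hl hl1 hu hc => ?_⟩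
  have hU : C1 u := ⟨hu, hc⟩
  have hlim : Filter.Tendsto (fun d : ℝ =>
      ∫ x, (if ‖x - c‖ < l then (√(‖x - c‖ ^ 2 + d ^ 2))⁻¹ else 0) * u x ^ 2) (nhdsWithin 0 (Set.Ioi 0))
      (nhds (∫ x, (if ‖x - c‖ < l then 1 / ‖x - c‖ else 0) * u x ^ 2)) := by
    have hne : ∀ᵐ x : Pos3, x ≠ c := compl_mem_ae_iff.2 (measure_singleton c)
    refine tendsto_integral_filter_of_dominated_convergence _ (.of_forall fun d => ?_)
      (.of_forall fun d => ?_) (dhardy_int_one l c hU.cc) ?_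
    · exact ((Measurable.ite (measurableSet_lt (by fun_prop) measurable_const) (by fun_prop)
        measurable_const).mul (hu.continuous.measurable.pow_const 2)).aestronglyMeasurable
    · filter_upwards [hne] with x hx
      have h0 : 0 < ‖x - c‖ := norm_pos_iff.2 (sub_ne_zero.2 hx)
      split_ifs
      · rw [Real.norm_of_nonneg (by positivity), one_div]
        exact mul_le_mul_of_nonneg_right (inv_anti₀ h0 (norm_le_rho d (x - c))) (sq_nonneg _)
      · simp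
    · filter_upwards [hne] with x hx
      have h0 : 0 < ‖x - c‖ := norm_pos_iff.2 (sub_ne_zero.2 hx)
      split_ifs
      · refine Filter.Tendsto.mul_const _ (tendsto_nhdsWithin_of_tendsto_nhds ?_)
        have h1 : ContinuousAt (fun d : ℝ => (√(‖x - c‖ ^ 2 + d ^ 2))⁻¹) 0 :=
          ContinuousAt.inv₀ (by fun_prop) (by positivity)
        have h2 := h1.tendsto
        simp only [ne_eq, OfNat.ofNat_ne_zero, not_false_eq_true, zero_pow, add_zero,
          Real.sqrt_sq h0.le] at h2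
        rwa [one_div]
      · exact tendsto_const_nhds
  exact le_of_tendsto hlim (eventually_nhdsWithin_of_forall fun d hd => dhardy_reg hl hl1 hd c hU)

lemma integrable_near (l : ℝ) {K : ℕ} (R : Fin K → Pos3) {u : Pos3 → ℝ} (hu : Continuous u)
    (hc : HasCompactSupport u) : Integrable fun x => Near l R x * u x ^ 2 := by
  simp only [Near, sum_mul]
  exact integrable_finsetSum _ fun α _ => dhardy_int_one l (R α) ⟨hu, hc⟩

/-- sum `hardy_one` over the nuclei; `∑ l⁵ / rho⁵ ≤ Cs l³ / h³` -/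
theorem hardy_near : ∃ C : ℝ, 0 < C ∧ ∀ (Cs h l : ℝ) (K : ℕ) (R : Fin K → Pos3) (u : Pos3 → ℝ),
    Sparse Cs h R → 0 < h → h ≤ l → l ≤ 1 → ContDiff ℝ 1 u → HasCompactSupport u →
    ∫ x, Near l R x * u x ^ 2 ≤ C * Cs * l ^ 2 / h ^ 3 * (dir u + ∫ x, u x ^ 2) := by
  obtain ⟨C, hC, H⟩ := hardy_one
  refine ⟨C, hC, fun Cs h l K R u hS hh hhl hl1 hu hc => ?_⟩
  have hl : 0 < l := hh.trans_le hhl
  have hU : C1 u := ⟨hu, hc⟩
  have hI : Integrable fun x => ∑ k, pd k u x ^ 2 :=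
    integrable_finsetSum _ fun k _ => oi_int (oi_cc_sq (oi_cc_pd hU k))
  have hI' : Integrable fun x => u x ^ 2 := oi_int (oi_cc_sq hU.cc)
  have e1 : dir u + ∫ x, u x ^ 2 = ∫ x, (∑ k, pd k u x ^ 2 + u x ^ 2) := by
    rw [integral_add hI hI', integral_finsetSum _ fun k _ => oi_int (oi_cc_sq (oi_cc_pd hU k))]
    rfl
  simp only [Near, sum_mul]
  rw [integral_finsetSum _ fun α _ => dhardy_int_one l (R α) hU.cc]
  refine (sum_le_sum fun α _ => H l (R α) u hl hl1 hu hc).trans ?_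
  rw [← mul_sum, ← integral_finsetSum _ fun α _ => dhardy_cc_rhs hl (R α) hU, e1,
    show C * Cs * l ^ 2 / h ^ 3 = C / l * (Cs * l ^ 3 / h ^ 3) by field_simp, mul_assoc,
    ← integral_const_mul (Cs * l ^ 3 / h ^ 3)]
  refine mul_le_mul_of_nonneg_left (integral_mono
    (integrable_finsetSum _ fun α _ => dhardy_cc_rhs hl (R α) hU) ((hI.add hI').const_mul _)
    fun x => ?_) (by positivity)
  simp only [← sum_mul]
  refine mul_le_mul_of_nonneg_right ?_
    (add_nonneg (sum_nonneg fun _ _ => sq_nonneg _) (sq_nonneg _))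
  have h1 := hS x l hhl
  have e2 : ∑ α, l ^ 5 / rho l (x - R α) ^ 5 =
      l ^ 5 / h ^ 3 * (h ^ 3 * ∑ α, 1 / rho l (x - R α) ^ 5) := by
    rw [← mul_assoc, div_mul_cancel₀ _ (by positivity), mul_sum]
    exact sum_congr rfl fun α _ => by ring
  rw [e2]
  refine (mul_le_mul_of_nonneg_left h1 (by positivity)).trans (le_of_eq ?_)
  field_simp

end Crest.Agent.R338.Disc
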