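import Crest.Agent.R338.DKer
import Crest.Agent.R338.OInt

/-! Row 338, module D: integrals of the singular part of the kernel (polar coordinates:
`integral_fun_norm_addHaar`, `integrable_fun_norm_addHaar`, `EuclideanSpace.volume_ball_fin_three`;
see also `oi_integral_ball`, `oi_li_inv`, `oi_li_inv_sq` in `OInt`). -/

set_option autoImplicit false

open MeasureTheory Crest.MathPhysics.ElectronicCoulomb Finset

namespace Crest.Agent.R338.Disc

/-- radial profile of `Nk` -/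
noncomputable def dint_nk (l r : ℝ) : ℝ :=
  1 / r - (1 / √(r ^ 2 + l ^ 2) + l ^ 2 / 2 / √(r ^ 2 + l ^ 2) ^ 3)

/-- antiderivative of `r² nk` -/
noncomputable def dint_G (l r : ℝ) : ℝ :=
  r ^ 2 / 2 - r * √(r ^ 2 + l ^ 2) / 2 + l ^ 2 * r / (2 * √(r ^ 2 + l ^ 2))

lemma dint_Nk_eq (l : ℝ) : Nk l = fun x => dint_nk l ‖x‖ := rfl

lemma dint_nk_nonneg {l r : ℝ} (hl : 0 < l) (hr : 0 < r) : 0 ≤ dint_nk l r := by
  have h : ‖r • uv 0‖ = r := by rw [norm_smul, norm_uv, mul_one, Real.norm_of_nonneg hr.le]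
  have := Nk_nonneg hl (x := r • uv 0) (by rw [← norm_ne_zero_iff, h]; exact hr.ne')
  have e : Nk l (r • uv 0) = dint_nk l ‖r • uv 0‖ := rfl
  rwa [e, h] at this

lemma dint_G_deriv {l r : ℝ} (hl : 0 < l) (hr : 0 < r) :
    HasDerivAt (dint_G l) (r ^ 2 * dint_nk l r) r := by
  have hu : 0 < r ^ 2 + l ^ 2 := by positivity
  have hρ : 0 < √(r ^ 2 + l ^ 2) := Real.sqrt_pos.2 hu
  have h1 : HasDerivAt (fun r : ℝ => r ^ 2 + l ^ 2) (2 * r) r := by
    simpa using (hasDerivAt_pow 2 r).add_const (l ^ 2)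
  have h2 := h1.sqrt hu.ne'
  have h3 : HasDerivAt (fun r : ℝ => r ^ 2) (2 * r) r := by simpa using hasDerivAt_pow 2 r
  have h4 := ((h3.div_const 2).sub (((hasDerivAt_id r).mul h2).div_const 2)).add
    (((hasDerivAt_id r).const_mul (l ^ 2)).div (h2.const_mul 2) (by positivity))
  refine h4.congr_deriv ?_
  have hs : √(r ^ 2 + l ^ 2) ^ 2 = r ^ 2 + l ^ 2 := Real.sq_sqrt hu.le
  simp only [dint_nk, id]
  generalize √(r ^ 2 + l ^ 2) = ρ at hρ hs
  have hl2 : l ^ 2 = ρ ^ 2 - r ^ 2 := by linarith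
  rw [hl2]
  field_simp
  ring

lemma dint_G_cont {l : ℝ} (hl : 0 < l) : Continuous (dint_G l) := by
  unfold dint_G
  refine Continuous.add (by fun_prop) (Continuous.div (by fun_prop) (by fun_prop) fun r => ?_)
  have : 0 < √(r ^ 2 + l ^ 2) := Real.sqrt_pos.2 (by positivity)
  positivity

lemma dint_G_lim {l : ℝ} (hl : 0 < l) :
    Filter.Tendsto (dint_G l) Filter.atTop (nhds (l ^ 2 / 4)) := by
  let H : ℝ → ℝ := fun u => -(l ^ 2) / (2 * (1 + √(1 + l ^ 2 * u ^ 2))) +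
    l ^ 2 / (2 * √(1 + l ^ 2 * u ^ 2))
  have hH : Continuous H := by
    refine Continuous.add (Continuous.div (by fun_prop) (by fun_prop) fun u => ?_)
      (Continuous.div (by fun_prop) (by fun_prop) fun u => ?_)
    · positivity
    · have : 0 < √(1 + l ^ 2 * u ^ 2) := Real.sqrt_pos.2 (by positivity)
      positivity
  have h0 : H 0 = l ^ 2 / 4 := by simp [H]; ring
  have h1 := (hH.tendsto 0).comp tendsto_inv_atTop_zero
  rw [h0] at h1
  refine h1.congr' ?_
  filter_upwards [Filter.eventually_gt_atTop 0] with r hr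
  have ht : 0 < √(1 + l ^ 2 * r⁻¹ ^ 2) := Real.sqrt_pos.2 (by positivity)
  have hs : √(1 + l ^ 2 * r⁻¹ ^ 2) ^ 2 = 1 + l ^ 2 * r⁻¹ ^ 2 := Real.sq_sqrt (by positivity)
  have hρ : √(r ^ 2 + l ^ 2) = r * √(1 + l ^ 2 * r⁻¹ ^ 2) := by
    rw [Real.sqrt_eq_iff_mul_self_eq (by positivity) (by positivity)]
    have : r * √(1 + l ^ 2 * r⁻¹ ^ 2) * (r * √(1 + l ^ 2 * r⁻¹ ^ 2)) =
        r ^ 2 * √(1 + l ^ 2 * r⁻¹ ^ 2) ^ 2 := by ring
    rw [this, hs]
    field_simp
  simp only [Function.comp, H, dint_G, hρ]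
  generalize √(1 + l ^ 2 * r⁻¹ ^ 2) = t at ht hs
  have hl2 : l ^ 2 = r ^ 2 * (t ^ 2 - 1) := by
    rw [hs]; field_simp; ring
  rw [hl2]
  field_simp
  ring

lemma dint_vol : (volume : Measure Pos3).real (Metric.ball 0 1) = Real.pi * 4 / 3 := by
  rw [Measure.real, EuclideanSpace.volume_ball_fin_three, ENNReal.ofReal_one, one_pow, one_mul,
    ENNReal.toReal_ofReal (by positivity)]

lemma dint_dim : Module.finrank ℝ Pos3 = 3 := by simp

lemma integrable_Nk {l : ℝ} (hl : 0 < l) : Integrable (Nk l) := by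
  rw [dint_Nk_eq, integrable_fun_norm_addHaar volume, dint_dim]
  exact integrableOn_Ioi_deriv_of_nonneg (dint_G_cont hl).continuousWithinAt
    (fun r hr => dint_G_deriv hl hr) (fun r hr => mul_nonneg (sq_nonneg _) (dint_nk_nonneg hl hr))
    (dint_G_lim hl)

/-- `r² Nk` has the antiderivative `r²/2 - rρ/2 + l² r/(2ρ)` (`ρ = √(r² + l²)`), which vanishes at `0`
and tends to `l²/4`. -/
lemma integral_Nk {l : ℝ} (hl : 0 < l) : ∫ x, Nk l x = Real.pi * l ^ 2 := by
  have h := integral_Ioi_of_hasDerivAt_of_nonneg (dint_G_cont hl).continuousWithinAt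
    (fun r hr => dint_G_deriv hl hr) (fun r hr => mul_nonneg (sq_nonneg _) (dint_nk_nonneg hl hr))
    (dint_G_lim hl)
  have h0 : dint_G l 0 = 0 := by simp [dint_G]
  rw [h0, sub_zero] at h
  rw [dint_Nk_eq, integral_fun_norm_addHaar volume (dint_nk l), dint_dim, dint_vol]
  simp only [smul_eq_mul, nsmul_eq_mul, Nat.add_one_sub_one]
  rw [h]
  push_cast
  ring

lemma dint_ae_ne : ∀ᵐ x : Pos3, x ≠ 0 := Measure.ae_ne volume 0

lemma integral_abs_Nk {l : ℝ} (hl : 0 < l) : ∫ x, |Nk l x| = Real.pi * l ^ 2 := by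
  rw [← integral_Nk hl]
  refine integral_congr_ae ?_
  filter_upwards [dint_ae_ne] with x hx
  exact abs_of_nonneg (Nk_nonneg hl hx)

lemma integrable_Nk_mul : Integrable fun u : Pos3 => |Nk 1 u| * (1 + ‖u‖) := by
  have h1 : Integrable fun u : Pos3 => |Nk 1 u| := (integrable_Nk one_pos).abs
  have h2 : Integrable fun u : Pos3 => ((1 : ℝ) + ‖u‖ ^ 2) ^ (-(4 : ℝ) / 2) :=
    integrable_rpow_neg_one_add_norm_sq (by rw [dint_dim]; norm_num)
  have h3 : Integrable fun u : Pos3 => |Nk 1 u| * ‖u‖ := by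
    refine h2.mono' ((measurable_Nk one_pos).abs.mul measurable_norm).aestronglyMeasurable ?_
    filter_upwards [dint_ae_ne] with x hx
    have hx' : 0 < ‖x‖ := norm_pos_iff.2 hx
    rw [Real.norm_of_nonneg (by positivity), abs_of_nonneg (Nk_nonneg one_pos hx)]
    have h := Nk_le one_pos hx
    have hρ := rho_pos one_pos x
    have e : ((1 : ℝ) + ‖x‖ ^ 2) ^ (-(4 : ℝ) / 2) = 1 / rho 1 x ^ 4 := by
      rw [show (-(4 : ℝ) / 2) = -((2 : ℕ) : ℝ) by norm_num, Real.rpow_neg (by positivity),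
        Real.rpow_natCast, show rho 1 x ^ 4 = (rho 1 x ^ 2) ^ 2 by ring, rho_sq, one_div]
      ring
    rw [e]
    calc Nk 1 x * ‖x‖ ≤ 1 ^ 4 / (‖x‖ * rho 1 x ^ 4) * ‖x‖ := by gcongr
      _ = 1 / rho 1 x ^ 4 := by field_simp
  refine (h1.add h3).congr (.of_forall fun u => ?_)
  simp only [Pi.add_apply]
  ring

/-- bounded functions against translates of `Nk` -/
lemma integrable_mul_Nk {l : ℝ} (hl : 0 < l) {a : Pos3 → ℝ} (ha : Continuous a) {Λ : ℝ}
    (hΛ : ∀ y, |a y| ≤ Λ) (x : Pos3) : Integrable fun y => a y * Nk l (x - y) :=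
  ((integrable_Nk hl).comp_sub_left x).bdd_mul ha.aestronglyMeasurable (c := Λ)
    (.of_forall hΛ)

lemma abs_integral_mul_Nk_le {l : ℝ} (hl : 0 < l) {a : Pos3 → ℝ} (ha : Continuous a) {Λ : ℝ}
    (hΛ : ∀ y, |a y| ≤ Λ) (x : Pos3) : |∫ y, a y * Nk l (x - y)| ≤ 4 * Λ * l ^ 2 := by
  have hΛ0 : 0 ≤ Λ := (abs_nonneg _).trans (hΛ 0)
  have h1 : Integrable fun y => Λ * |Nk l (x - y)| :=
    ((integrable_Nk hl).comp_sub_left x).abs.const_mul Λ
  have h2 : ∫ y, Λ * |Nk l (x - y)| = Λ * (Real.pi * l ^ 2) := by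
    rw [integral_const_mul, integral_sub_left_eq_self (fun y => |Nk l y|) volume x,
      integral_abs_Nk hl]
  calc |∫ y, a y * Nk l (x - y)| ≤ ∫ y, Λ * |Nk l (x - y)| := by
        rw [← Real.norm_eq_abs]
        refine norm_integral_le_of_norm_le h1 (.of_forall fun y => ?_)
        rw [Real.norm_eq_abs, abs_mul]
        exact mul_le_mul_of_nonneg_right (hΛ y) (abs_nonneg _)
    _ ≤ 4 * Λ * l ^ 2 := by
        rw [h2]
        have := Real.pi_le_four
        have h3 : 0 ≤ Λ * l ^ 2 := by positivity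
        nlinarith

/-- `|a - 6| ≤ (Λ + 6) ‖y‖ / r` -/
lemma integral_mul_Nk_one : ∃ C : ℝ, 0 < C ∧ ∀ (a : Pos3 → ℝ) (Λ r : ℝ), Continuous a →
    (∀ y, |a y| ≤ Λ) → 0 < r → (∀ y, ‖y‖ < r → a y = 6) →
    |(∫ y, a y * Nk 1 (0 - y)) - 6 * Real.pi| ≤ C * (Λ + 6) / r := by
  have hC : 0 ≤ ∫ u : Pos3, |Nk 1 u| * (1 + ‖u‖) := integral_nonneg fun u => by positivity
  refine ⟨(∫ u : Pos3, |Nk 1 u| * (1 + ‖u‖)) + 1, by linarith, fun a Λ r ha hΛ hr h6 => ?_⟩
  have hΛ0 : 0 ≤ Λ := (abs_nonneg _).trans (hΛ 0)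
  have i1 := integrable_mul_Nk one_pos ha hΛ 0
  simp only [zero_sub, Nk_neg] at i1 ⊢
  have i2 : Integrable fun y => 6 * Nk 1 y := (integrable_Nk one_pos).const_mul 6
  have e : 6 * Real.pi = ∫ y, 6 * Nk 1 y := by
    rw [integral_const_mul, integral_Nk one_pos]; ring
  rw [e, ← integral_sub i1 i2]
  calc |∫ y, (a y * Nk 1 y - 6 * Nk 1 y)| ≤
        ∫ u : Pos3, (Λ + 6) / r * (|Nk 1 u| * (1 + ‖u‖)) := by
        rw [← Real.norm_eq_abs]
        refine norm_integral_le_of_norm_le (integrable_Nk_mul.const_mul _) (.of_forall fun y => ?_)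
        rw [Real.norm_eq_abs, ← sub_mul, abs_mul]
        have h1 : |a y - 6| ≤ (Λ + 6) / r * (1 + ‖y‖) := by
          by_cases hy : ‖y‖ < r
          · rw [h6 y hy, sub_self, abs_zero]; positivity
          · have h2 : |a y - 6| ≤ Λ + 6 := by
              have := abs_le.1 (hΛ y)
              rw [abs_le]; constructor <;> linarith
            refine h2.trans ?_
            rw [div_mul_eq_mul_div, le_div_iff₀ hr]
            have : r ≤ 1 + ‖y‖ := by linarith [not_lt.1 hy]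
            gcongr
        calc |a y - 6| * |Nk 1 y| ≤ (Λ + 6) / r * (1 + ‖y‖) * |Nk 1 y| := by gcongr
          _ = _ := by ring
    _ ≤ _ := by
        rw [integral_const_mul, mul_div_assoc, mul_comm]
        gcongr
        linarith

lemma dint_ind (c : Pos3) (h : ℝ) :
    (fun x : Pos3 => if ‖x - c‖ < h then 1 / ‖x - c‖ ^ 2 else 0) =
      (Metric.ball c h).indicator fun x => 1 / ‖x - c‖ ^ 2 := by
  funext x
  simp only [Set.indicator, Metric.mem_ball, dist_eq_norm]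

lemma integrable_ball_inv_sq (c : Pos3) (h : ℝ) :
    Integrable fun x : Pos3 => if ‖x - c‖ < h then 1 / ‖x - c‖ ^ 2 else 0 := by
  rw [dint_ind, integrable_indicator_iff measurableSet_ball]
  exact ((oi_li_inv_sq c).integrableOn_isCompact (isCompact_closedBall c h)).mono_set
    Metric.ball_subset_closedBall

lemma integral_ball_inv_sq (c : Pos3) {h : ℝ} (hh : 0 ≤ h) :
    (∫ x : Pos3, if ‖x - c‖ < h then 1 / ‖x - c‖ ^ 2 else 0) ≤ 13 * h := by
  rw [integral_sub_right_eq_self (fun x : Pos3 => if ‖x‖ < h then 1 / ‖x‖ ^ 2 else 0) c,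
    integral_fun_norm_addHaar volume (fun r : ℝ => if r < h then 1 / r ^ 2 else 0), dint_dim,
    dint_vol]
  have h3 : ∫ r in Set.Ioi (0 : ℝ), r ^ (3 - 1) • (if r < h then 1 / r ^ 2 else (0 : ℝ)) =
      ∫ r in Set.Ioi (0 : ℝ), (Set.Iio h).indicator (fun _ => (1 : ℝ)) r := by
    refine setIntegral_congr_fun measurableSet_Ioi fun r hr => ?_
    have hr' : r ≠ 0 := (Set.mem_Ioi.1 hr).ne'
    by_cases h' : r < h
    · simp only [Set.indicator, Set.mem_Iio, h', if_true, smul_eq_mul]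
      field_simp
    · simp [Set.indicator, h']
  rw [h3, integral_indicator measurableSet_Iio, Measure.restrict_restrict measurableSet_Iio,
    Set.Iio_inter_Ioi]
  simp only [integral_const, MeasurableSet.univ, measureReal_restrict_apply, Set.univ_inter,
    Real.volume_real_Ioo, sub_zero, smul_eq_mul, mul_one, nsmul_eq_mul, max_eq_left hh]
  have := Real.pi_lt_d2
  push_cast
  nlinarith

end Crest.Agent.R338.Disc
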