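import Crest.Agent.R338.DDefs

/-! Row 338, module D: pointwise facts on the kernels `K2`, `Nk`. -/

set_option autoImplicit false

open MeasureTheory Crest.MathPhysics.ElectronicCoulomb Finset

namespace Crest.Agent.R338.Disc

lemma K2_nonneg {l : ℝ} (hl : 0 < l) (x : Pos3) : 0 ≤ K2 l x := by
  have := rho_pos hl x
  unfold K2; positivity

lemma K2_le {l : ℝ} (hl : 0 < l) (x : Pos3) : K2 l x ≤ 2 / rho l x := by
  have h0 := rho_pos hl x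
  have h1 := rho_sq l x
  have h2 : l ^ 2 / 2 / rho l x ^ 3 ≤ 1 / rho l x := by
    rw [div_le_div_iff₀ (by positivity) h0]
    nlinarith [mul_nonneg (sq_nonneg ‖x‖) h0.le, mul_nonneg (sq_nonneg l) h0.le]
  unfold K2
  rw [show 2 / rho l x = 1 / rho l x + 1 / rho l x by ring]
  linarith

lemma K2_anti {l : ℝ} (hl : 0 < l) {x y : Pos3} (h : ‖x‖ ≤ ‖y‖) : K2 l y ≤ K2 l x := by
  have h0 := rho_pos hl x
  have h1 := rho_mono l h
  unfold K2; gcongr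

lemma dker_Nk {l : ℝ} (hl : 0 < l) {x : Pos3} (hx : x ≠ 0) :
    Nk l x = (rho l x - ‖x‖) ^ 2 * (2 * rho l x + ‖x‖) / (2 * ‖x‖ * rho l x ^ 3) := by
  have h0 := rho_pos hl x
  have h1 : l ^ 2 = rho l x ^ 2 - ‖x‖ ^ 2 := by rw [rho_sq]; ring
  have h2 := norm_pos_iff.2 hx
  rw [Nk, K2, h1]
  field_simp
  ring

/-- With `r = ‖x‖`, `ρ = rho l x`, `l² = ρ² - r²`: `Nk = (ρ - r)² (2ρ + r) / (2 r ρ³)`. -/
lemma Nk_nonneg {l : ℝ} (hl : 0 < l) {x : Pos3} (hx : x ≠ 0) : 0 ≤ Nk l x := by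
  have h0 := rho_pos hl x
  rw [dker_Nk hl hx]
  positivity

/-- `ρ - r = l² / (ρ + r)` and `(2ρ + r) / (ρ + r)² ≤ 2 / ρ`. -/
lemma Nk_le {l : ℝ} (hl : 0 < l) {x : Pos3} (hx : x ≠ 0) :
    Nk l x ≤ l ^ 4 / (‖x‖ * rho l x ^ 4) := by
  have h0 := rho_pos hl x
  have h1 : l ^ 4 = (rho l x - ‖x‖) ^ 2 * (rho l x + ‖x‖) ^ 2 := by
    rw [← mul_pow, show (rho l x - ‖x‖) * (rho l x + ‖x‖) = rho l x ^ 2 - ‖x‖ ^ 2 by ring, rho_sq]
    ring
  have h2 := norm_pos_iff.2 hx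
  rw [dker_Nk hl hx, h1, mul_div_assoc, mul_div_assoc]
  refine mul_le_mul_of_nonneg_left ?_ (sq_nonneg _)
  rw [div_le_div_iff₀ (by positivity) (by positivity)]
  have : 0 ≤ ‖x‖ * rho l x ^ 3 * (3 * rho l x * ‖x‖ + 2 * ‖x‖ ^ 2) := by positivity
  nlinarith

lemma abs_Nk_le {l : ℝ} (hl : 0 < l) {x : Pos3} (hx : x ≠ 0) : |Nk l x| ≤ l ^ 4 / ‖x‖ ^ 5 := by
  have h2 := norm_pos_iff.2 hx
  have h3 := norm_le_rho l x
  rw [abs_of_nonneg (Nk_nonneg hl hx)]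
  refine (Nk_le hl hx).trans ?_
  rw [show ‖x‖ ^ 5 = ‖x‖ * ‖x‖ ^ 4 by ring]
  gcongr

/-- For `‖x‖ < l` use `Nk ≤ 1/‖x‖`; otherwise `rho ≤ 2 ‖x‖`. -/
lemma Nk_split {l : ℝ} (hl : 0 < l) (x : Pos3) :
    Nk l x ≤ (if ‖x‖ < l then 1 / ‖x‖ else 0) + 2 * l ^ 4 / rho l x ^ 5 := by
  have h0 := rho_pos hl x
  split_ifs with h
  · have h1 := K2_nonneg hl x
    have h2 : 0 ≤ 2 * l ^ 4 / rho l x ^ 5 := by positivity
    unfold Nk; linarith
  · have h1 : l ≤ ‖x‖ := not_lt.1 h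
    have h2 : 0 < ‖x‖ := hl.trans_le h1
    have h3 : rho l x ≤ 2 * ‖x‖ := by linarith [rho_le hl.le x]
    refine (Nk_le hl (norm_pos_iff.1 h2)).trans ?_
    rw [zero_add, div_le_div_iff₀ (by positivity) (by positivity)]
    have : 0 ≤ l ^ 4 * rho l x ^ 4 * (2 * ‖x‖ - rho l x) :=
      mul_nonneg (by positivity) (by linarith)
    nlinarith

/-- the line derivatives of `K2` as polynomials in `τ` and `w = 1/ρ` -/
noncomputable def dkerP (l τ w : ℝ) : ℕ → ℝ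
  | 0 => w + l ^ 2 / 2 * w ^ 3
  | 1 => -(τ * w ^ 3) - 3 * (l ^ 2 / 2) * (τ * w ^ 5)
  | 2 => -w ^ 3 + 3 * (τ ^ 2 * w ^ 5) + l ^ 2 / 2 * (-3 * w ^ 5 + 15 * (τ ^ 2 * w ^ 7))
  | 3 => 9 * (τ * w ^ 5) - 15 * (τ ^ 3 * w ^ 7) +
      l ^ 2 / 2 * (45 * (τ * w ^ 7) - 105 * (τ ^ 3 * w ^ 9))
  | _ => 9 * w ^ 5 - 90 * (τ ^ 2 * w ^ 7) + 105 * (τ ^ 4 * w ^ 9) +
      l ^ 2 / 2 * (45 * w ^ 7 - 630 * (τ ^ 2 * w ^ 9) + 945 * (τ ^ 4 * w ^ 11))

lemma dker_deriv (l d : ℝ) {w : ℝ → ℝ} (hw : ∀ t, HasDerivAt w (-((t + d) * w t ^ 3)) t) {j : ℕ}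
    (hj : j < 4) (t : ℝ) :
    HasDerivAt (fun t => dkerP l (t + d) (w t) j) (dkerP l (t + d) (w t) (j + 1)) t := by
  have h1 : HasDerivAt (fun t : ℝ => t + d) 1 t := (hasDerivAt_id t).add_const d
  have h2 := hw t
  interval_cases j <;> simp only [dkerP]
  · refine (h2.fun_add ((h2.fun_pow 3).const_mul (l ^ 2 / 2))).congr_deriv ?_
    push_cast; ring
  · refine ((h1.fun_mul (h2.fun_pow 3)).fun_neg.fun_sub
      ((h1.fun_mul (h2.fun_pow 5)).const_mul (3 * (l ^ 2 / 2)))).congr_deriv ?_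
    push_cast; ring
  · refine (((h2.fun_pow 3).fun_neg.fun_add
      (((h1.fun_pow 2).fun_mul (h2.fun_pow 5)).const_mul 3)).fun_add
      ((((h2.fun_pow 5).const_mul (-3)).fun_add
        (((h1.fun_pow 2).fun_mul (h2.fun_pow 7)).const_mul 15)).const_mul
          (l ^ 2 / 2))).congr_deriv ?_
    push_cast; ring
  · refine ((((h1.fun_mul (h2.fun_pow 5)).const_mul 9).fun_sub
      (((h1.fun_pow 3).fun_mul (h2.fun_pow 7)).const_mul 15)).fun_add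
      ((((h1.fun_mul (h2.fun_pow 7)).const_mul 45).fun_sub
        (((h1.fun_pow 3).fun_mul (h2.fun_pow 9)).const_mul 105)).const_mul
          (l ^ 2 / 2))).congr_deriv ?_
    push_cast; ring

lemma dker_iter (l d : ℝ) {w : ℝ → ℝ} (hw : ∀ t, HasDerivAt w (-((t + d) * w t ^ 3)) t) {j : ℕ}
    (hj : j ≤ 4) : iteratedDeriv j (fun t => dkerP l (t + d) (w t) 0) =
      fun t => dkerP l (t + d) (w t) j := by
  induction j with
  | zero => rfl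
  | succ j ih =>
    rw [iteratedDeriv_succ, ih (by omega)]
    funext t
    exact (dker_deriv l d hw (by omega) t).deriv

lemma dker_bd {l τ w : ℝ} (hl : 0 ≤ l) (hw : 0 ≤ w) (h1 : |τ| * w ≤ 1) (h2 : l * w ≤ 1) {j : ℕ}
    (hj : j ≤ 4) : |dkerP l τ w j| ≤ 2000 * w ^ (j + 1) := by
  have A : ∀ a k b : ℕ, b = a + k → |τ ^ a * w ^ b| ≤ w ^ k := by
    rintro a k b rfl
    rw [abs_mul, abs_pow, abs_of_nonneg (pow_nonneg hw _), pow_add, ← mul_assoc, ← mul_pow]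
    exact mul_le_of_le_one_left (pow_nonneg hw _) (pow_le_one₀ (by positivity) h1)
  have B : ∀ a k b : ℕ, b = a + (k + 2) → |l ^ 2 * (τ ^ a * w ^ b)| ≤ w ^ k := by
    intro a k b hb
    rw [abs_mul, abs_of_nonneg (sq_nonneg l)]
    refine (mul_le_mul_of_nonneg_left (A a (k + 2) b hb) (sq_nonneg l)).trans ?_
    rw [show l ^ 2 * w ^ (k + 2) = (l * w) ^ 2 * w ^ k by ring]
    exact mul_le_of_le_one_left (pow_nonneg hw _) (pow_le_one₀ (by positivity) h2)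
  interval_cases j <;> simp only [dkerP] <;> rw [abs_le]
  · have a0 := abs_le.1 (A 0 1 1 rfl)
    have b0 := abs_le.1 (B 0 1 3 rfl)
    constructor <;> nlinarith [a0.1, a0.2, b0.1, b0.2]
  · have a0 := abs_le.1 (A 1 2 3 rfl)
    have b0 := abs_le.1 (B 1 2 5 rfl)
    constructor <;> nlinarith [a0.1, a0.2, b0.1, b0.2]
  · have a0 := abs_le.1 (A 0 3 3 rfl)
    have a1 := abs_le.1 (A 2 3 5 rfl)
    have b0 := abs_le.1 (B 0 3 5 rfl)
    have b1 := abs_le.1 (B 2 3 7 rfl)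
    constructor <;> nlinarith [a0.1, a0.2, b0.1, b0.2, a1.1, a1.2, b1.1, b1.2]
  · have a0 := abs_le.1 (A 1 4 5 rfl)
    have a1 := abs_le.1 (A 3 4 7 rfl)
    have b0 := abs_le.1 (B 1 4 7 rfl)
    have b1 := abs_le.1 (B 3 4 9 rfl)
    constructor <;> nlinarith [a0.1, a0.2, b0.1, b0.2, a1.1, a1.2, b1.1, b1.2]
  · have a0 := abs_le.1 (A 0 5 5 rfl)
    have a1 := abs_le.1 (A 2 5 7 rfl)
    have a2 := abs_le.1 (A 4 5 9 rfl)
    have b0 := abs_le.1 (B 0 5 7 rfl)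
    have b1 := abs_le.1 (B 2 5 9 rfl)
    have b2 := abs_le.1 (B 4 5 11 rfl)
    constructor <;> nlinarith [a0.1, a0.2, b0.1, b0.2, a1.1, a1.2, b1.1, b1.2, a2.1, a2.2, b2.1, b2.2]

lemma dker_norm (z : Pos3) (i : Fin 3) (t : ℝ) :
    ‖z + t • uv i‖ ^ 2 = (t + z i) ^ 2 + (‖z‖ ^ 2 - z i ^ 2) := by
  rw [norm_add_sq_real, norm_smul, norm_uv, real_inner_smul_right, uv,
    EuclideanSpace.inner_single_right]
  simp only [conj_trivial, Real.norm_eq_abs, mul_one, sq_abs]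
  ring

lemma dker_w {l : ℝ} (hl : 0 < l) (z : Pos3) (i : Fin 3) (t : ℝ) :
    HasDerivAt (fun t : ℝ => (rho l (z + t • uv i))⁻¹)
      (-((t + z i) * (rho l (z + t • uv i))⁻¹ ^ 3)) t := by
  have h0 := rho_pos hl (z + t • uv i)
  have h1 : HasDerivAt (fun t : ℝ => ‖z + t • uv i‖ ^ 2 + l ^ 2) (2 * (t + z i)) t := by
    simp only [dker_norm]
    refine (((((hasDerivAt_id' t).add_const (z i)).fun_pow 2).add_const _).add_const
      _).congr_deriv ?_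
    simp
  have h2 : HasDerivAt (fun t : ℝ => rho l (z + t • uv i))
      (2 * (t + z i) / (2 * rho l (z + t • uv i))) t :=
    h1.sqrt (by positivity)
  refine (h2.fun_inv h0.ne').congr_deriv ?_
  field_simp

/-- Along a line, `rho² = u(t) = (t + d)² + c²` with `c² ≥ l²`, and `K2 = u^(-1/2) + (l²/2) u^(-3/2)`.
For `φ = u^(-s)` (`τ = t + d`, `|τ| ≤ √u`): `φ' = -2s τ u^(-s-1)`,
`φ'' = -2s u^(-s-1) + 4s(s+1) τ² u^(-s-2)`, `φ''' = 12 s(s+1) τ u^(-s-2) - 8s(s+1)(s+2) τ³ u^(-s-3)`,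
`φ'''' = 12 s(s+1) u^(-s-2) - 48 s(s+1)(s+2) τ² u^(-s-3) + 16 s(s+1)(s+2)(s+3) τ⁴ u^(-s-4)`.
(It is convenient to write everything with `ρ(t) = √u`, `ρ' = τ/ρ`, and terms `τ^a / ρ^b`.) -/
lemma env_K2 : ∃ C : ℝ, 0 < C ∧ ∀ (l : ℝ) (x : Pos3), 0 < l → Env (fun y => K2 l (x - y)) x l C := by
  refine ⟨2000, by norm_num, fun l x hl => ⟨(contDiff_K2 hl).comp (contDiff_const.sub contDiff_id),
    fun i j y hj => ?_⟩⟩
  have e : (fun t : ℝ => K2 l (x - (y + t • uv i))) =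
      fun t => dkerP l (t + (y - x) i) (rho l (y - x + t • uv i))⁻¹ 0 := by
    funext t
    rw [← K2_neg, show -(x - (y + t • uv i)) = y - x + t • uv i by abel, K2, dkerP]
    ring
  have h0 := rho_pos hl (y - x)
  rw [LD, e, dker_iter l _ (dker_w hl (y - x) i) hj]
  simp only [zero_add, zero_smul, add_zero]
  rw [div_eq_mul_inv, ← inv_pow]
  refine dker_bd hl.le (inv_nonneg.2 h0.le) ?_ ?_ hj
  · rw [mul_inv_le_iff₀ h0, one_mul]
    exact (abs_coord_le _ i).trans (norm_le_rho l _)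
  · rw [mul_inv_le_iff₀ h0, one_mul]
    exact le_rho l _

end Crest.Agent.R338.Disc
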