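import Crest.Agent.R338.DEM
import Crest.Agent.R338.DProd

/-! Row 338, module D: the rounding noise. -/

set_option autoImplicit false

open MeasureTheory Crest.MathPhysics.ElectronicCoulomb Finset

namespace Crest.Agent.R338.Disc

/-- summation by parts (induction on `N`) -/
lemma sum_d4 (φ f : ℕ → ℝ) (h0 : ∀ a, a < 4 → φ a = 0) (N : ℕ) :
    ∑ a ∈ range N, d4 φ a * f a = ∑ a ∈ range N, φ (a + 4) * d4 f a +
      ((φ (N + 3) - 3 * φ (N + 2) + 3 * φ (N + 1) - φ N) * f N
        - (φ (N + 3) - 2 * φ (N + 2) + φ (N + 1)) * (f (N + 1) - f N)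
        + (φ (N + 3) - φ (N + 2)) * (f (N + 2) - 2 * f (N + 1) + f N)
        - φ (N + 3) * (f (N + 3) - 3 * f (N + 2) + 3 * f (N + 1) - f N)) := by
  induction N with
  | zero => simp [h0 0, h0 1, h0 2, h0 3]
  | succ N ih =>
    rw [sum_range_succ, sum_range_succ, ih]
    simp only [d4, add_assoc, Nat.reduceAdd]
    ring

lemma dnoise_fwd {h : ℝ} (hh : 0 < h) (k : ℕ) : ∀ (g : ℝ → ℝ) (t m : ℝ), ContDiff ℝ k g →
    (∀ s ∈ Set.Icc t (t + k * h), |iteratedDeriv k g s| ≤ m) →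
    |(fwdDiff h)^[k] g t| ≤ h ^ k * m := by
  induction k with
  | zero =>
    intro g t m _ hb
    simpa using hb t (by simp)
  | succ k ih =>
    intro g t m hg hb
    have hg' : ContDiff ℝ k g := hg.of_le (by exact_mod_cast Nat.le_succ k)
    have hs : ContDiff ℝ k fun s => g (s + h) := hg'.comp (contDiff_id.add contDiff_const)
    rw [Function.iterate_succ_apply, pow_succ, mul_assoc]
    refine ih _ t _ (hs.sub hg') fun s hs' => ?_
    have e : iteratedDeriv k (fwdDiff h g) s = iteratedDeriv k g (s + h) - iteratedDeriv k g s := by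
      have : fwdDiff h g = (fun s => g (s + h)) - g := rfl
      rw [this, iteratedDeriv_sub hs.contDiffAt hg'.contDiffAt, iteratedDeriv_comp_add_const]
    rw [e]
    have hd : Differentiable ℝ (iteratedDeriv k g) :=
      hg.differentiable_iteratedDeriv k (by exact_mod_cast Nat.lt_succ_self k)
    obtain ⟨c, hc, e'⟩ := exists_deriv_eq_slope (iteratedDeriv k g) (show s < s + h by linarith)
      hd.continuous.continuousOn hd.differentiableOn
    rw [← iteratedDeriv_succ, add_sub_cancel_left, eq_div_iff hh.ne'] at e'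
    rw [← e', abs_mul, abs_of_pos hh, mul_comm]
    refine mul_le_mul_of_nonneg_left (hb c ⟨by linarith [hc.1, hs'.1], ?_⟩) hh.le
    push_cast
    linarith [hc.2, hs'.2]

/-- iterated mean value theorem -/
lemma abs_diff4_le {g : ℝ → ℝ} (hg : ContDiff ℝ 4 g) {t h m : ℝ} (hh : 0 < h)
    (hb : ∀ s ∈ Set.Icc t (t + 4 * h), |iteratedDeriv 4 g s| ≤ m) :
    |g (t + 4 * h) - 4 * g (t + 3 * h) + 6 * g (t + 2 * h) - 4 * g (t + h) + g t| ≤ h ^ 4 * m := by
  have := dnoise_fwd hh 4 g t m (by exact_mod_cast hg) (by exact_mod_cast hb)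
  convert this using 2
  simp only [Function.iterate_succ_apply', Function.iterate_zero, id, fwdDiff]
  rw [show t + h + h + h + h = t + 4 * h by ring, show t + h + h + h = t + 3 * h by ring,
    show t + h + h = t + 2 * h by ring]
  ring

lemma dnoise_lpt (h : ℝ) (n a b c i : ℕ) :
    lpt h n (a + i) b c = lpt h n a b c + ((i : ℝ) * h) • uv 0 := by
  rw [lpt, lpt, mk3_add_uv0]
  congr 1
  simp only [cr]
  push_cast
  ring

lemma dnoise_d4 {f : Pos3 → ℝ} {x₀ : Pos3} {h l M : ℝ} (hf : Env f x₀ l M) (hh : 0 < h)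
    (hl : h ≤ l) (n a b c : ℕ) : |d4 (fun a => f (lpt h n a b c)) a| ≤
      h ^ 4 * (3125 * M * (1 / rho l (lpt h n a b c - x₀) ^ 5)) := by
  have hl0 : 0 < l := hh.trans_le hl
  have hM := hf.nonneg hl0
  have := abs_diff4_le (contDiff_line hf.1 0 (lpt h n a b c)) (t := 0) hh
    (m := 3125 * M * (1 / rho l (lpt h n a b c - x₀) ^ 5)) fun s hs => ?_
  · convert this using 2
    simp only [d4, dnoise_lpt, zero_add, zero_smul, add_zero]
    norm_num
  · rw [iteratedDeriv_line]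
    refine (hf.2 0 4 _ le_rfl).trans ?_
    set y := lpt h n a b c
    have h1 := rho_add_le l (y + s • uv 0 - x₀) (-(s • uv 0))
    have h2 := le_rho l (y + s • uv 0 - x₀)
    have h3 := rho_pos hl0 (y - x₀)
    rw [show y + s • uv 0 - x₀ + -(s • uv 0) = y - x₀ by abel, norm_neg, norm_smul, norm_uv,
      mul_one, Real.norm_of_nonneg hs.1] at h1
    have h4 : rho l (y - x₀) / 5 ≤ rho l (y + s • uv 0 - x₀) := by linarith [hs.2]
    calc M / rho l (y + s • uv 0 - x₀) ^ (4 + 1) ≤ M / (rho l (y - x₀) / 5) ^ (4 + 1) := by gcongr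
      _ = _ := by rw [div_pow]; field_simp; norm_num; ring

lemma dnoise_line {f : Pos3 → ℝ} {x₀ : Pos3} {h l M B : ℝ} (hf : Env f x₀ l M) (hh : 0 < h)
    (hl : h ≤ l) (n b c : ℕ) {φ : ℕ → ℝ} (h1 : ∀ a, |φ a| ≤ 1) (h0 : ∀ a, a < 4 → φ a = 0)
    (hB : ∀ y, n * h ≤ ‖y‖ → |f y| ≤ B) :
    |∑ a ∈ range (2 * n + 1), d4 φ a * f (lpt h n a b c)| ≤
      ∑ a ∈ range (2 * n + 1), h ^ 4 * (3125 * M * (1 / rho l (lpt h n a b c - x₀) ^ 5)) +
        32 * B := by
  rw [sum_d4 φ (fun a => f (lpt h n a b c)) h0]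
  refine (abs_add_le _ _).trans (add_le_add ((abs_sum_le_sum_abs _ _).trans
    (sum_le_sum fun a _ => ?_)) ?_)
  · rw [abs_mul]
    exact (mul_le_of_le_one_left (abs_nonneg _) (h1 _)).trans (dnoise_d4 hf hh hl n a b c)
  · have hb : ∀ i : ℕ, |f (lpt h n (2 * n + 1 + i) b c)| ≤ B := fun i => by
      refine hB _ (le_trans ?_ ((le_abs_self _).trans (abs_coord_le _ 0)))
      simp only [lpt, mk3_zero, cr]
      push_cast
      have : (0 : ℝ) ≤ i := i.cast_nonneg
      nlinarith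
    have b0 : |f (lpt h n (2 * n + 1) b c)| ≤ B := hb 0
    have b1 := hb 1
    have b2 := hb 2
    have b3 := hb 3
    have hB0 : 0 ≤ B := (abs_nonneg _).trans b0
    have key : ∀ i j : ℕ, |φ (2 * n + 1 + i) * f (lpt h n (2 * n + 1 + j) b c)| ≤ B := fun i j => by
      rw [abs_mul]
      exact (mul_le_of_le_one_left (abs_nonneg _) (h1 _)).trans (hb j)
    have k00 := abs_le.1 (key 0 0)
    have k10 := abs_le.1 (key 1 0)
    have k20 := abs_le.1 (key 2 0)
    have k30 := abs_le.1 (key 3 0)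
    have k11 := abs_le.1 (key 1 1)
    have k21 := abs_le.1 (key 2 1)
    have k31 := abs_le.1 (key 3 1)
    have k22 := abs_le.1 (key 2 2)
    have k32 := abs_le.1 (key 3 2)
    have k33 := abs_le.1 (key 3 3)
    simp only [add_zero] at k00 k10 k20 k30
    refine abs_le.2 ⟨?_, ?_⟩ <;> nlinarith [k00.1, k00.2, k10.1, k10.2, k20.1, k20.2, k30.1, k30.2,
      k11.1, k11.2, k21.1, k21.2, k31.1, k31.2, k22.1, k22.2, k32.1, k32.2, k33.1, k33.2]

/-- On every line `(b, c)` apply `sum_d4` to `a ↦ f (lpt h n a b c)`.  Interior terms: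
`abs_diff4_le` with `rho l (y - x₀) ≤ 5 rho l (y + s • uv 0 - x₀)` for `0 ≤ s ≤ 4 h`, then `lattice5`.
Boundary terms: the points `lpt h n (2n+1+i) b c` have norm `≥ n h`; only the lines with
`|cr b|, |cr c| < r` contribute (`count_cr`). -/
theorem noise : ∃ C : ℝ, 0 < C ∧ ∀ (f : Pos3 → ℝ) (φ : ℕ → ℕ → ℕ → ℝ) (n : ℕ)
    (h l M B r : ℝ) (x₀ : Pos3), Env f x₀ l M → 0 < h → h ≤ l → h ≤ r →
    (∀ a b c, |φ a b c| ≤ 1) → (∀ a b c, a < 4 → φ a b c = 0) →
    (∀ a b c, (r ≤ |cr h n b| ∨ r ≤ |cr h n c|) → φ a b c = 0) →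
    (∀ y, n * h ≤ ‖y‖ → |f y| ≤ B) →
    |S3 n fun a b c => d4 (fun a => φ a b c) a * f (lpt h n a b c)| ≤
      C * (M * h / l ^ 2 + B * r ^ 2 / h ^ 2) := by
  refine ⟨3125000, by norm_num, fun f φ n h l M B r x₀ hf hh hl hr h1 h0 hz hB => ?_⟩
  have hl0 : 0 < l := hh.trans_le hl
  have hr0 : 0 < r := hh.trans_le hr
  have hM := hf.nonneg hl0
  have hB0 : 0 ≤ B := by
    refine (abs_nonneg _).trans (hB (mk3 (n * h) 0 0) ?_)
    simpa using (le_abs_self _).trans (abs_coord_le (mk3 (n * h) 0 0) 0)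
  have reord : ∀ F : ℕ → ℕ → ℕ → ℝ, S3 n F = ∑ b ∈ range (2 * n + 1), ∑ c ∈ range (2 * n + 1),
      ∑ a ∈ range (2 * n + 1), F a b c := fun F => by
    rw [S3, sum_comm]
    exact sum_congr rfl fun b _ => sum_comm
  set I : ℕ → ℝ := fun a => if |cr h n a| < r then (1 : ℝ) else 0 with hI
  have hI0 : ∀ a, 0 ≤ I a := fun a => by simp only [hI]; split_ifs <;> norm_num
  have line : ∀ b c, |∑ a ∈ range (2 * n + 1), d4 (fun a => φ a b c) a * f (lpt h n a b c)| ≤
      ∑ a ∈ range (2 * n + 1), h ^ 4 * (3125 * M * (1 / rho l (lpt h n a b c - x₀) ^ 5)) +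
        32 * B * (I b * I c) := fun b c => by
    by_cases hbc : |cr h n b| < r ∧ |cr h n c| < r
    · simp only [hI, if_pos hbc.1, if_pos hbc.2, mul_one]
      exact dnoise_line hf hh hl n b c (fun a => h1 a b c) (fun a ha => h0 a b c ha) hB
    · have hφ : ∀ a, φ a b c = 0 := fun a => hz a b c (by
        rw [not_and_or, not_lt, not_lt] at hbc; exact hbc)
      simp only [d4, hφ, mul_zero, sub_zero, add_zero, zero_mul, sum_const_zero, abs_zero]
      have := hI0 b
      have := hI0 c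
      refine add_nonneg (sum_nonneg fun a _ => ?_) (by positivity)
      have := rho_pos hl0 (lpt h n a b c - x₀)
      positivity
  have hc := count_cr hh hr n (2 * n + 1)
  have hL := lattice5 hh hl n x₀
  have hS : 0 ≤ ∑ a ∈ range (2 * n + 1), I a := sum_nonneg fun a _ => hI0 a
  calc _ ≤ ∑ b ∈ range (2 * n + 1), ∑ c ∈ range (2 * n + 1),
        (∑ a ∈ range (2 * n + 1), h ^ 4 * (3125 * M * (1 / rho l (lpt h n a b c - x₀) ^ 5)) +
          32 * B * (I b * I c)) := by
        rw [reord]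
        exact (abs_sum_le_sum_abs _ _).trans (sum_le_sum fun b _ => (abs_sum_le_sum_abs _ _).trans
          (sum_le_sum fun c _ => line b c))
    _ = 3125 * M * h * (h ^ 3 * S3 n (fun a b c => 1 / rho l (lpt h n a b c - x₀) ^ 5)) +
          32 * B * ((∑ a ∈ range (2 * n + 1), I a) * ∑ a ∈ range (2 * n + 1), I a) := by
        rw [sum_mul_sum, ← mul_assoc, ← S3_mul, reord]
        simp only [sum_add_distrib, mul_sum]
        congr 1
        exact sum_congr rfl fun _ _ => sum_congr rfl fun _ _ => sum_congr rfl fun _ _ => by ring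
    _ ≤ 3125 * M * h * (1000 / l ^ 2) + 32 * B * ((20 * r / h) * (20 * r / h)) := by gcongr
    _ = 3125000 * (M * h / l ^ 2) + 12800 * (B * r ^ 2 / h ^ 2) := by field_simp; ring
    _ ≤ _ := by
        have : 0 ≤ B * r ^ 2 / h ^ 2 := by positivity
        linarith

end Crest.Agent.R338.Disc
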