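import Crest.Agent.R338.DQT
import Crest.Agent.R338.DCut
import Crest.Agent.R338.DNoise

/-! Row 338, module D: the main quadrature estimates. -/

set_option autoImplicit false

open MeasureTheory Crest.MathPhysics.ElectronicCoulomb Finset Crest.Agent.Lib.PT

namespace Crest.Agent.R338.Disc

lemma mq_shift_le (D : LatD) {m : ℕ} (hm : m ≤ 240) :
    (m : ℝ) / (D.H : ℝ) ^ 30 ≤ 1 / (D.H : ℝ) ^ 20 := by
  have hH := D.H_pos
  have h1 : (m : ℝ) ≤ 240 := by exact_mod_cast hm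
  have h2 : (8 : ℝ) ^ 10 ≤ (D.H : ℝ) ^ 10 := by gcongr; exact D.H_ge
  rw [div_le_div_iff₀ (by positivity) (by positivity)]
  calc (m : ℝ) * (D.H : ℝ) ^ 20 ≤ (D.H : ℝ) ^ 10 * (D.H : ℝ) ^ 20 := by gcongr; linarith
    _ = _ := by ring

lemma mq_inv_pow_le (D : LatD) {i j : ℕ} (h : i ≤ j) : 1 / (D.H : ℝ) ^ j ≤ 1 / (D.H : ℝ) ^ i := by
  have hH := D.H_ge
  gcongr
  linarith

lemma mq_card (D : LatD) : (2 * ((D.H ^ 5 : ℕ) : ℝ) + 1) ^ 3 ≤ 27 * (D.H : ℝ) ^ 15 := by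
  have hH := D.H_ge
  have h1 : (1 : ℝ) ≤ (D.H : ℝ) ^ 5 := one_le_pow₀ (by linarith)
  calc _ ≤ (3 * (D.H : ℝ) ^ 5) ^ 3 := by
        gcongr
        push_cast
        linarith
    _ = _ := by ring

lemma mq_qH (D : LatD) : D.q * (D.H : ℝ) ^ 3 ≤ D.A / 240 := by
  have h2 := D.q_le
  have h3 := D.H_pos
  rw [le_div_iff₀ (by positivity)] at h2
  linarith

lemma mq_h_le_one (D : LatD) : 1 / (D.H : ℝ) ≤ 1 := by
  rw [div_le_one D.H_pos]; linarith [D.H_ge]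

lemma mq_H4 (D : LatD) : (1 : ℝ) ≤ (D.H : ℝ) ^ 4 := one_le_pow₀ (by linarith [D.H_ge])

/-- the shifts inside the clusters -/
lemma mq_cluster (D : LatD) {f : Pos3 → ℝ} {x₀ : Pos3} {l M : ℝ} (hf : Env f x₀ l M) (hl : 0 < l) :
    |D.q * ∑ α, f (D.R α) - D.q * S3 (D.H ^ 5) fun a b c => D.w a b c * f (LP D.H a b c)| ≤
      27 * D.A * (M / ((D.H : ℝ) ^ 4 * l ^ 2)) := by
  have hH := D.H_pos
  have hq := D.q_pos
  have hM := hf.nonneg hl
  have hA := D.A_ge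
  rw [D.sum_eq, ← mul_sub, ← S3_sub, abs_mul, abs_of_pos hq]
  have h1 := abs_S3_le_const (D.H ^ 5) (t := 240 * (M / l ^ 2 * (1 / (D.H : ℝ) ^ 20)))
    (F := fun a b c => ∑ m ∈ range (D.w a b c),
      f (LP D.H a b c + ((m : ℝ) / (D.H : ℝ) ^ 30) • uv 0) - D.w a b c * f (LP D.H a b c))
    (fun a b c _ _ _ => by
      have e : (D.w a b c : ℝ) * f (LP D.H a b c) = ∑ m ∈ range (D.w a b c), f (LP D.H a b c) := by
        simp
      rw [e, ← sum_sub_distrib]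
      refine (abs_sum_le_sum_abs _ _).trans ?_
      have hw := D.w_le a b c
      calc _ ≤ ∑ m ∈ range (D.w a b c), M / l ^ 2 * (1 / (D.H : ℝ) ^ 20) := by
            refine sum_le_sum fun m hm => (hf.lip hl 0 _ _).trans ?_
            rw [abs_of_nonneg (by positivity)]
            exact mul_le_mul_of_nonneg_left (mq_shift_le D (by have := mem_range.1 hm; omega))
              (by positivity)
        _ ≤ _ := by
            rw [sum_const, card_range, nsmul_eq_mul]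
            gcongr
            exact_mod_cast hw)
  have h2 := mq_card D
  have h3 := mq_qH D
  have h4 := mq_inv_pow_le D (i := 4) (j := 8) (by norm_num)
  calc _ ≤ D.q * (27 * (D.H : ℝ) ^ 15 * (240 * (M / l ^ 2 * (1 / (D.H : ℝ) ^ 20)))) := by
        gcongr
        exact h1.trans (by gcongr)
    _ = 27 * 240 * (D.q * (D.H : ℝ) ^ 3) * (M / l ^ 2) * (1 / (D.H : ℝ) ^ 8) := by field_simp
    _ ≤ 27 * 240 * (D.A / 240) * (M / l ^ 2) * (1 / (D.H : ℝ) ^ 4) := by gcongr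
    _ = _ := by field_simp

/-- the finite difference error -/
lemma mq_fd (D : LatD) {f : Pos3 → ℝ} {x₀ : Pos3} {l M : ℝ} (hf : Env f x₀ l M) (hl : 0 < l)
    (hl1 : l ≤ 1) :
    |D.q * S3 (D.H ^ 5) fun a b c =>
      (D.y a b c - 20 * lap D.Vc (LP D.H a b c) / D.κ) * f (LP D.H a b c)| ≤
      7 * D.A ^ 2 * (M / ((D.H : ℝ) ^ 4 * l ^ 2)) := by
  have hH := D.H_pos
  have hq := D.q_pos
  have hM := hf.nonneg hl
  have hA := D.A_ge
  rw [abs_mul, abs_of_pos hq]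
  have h1 := abs_S3_le_const (D.H ^ 5) (t := 60 * D.A / (D.H : ℝ) ^ 20 * (M / l ^ 2))
    (F := fun a b c => (D.y a b c - 20 * lap D.Vc (LP D.H a b c) / D.κ) * f (LP D.H a b c))
    (fun a b c _ _ _ => by
      rw [abs_mul]
      refine mul_le_mul (D.y_near a b c) ((hf.abs_le hl _).trans ?_) (abs_nonneg _) (by positivity)
      gcongr
      nlinarith)
  have h2 := mq_card D
  have h3 := mq_qH D
  have h4 := mq_inv_pow_le D (i := 4) (j := 8) (by norm_num)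
  calc _ ≤ D.q * (27 * (D.H : ℝ) ^ 15 * (60 * D.A / (D.H : ℝ) ^ 20 * (M / l ^ 2))) := by
        gcongr
        exact h1.trans (by gcongr)
    _ = 27 * 60 * D.A * (D.q * (D.H : ℝ) ^ 3) * (M / l ^ 2) * (1 / (D.H : ℝ) ^ 8) := by field_simp
    _ ≤ 27 * 60 * D.A * (D.A / 240) * (M / l ^ 2) * (1 / (D.H : ℝ) ^ 4) := by gcongr
    _ = 27 / 4 * D.A ^ 2 * (M / ((D.H : ℝ) ^ 4 * l ^ 2)) := by field_simp; ring
    _ ≤ _ := by gcongr; norm_num

/-- `sum_eq`, `w ≤ 240`, the shifts are at most `240 / H^30 ≤ 1/H ≤ l`, so `rho` changes by at most a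
factor `2` (`rho_add_le`); `lattice5`. -/
theorem sparse : ∃ C : ℝ, 0 < C ∧ ∀ D : LatD, Sparse C (1 / (D.H : ℝ)) D.R := by
  refine ⟨240 * 32 * 1000, by norm_num, fun D x l hl => ?_⟩
  have hH := D.H_pos
  have hl0 : 0 < l := lt_of_lt_of_le (by positivity) hl
  rw [D.sum_eq fun y => 1 / rho l (x - y) ^ 5]
  have h1 := lattice5 (h := 1 / (D.H : ℝ)) (by positivity) hl (D.H ^ 5) x
  have h2 : (S3 (D.H ^ 5) fun a b c => ∑ m ∈ range (D.w a b c),
      1 / rho l (x - (LP D.H a b c + ((m : ℝ) / (D.H : ℝ) ^ 30) • uv 0)) ^ 5) ≤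
      S3 (D.H ^ 5) fun a b c =>
        240 * 32 * (1 / rho l (lpt (1 / (D.H : ℝ)) (D.H ^ 5) a b c - x) ^ 5) := by
    refine S3_mono _ fun a b c _ _ _ => ?_
    have hw := D.w_le a b c
    have hp := rho_pos hl0 (lpt (1 / (D.H : ℝ)) (D.H ^ 5) a b c - x)
    calc _ ≤ ∑ m ∈ range (D.w a b c),
          32 * (1 / rho l (lpt (1 / (D.H : ℝ)) (D.H ^ 5) a b c - x) ^ 5) := by
          refine sum_le_sum fun m hm => ?_
          set v := ((m : ℝ) / (D.H : ℝ) ^ 30) • uv 0 with hv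
          have b1 : ‖v‖ ≤ l := by
            rw [hv, norm_smul, norm_uv, mul_one, Real.norm_of_nonneg (by positivity)]
            refine (mq_shift_le D (by have := mem_range.1 hm; omega)).trans (le_trans ?_ hl)
            simpa using mq_inv_pow_le D (i := 1) (j := 20) (by norm_num)
          have b2 := rho_add_le l (x - (LP D.H a b c + v)) v
          have b3 := le_rho l (x - (LP D.H a b c + v))
          have e : x - (LP D.H a b c + v) + v = x - lpt (1 / (D.H : ℝ)) (D.H ^ 5) a b c := by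
            rw [LP]; abel
          rw [e, rho_sub_rev] at b2
          have hp2 := rho_pos hl0 (x - (LP D.H a b c + v))
          rw [mul_one_div, div_le_div_iff₀ (by positivity) (by positivity), one_mul]
          calc _ ≤ (2 * rho l (x - (LP D.H a b c + v))) ^ 5 := by gcongr; linarith
            _ = _ := by ring
      _ ≤ _ := by
          rw [sum_const, card_range, nsmul_eq_mul, mul_assoc]
          gcongr
          exact_mod_cast hw
  rw [S3_mul] at h2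
  calc _ ≤ (1 / (D.H : ℝ)) ^ 3 * (240 * 32 * S3 (D.H ^ 5) fun a b c =>
        1 / rho l (lpt (1 / (D.H : ℝ)) (D.H ^ 5) a b c - x) ^ 5) := by gcongr
    _ = 240 * 32 * ((1 / (D.H : ℝ)) ^ 3 * S3 (D.H ^ 5) fun a b c =>
        1 / rho l (lpt (1 / (D.H : ℝ)) (D.H ^ 5) a b c - x) ^ 5) := by ring
    _ ≤ 240 * 32 * (1000 / l ^ 2) := by gcongr
    _ = _ := by ring

/-- `q ∑ f(R) = q S3 (w f) + O(shift)` (`Env.lip`), `w = 120 + y* + (y - y*) - d4 φ` with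
`y* = 20 lap Vc / κ`, `q y* = h³ lap Vc / (4p)`.  Use `qt1` with `sym_lap`, `suppIn_lap`
(`R = r₀ + 1`), `y_near` with `Env.abs_le`, `abs_S3_le_const`, and `noise` with `r = r₀ + 1`. -/
theorem mq_V : ∃ C : ℝ, 0 < C ∧ ∀ (D : LatD) (f : Pos3 → ℝ) (x₀ : Pos3) (l M B : ℝ),
    Env f x₀ l M → 1 / (D.H : ℝ) ≤ l → l ≤ 1 → (∀ y, (D.H : ℝ) ^ 4 ≤ ‖y‖ → |f y| ≤ B) →
    |D.TV f| ≤ C * D.A ^ 5 * (M / ((D.H : ℝ) ^ 4 * l ^ 2) + B / D.H) := by
  obtain ⟨C1, hC1, h1⟩ := qt1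
  obtain ⟨C2, hC2, h2⟩ := noise
  refine ⟨34 + 48 * C1 + C2, by positivity, fun D f x₀ l M B hf hl hl1 hB => ?_⟩
  have hH := D.H_pos
  have hA := D.A_ge
  have hA1 : 1 ≤ D.A := by linarith
  have hq := D.q_pos
  have hp := D.p_ge
  have hκ := D.κ_pos
  have hr := D.inp.r_bd
  have hl0 : 0 < l := lt_of_lt_of_le (by positivity) hl
  have hM := hf.nonneg hl0
  have hB0 : 0 ≤ B := by
    refine (abs_nonneg _).trans (hB (((D.H : ℝ) ^ 4) • uv 0) ?_)
    rw [norm_smul, norm_uv, mul_one, Real.norm_of_nonneg (by positivity)]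
  have a1 := mq_cluster D hf hl0
  have a2 := mq_fd D hf hl0 hl1
  have a3 := h1 (lap D.Vc) f (D.H ^ 5) (1 / D.H) (D.r₀ + 1) l _ M x₀
    (sym_lap D.inp.sb D.inp.supp hr.1) (suppIn_lap D.inp.supp (lt_add_one _)) hf
    (by rw [D.n_mul_h]; linarith [D.A_le_H4, hr.2]) (by positivity) hl hl1
  have a4 := h2 f D.φ (D.H ^ 5) (1 / D.H) l M B (D.r₀ + 1) x₀ hf (by positivity) hl
    (by linarith [mq_h_le_one D, hr.1]) D.φ_bd D.φ_init D.φ_out (by rw [D.n_mul_h]; exact hB)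
  set I := ∫ y, lap D.Vc y * f y
  set S0 := S3 (D.H ^ 5) fun a b c => f (LP D.H a b c) with hS0
  set S1 := S3 (D.H ^ 5) fun a b c => lap D.Vc (LP D.H a b c) * f (LP D.H a b c) with hS1
  set S2 := S3 (D.H ^ 5) fun a b c =>
    (D.y a b c - 20 * lap D.Vc (LP D.H a b c) / D.κ) * f (LP D.H a b c) with hS2
  set S4 := S3 (D.H ^ 5) fun a b c => d4 (fun a => D.φ a b c) a * f (LP D.H a b c) with hS4
  have e1 : (S3 (D.H ^ 5) fun a b c => D.w a b c * f (LP D.H a b c)) =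
      120 * S0 + 20 / D.κ * S1 + S2 - S4 := by
    rw [hS0, hS1, hS2, hS4, ← S3_mul, ← S3_mul, ← S3_add, ← S3_add, ← S3_sub]
    congr 1
    funext a b c
    rw [D.w_eq]
    ring
  rw [e1] at a1
  change |(1 / (D.H : ℝ)) ^ 3 * S1 - I| ≤ _ at a3
  change |S4| ≤ _ at a4
  have e2 : D.TV f = (D.q * ∑ α, f (D.R α) - D.q * (120 * S0 + 20 / D.κ * S1 + S2 - S4)) +
      1 / (4 * D.p) * ((1 / (D.H : ℝ)) ^ 3 * S1 - I) + D.q * S2 - D.q * S4 := by
    have e3 : D.q * (20 / D.κ) = 1 / (4 * D.p) * (1 / (D.H : ℝ)) ^ 3 := by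
      rw [D.q_eq]; field_simp; norm_num
    unfold LatD.TV Bk
    rw [← hS0]
    linear_combination S1 * e3
  set t := M / ((D.H : ℝ) ^ 4 * l ^ 2) with ht
  have ht0 : 0 ≤ t := by positivity
  have hBH : 0 ≤ B / D.H := by positivity
  set S := D.A ^ 5 * (t + B / D.H) with hSdef
  have u1 : D.A ^ 5 * t ≤ S := by rw [hSdef]; gcongr; linarith
  have hA5 : D.A ≤ D.A ^ 5 := le_self_pow₀ hA1 (by norm_num)
  have hA2 : D.A ^ 2 ≤ D.A ^ 5 := pow_le_pow_right₀ hA1 (by norm_num)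
  have hA3 : D.A ^ 3 ≤ D.A ^ 5 := pow_le_pow_right₀ hA1 (by norm_num)
  have r1 : 27 * D.A * t ≤ 27 * S := by
    calc _ ≤ 27 * D.A ^ 5 * t := by gcongr
      _ ≤ _ := by linarith
  have r2 : 7 * D.A ^ 2 * t ≤ 7 * S := by
    calc _ ≤ 7 * D.A ^ 5 * t := by gcongr
      _ ≤ _ := by linarith
  have hr0 : 0 ≤ D.r₀ := by linarith [hr.1]
  have b3 : |1 / (4 * D.p) * ((1 / (D.H : ℝ)) ^ 3 * S1 - I)| ≤ 48 * C1 * S := by
    rw [abs_mul, abs_of_nonneg (by positivity)]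
    have b4 : 1 / (4 * D.p) ≤ 1 := by rw [div_le_one (by positivity)]; linarith
    calc _ ≤ 1 * (C1 * (48 * D.A * D.A ^ 4) * M * (1 / (D.H : ℝ)) ^ 4 / l ^ 2) := by
          refine mul_le_mul b4 (a3.trans ?_) (abs_nonneg _) zero_le_one
          gcongr
          exact hr.2
      _ = 48 * C1 * (D.A ^ 5 * t) := by rw [ht]; field_simp
      _ ≤ _ := by gcongr
  have b4 : |D.q * S4| ≤ C2 * S := by
    rw [abs_mul, abs_of_pos hq]
    have h3 := mq_qH D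
    calc _ ≤ D.q * (C2 * (M * (1 / (D.H : ℝ)) / l ^ 2 + B * (2 * D.A) ^ 2 / (1 / (D.H : ℝ)) ^ 2)) := by
          gcongr
          refine a4.trans ?_
          gcongr
          linarith [hr.2]
      _ = C2 * (D.q * (D.H : ℝ) ^ 3 * t + 4 * D.A ^ 2 * (D.q * (D.H : ℝ) ^ 3) * (B / D.H)) := by
          rw [ht]; field_simp; ring
      _ ≤ C2 * (D.A ^ 5 * t + D.A ^ 5 * (B / D.H)) := by
          gcongr
          · linarith
          · calc _ ≤ 4 * D.A ^ 2 * (D.A / 240) := by gcongr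
              _ ≤ _ := by nlinarith [pow_pos (show 0 < D.A by linarith) 3]
      _ = _ := by rw [hSdef]; ring
  rw [e2, mul_assoc _ (D.A ^ 5), ← hSdef]
  rw [abs_le] at a1 a2 b3 b4 ⊢
  constructor <;> linarith [a1.1, a1.2, a2.1, a2.2, b3.1, b3.2, b4.1, b4.2]

/-- `Bk - Far = 120 q S3 (Zf f) = κ h³/(4p) S3 (lap Psi · f)` (`lap_Psi`); `qt1`, `cut_bounds`. -/
theorem mq_Z : ∃ C : ℝ, 0 < C ∧ ∀ (D : LatD) (f : Pos3 → ℝ) (x₀ : Pos3) (l M : ℝ),
    Env f x₀ l M → 1 / (D.H : ℝ) ≤ l → l ≤ 1 →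
    |D.TZ f| ≤ C * D.A * (M / ((D.H : ℝ) ^ 4 * l ^ 2)) := by
  obtain ⟨C1, hC1, h1⟩ := qt1
  obtain ⟨Z, hZ, -, hZ2⟩ := cut_bounds
  refine ⟨C1 * Z, by positivity, fun D f x₀ l M hf hl hl1 => ?_⟩
  have hH := D.H_pos
  have hA := D.A_ge
  have hp := D.p_ge
  have hκ := D.κ_pos
  have hκA := D.inp.κ_bd.2
  have hl0 : 0 < l := lt_of_lt_of_le (by positivity) hl
  have hM := hf.nonneg hl0
  have h4 := mq_H4 D
  have a3 := h1 (lap (Psi ((D.H : ℝ) ^ 4))) f (D.H ^ 5) (1 / D.H) (3 * (D.H : ℝ) ^ 4 / 4) l Z M x₀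
    (hZ2 _ h4) (suppIn_lap_Psi (by positivity)) hf (by rw [D.n_mul_h]; linarith) (by positivity)
    hl hl1
  set I := ∫ y, lap (Psi ((D.H : ℝ) ^ 4)) y * f y
  set S1 := S3 (D.H ^ 5) fun a b c =>
    lap (Psi ((D.H : ℝ) ^ 4)) (LP D.H a b c) * f (LP D.H a b c) with hS1
  change |(1 / (D.H : ℝ)) ^ 3 * S1 - I| ≤ _ at a3
  have e1 : Bk D.q D.H f - Far D.q D.H f = 20 * D.q * S1 := by
    rw [Bk, Far, ← mul_sub, ← S3_sub, hS1, show 120 * D.q = 20 * D.q * 6 by ring, mul_assoc _ 6,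
      ← S3_mul]
    congr 2
    funext a b c
    rw [lap_Psi (by positivity)]
    ring
  have e2 : D.TZ f = D.κ / (4 * D.p) * ((1 / (D.H : ℝ)) ^ 3 * S1 - I) := by
    have e3 : 20 * D.q = D.κ / (4 * D.p) * (1 / (D.H : ℝ)) ^ 3 := by
      rw [D.q_eq]; field_simp; norm_num
    unfold LatD.TZ
    rw [e1, e3]
    ring
  rw [e2, abs_mul, abs_of_nonneg (by positivity)]
  have b4 : D.κ / (4 * D.p) ≤ D.A := by
    rw [div_le_iff₀ (by positivity)]; nlinarith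
  calc _ ≤ D.A * (C1 * Z * M * (1 / (D.H : ℝ)) ^ 4 / l ^ 2) :=
        mul_le_mul b4 a3 (abs_nonneg _) (by positivity)
    _ = _ := by field_simp

lemma continuous_dens (D : LatD) : Continuous D.dens := by
  exact (continuous_const.mul (continuous_lap (D.inp.sb.1.of_le (by norm_num)))).add
    (continuous_const.mul (continuous_lap (contDiff_Psi _ (k := 2))))

lemma cs_dens (D : LatD) : HasCompactSupport D.dens := by
  have hH := D.H_pos
  exact (cs_lap (suppIn_cs D.inp.supp)).mul_left.add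
    (cs_lap (suppIn_cs (suppIn_Psi (R := (D.H : ℝ) ^ 4) (by positivity)))).mul_left

lemma TT_eq (D : LatD) {f : Pos3 → ℝ} (h1 : Integrable fun y => lap D.Vc y * f y)
    (h2 : Integrable fun y => lap (Psi ((D.H : ℝ) ^ 4)) y * f y) : D.TT f = D.TV f + D.TZ f := by
  unfold LatD.TT LatD.TV LatD.TZ LatD.dens
  simp only [add_mul, mul_assoc]
  rw [integral_add (h1.const_mul _) (h2.const_mul _), integral_const_mul, integral_const_mul]
  ring

/-- translates of a test function: `env_shift`, and `B = 2 G ‖u‖ / H^4` (if `g (y + u) ≠ 0` and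
`‖y‖ ≥ H^4` then `‖u‖ ≥ H^4 / 2`) -/
theorem mq_shift : ∃ C : ℝ, 0 < C ∧ ∀ (D : LatD) (g : Pos3 → ℝ) (G : ℝ) (u : Pos3),
    SB 4 G g → SuppIn D.r₀ g →
    |D.TT fun y => g (y + u)| ≤ C * D.A ^ 10 * G / (D.H : ℝ) ^ 4 * (1 + ‖u‖) := by
  obtain ⟨C1, hC1, h1⟩ := mq_V
  obtain ⟨C2, hC2, h2⟩ := mq_Z
  refine ⟨32 * C1 + 32 * C2, by positivity, fun D g G u hg hs => ?_⟩
  have hH := D.H_pos
  have hH8 := D.H_ge
  have hA := D.A_ge
  have hA1 : 1 ≤ D.A := by linarith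
  have hr := D.inp.r_bd
  have hG : 0 ≤ G := (abs_nonneg _).trans (hg.oi_abs_le 0)
  have hE := env_shift hg hs hr.1 u
  have hc : Continuous fun y => g (y + u) := hE.1.continuous
  have i1 : Integrable fun y => lap D.Vc y * g (y + u) :=
    oi_int (oi_cc_mul ⟨continuous_lap (D.inp.sb.1.of_le (by norm_num)),
      cs_lap (suppIn_cs D.inp.supp)⟩ hc)
  have i2 : Integrable fun y => lap (Psi ((D.H : ℝ) ^ 4)) y * g (y + u) :=
    oi_int (oi_cc_mul ⟨continuous_lap (contDiff_Psi _ (k := 2)),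
      cs_lap (suppIn_cs (suppIn_Psi (R := (D.H : ℝ) ^ 4) (by positivity)))⟩ hc)
  have a1 := h1 D _ (-u) 1 _ (2 * G * ‖u‖ / (D.H : ℝ) ^ 4) hE (mq_h_le_one D) le_rfl
    (fun y hy => by
      by_cases h0 : D.r₀ ≤ ‖y + u‖
      · rw [hs _ h0, abs_zero]; positivity
      · refine (hg.oi_abs_le _).trans ?_
        have b1 : ‖y‖ ≤ ‖y + u‖ + ‖u‖ := by
          have := norm_sub_le (y + u) u
          rwa [add_sub_cancel_right] at this
        have b2 := D.A_le_H4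
        rw [le_div_iff₀ (by positivity), mul_assoc, mul_left_comm]
        gcongr
        linarith [not_le.1 h0, hr.2])
  have a2 := h2 D _ (-u) 1 _ hE (mq_h_le_one D) le_rfl
  rw [TT_eq D i1 i2]
  have hr0 : 0 ≤ D.r₀ := by linarith [hr.1]
  have hr5 : D.r₀ ^ 5 ≤ D.A ^ 5 := by gcongr; exact hr.2
  have hA5 : D.A ≤ D.A ^ 5 := le_self_pow₀ hA1 (by norm_num)
  have hA51 : 1 ≤ D.A ^ 5 := one_le_pow₀ hA1
  have hu := norm_nonneg u
  have r1 : 32 * G * D.r₀ ^ 5 / ((D.H : ℝ) ^ 4 * 1 ^ 2) ≤ 32 * G * D.A ^ 5 / (D.H : ℝ) ^ 4 := by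
    rw [one_pow, mul_one]; gcongr
  have r2 : 2 * G * ‖u‖ / (D.H : ℝ) ^ 4 / D.H ≤ 32 * G * D.A ^ 5 / (D.H : ℝ) ^ 4 * ‖u‖ := by
    calc _ ≤ 2 * G * ‖u‖ / (D.H : ℝ) ^ 4 := div_le_self (by positivity) (by linarith)
      _ = 2 * G * 1 / (D.H : ℝ) ^ 4 * ‖u‖ := by ring
      _ ≤ _ := by gcongr; norm_num
  calc _ ≤ C1 * D.A ^ 5 * (32 * G * D.A ^ 5 / (D.H : ℝ) ^ 4 +
        32 * G * D.A ^ 5 / (D.H : ℝ) ^ 4 * ‖u‖) +
        C2 * D.A ^ 5 * (32 * G * D.A ^ 5 / (D.H : ℝ) ^ 4 * (1 + ‖u‖)) := by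
        refine (abs_add_le _ _).trans (add_le_add (a1.trans ?_) (a2.trans ?_))
        · gcongr
        · gcongr
          exact r1.trans (le_mul_of_one_le_right (by positivity) (by linarith))
    _ = _ := by ring

end Crest.Agent.R338.Disc
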