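import Crest.Agent.R338.DKer

/-! Row 338, module D: the background potential decreases outwards. -/

set_option autoImplicit false

open MeasureTheory Crest.MathPhysics.ElectronicCoulomb Finset

namespace Crest.Agent.R338.Disc

/-- One dimensional step: telescoping, `cr h n (a+1) = cr h n a + h`; the term `a = 0` at `t + h` is
compared with the term `a = 2n` at `t`. -/
lemma mono_step {ψ : ℝ → ℝ} (hψ : ∀ s s', |s| ≤ |s'| → ψ s' ≤ ψ s) {h : ℝ} (hh : 0 < h) (n : ℕ)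
    {t : ℝ} (ht : 0 ≤ t) :
    ∑ a ∈ range (2 * n + 1), ψ (t + h - cr h n a) ≤ ∑ a ∈ range (2 * n + 1), ψ (t - cr h n a) := by
  rw [sum_range_succ', sum_range_succ]
  refine add_le_add (le_of_eq (sum_congr rfl fun a _ => ?_)) (hψ _ _ ?_)
  · congr 1
    simp only [cr]; push_cast; ring
  · have h1 : 0 ≤ h * n := by positivity
    simp only [cr]; push_cast
    rw [abs_of_nonneg (by nlinarith : 0 ≤ t + h - h * (0 - (n : ℝ))), abs_le]
    constructor <;> nlinarith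

lemma dmono_iter {ψ : ℝ → ℝ} (hψ : ∀ s s', |s| ≤ |s'| → ψ s' ≤ ψ s) {h : ℝ} (hh : 0 < h) (n : ℕ)
    {t : ℝ} (ht : 0 ≤ t) (k : ℕ) :
    ∑ a ∈ range (2 * n + 1), ψ (t + k * h - cr h n a) ≤ ∑ a ∈ range (2 * n + 1), ψ (t - cr h n a) := by
  induction k with
  | zero => simp
  | succ k ih =>
    refine le_trans ?_ ih
    have := mono_step hψ hh n (t := t + k * h) (by positivity)
    rwa [show t + k * h + h = t + ((k + 1 : ℕ) : ℝ) * h by push_cast; ring] at this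

lemma dmono_neg {ψ : ℝ → ℝ} (hψ : ∀ s s', |s| ≤ |s'| → ψ s' ≤ ψ s) (h : ℝ) (n : ℕ) (t : ℝ) :
    ∑ a ∈ range (2 * n + 1), ψ (-t - cr h n a) = ∑ a ∈ range (2 * n + 1), ψ (t - cr h n a) := by
  rw [← sum_range_reflect]
  refine sum_congr rfl fun a ha => ?_
  have ha' : a ≤ 2 * n := by have := mem_range.1 ha; omega
  have e : -t - cr h n (2 * n + 1 - 1 - a) = -(t - cr h n a) := by
    simp only [cr, Nat.add_sub_cancel]
    rw [Nat.cast_sub ha']; push_cast; ring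
  rw [e]
  exact le_antisymm (hψ _ _ (abs_neg _).ge) (hψ _ _ (abs_neg _).le)

lemma dmono_pos {h r : ℝ} (hh : 0 < h) (hr : 0 ≤ r) (n : ℕ) {t : ℝ} (ht : 0 ≤ t) :
    ∃ t' : ℝ, |t'| ≤ r + h ∧ (t' = t ∨ r ≤ |t'|) ∧
      ∀ ψ : ℝ → ℝ, (∀ s s', |s| ≤ |s'| → ψ s' ≤ ψ s) →
        ∑ a ∈ range (2 * n + 1), ψ (t - cr h n a) ≤ ∑ a ∈ range (2 * n + 1), ψ (t' - cr h n a) := by
  rcases le_total t r with h1 | h1
  · exact ⟨t, by rw [abs_of_nonneg ht]; linarith, Or.inl rfl, fun _ _ => le_rfl⟩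
  have h0 : 0 ≤ (t - r) / h := div_nonneg (by linarith) hh.le
  have h2 := (le_div_iff₀ hh).1 (Nat.floor_le h0)
  have h3 := (div_lt_iff₀ hh).1 (Nat.lt_floor_add_one ((t - r) / h))
  set k := ⌊(t - r) / h⌋₊
  have h4 : 0 ≤ t - k * h := by linarith
  refine ⟨t - k * h, by rw [abs_of_nonneg h4]; linarith,
    Or.inr (by rw [abs_of_nonneg h4]; linarith), fun ψ hψ => ?_⟩
  have := dmono_iter hψ hh n h4 k
  rwa [sub_add_cancel] at this

/-- iterate `mono_step` (and reflect for negative `t`): there is `t'`, depending only on `t`, `h`, `r` -/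
lemma mono_line {h r : ℝ} (hh : 0 < h) (hr : 0 ≤ r) (n : ℕ) (t : ℝ) :
    ∃ t' : ℝ, |t'| ≤ r + h ∧ (t' = t ∨ r ≤ |t'|) ∧
      ∀ ψ : ℝ → ℝ, (∀ s s', |s| ≤ |s'| → ψ s' ≤ ψ s) →
        ∑ a ∈ range (2 * n + 1), ψ (t - cr h n a) ≤ ∑ a ∈ range (2 * n + 1), ψ (t' - cr h n a) := by
  rcases le_total 0 t with ht | ht
  · exact dmono_pos hh hr n ht
  obtain ⟨t', h1, h2, h3⟩ := dmono_pos hh hr n (neg_nonneg.2 ht)
  refine ⟨-t', by rwa [abs_neg], h2.imp (fun e => by rw [e, neg_neg]) (fun e => by rwa [abs_neg]),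
    fun ψ hψ => ?_⟩
  rw [dmono_neg hψ, ← dmono_neg hψ h n t]
  exact h3 ψ hψ

/-- `mono_line` in the three coordinates (`K2_anti`, `Finset.sum_comm`) -/
theorem mono_bk {h r l : ℝ} (hh : 0 < h) (hr : h ≤ r) (hl : 0 < l) (n : ℕ) {x : Pos3}
    (hx : r ≤ ‖x‖) : ∃ x' : Pos3, r ≤ ‖x'‖ ∧ ‖x'‖ ≤ 4 * r ∧
      (S3 n fun a b c => K2 l (x - lpt h n a b c)) ≤ S3 n fun a b c => K2 l (x' - lpt h n a b c) := by
  have hr0 : 0 ≤ r := hh.le.trans hr
  obtain ⟨u, u1, u2, u3⟩ := mono_line hh hr0 n (x 0)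
  obtain ⟨v, v1, v2, v3⟩ := mono_line hh hr0 n (x 1)
  obtain ⟨w, w1, w2, w3⟩ := mono_line hh hr0 n (x 2)
  have key : ∀ a b c a' b' c' : ℝ, |a| ≤ |a'| → |b| ≤ |b'| → |c| ≤ |c'| →
      K2 l (mk3 a' b' c') ≤ K2 l (mk3 a b c) := fun a b c a' b' c' h1 h2 h3 => by
    refine K2_anti hl (abs_le_of_sq_le_sq' ?_ (norm_nonneg _)).2
    rw [norm_sq_mk3, norm_sq_mk3]
    linarith [sq_le_sq.2 h1, sq_le_sq.2 h2, sq_le_sq.2 h3]
  refine ⟨mk3 u v w, ?_, ?_, ?_⟩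
  · rcases u2 with u2 | u2
    · rcases v2 with v2 | v2
      · rcases w2 with w2 | w2
        · rwa [u2, v2, w2, mk3_eta]
        · exact w2.trans (abs_coord_le (mk3 u v w) 2)
      · exact v2.trans (abs_coord_le (mk3 u v w) 1)
    · exact u2.trans (abs_coord_le (mk3 u v w) 0)
  · refine abs_le_of_sq_le_sq' ?_ (by positivity) |>.2
    rw [norm_sq_mk3, ← sq_abs u, ← sq_abs v, ← sq_abs w]
    have a1 : |u| ^ 2 ≤ (2 * r) ^ 2 := pow_le_pow_left₀ (abs_nonneg _) (by linarith) 2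
    have a2 : |v| ^ 2 ≤ (2 * r) ^ 2 := pow_le_pow_left₀ (abs_nonneg _) (by linarith) 2
    have a3 : |w| ^ 2 ≤ (2 * r) ^ 2 := pow_le_pow_left₀ (abs_nonneg _) (by linarith) 2
    nlinarith [sq_nonneg r]
  · conv_lhs => rw [← mk3_eta x]
    simp only [S3, lpt, mk3_sub]
    refine (u3 (fun s => ∑ b ∈ range (2 * n + 1), ∑ c ∈ range (2 * n + 1),
      K2 l (mk3 s (x 1 - cr h n b) (x 2 - cr h n c))) fun s s' hs =>
      sum_le_sum fun b _ => sum_le_sum fun c _ => key _ _ _ _ _ _ hs le_rfl le_rfl).trans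
      (sum_le_sum fun a _ => ?_)
    refine (v3 (fun s => ∑ c ∈ range (2 * n + 1),
      K2 l (mk3 (u - cr h n a) s (x 2 - cr h n c))) fun s s' hs =>
      sum_le_sum fun c _ => key _ _ _ _ _ _ le_rfl hs le_rfl).trans (sum_le_sum fun b _ => ?_)
    exact w3 (fun s => K2 l (mk3 (u - cr h n a) (v - cr h n b) s)) fun s s' hs =>
      key _ _ _ _ _ _ le_rfl le_rfl hs

end Crest.Agent.R338.Disc
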