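import Crest.Agent.R338.DInt

/-! Row 338, module D: the singular part in `L²`, and a Fubini lemma. -/

set_option autoImplicit false

open MeasureTheory Crest.MathPhysics.ElectronicCoulomb Finset

namespace Crest.Agent.R338.Disc

lemma DNear_count {Cs h : ℝ} {K : ℕ} {R : Fin K → Pos3} (hS : Sparse Cs h R) (hh : 0 < h) (x : Pos3)
    {l s : ℝ} (hl : h ≤ l) (hs : 0 ≤ s) :
    ∑ α, (if ‖x - R α‖ < s then (1 : ℝ) else 0) ≤ (s + l) ^ 5 * (Cs / l ^ 2 / h ^ 3) := by
  have hl0 : 0 < l := hh.trans_le hl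
  have h1 : ∑ α, 1 / rho l (x - R α) ^ 5 ≤ Cs / l ^ 2 / h ^ 3 := by
    rw [le_div_iff₀ (by positivity), mul_comm]
    exact hS x l hl
  refine le_trans ?_ (mul_le_mul_of_nonneg_left h1 (by positivity))
  rw [mul_sum]
  refine sum_le_sum fun α _ => ?_
  have h2 := rho_pos hl0 (x - R α)
  split_ifs with hα
  · rw [mul_one_div, one_le_div (by positivity)]
    exact pow_le_pow_left₀ h2.le ((rho_le hl0.le _).trans (by linarith)) 5
  · positivity

/-- At most `6 Cs` nuclei are within distance `h` of a point (`Sparse` with `l = h`), so by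
Cauchy–Schwarz `Near² ≤ 6 Cs ∑ 1[‖x - R‖ < h] / ‖x - R‖²`; for `‖x‖ < r` only nuclei with `‖R‖ < 2r`
contribute, and there are at most `56 r⁵ Cs / h³` of them (`Sparse` with `x = 0`, `l = 1`);
`integral_ball_inv_sq`. -/
theorem near_sq : ∃ C : ℝ, 0 < C ∧ ∀ (Cs h r : ℝ) (K : ℕ) (R : Fin K → Pos3),
    Sparse Cs h R → 0 < h → h ≤ 1 → 1 ≤ r →
    IntegrableOn (fun x => Near h R x ^ 2) (Metric.ball 0 r) ∧
      ∫ x in Metric.ball (0 : Pos3) r, Near h R x ^ 2 ≤ C * Cs ^ 2 * r ^ 5 / h ^ 2 := by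
  refine ⟨32 * 13 * 243, by norm_num, fun Cs h r K R hS hh hh1 hr => ?_⟩
  have hCs : 0 ≤ Cs := by
    have h1 := hS 0 1 hh1
    have h2 : 0 ≤ h ^ 3 * ∑ α, 1 / rho 1 (0 - R α) ^ 5 :=
      mul_nonneg (by positivity) (sum_nonneg fun α _ => by have := rho_nonneg 1 (0 - R α); positivity)
    simpa using h2.trans h1
  set G : Pos3 → ℝ := fun x => 32 * Cs * ∑ α, (if ‖0 - R α‖ < 2 * r then (1 : ℝ) else 0) *
    (if ‖x - R α‖ < h then 1 / ‖x - R α‖ ^ 2 else 0) with hG
  have hGi : Integrable G :=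
    (integrable_finsetSum _ fun α _ => (integrable_ball_inv_sq (R α) h).const_mul _).const_mul _
  have hG0 : ∀ x, 0 ≤ G x := fun x => mul_nonneg (by positivity) (sum_nonneg fun α _ => by
    split_ifs <;> positivity)
  have hle : ∀ x ∈ Metric.ball (0 : Pos3) r, Near h R x ^ 2 ≤ G x := by
    intro x hx
    have hx' : ‖x‖ < r := by simpa using hx
    have h1 := sum_mul_sq_le_sq_mul_sq univ (fun α => if ‖x - R α‖ < h then (1 : ℝ) else 0)
      (fun α => if ‖x - R α‖ < h then 1 / ‖x - R α‖ else 0)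
    have h2 : Near h R x = ∑ α, (if ‖x - R α‖ < h then (1 : ℝ) else 0) *
        (if ‖x - R α‖ < h then 1 / ‖x - R α‖ else 0) :=
      sum_congr rfl fun α _ => by split_ifs <;> simp
    have h3 : ∑ α, (if ‖x - R α‖ < h then (1 : ℝ) else 0) ^ 2 ≤ 32 * Cs := by
      refine le_trans (le_of_eq (sum_congr rfl fun α _ => by split_ifs <;> simp))
        ((DNear_count hS hh x le_rfl hh.le).trans (le_of_eq ?_))
      field_simp
      ring
    have h4 : ∑ α, (if ‖x - R α‖ < h then 1 / ‖x - R α‖ else 0) ^ 2 =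
        ∑ α, (if ‖0 - R α‖ < 2 * r then (1 : ℝ) else 0) *
          (if ‖x - R α‖ < h then 1 / ‖x - R α‖ ^ 2 else 0) := by
      refine sum_congr rfl fun α _ => ?_
      by_cases hα : ‖x - R α‖ < h
      · have : ‖0 - R α‖ < 2 * r := by
          have e : 0 - R α = x - R α - x := by abel
          rw [e]
          linarith [norm_sub_le (x - R α) x]
        rw [if_pos hα, if_pos hα, if_pos this, one_mul, div_pow, one_pow]
      · simp [hα]
    rw [h2]
    refine h1.trans ?_
    simp only [hG, ← h4]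
    exact mul_le_mul_of_nonneg_right h3 (sum_nonneg fun α _ => sq_nonneg _)
  have hm : Measurable fun x => Near h R x ^ 2 := by
    refine (Finset.measurable_sum _ fun α _ => ?_).pow_const 2
    exact Measurable.ite (measurableSet_lt (by fun_prop) measurable_const) (by fun_prop)
      measurable_const
  have hi : IntegrableOn (fun x => Near h R x ^ 2) (Metric.ball 0 r) :=
    hGi.integrableOn.mono' hm.aestronglyMeasurable
      (ae_restrict_of_forall_mem measurableSet_ball fun x hx => by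
        rw [Real.norm_of_nonneg (sq_nonneg _)]; exact hle x hx)
  refine ⟨hi, (setIntegral_mono_on hi hGi.integrableOn measurableSet_ball hle).trans
    ((setIntegral_le_integral hGi (Filter.Eventually.of_forall hG0)).trans ?_)⟩
  simp only [hG]
  rw [integral_const_mul, integral_finsetSum _ fun α _ => (integrable_ball_inv_sq (R α) h).const_mul _]
  have h5 : ∑ α, ∫ x : Pos3, (if ‖0 - R α‖ < 2 * r then (1 : ℝ) else 0) *
      (if ‖x - R α‖ < h then 1 / ‖x - R α‖ ^ 2 else 0) ≤
      (∑ α, if ‖0 - R α‖ < 2 * r then (1 : ℝ) else 0) * (13 * h) := by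
    rw [sum_mul]
    refine sum_le_sum fun α _ => ?_
    rw [integral_const_mul]
    exact mul_le_mul_of_nonneg_left (integral_ball_inv_sq _ hh.le) (by split_ifs <;> norm_num)
  have h6 := DNear_count hS hh 0 hh1 (s := 2 * r) (by linarith)
  have h7 : (2 * r + 1) ^ 5 ≤ (3 * r) ^ 5 := pow_le_pow_left₀ (by linarith) (by linarith) 5
  calc _ ≤ 32 * Cs * ((3 * r) ^ 5 * (Cs / 1 ^ 2 / h ^ 3) * (13 * h)) := by
        refine mul_le_mul_of_nonneg_left (h5.trans (mul_le_mul_of_nonneg_right (h6.trans ?_)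
          (by positivity))) (by positivity)
        exact mul_le_mul_of_nonneg_right h7 (by positivity)
    _ = _ := by field_simp; ring

/-- `∫ g(x) N(x - P) dx = ∫ N(u) g(P + u) du` and, by Fubini,
`∫ g(x) ∫ a(y) N(x - y) dy dx = ∫ N(u) ∫ a(y) g(y + u) dy du`; `C = ∫ |Nk 1 u| (1 + ‖u‖)`
(`integrable_Nk_mul`). -/
theorem fub : ∃ C : ℝ, 0 < C ∧ ∀ {ι ι' : Type} (s : Finset ι) (s' : Finset ι') (c : ι → ℝ)
    (c' : ι' → ℝ) (P : ι → Pos3) (P' : ι' → Pos3) (a g : Pos3 → ℝ) (ε : ℝ),
    Continuous a → HasCompactSupport a → Continuous g → HasCompactSupport g →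
    (∀ u, |∑ i ∈ s, c i * g (P i + u) - ∑ i ∈ s', c' i * g (P' i + u) - ∫ y, a y * g (y + u)| ≤
      ε * (1 + ‖u‖)) →
    Integrable (fun x => (∑ i ∈ s, c i * Nk 1 (x - P i) - ∑ i ∈ s', c' i * Nk 1 (x - P' i) -
      ∫ y, a y * Nk 1 (x - y)) * g x) ∧
    |∫ x, (∑ i ∈ s, c i * Nk 1 (x - P i) - ∑ i ∈ s', c' i * Nk 1 (x - P' i) -
      ∫ y, a y * Nk 1 (x - y)) * g x| ≤ C * ε := by
  have hC : 0 ≤ ∫ u : Pos3, |Nk 1 u| * (1 + ‖u‖) := integral_nonneg fun u => by positivity
  refine ⟨(∫ u : Pos3, |Nk 1 u| * (1 + ‖u‖)) + 1, by linarith, ?_⟩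
  intro ι ι' s s' c c' P P' a g ε ha ha' hg hg' hb
  have hN := integrable_Nk one_pos
  have hai : Integrable a := ha.integrable_of_hasCompactSupport ha'
  obtain ⟨B, hB⟩ := hg.bounded_above_of_compact_support hg'
  have hε : 0 ≤ ε := by simpa using (abs_nonneg _).trans (hb 0)
  have t1 : ∀ p : Pos3, Integrable fun x => Nk 1 (x - p) * g x := fun p =>
    (hN.comp_sub_right p).mul_bdd hg.aestronglyMeasurable (Filter.Eventually.of_forall hB)
  have t2 : ∀ p : Pos3, Integrable fun u => Nk 1 u * g (p + u) := fun p =>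
    hN.mul_bdd (hg.comp (continuous_const.add continuous_id)).aestronglyMeasurable
      (Filter.Eventually.of_forall fun u => hB _)
  have t3 : ∀ p : Pos3, ∫ x, Nk 1 (x - p) * g x = ∫ u, Nk 1 u * g (p + u) := by
    intro p
    rw [← integral_add_left_eq_self (fun x => Nk 1 (x - p) * g x) p]
    simp only [add_sub_cancel_left]
  have f1 : Integrable (fun p : Pos3 × Pos3 => a p.2 * Nk 1 (p.1 - p.2) * g p.1) (volume.prod volume) :=
    (hai.convolution_integrand (ContinuousLinearMap.mul ℝ ℝ) hN).mul_bdd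
      (hg.comp continuous_fst).aestronglyMeasurable (Filter.Eventually.of_forall fun p => hB _)
  have f2 : Integrable (fun p : Pos3 × Pos3 => a p.1 * Nk 1 p.2 * g (p.1 + p.2)) (volume.prod volume) :=
    (hai.mul_prod hN).mul_bdd (hg.comp (continuous_fst.add continuous_snd)).aestronglyMeasurable
      (Filter.Eventually.of_forall fun p => hB _)
  have e1 : ∀ x, (∫ y, a y * Nk 1 (x - y)) * g x = ∫ y, a y * Nk 1 (x - y) * g x := fun x =>
    (integral_mul_const _ _).symm
  have e2 : ∀ u, Nk 1 u * ∫ y, a y * g (y + u) = ∫ y, a y * Nk 1 u * g (y + u) := fun u => by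
    rw [← integral_const_mul]
    exact integral_congr_ae (Filter.Eventually.of_forall fun y => by simp only; ring)
  have i1 : Integrable fun x => (∫ y, a y * Nk 1 (x - y)) * g x := by
    simp only [e1]
    exact f1.integral_prod_left
  have i2 : Integrable fun u => Nk 1 u * ∫ y, a y * g (y + u) := by
    simp only [e2]
    exact f2.integral_prod_right
  have e3 : ∫ x, (∫ y, a y * Nk 1 (x - y)) * g x = ∫ u, Nk 1 u * ∫ y, a y * g (y + u) := by
    simp only [e1, e2]
    rw [integral_integral_swap (f := fun x y => a y * Nk 1 (x - y) * g x) f1,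
      ← integral_integral_swap (f := fun y u => a y * Nk 1 u * g (y + u)) f2]
    refine integral_congr_ae (Filter.Eventually.of_forall fun y => ?_)
    simp only [mul_assoc, integral_const_mul, t3]
  have s1 : ∀ {κ : Type} (t : Finset κ) (d : κ → ℝ) (Q : κ → Pos3),
      (Integrable fun x => (∑ i ∈ t, d i * Nk 1 (x - Q i)) * g x) ∧
      (Integrable fun u => Nk 1 u * ∑ i ∈ t, d i * g (Q i + u)) ∧
      ∫ x, (∑ i ∈ t, d i * Nk 1 (x - Q i)) * g x = ∫ u, Nk 1 u * ∑ i ∈ t, d i * g (Q i + u) := by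
    intro κ t d Q
    simp only [sum_mul, mul_sum, mul_assoc, mul_left_comm (Nk 1 _) (d _)]
    refine ⟨integrable_finsetSum _ fun i _ => (t1 _).const_mul _,
      integrable_finsetSum _ fun i _ => (t2 _).const_mul _, ?_⟩
    rw [integral_finsetSum _ fun i _ => (t1 _).const_mul _,
      integral_finsetSum _ fun i _ => (t2 _).const_mul _]
    simp only [integral_const_mul, t3]
  obtain ⟨a1, a2, a3⟩ := s1 s c P
  obtain ⟨b1, b2, b3⟩ := s1 s' c' P'
  simp only [sub_mul]
  refine ⟨(a1.sub b1).sub i1, ?_⟩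
  rw [integral_sub (a1.sub' b1) i1, integral_sub a1 b1, a3, b3, e3, ← integral_sub a2 b2,
    ← integral_sub (a2.sub' b2) i2, ← Real.norm_eq_abs]
  refine (norm_integral_le_of_norm_le (integrable_Nk_mul.mul_const ε)
    (Filter.Eventually.of_forall fun u => ?_)).trans ?_
  · rw [← mul_sub, ← mul_sub, Real.norm_eq_abs, abs_mul, mul_assoc, mul_comm _ ε]
    exact mul_le_mul_of_nonneg_left (hb u) (abs_nonneg _)
  · rw [integral_mul_const]
    exact mul_le_mul_of_nonneg_right (by linarith) hε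

end Crest.Agent.R338.Disc
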