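import Crest.Agent.R338.DPt
import Crest.Agent.R338.DHardy
import Crest.Agent.R338.DNear

/-! Row 338, module D: the three estimates. -/

set_option autoImplicit false

open MeasureTheory Crest.MathPhysics.ElectronicCoulomb Finset Crest.Agent.Lib.PT

namespace Crest.Agent.R338.Disc

/-- `pt_1`, `hardy_near`, `sparse` (if the integrand is not integrable the integral is `0`) -/
theorem out1 : ∃ C : ℝ, 0 < C ∧ ∀ (D : LatD) (u : Pos3 → ℝ), ContDiff ℝ 1 u →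
    HasCompactSupport u →
    ∫ x, D.U1 x * u x ^ 2 ≤ C * D.A ^ 5 / √(D.H : ℝ) * (dir u + ∫ x, u x ^ 2) := by
  obtain ⟨C1, hC1, h1⟩ := pt_1
  obtain ⟨C2, hC2, h2⟩ := hardy_near
  obtain ⟨C3, hC3, h3⟩ := sparse
  refine ⟨C1 + C2 * C3, by positivity, fun D u hu hc => ?_⟩
  have hH := D.H_pos
  have hH8 := D.H_ge
  have hA := D.A_ge
  have hA1 : 1 ≤ D.A := by linarith
  have hq := D.q_pos
  set s := √(D.H : ℝ) with hs
  have hs1 : 1 ≤ s := Real.one_le_sqrt.2 (by linarith)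
  have hs2 : s ^ 2 = D.H := Real.sq_sqrt hH.le
  have hsH : s ≤ D.H := by nlinarith
  have hl : 1 / (D.H : ℝ) ≤ 1 / s := by gcongr
  have hl1 : 1 / s ≤ 1 := by rw [div_le_one (by linarith)]; exact hs1
  have hd : 0 ≤ dir u := sum_nonneg fun k _ => integral_nonneg fun x => sq_nonneg _
  have hu2 : 0 ≤ ∫ x, u x ^ 2 := integral_nonneg fun x => sq_nonneg _
  by_cases hI : Integrable fun x => D.U1 x * u x ^ 2
  swap
  · rw [integral_undef hI]; positivity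
  have i1 : Integrable fun x => u x ^ 2 := oi_int (oi_cc_sq ⟨hu.continuous, hc⟩)
  have i2 := integrable_near (1 / s) D.R hu.continuous hc
  have a1 : ∫ x, D.U1 x * u x ^ 2 ≤
      ∫ x, (C1 * D.A ^ 5 / s * u x ^ 2 + D.q * (Near (1 / s) D.R x * u x ^ 2)) := by
    refine integral_mono hI ((i1.const_mul _).add (i2.const_mul _)) fun x => ?_
    have := mul_le_mul_of_nonneg_right (h1 D x) (sq_nonneg (u x))
    simp only
    linarith
  rw [integral_add (i1.const_mul _) (i2.const_mul _), integral_const_mul, integral_const_mul] at a1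
  have a2 := h2 C3 (1 / D.H) (1 / s) D.K D.R u (h3 D) (by positivity) hl hl1 hu hc
  have a3 : D.q * (C2 * C3 * (1 / s) ^ 2 / (1 / (D.H : ℝ)) ^ 3) ≤ C2 * C3 * D.A ^ 5 / s := by
    have b1 := (pt_coef D).2
    have b2 : D.A ≤ D.A ^ 5 := le_self_pow₀ hA1 (by norm_num)
    have b3 : 0 ≤ D.q * (D.H : ℝ) ^ 3 := by positivity
    calc _ = C2 * C3 * (D.q * (D.H : ℝ) ^ 3) * (1 / s) / s := by field_simp
      _ ≤ C2 * C3 * D.A ^ 5 * 1 / s := by gcongr; nlinarith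
      _ = _ := by ring
  calc _ ≤ C1 * D.A ^ 5 / s * (∫ x, u x ^ 2) + D.q * (C2 * C3 * (1 / s) ^ 2 /
        (1 / (D.H : ℝ)) ^ 3 * (dir u + ∫ x, u x ^ 2)) := a1.trans (by gcongr)
    _ ≤ C1 * D.A ^ 5 / s * (dir u + ∫ x, u x ^ 2) +
        C2 * C3 * D.A ^ 5 / s * (dir u + ∫ x, u x ^ 2) := by
        rw [← mul_assoc D.q]
        gcongr
        linarith
    _ = _ := by ring

/-- `pt_2` (almost everywhere), `near_sq`, `sparse`, `volume_ball_le` -/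
theorem out2 : ∃ C : ℝ, 0 < C ∧ ∀ D : LatD,
    ∫ x in Metric.ball (0 : Pos3) D.r₀, D.U x ^ 2 ≤ C * D.A ^ 13 / (D.H : ℝ) ^ 4 := by
  obtain ⟨C1, hC1, h1⟩ := pt_2
  obtain ⟨C2, hC2, h2⟩ := near_sq
  obtain ⟨C3, hC3, h3⟩ := sparse
  refine ⟨10 * C1 ^ 2 + 2 * C2 * C3 ^ 2, by positivity, fun D => ?_⟩
  have hH := D.H_pos
  have hH8 := D.H_ge
  have hA := D.A_ge
  have hA1 : 1 ≤ D.A := by linarith
  have hq := D.q_pos
  have hr := D.inp.r_bd
  obtain ⟨i1, a1⟩ := h2 C3 (1 / D.H) D.r₀ D.K D.R (h3 D) (by positivity) (pt_inv_H_le_one D) hr.1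
  set δ := C1 * D.A ^ 5 / (D.H : ℝ) ^ 2 with hδ
  have i2 : IntegrableOn (fun _ : Pos3 => 2 * δ ^ 2) (Metric.ball 0 D.r₀) :=
    integrableOn_const measure_ball_lt_top.ne
  have hne : ∀ᵐ x : Pos3, ∀ α, x ≠ D.R α := ae_all_iff.2 fun α => Measure.ae_ne _ _
  have a2 : ∫ x in Metric.ball (0 : Pos3) D.r₀, D.U x ^ 2 ≤
      ∫ x in Metric.ball (0 : Pos3) D.r₀,
        (2 * δ ^ 2 + 2 * D.q ^ 2 * Near (1 / D.H) D.R x ^ 2) := by
    refine integral_mono_of_nonneg (ae_of_all _ fun x => sq_nonneg _) (i2.add (i1.const_mul _)) ?_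
    filter_upwards [ae_restrict_mem measurableSet_ball, ae_restrict_of_ae hne] with x hx hx'
    have b := h1 D x (mem_ball_zero_iff.1 hx).le hx'
    have b2 : D.U x ^ 2 ≤ (δ + D.q * Near (1 / D.H) D.R x) ^ 2 := by
      rw [← sq_abs (D.U x)]
      exact pow_le_pow_left₀ (abs_nonneg _) b 2
    nlinarith [sq_nonneg (δ - D.q * Near (1 / D.H) D.R x)]
  rw [integral_add i2 (i1.const_mul _), integral_const_mul (2 * D.q ^ 2), setIntegral_const,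
    smul_eq_mul] at a2
  have a3 := volume_ball_le (0 : Pos3) (r := D.r₀) (by linarith [hr.1])
  have a4 : volume.real (Metric.ball (0 : Pos3) D.r₀) * (2 * δ ^ 2) ≤
      10 * C1 ^ 2 * D.A ^ 13 / (D.H : ℝ) ^ 4 := by
    calc _ ≤ 5 * D.A ^ 3 * (2 * δ ^ 2) := by
          gcongr
          refine a3.trans ?_
          gcongr
          · linarith [hr.1]
          · exact hr.2
      _ = _ := by rw [hδ]; field_simp; ring
  have a5 : 2 * D.q ^ 2 * (C2 * C3 ^ 2 * D.r₀ ^ 5 / (1 / (D.H : ℝ)) ^ 2) ≤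
      2 * C2 * C3 ^ 2 * D.A ^ 13 / (D.H : ℝ) ^ 4 := by
    have b1 := (pt_coef D).2
    have b3 : 0 ≤ D.q * (D.H : ℝ) ^ 3 := by positivity
    have b4 : D.q * (D.H : ℝ) ^ 3 ≤ D.A := by nlinarith
    have b5 : 0 ≤ D.r₀ := by linarith [hr.1]
    calc _ = 2 * C2 * C3 ^ 2 * ((D.q * (D.H : ℝ) ^ 3) ^ 2 * D.r₀ ^ 5) / (D.H : ℝ) ^ 4 := by
          field_simp
      _ ≤ 2 * C2 * C3 ^ 2 * (D.A ^ 2 * D.A ^ 5) / (D.H : ℝ) ^ 4 := by gcongr; exact hr.2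
      _ ≤ _ := by
          gcongr
          rw [← pow_add]
          exact pow_le_pow_right₀ hA1 (by norm_num)
  calc _ ≤ _ := a2
    _ ≤ 10 * C1 ^ 2 * D.A ^ 13 / (D.H : ℝ) ^ 4 + 2 * C2 * C3 ^ 2 * D.A ^ 13 / (D.H : ℝ) ^ 4 := by
        refine add_le_add a4 (le_trans ?_ a5)
        gcongr
    _ = _ := by ring

/-- `pt_3`, `fub` (with `S3_eq`), `mq_shift`; `U g` is integrable (`oi_li_Vn`, `oi_int_mul`) -/
theorem out3 : ∃ C : ℝ, 0 < C ∧ ∀ (D : LatD) (g : Pos3 → ℝ) (G : ℝ), SB 4 G g → SuppIn D.r₀ g →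
    |∫ x, D.U x * g x| ≤ C * D.A ^ 10 / (D.H : ℝ) ^ 4 * G := by
  obtain ⟨C1, hC1, h1⟩ := pt_3
  obtain ⟨C2, hC2, h2⟩ := fub
  obtain ⟨C3, hC3, h3⟩ := mq_shift
  refine ⟨5 * C1 + C2 * C3, by positivity, fun D g G hg hs => ?_⟩
  have hH := D.H_pos
  have hA := D.A_ge
  have hA1 : 1 ≤ D.A := by linarith
  have hr := D.inp.r_bd
  have hG : 0 ≤ G := (abs_nonneg _).trans (hg.oi_abs_le 0)
  have hgc := suppIn_cs hs
  have hg0 := hg.1.continuous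
  have eT : ∀ f : Pos3 → ℝ, D.TT f = ∑ α, D.q * f (D.R α) -
      ∑ k ∈ range (2 * D.H ^ 5 + 1) ×ˢ range (2 * D.H ^ 5 + 1) ×ˢ range (2 * D.H ^ 5 + 1),
        120 * D.q * (1 - Zf (‖LP D.H k.1 k.2.1 k.2.2‖ ^ 2 / ((D.H : ℝ) ^ 4) ^ 2)) *
          f (LP D.H k.1 k.2.1 k.2.2) - ∫ y, D.dens y * f y := by
    intro f
    rw [LatD.TT, Far, S3_eq, mul_sum, mul_sum]
    simp only [mul_assoc]
  obtain ⟨i1, a1⟩ := h2 univ
    (range (2 * D.H ^ 5 + 1) ×ˢ range (2 * D.H ^ 5 + 1) ×ˢ range (2 * D.H ^ 5 + 1))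
    (fun _ => D.q)
    (fun k => 120 * D.q * (1 - Zf (‖LP D.H k.1 k.2.1 k.2.2‖ ^ 2 / ((D.H : ℝ) ^ 4) ^ 2)))
    D.R (fun k => LP D.H k.1 k.2.1 k.2.2) D.dens g (C3 * D.A ^ 10 * G / (D.H : ℝ) ^ 4)
    (continuous_dens D) (cs_dens D) hg0 hgc (fun u => by
      have := h3 D g G u hg hs
      rwa [eT] at this)
  have eN : ∀ x, ∑ α, D.q * Nk 1 (x - D.R α) -
      ∑ k ∈ range (2 * D.H ^ 5 + 1) ×ˢ range (2 * D.H ^ 5 + 1) ×ˢ range (2 * D.H ^ 5 + 1),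
        120 * D.q * (1 - Zf (‖LP D.H k.1 k.2.1 k.2.2‖ ^ 2 / ((D.H : ℝ) ^ 4) ^ 2)) *
          Nk 1 (x - LP D.H k.1 k.2.1 k.2.2) - ∫ y, D.dens y * Nk 1 (x - y) =
      D.TT fun y => Nk 1 (x - y) := fun x => (eT fun y => Nk 1 (x - y)).symm
  simp only [eN] at i1 a1
  have i2 : Integrable fun x => D.U x * g x := by
    refine oi_int_mul (V := D.U) ?_ ⟨hg0, hgc⟩
    refine (oi_li_const_mul (oi_li_Vn D.R) D.q).add (Continuous.locallyIntegrable ?_)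
    have := D.inp.sb.1.continuous
    fun_prop
  have e1 : ∫ x, D.U x * g x = (∫ x, (D.U x - D.TT fun y => Nk 1 (x - y)) * g x) +
      ∫ x, (D.TT fun y => Nk 1 (x - y)) * g x := by
    simp only [sub_mul]
    rw [integral_sub i2 i1, sub_add_cancel]
  have a2 : |∫ x, (D.U x - D.TT fun y => Nk 1 (x - y)) * g x| ≤
      5 * C1 * D.A ^ 10 / (D.H : ℝ) ^ 4 * G := by
    rw [← setIntegral_eq_integral_of_forall_compl_eq_zero (s := Metric.ball 0 D.r₀)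
      (fun x hx => by rw [hs x (by simpa using hx), mul_zero])]
    have b1 := norm_setIntegral_le_of_norm_le_const (μ := volume) (s := Metric.ball (0 : Pos3) D.r₀)
      (f := fun x => (D.U x - D.TT fun y => Nk 1 (x - y)) * g x)
      (C := C1 * D.A ^ 5 / (D.H : ℝ) ^ 4 * G) measure_ball_lt_top (fun x hx => by
        rw [Real.norm_eq_abs, abs_mul]
        exact mul_le_mul (h1 D x (mem_ball_zero_iff.1 hx).le) (hg.oi_abs_le x) (abs_nonneg _)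
          (by positivity))
    have b2 := volume_ball_le (0 : Pos3) (r := D.r₀) (by linarith [hr.1])
    have b3 : D.r₀ ^ 3 ≤ D.A ^ 5 :=
      (pow_le_pow_left₀ (by linarith [hr.1]) hr.2 3).trans (pow_le_pow_right₀ hA1 (by norm_num))
    calc _ ≤ _ := b1
      _ ≤ C1 * D.A ^ 5 / (D.H : ℝ) ^ 4 * G * (5 * D.A ^ 5) := by gcongr; linarith
      _ = _ := by ring
  rw [e1]
  calc _ ≤ 5 * C1 * D.A ^ 10 / (D.H : ℝ) ^ 4 * G + C2 * (C3 * D.A ^ 10 * G / (D.H : ℝ) ^ 4) :=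
        (abs_add_le _ _).trans (add_le_add a2 a1)
    _ = _ := by ring

end Crest.Agent.R338.Disc
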