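import Crest.Agent.R338.DMQ
import Crest.Agent.R338.DFar
import Crest.Agent.R338.DMono

/-! Row 338, module D: pointwise estimates. -/

set_option autoImplicit false

open MeasureTheory Crest.MathPhysics.ElectronicCoulomb Finset Crest.Agent.Lib.PT

namespace Crest.Agent.R338.Disc

lemma pt_coef (D : LatD) : 0 ≤ 120 * D.q * (D.H : ℝ) ^ 3 ∧ 120 * D.q * (D.H : ℝ) ^ 3 ≤ D.A / 2 := by
  have h1 := D.q_pos
  have h2 := D.q_le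
  have h3 := D.H_pos
  refine ⟨by positivity, ?_⟩
  rw [le_div_iff₀ (by positivity)] at h2
  nlinarith

lemma pt_Far_eq (D : LatD) (f : Pos3 → ℝ) :
    Far D.q D.H f = 120 * D.q * (D.H : ℝ) ^ 3 * ((1 / (D.H : ℝ)) ^ 3 * S3 (D.H ^ 5) fun i j k =>
      (fun t => 1 - Zf (t / ((D.H : ℝ) ^ 4) ^ 2)) (‖lpt (1 / (D.H : ℝ)) (D.H ^ 5) i j k‖ ^ 2) *
        f (lpt (1 / (D.H : ℝ)) (D.H ^ 5) i j k)) := by
  have := D.H_pos.ne'
  unfold Far LP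
  field_simp

lemma pt_Far_add (q : ℝ) (H : ℕ) (f g : Pos3 → ℝ) :
    Far q H (fun y => f y + g y) = Far q H f + Far q H g := by
  unfold Far
  rw [← mul_add, ← S3_add]
  simp only [mul_add]

lemma pt_Far_split (q : ℝ) (H : ℕ) (l : ℝ) (x : Pos3) :
    Far q H (fun y => 1 / ‖x - y‖) =
      Far q H (fun y => K2 l (x - y)) + Far q H (fun y => Nk l (x - y)) := by
  rw [← pt_Far_add]
  simp only [← inv_norm_eq]

lemma pt_H4 (D : LatD) : (4096 : ℝ) ≤ (D.H : ℝ) ^ 4 := by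
  have h : (8 : ℝ) ^ 4 ≤ (D.H : ℝ) ^ 4 := by gcongr; exact D.H_ge
  linarith

lemma pt_n_pos (D : LatD) : 1 ≤ D.H ^ 5 := by
  have h : 0 < D.H := by exact_mod_cast D.H_pos
  exact Nat.one_le_pow _ _ h

lemma pt_c_zero (D : LatD) (t : ℝ)
    (ht : t < (((D.H ^ 5 : ℕ) : ℝ) * (1 / (D.H : ℝ))) ^ 2 / 16) :
    1 - Zf (t / ((D.H : ℝ) ^ 4) ^ 2) = 0 := by
  rw [D.n_mul_h] at ht
  have := D.H_pos
  rw [Zf_eq_one, sub_self]
  rw [div_lt_iff₀ (by positivity)]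
  linarith

lemma pt_x_small (D : LatD) {x : Pos3} (hx : ‖x‖ ≤ 4 * D.r₀) :
    100 * ‖x‖ ≤ ((D.H ^ 5 : ℕ) : ℝ) * (1 / (D.H : ℝ)) := by
  rw [D.n_mul_h]
  have := D.A_le_H4
  have := D.inp.r_bd.2
  have := D.A_ge
  linarith

lemma pt_far_K : ∃ C : ℝ, 0 < C ∧ ∀ (D : LatD) (x : Pos3), ‖x‖ ≤ 4 * D.r₀ →
    |Far D.q D.H (fun y => 1 / ‖x - y‖) - Far D.q D.H (fun y => 1 / ‖0 - y‖)| ≤
      C * D.A ^ 4 / (D.H : ℝ) ^ 4 := by
  obtain ⟨C, hC, h⟩ := far_K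
  obtain ⟨Z, hZ, hZ1, -⟩ := cut_bounds
  refine ⟨32 * C * (1 + Z), by positivity, fun D x hx => ?_⟩
  have hH := D.H_pos
  have h1 := h (1 / (D.H : ℝ)) (1 + Z) (D.H ^ 5) (fun t => 1 - Zf (t / ((D.H : ℝ) ^ 4) ^ 2)) x
    (by positivity) (pt_n_pos D)
    (fun t => (abs_sub _ _).trans (by rw [abs_one]; gcongr; exact hZ1 _)) (pt_c_zero D)
    (pt_x_small D hx)
  rw [D.n_mul_h] at h1
  rw [pt_Far_eq, pt_Far_eq, ← mul_sub, abs_mul, abs_of_nonneg (pt_coef D).1]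
  have hA := D.A_ge
  have h2 : ‖x‖ ≤ 4 * D.A := hx.trans (by linarith [D.inp.r_bd.2])
  calc _ ≤ D.A / 2 * (C * (1 + Z) * (4 * D.A) ^ 3 / (D.H : ℝ) ^ 4) := by
        refine mul_le_mul (pt_coef D).2 (h1.trans ?_) (abs_nonneg _) (by positivity)
        gcongr
    _ = _ := by ring

lemma pt_far_N : ∃ C : ℝ, 0 < C ∧ ∀ (D : LatD) (x : Pos3) (l : ℝ), ‖x‖ ≤ 4 * D.r₀ → 0 < l →
    l ≤ 1 → |Far D.q D.H (fun y => Nk l (x - y))| ≤ C * D.A / (D.H : ℝ) ^ 4 := by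
  obtain ⟨C, hC, h⟩ := far_N
  obtain ⟨Z, hZ, hZ1, -⟩ := cut_bounds
  refine ⟨C * (1 + Z), by positivity, fun D x l hx hl hl1 => ?_⟩
  have hH := D.H_pos
  have h1 := h (1 / (D.H : ℝ)) (1 + Z) l (D.H ^ 5) (fun t => 1 - Zf (t / ((D.H : ℝ) ^ 4) ^ 2)) x
    (by positivity) (pt_n_pos D) hl
    (fun t => (abs_sub _ _).trans (by rw [abs_one]; gcongr; exact hZ1 _)) (pt_c_zero D)
    (pt_x_small D hx)
  rw [D.n_mul_h] at h1
  rw [pt_Far_eq, abs_mul, abs_of_nonneg (pt_coef D).1]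
  have hA := D.A_ge
  have h4 := pt_H4 D
  have h5 : l ^ 4 ≤ 1 := pow_le_one₀ hl.le hl1
  calc _ ≤ D.A * (C * (1 + Z) * 1 / (D.H : ℝ) ^ 4) := by
        refine mul_le_mul ((pt_coef D).2.trans (by linarith)) (h1.trans ?_) (abs_nonneg _)
          (by positivity)
        gcongr
        nlinarith
    _ = _ := by ring

lemma pt_pi_p (D : LatD) : |1 - Real.pi / D.p| ≤ 1 / (D.H : ℝ) ^ 6 := by
  have h1 := D.p_ge
  have h2 := D.p_near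
  have hH := D.H_pos
  have e : 1 - Real.pi / D.p = (D.p - Real.pi) / D.p := by field_simp
  rw [e, abs_div, abs_of_pos (by linarith : 0 < D.p), div_le_iff₀ (by linarith)]
  refine h2.trans ?_
  rw [div_mul_eq_mul_div]
  gcongr
  linarith

lemma pt_pi_p' (D : LatD) : |1 - Real.pi / D.p| ≤ 1 / (D.H : ℝ) ^ 4 := by
  refine (pt_pi_p D).trans ?_
  have hH := D.H_ge
  gcongr
  · linarith
  · norm_num

lemma pt_kp (D : LatD) : 0 ≤ D.κ / (4 * D.p) ∧ D.κ / (4 * D.p) ≤ D.A := by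
  have h1 := D.p_ge
  have h2 := D.κ_pos
  have h3 := D.inp.κ_bd.2
  refine ⟨by positivity, ?_⟩
  rw [div_le_iff₀ (by positivity)]
  nlinarith

lemma pt_Psi_cs (D : LatD) : HasCompactSupport (Psi ((D.H : ℝ) ^ 4)) :=
  suppIn_cs (suppIn_Psi (by have := D.H_pos; positivity))

lemma pt_rep_Psi (D : LatD) {x : Pos3} (hx : ‖x‖ ≤ 4 * D.r₀) {l : ℝ} (hl : 0 < l) :
    ∫ y, lap (Psi ((D.H : ℝ) ^ 4)) y * K2 l (x - y) =
      -(4 * Real.pi * ‖x‖ ^ 2) - ∫ y, lap (Psi ((D.H : ℝ) ^ 4)) y * Nk l (x - y) := by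
  have hH := D.H_pos
  rw [rep (contDiff_Psi _ (k := 2)) (pt_Psi_cs D) hl, Psi_eq (by positivity)]
  have := pt_x_small D hx
  rw [D.n_mul_h] at this
  linarith [norm_nonneg x]

lemma pt_Vc_c2 (D : LatD) : ContDiff ℝ 2 D.Vc := D.inp.sb.1.of_le (by norm_num)

lemma pt_inv_H_le_one (D : LatD) : 1 / (D.H : ℝ) ≤ 1 := by
  rw [div_le_one D.H_pos]; linarith [D.H_ge]

lemma pt_K2_far (D : LatD) {x : Pos3} (hx : ‖x‖ ≤ D.r₀) {l : ℝ} (hl : 0 < l) (y : Pos3)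
    (hy : (D.H : ℝ) ^ 4 ≤ ‖y‖) : |K2 l (x - y)| ≤ 4 / (D.H : ℝ) ^ 4 := by
  rw [abs_of_nonneg (K2_nonneg hl _)]
  refine (K2_le hl _).trans ?_
  have h1 := D.A_le_H4
  have h2 := D.inp.r_bd.2
  have h3 := D.A_ge
  have h4 : ‖y‖ ≤ ‖x - y‖ + ‖x‖ := by
    have := norm_sub_le x (x - y)
    rw [sub_sub_cancel] at this
    linarith
  have h5 := norm_le_rho l (x - y)
  have hH := D.H_pos
  rw [div_le_div_iff₀ (rho_pos hl _) (by positivity)]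
  linarith

lemma pt_Vn_split (D : LatD) (l : ℝ) (x : Pos3) :
    Vn D.R x = ∑ α, K2 l (x - D.R α) + ∑ α, Nk l (x - D.R α) := by
  rw [← sum_add_distrib]
  exact sum_congr rfl fun α _ => inv_norm_eq l _

/-- `Bk (K2 1) = Far (K2 1) + κ/(4p) ∫ lap Psi K2 1 + TZ`, `rep` at `x = 0`, `integral_mul_Nk_one`,
`far_N`, `E_near`, `p_near`; then `far_K`. -/
theorem far_E : ∃ C : ℝ, 0 < C ∧ ∀ (D : LatD) (x : Pos3), ‖x‖ ≤ 4 * D.r₀ →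
    |Far D.q D.H (fun y => 1 / ‖x - y‖) + D.E₀| ≤ C * D.A ^ 4 / (D.H : ℝ) ^ 4 := by
  obtain ⟨C1, hC1, h1⟩ := pt_far_K
  obtain ⟨C2, hC2, h2⟩ := pt_far_N
  obtain ⟨C3, hC3, h3⟩ := mq_Z
  obtain ⟨C4, hC4, h4⟩ := env_K2
  obtain ⟨C5, hC5, h5⟩ := integral_mul_Nk_one
  obtain ⟨Z, hZ, -, hZ2⟩ := cut_bounds
  refine ⟨C1 + C2 + C3 * C4 + 4 * C5 * (Z + 6) + 3, by positivity, fun D x hx => ?_⟩
  have hH := D.H_pos
  have hA := D.A_ge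
  have h4096 := pt_H4 D
  have h0 : ‖(0 : Pos3)‖ ≤ 4 * D.r₀ := by rw [norm_zero]; linarith [D.inp.r_bd.1]
  have a1 := h1 D x hx
  have a2 := h2 D 0 1 h0 one_pos le_rfl
  have a3 := h3 D _ 0 1 C4 (h4 1 0 one_pos) (pt_inv_H_le_one D) le_rfl
  have hS := hZ2 ((D.H : ℝ) ^ 4) (by linarith)
  have a5 := h5 (lap (Psi ((D.H : ℝ) ^ 4))) Z ((D.H : ℝ) ^ 4 / 4) hS.1.continuous hS.abs_le
    (by positivity) (fun y hy => by
      rw [lap_Psi (by positivity), Zf_eq_one, mul_one]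
      rw [div_lt_iff₀ (by positivity)]
      nlinarith [norm_nonneg y])
  have a6 := D.E_near
  have a7 := pt_pi_p' D
  have e1 := pt_Far_split D.q D.H 1 0
  have e2 := pt_rep_Psi D h0 one_pos
  have e3 : Bk D.q D.H (fun y => K2 1 (0 - y)) = Bk D.q D.H (K2 1) := by
    simp only [zero_sub, K2_neg]
  rw [norm_zero] at e2
  unfold LatD.TZ at a3
  rw [e2, e3] at a3
  obtain ⟨k0, k1⟩ := pt_kp D
  have hp := D.p_ge
  have hκ := D.κ_pos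
  have hκA := D.inp.κ_bd.2
  set I := ∫ y, lap (Psi ((D.H : ℝ) ^ 4)) y * Nk 1 (0 - y) with hI
  set F0 := Far D.q D.H (fun y => 1 / ‖0 - y‖)
  set Fx := Far D.q D.H (fun y => 1 / ‖x - y‖)
  set FK := Far D.q D.H (fun y => K2 1 (0 - y))
  set FN := Far D.q D.H (fun y => Nk 1 (0 - y))
  set B := Bk D.q D.H (K2 1)
  have e4 : Fx + D.E₀ = (Fx - F0) + FN -
      (B - FK - D.κ / (4 * D.p) * (-(4 * Real.pi * 0 ^ 2) - I)) + (D.E₀ + (B + 3 * D.κ / 2)) +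
      D.κ / (4 * D.p) * (I - 6 * Real.pi) - 3 * D.κ / 2 * (1 - Real.pi / D.p) := by
    rw [e1]; field_simp; ring
  have b5 : |D.κ / (4 * D.p) * (I - 6 * Real.pi)| ≤ D.A * (C5 * (Z + 6) / ((D.H : ℝ) ^ 4 / 4)) := by
    rw [abs_mul, abs_of_nonneg k0]
    exact mul_le_mul k1 a5 (abs_nonneg _) (by positivity)
  have b7 : |3 * D.κ / 2 * (1 - Real.pi / D.p)| ≤ 2 * D.A * (1 / (D.H : ℝ) ^ 4) := by
    rw [abs_mul, abs_of_nonneg (by positivity)]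
    exact mul_le_mul (by linarith) a7 (abs_nonneg _) (by positivity)
  have hA4 : D.A ≤ D.A ^ 4 := le_self_pow₀ (by linarith) (by norm_num)
  set t := 1 / (D.H : ℝ) ^ 4 with ht
  have ht0 : 0 ≤ t := by positivity
  have r1 : C1 * D.A ^ 4 / (D.H : ℝ) ^ 4 = C1 * (D.A ^ 4 * t) := by rw [ht]; ring
  have r2 : C2 * D.A / (D.H : ℝ) ^ 4 = C2 * (D.A * t) := by rw [ht]; ring
  have r3 : C3 * D.A * (C4 / ((D.H : ℝ) ^ 4 * 1 ^ 2)) = C3 * C4 * (D.A * t) := by rw [ht]; ring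
  have r5 : D.A * (C5 * (Z + 6) / ((D.H : ℝ) ^ 4 / 4)) = 4 * C5 * (Z + 6) * (D.A * t) := by
    rw [ht]; field_simp
  have r6 : D.κ / (D.H : ℝ) ^ 4 ≤ D.A * t := by rw [ht, mul_one_div]; gcongr
  have r8 : (C1 + C2 + C3 * C4 + 4 * C5 * (Z + 6) + 3) * D.A ^ 4 / (D.H : ℝ) ^ 4 =
      (C1 + C2 + C3 * C4 + 4 * C5 * (Z + 6) + 3) * (D.A ^ 4 * t) := by rw [ht]; ring
  have hs : D.A * t ≤ D.A ^ 4 * t := by gcongr
  rw [r1] at a1; rw [r2] at a2; rw [r3] at a3; rw [r5] at b5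
  have s2 := mul_le_mul_of_nonneg_left hs hC2.le
  have s3 := mul_le_mul_of_nonneg_left hs (mul_pos hC3 hC4).le
  have s5 := mul_le_mul_of_nonneg_left hs (show 0 ≤ 4 * C5 * (Z + 6) by positivity)
  rw [e4, r8]
  rw [abs_le] at a1 a2 a3 a6 b5 b7 ⊢
  constructor <;> nlinarith

/-- `mq_Z`, `far_E`, `far_N`, `rep` for `Psi`, `abs_integral_mul_Nk_le` -/
theorem pt_in : ∃ C : ℝ, 0 < C ∧ ∀ (D : LatD) (x : Pos3) (l : ℝ), ‖x‖ ≤ 4 * D.r₀ →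
    1 / (D.H : ℝ) ≤ l → l ≤ 1 →
    |Bk D.q D.H (fun y => K2 l (x - y)) + D.E₀ + D.κ * ‖x‖ ^ 2| ≤
      C * D.A ^ 4 * (1 / ((D.H : ℝ) ^ 4 * l ^ 2) + l ^ 2) := by
  obtain ⟨C1, hC1, h1⟩ := far_E
  obtain ⟨C2, hC2, h2⟩ := pt_far_N
  obtain ⟨C3, hC3, h3⟩ := mq_Z
  obtain ⟨C4, hC4, h4⟩ := env_K2
  obtain ⟨Z, hZ, -, hZ2⟩ := cut_bounds
  refine ⟨C1 + C2 + C3 * C4 + 4 * Z + 16, by positivity, fun D x l hx hl hl1 => ?_⟩
  have hH := D.H_pos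
  have hA := D.A_ge
  have h4096 := pt_H4 D
  have hl0 : 0 < l := lt_of_lt_of_le (by positivity) hl
  have a1 := h1 D x hx
  have a2 := h2 D x l hx hl0 hl1
  have a3 := h3 D _ x l C4 (h4 l x hl0) hl hl1
  have hS := hZ2 ((D.H : ℝ) ^ 4) (by linarith)
  have a5 := abs_integral_mul_Nk_le hl0 hS.1.continuous hS.abs_le x
  have a7 := pt_pi_p' D
  have e1 := pt_Far_split D.q D.H l x
  have e2 := pt_rep_Psi D hx hl0
  unfold LatD.TZ at a3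
  rw [e2] at a3
  obtain ⟨k0, k1⟩ := pt_kp D
  have hp := D.p_ge
  have hκ := D.κ_pos
  have hκA := D.inp.κ_bd.2
  set I := ∫ y, lap (Psi ((D.H : ℝ) ^ 4)) y * Nk l (x - y) with hI
  set Fx := Far D.q D.H (fun y => 1 / ‖x - y‖)
  set FK := Far D.q D.H (fun y => K2 l (x - y))
  set FN := Far D.q D.H (fun y => Nk l (x - y))
  set B := Bk D.q D.H (fun y => K2 l (x - y))
  have e4 : B + D.E₀ + D.κ * ‖x‖ ^ 2 = (Fx + D.E₀) - FN +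
      (B - FK - D.κ / (4 * D.p) * (-(4 * Real.pi * ‖x‖ ^ 2) - I)) -
      D.κ / (4 * D.p) * I + D.κ * ‖x‖ ^ 2 * (1 - Real.pi / D.p) := by
    rw [e1]; field_simp; ring
  have b5 : |D.κ / (4 * D.p) * I| ≤ D.A * (4 * Z * l ^ 2) := by
    rw [abs_mul, abs_of_nonneg k0]
    exact mul_le_mul k1 a5 (abs_nonneg _) (by positivity)
  have hx2 : ‖x‖ ≤ 4 * D.A := hx.trans (by linarith [D.inp.r_bd.2])
  have b7 : |D.κ * ‖x‖ ^ 2 * (1 - Real.pi / D.p)| ≤ D.A * (4 * D.A) ^ 2 * (1 / (D.H : ℝ) ^ 4) := by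
    rw [abs_mul, abs_of_nonneg (by positivity)]
    exact mul_le_mul (by gcongr) a7 (abs_nonneg _) (by positivity)
  have hA1 : 1 ≤ D.A := by linarith
  have hA4 : D.A ≤ D.A ^ 4 := le_self_pow₀ hA1 (by norm_num)
  have hA3 : D.A ^ 3 ≤ D.A ^ 4 := pow_le_pow_right₀ hA1 (by norm_num)
  set t := 1 / ((D.H : ℝ) ^ 4 * l ^ 2) with ht
  have ht0 : 0 ≤ t := by positivity
  have hl2 : l ^ 2 ≤ 1 := pow_le_one₀ hl0.le hl1
  have ht1 : 1 / (D.H : ℝ) ^ 4 ≤ t := by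
    rw [ht]; gcongr; exact mul_le_of_le_one_right (by positivity) hl2
  set S := D.A ^ 4 * (t + l ^ 2) with hSdef
  have u1 : D.A ^ 4 * t ≤ S := by rw [hSdef]; gcongr; linarith [sq_nonneg l]
  have u2 : D.A ^ 4 * l ^ 2 ≤ S := by rw [hSdef]; gcongr; linarith
  have r1 : C1 * D.A ^ 4 / (D.H : ℝ) ^ 4 ≤ C1 * S := by
    calc _ = C1 * (D.A ^ 4 * (1 / (D.H : ℝ) ^ 4)) := by ring
      _ ≤ C1 * (D.A ^ 4 * t) := by gcongr
      _ ≤ _ := by gcongr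
  have r2 : C2 * D.A / (D.H : ℝ) ^ 4 ≤ C2 * S := by
    calc _ = C2 * (D.A * (1 / (D.H : ℝ) ^ 4)) := by ring
      _ ≤ C2 * (D.A ^ 4 * t) := by gcongr
      _ ≤ _ := by gcongr
  have r3 : C3 * D.A * (C4 / ((D.H : ℝ) ^ 4 * l ^ 2)) ≤ C3 * C4 * S := by
    calc _ = C3 * C4 * (D.A * t) := by rw [ht]; ring
      _ ≤ C3 * C4 * (D.A ^ 4 * t) := by gcongr
      _ ≤ _ := by gcongr
  have r5 : D.A * (4 * Z * l ^ 2) ≤ 4 * Z * S := by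
    calc _ = 4 * Z * (D.A * l ^ 2) := by ring
      _ ≤ 4 * Z * (D.A ^ 4 * l ^ 2) := by gcongr
      _ ≤ _ := by gcongr
  have r7 : D.A * (4 * D.A) ^ 2 * (1 / (D.H : ℝ) ^ 4) ≤ 16 * S := by
    calc _ = 16 * (D.A ^ 3 * (1 / (D.H : ℝ) ^ 4)) := by ring
      _ ≤ 16 * (D.A ^ 4 * t) := by gcongr
      _ ≤ _ := by gcongr
  rw [e4, mul_assoc _ (D.A ^ 4), ← hSdef]
  rw [abs_le] at a1 a2 a3 b5 b7 ⊢
  constructor <;> linarith [a1.1, a1.2, a2.1, a2.2, a3.1, a3.2, b5.1, b5.2, b7.1, b7.2]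

/-- `mq_V`, `rep` for `Vc`, `abs_integral_mul_Nk_le` -/
theorem pt_V : ∃ C : ℝ, 0 < C ∧ ∀ (D : LatD) (x : Pos3) (l B : ℝ), 1 / (D.H : ℝ) ≤ l → l ≤ 1 →
    (∀ y, (D.H : ℝ) ^ 4 ≤ ‖y‖ → |K2 l (x - y)| ≤ B) →
    |D.q * ∑ α, K2 l (x - D.R α) - Bk D.q D.H (fun y => K2 l (x - y)) + D.Vc x| ≤
      C * D.A ^ 5 * (1 / ((D.H : ℝ) ^ 4 * l ^ 2) + l ^ 2 + B / D.H) := by
  obtain ⟨C3, hC3, h3⟩ := mq_V
  obtain ⟨C4, hC4, h4⟩ := env_K2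
  refine ⟨C3 * (C4 + 1) + 21, by positivity, fun D x l B hl hl1 hB => ?_⟩
  have hH := D.H_pos
  have hA := D.A_ge
  have hl0 : 0 < l := lt_of_lt_of_le (by positivity) hl
  have hB0 : 0 ≤ B := by
    refine (abs_nonneg _).trans (hB (((D.H : ℝ) ^ 4) • uv 0) ?_)
    rw [norm_smul, norm_uv, mul_one, Real.norm_of_nonneg (by positivity)]
  have a3 := h3 D _ x l C4 B (h4 l x hl0) hl hl1 hB
  have a5 := abs_integral_mul_Nk_le hl0 (continuous_lap (pt_Vc_c2 D)) D.inp.lap_le x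
  have a7 := pt_pi_p' D
  have e2 := rep (pt_Vc_c2 D) (suppIn_cs D.inp.supp) hl0 x
  unfold LatD.TV at a3
  rw [e2] at a3
  have hp := D.p_ge
  have hκ := D.κ_pos
  have hκA := D.inp.κ_bd.2
  set I := ∫ y, lap D.Vc y * Nk l (x - y) with hI
  set B' := Bk D.q D.H (fun y => K2 l (x - y))
  set S' := D.q * ∑ α, K2 l (x - D.R α)
  have e4 : S' - B' + D.Vc x = (S' - B' - 1 / (4 * D.p) * (-(4 * Real.pi * D.Vc x) - I)) -
      1 / (4 * D.p) * I + D.Vc x * (1 - Real.pi / D.p) := by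
    field_simp; ring
  have b5 : |1 / (4 * D.p) * I| ≤ 1 * (4 * (5 * D.κ) * l ^ 2) := by
    rw [abs_mul, abs_of_nonneg (by positivity)]
    refine mul_le_mul ?_ a5 (abs_nonneg _) zero_le_one
    rw [div_le_one (by positivity)]; linarith
  have b7 : |D.Vc x * (1 - Real.pi / D.p)| ≤ D.A * (1 / (D.H : ℝ) ^ 4) := by
    rw [abs_mul]
    exact mul_le_mul (D.inp.sb.oi_abs_le x) a7 (abs_nonneg _) (by positivity)
  have hA1 : 1 ≤ D.A := by linarith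
  have hA5 : D.A ≤ D.A ^ 5 := le_self_pow₀ hA1 (by norm_num)
  set t := 1 / ((D.H : ℝ) ^ 4 * l ^ 2) with ht
  have ht0 : 0 ≤ t := by positivity
  have hl2 : l ^ 2 ≤ 1 := pow_le_one₀ hl0.le hl1
  have ht1 : 1 / (D.H : ℝ) ^ 4 ≤ t := by
    rw [ht]; gcongr; exact mul_le_of_le_one_right (by positivity) hl2
  have hBH : 0 ≤ B / D.H := by positivity
  set S := D.A ^ 5 * (t + l ^ 2 + B / D.H) with hSdef
  have u1 : D.A ^ 5 * t ≤ S := by rw [hSdef]; gcongr; linarith [sq_nonneg l]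
  have u2 : D.A ^ 5 * l ^ 2 ≤ S := by rw [hSdef]; gcongr; linarith
  have u3 : D.A ^ 5 * (B / D.H) ≤ S := by rw [hSdef]; gcongr; linarith [sq_nonneg l]
  have r3 : C3 * D.A ^ 5 * (C4 / ((D.H : ℝ) ^ 4 * l ^ 2) + B / D.H) ≤ C3 * (C4 + 1) * S := by
    calc _ = C3 * (C4 * (D.A ^ 5 * t) + D.A ^ 5 * (B / D.H)) := by rw [ht]; ring
      _ ≤ C3 * (C4 * S + S) := by gcongr
      _ = _ := by ring
  have r5 : 1 * (4 * (5 * D.κ) * l ^ 2) ≤ 20 * S := by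
    calc _ = 20 * (D.κ * l ^ 2) := by ring
      _ ≤ 20 * (D.A ^ 5 * l ^ 2) := by gcongr; linarith
      _ ≤ _ := by gcongr
  have r7 : D.A * (1 / (D.H : ℝ) ^ 4) ≤ S := by
    calc _ ≤ D.A ^ 5 * t := by gcongr
      _ ≤ _ := u1
  rw [e4, mul_assoc _ (D.A ^ 5), ← hSdef]
  rw [abs_le] at a3 b5 b7 ⊢
  constructor <;> linarith [a3.1, a3.2, b5.1, b5.2, b7.1, b7.2]

/-- `Nk_split`, `sparse` -/
theorem pt_N : ∃ C : ℝ, 0 < C ∧ ∀ (D : LatD) (x : Pos3) (l : ℝ), 1 / (D.H : ℝ) ≤ l →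
    D.q * ∑ α, Nk l (x - D.R α) ≤ D.q * Near l D.R x + C * D.A * l ^ 2 := by
  obtain ⟨C, hC, h⟩ := sparse
  refine ⟨C, hC, fun D x l hl => ?_⟩
  have hH := D.H_pos
  have hA := D.A_ge
  have hq := D.q_pos
  have hl0 : 0 < l := lt_of_lt_of_le (by positivity) hl
  have a1 := h D x l hl
  have a2 : ∑ α, Nk l (x - D.R α) ≤
      Near l D.R x + 2 * l ^ 4 * ∑ α, 1 / rho l (x - D.R α) ^ 5 := by
    rw [Near, mul_sum, ← sum_add_distrib]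
    refine sum_le_sum fun α _ => (Nk_split hl0 _).trans_eq ?_
    rw [mul_one_div]
  set S := ∑ α, 1 / rho l (x - D.R α) ^ 5
  have a3 : S ≤ (D.H : ℝ) ^ 3 * (C / l ^ 2) := by
    have e : S = (D.H : ℝ) ^ 3 * ((1 / (D.H : ℝ)) ^ 3 * S) := by field_simp
    rw [e]; gcongr
  have a4 := (pt_coef D).2
  calc D.q * ∑ α, Nk l (x - D.R α)
      ≤ D.q * (Near l D.R x + 2 * l ^ 4 * ((D.H : ℝ) ^ 3 * (C / l ^ 2))) := by
        gcongr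
        refine a2.trans ?_
        gcongr
    _ = D.q * Near l D.R x + C * (2 * D.q * (D.H : ℝ) ^ 3) * l ^ 2 := by field_simp
    _ ≤ _ := by
        gcongr
        have : 0 ≤ D.q * (D.H : ℝ) ^ 3 := by positivity
        nlinarith

/-- `l = 1/√H`, `B = 2/l`; for `‖x‖ ≥ r₀` use `mono_bk` -/
theorem pt_1 : ∃ C : ℝ, 0 < C ∧ ∀ (D : LatD) (x : Pos3),
    D.U1 x ≤ C * D.A ^ 5 / √(D.H : ℝ) + D.q * Near (1 / √(D.H : ℝ)) D.R x := by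
  obtain ⟨C1, hC1, h1⟩ := pt_in
  obtain ⟨C2, hC2, h2⟩ := pt_V
  obtain ⟨C3, hC3, h3⟩ := pt_N
  refine ⟨2 * C1 + 4 * C2 + C3, by positivity, fun D x => ?_⟩
  have hH := D.H_pos
  have hH8 := D.H_ge
  have hA := D.A_ge
  have hA1 : 1 ≤ D.A := by linarith
  have hq := D.q_pos
  set s := √(D.H : ℝ) with hs
  have hs1 : 1 ≤ s := Real.one_le_sqrt.2 (by linarith)
  have hs2 : s ^ 2 = D.H := Real.sq_sqrt hH.le
  have hsH : s ≤ D.H := by nlinarith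
  have hl : 1 / (D.H : ℝ) ≤ 1 / s := by gcongr
  have hl1 : 1 / s ≤ 1 := by rw [div_le_one (by linarith)]; exact hs1
  have hl0 : 0 < 1 / s := by positivity
  have t1 : 1 / ((D.H : ℝ) ^ 4 * (1 / s) ^ 2) ≤ 1 / s := by
    gcongr
    have e : (D.H : ℝ) ^ 4 * (1 / s) ^ 2 = (D.H : ℝ) ^ 3 := by
      rw [div_pow, hs2]; field_simp
    rw [e]
    exact hsH.trans (le_self_pow₀ (by linarith) (by norm_num))
  have t2 : (1 / s) ^ 2 ≤ 1 / s := by nlinarith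
  have t3 : 2 / (1 / s) / (D.H : ℝ) = 2 * (1 / s) := by
    rw [← hs2]; field_simp
  have a2 := h2 D x (1 / s) (2 / (1 / s)) hl hl1 (fun y _ => by
    rw [abs_of_nonneg (K2_nonneg hl0 _)]
    refine (K2_le hl0 _).trans ?_
    gcongr
    exact le_rho _ _)
  have a3 := h3 D x (1 / s) hl
  have a1 : Bk D.q D.H (fun y => K2 (1 / s) (x - y)) + D.E₀ + D.κ * min (‖x‖ ^ 2) (D.r₀ ^ 2) ≤
      C1 * D.A ^ 4 * (1 / ((D.H : ℝ) ^ 4 * (1 / s) ^ 2) + (1 / s) ^ 2) := by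
    have hr := D.inp.r_bd.1
    have hκ := D.κ_pos
    rcases le_total ‖x‖ D.r₀ with hx | hx
    · have b := (abs_le.1 (h1 D x (1 / s) (by linarith) hl hl1)).2
      have : D.κ * min (‖x‖ ^ 2) (D.r₀ ^ 2) ≤ D.κ * ‖x‖ ^ 2 := by gcongr; exact min_le_left _ _
      linarith
    · obtain ⟨x', b1, b2, b3⟩ := mono_bk (h := 1 / (D.H : ℝ)) (by positivity)
        ((pt_inv_H_le_one D).trans hr) hl0 (D.H ^ 5) hx
      have b := (abs_le.1 (h1 D x' (1 / s) b2 hl hl1)).2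
      have b4 : Bk D.q D.H (fun y => K2 (1 / s) (x - y)) ≤
          Bk D.q D.H (fun y => K2 (1 / s) (x' - y)) := by
        unfold Bk LP
        gcongr
      have : D.κ * min (‖x‖ ^ 2) (D.r₀ ^ 2) ≤ D.κ * ‖x'‖ ^ 2 := by
        gcongr
        exact (min_le_right _ _).trans (by gcongr)
      linarith
  have hA4 : D.A ^ 4 ≤ D.A ^ 5 := pow_le_pow_right₀ hA1 (by norm_num)
  have hA5 : D.A ≤ D.A ^ 5 := le_self_pow₀ hA1 (by norm_num)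
  have r1 : C1 * D.A ^ 4 * (1 / ((D.H : ℝ) ^ 4 * (1 / s) ^ 2) + (1 / s) ^ 2) ≤
      C1 * D.A ^ 5 * (1 / s + 1 / s) := by gcongr
  have r2 : C2 * D.A ^ 5 * (1 / ((D.H : ℝ) ^ 4 * (1 / s) ^ 2) + (1 / s) ^ 2 + 2 / (1 / s) / D.H) ≤
      C2 * D.A ^ 5 * (1 / s + 1 / s + 2 * (1 / s)) := by rw [t3]; gcongr
  have r3 : C3 * D.A * (1 / s) ^ 2 ≤ C3 * D.A ^ 5 * (1 / s) := by gcongr
  have e : (2 * C1 + 4 * C2 + C3) * D.A ^ 5 / s = C1 * D.A ^ 5 * (1 / s + 1 / s) +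
      C2 * D.A ^ 5 * (1 / s + 1 / s + 2 * (1 / s)) + C3 * D.A ^ 5 * (1 / s) := by ring
  rw [LatD.U1, pt_Vn_split D (1 / s), mul_add, e]
  linarith [(abs_le.1 a2).2]

/-- `l = 1/H`, `B = 4 / H^4` -/
theorem pt_2 : ∃ C : ℝ, 0 < C ∧ ∀ (D : LatD) (x : Pos3), ‖x‖ ≤ D.r₀ → (∀ α, x ≠ D.R α) →
    |D.U x| ≤ C * D.A ^ 5 / (D.H : ℝ) ^ 2 + D.q * Near (1 / (D.H : ℝ)) D.R x := by
  obtain ⟨C1, hC1, h1⟩ := pt_in
  obtain ⟨C2, hC2, h2⟩ := pt_V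
  obtain ⟨C3, hC3, h3⟩ := pt_N
  refine ⟨2 * C1 + 6 * C2 + C3, by positivity, fun D x hx hR => ?_⟩
  have hH := D.H_pos
  have hH8 := D.H_ge
  have hA := D.A_ge
  have hA1 : 1 ≤ D.A := by linarith
  have hq := D.q_pos
  have hr := D.inp.r_bd.1
  have hl1 := pt_inv_H_le_one D
  have hl0 : 0 < 1 / (D.H : ℝ) := by positivity
  have a1 := h1 D x (1 / D.H) (by linarith) le_rfl hl1
  have a2 := h2 D x (1 / D.H) _ le_rfl hl1 (pt_K2_far D hx hl0)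
  have a3 := h3 D x (1 / D.H) le_rfl
  have a4 : 0 ≤ D.q * ∑ α, Nk (1 / D.H) (x - D.R α) :=
    mul_nonneg hq.le (sum_nonneg fun α _ => Nk_nonneg hl0 (sub_ne_zero.2 (hR α)))
  have a5 : 0 ≤ D.q * Near (1 / D.H) D.R x :=
    mul_nonneg hq.le (sum_nonneg fun α _ => by split_ifs <;> positivity)
  set t := 1 / (D.H : ℝ) ^ 2 with ht
  have t1 : 1 / ((D.H : ℝ) ^ 4 * (1 / (D.H : ℝ)) ^ 2) = t := by rw [ht]; field_simp
  have t2 : (1 / (D.H : ℝ)) ^ 2 = t := by rw [ht]; field_simp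
  have t3 : 4 / (D.H : ℝ) ^ 4 / D.H ≤ 4 * t := by
    rw [ht, div_div, mul_one_div, ← pow_succ]
    gcongr
    · linarith
    · norm_num
  rw [t1, t2] at a1 a2
  rw [t2] at a3
  have ht0 : 0 ≤ t := by positivity
  have hA4 : D.A ^ 4 ≤ D.A ^ 5 := pow_le_pow_right₀ hA1 (by norm_num)
  have hA5 : D.A ≤ D.A ^ 5 := le_self_pow₀ hA1 (by norm_num)
  have r1 : C1 * D.A ^ 4 * (t + t) ≤ C1 * D.A ^ 5 * (t + t) := by gcongr
  have r2 : C2 * D.A ^ 5 * (t + t + 4 / (D.H : ℝ) ^ 4 / D.H) ≤ C2 * D.A ^ 5 * (t + t + 4 * t) := by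
    gcongr
  have r3 : C3 * D.A * t ≤ C3 * D.A ^ 5 * t := by gcongr
  have r4 : 0 ≤ C3 * D.A ^ 5 * t := by positivity
  have e : (2 * C1 + 6 * C2 + C3) * D.A ^ 5 / (D.H : ℝ) ^ 2 = C1 * D.A ^ 5 * (t + t) +
      C2 * D.A ^ 5 * (t + t + 4 * t) + C3 * D.A ^ 5 * t := by rw [ht]; ring
  rw [LatD.U, pt_Vn_split D (1 / D.H), mul_add, e]
  rw [abs_le] at a1 a2 ⊢
  constructor <;> linarith [a1.1, a1.2, a2.1, a2.2]

/-- `U - TT (Nk 1 (x - ·)) = TV (K2 1) + TZ (K2 1) + (Far K + E₀) + (1 - π/p) (κ ‖x‖² + Vc x)` -/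
theorem pt_3 : ∃ C : ℝ, 0 < C ∧ ∀ (D : LatD) (x : Pos3), ‖x‖ ≤ D.r₀ →
    |D.U x - D.TT fun y => Nk 1 (x - y)| ≤ C * D.A ^ 5 / (D.H : ℝ) ^ 4 := by
  obtain ⟨C1, hC1, h1⟩ := far_E
  obtain ⟨C2, hC2, h2⟩ := mq_V
  obtain ⟨C3, hC3, h3⟩ := mq_Z
  obtain ⟨C4, hC4, h4⟩ := env_K2
  obtain ⟨Z, hZ, -, hZ2⟩ := cut_bounds
  refine ⟨C1 + C2 * (C4 + 4) + C3 * C4 + 2, by positivity, fun D x hx => ?_⟩
  have hH := D.H_pos
  have hH8 := D.H_ge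
  have hA := D.A_ge
  have hA1 : 1 ≤ D.A := by linarith
  have h4096 := pt_H4 D
  have hr := D.inp.r_bd
  have hl := pt_inv_H_le_one D
  have hx4 : ‖x‖ ≤ 4 * D.r₀ := by linarith [hr.1]
  have a1 := h1 D x hx4
  have a2 := h2 D _ x 1 C4 _ (h4 1 x one_pos) hl le_rfl (pt_K2_far D hx one_pos)
  have a3 := h3 D _ x 1 C4 (h4 1 x one_pos) hl le_rfl
  have a7 := pt_pi_p' D
  have hS := hZ2 ((D.H : ℝ) ^ 4) (by linarith)
  have i1 := integrable_mul_Nk one_pos (continuous_lap (pt_Vc_c2 D)) D.inp.lap_le x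
  have i2 := integrable_mul_Nk one_pos hS.1.continuous hS.abs_le x
  have e1 := pt_Far_split D.q D.H 1 x
  have e2 := pt_rep_Psi D hx4 one_pos
  have e3 := rep (pt_Vc_c2 D) (suppIn_cs D.inp.supp) one_pos x
  have hp := D.p_ge
  have hκ := D.κ_pos
  have hκA := D.inp.κ_bd.2
  have e4 : D.U x - D.TT (fun y => Nk 1 (x - y)) =
      D.TV (fun y => K2 1 (x - y)) + D.TZ (fun y => K2 1 (x - y)) +
        (Far D.q D.H (fun y => 1 / ‖x - y‖) + D.E₀) +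
        (D.κ * ‖x‖ ^ 2 + D.Vc x) * (1 - Real.pi / D.p) := by
    rw [TT_eq D i1 i2]
    unfold LatD.U LatD.TV LatD.TZ
    rw [pt_Vn_split D 1, e1, e2, e3]
    field_simp
    ring
  have hx2 : ‖x‖ ≤ D.A := hx.trans hr.2
  have hA3 : D.A ^ 3 ≤ D.A ^ 5 := pow_le_pow_right₀ hA1 (by norm_num)
  have hA4 : D.A ^ 4 ≤ D.A ^ 5 := pow_le_pow_right₀ hA1 (by norm_num)
  have hA5 : D.A ≤ D.A ^ 5 := le_self_pow₀ hA1 (by norm_num)
  set t := 1 / (D.H : ℝ) ^ 4 with ht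
  have ht0 : 0 ≤ t := by positivity
  have b7 : |(D.κ * ‖x‖ ^ 2 + D.Vc x) * (1 - Real.pi / D.p)| ≤ 2 * D.A ^ 5 * t := by
    rw [abs_mul]
    refine mul_le_mul ((abs_add_le _ _).trans ?_) a7 (abs_nonneg _) (by positivity)
    have b1 : |D.κ * ‖x‖ ^ 2| ≤ D.A * D.A ^ 2 := by
      rw [abs_of_nonneg (by positivity)]; gcongr
    have b2 := D.inp.sb.oi_abs_le x
    nlinarith
  have r1 : C1 * D.A ^ 4 / (D.H : ℝ) ^ 4 ≤ C1 * (D.A ^ 5 * t) := by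
    calc _ = C1 * (D.A ^ 4 * t) := by rw [ht]; ring
      _ ≤ _ := by gcongr
  have t3 : 4 / (D.H : ℝ) ^ 4 / D.H ≤ 4 * t := by
    rw [ht, mul_one_div]
    exact div_le_self (by positivity) (by linarith)
  have t4 : C4 / ((D.H : ℝ) ^ 4 * 1 ^ 2) = C4 * t := by rw [ht]; ring
  rw [t4] at a2 a3
  have r2 : C2 * D.A ^ 5 * (C4 * t + 4 / (D.H : ℝ) ^ 4 / D.H) ≤ C2 * (C4 + 4) * (D.A ^ 5 * t) := by
    calc _ ≤ C2 * D.A ^ 5 * (C4 * t + 4 * t) := by gcongr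
      _ = _ := by ring
  have r3 : C3 * D.A * (C4 * t) ≤ C3 * C4 * (D.A ^ 5 * t) := by
    calc _ ≤ C3 * D.A ^ 5 * (C4 * t) := by gcongr
      _ = _ := by ring
  have e : (C1 + C2 * (C4 + 4) + C3 * C4 + 2) * D.A ^ 5 / (D.H : ℝ) ^ 4 =
      C1 * (D.A ^ 5 * t) + C2 * (C4 + 4) * (D.A ^ 5 * t) + C3 * C4 * (D.A ^ 5 * t) +
        2 * D.A ^ 5 * t := by rw [ht]; ring
  rw [e4, e]
  rw [abs_le] at a1 a2 a3 b7 ⊢
  constructor <;> linarith [a1.1, a1.2, a2.1, a2.2, a3.1, a3.2, b7.1, b7.2]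

end Crest.Agent.R338.Disc
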