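import Crest.Agent.R338.DEM
import Crest.Agent.R338.DProd

/-! Row 338, module D: fourth order lattice quadrature. -/

set_option autoImplicit false

open MeasureTheory Crest.MathPhysics.ElectronicCoulomb Finset

namespace Crest.Agent.R338.Disc

/-- the coordinate map as a measurable equivalence -/
noncomputable def DQT_eqv : (ℝ × ℝ × ℝ) ≃ᵐ Pos3 :=
  ((MeasurableEquiv.refl ℝ).prodCongr (MeasurableEquiv.finTwoArrow (α := ℝ)).symm).trans
    ((MeasurableEquiv.piFinSuccAbove (fun _ : Fin 3 => ℝ) 0).symm.trans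
      (MeasurableEquiv.toLp 2 (Fin 3 → ℝ)))

lemma DQT_eqv_apply (p : ℝ × ℝ × ℝ) : DQT_eqv p = mk3 p.1 p.2.1 p.2.2 := by
  ext i
  fin_cases i <;> rfl

lemma DQT_mp : MeasurePreserving DQT_eqv volume volume := by
  have h1 : MeasurePreserving
      ((MeasurableEquiv.refl ℝ).prodCongr (MeasurableEquiv.finTwoArrow (α := ℝ)).symm)
      (volume : Measure (ℝ × ℝ × ℝ)) (volume : Measure (ℝ × (Fin 2 → ℝ))) :=
    (MeasurePreserving.id (volume : Measure ℝ)).prod (volume_preserving_finTwoArrow ℝ).symm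
  have h2 := (volume_preserving_piFinSuccAbove (fun _ : Fin 3 => ℝ) 0).symm
  have h3 := (EuclideanSpace.volume_preserving_symm_measurableEquiv_toLp (Fin 3)).symm
  exact h1.trans (h2.trans h3)

lemma DQT_integrable {F : Pos3 → ℝ} (hF : Integrable F) :
    Integrable (fun p : ℝ × ℝ × ℝ => F (mk3 p.1 p.2.1 p.2.2)) := by
  have h := (DQT_mp.integrable_comp_emb DQT_eqv.measurableEmbedding).2 hF
  refine h.congr (Filter.Eventually.of_forall fun p => ?_)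
  simp only [Function.comp_apply, DQT_eqv_apply]

/-- Fubini in coordinates -/
lemma integral_pos3 {F : Pos3 → ℝ} (hF : Integrable F) :
    ∫ x, F x = ∫ a : ℝ, ∫ b : ℝ, ∫ c : ℝ, F (mk3 a b c) := by
  have hG := DQT_integrable hF
  have h1 : ∫ x, F x = ∫ p : ℝ × ℝ × ℝ, F (mk3 p.1 p.2.1 p.2.2) := by
    rw [← DQT_mp.integral_comp' F]
    simp only [DQT_eqv_apply]
  rw [h1, Measure.volume_eq_prod, integral_prod _ hG]
  refine integral_congr_ae ?_
  filter_upwards [hG.prod_right_ae] with a ha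
  exact integral_prod _ ha

/-- a sum of a function with a Cauchy majorant -/
lemma DQT_sum {h l : ℝ} (hh : 0 < h) (hl : h ≤ l) (h1 : h ≤ 1) (n N : ℕ) {x α β : ℝ}
    (hα : 0 ≤ α) (hβ : 0 ≤ β) {u : ℝ → ℝ}
    (hu : ∀ t, |u t| ≤ α * (1 / ((t - x) ^ 2 + l ^ 2)) + β * (1 / ((t - 0) ^ 2 + 1 ^ 2))) :
    |h * ∑ a ∈ range N, u (cr h n a)| ≤ 10 * α / l + 10 * β := by
  have a1 := sum_cauchy hh hl n N x
  have a2 := sum_cauchy hh h1 n N 0
  rw [abs_mul, abs_of_pos hh]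
  calc h * |∑ a ∈ range N, u (cr h n a)|
      ≤ h * ∑ a ∈ range N, (α * (1 / ((cr h n a - x) ^ 2 + l ^ 2)) +
          β * (1 / ((cr h n a - 0) ^ 2 + 1 ^ 2))) := by
        gcongr
        exact (abs_sum_le_sum_abs _ _).trans (sum_le_sum fun a _ => hu _)
    _ = α * (h * ∑ a ∈ range N, 1 / ((cr h n a - x) ^ 2 + l ^ 2)) +
          β * (h * ∑ a ∈ range N, 1 / ((cr h n a - 0) ^ 2 + 1 ^ 2)) := by
        rw [sum_add_distrib, ← mul_sum, ← mul_sum]; ring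
    _ ≤ α * (10 / l) + β * (10 / 1) := by gcongr
    _ = 10 * α / l + 10 * β := by ring

/-- an integral of a function with a Cauchy majorant -/
lemma DQT_int {l : ℝ} (hl : 0 < l) {x α β : ℝ} (hα : 0 ≤ α) (hβ : 0 ≤ β) {u : ℝ → ℝ}
    (hu : ∀ t, |u t| ≤ α * (1 / ((t - x) ^ 2 + l ^ 2)) + β * (1 / ((t - 0) ^ 2 + 1 ^ 2))) :
    |∫ t, u t| ≤ 10 * α / l + 10 * β := by
  have i1 := integrable_cauchy hl x
  have i2 := integrable_cauchy one_pos 0
  have hpi : Real.pi ≤ 10 := by linarith [Real.pi_lt_four]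
  have := norm_integral_le_of_norm_le (f := u) ((i1.const_mul α).add (i2.const_mul β))
    (Filter.Eventually.of_forall hu)
  rw [Real.norm_eq_abs] at this
  refine this.trans ?_
  simp only [Pi.add_apply]
  rw [integral_add (i1.const_mul α) (i2.const_mul β), integral_const_mul, integral_const_mul,
    integral_cauchy hl, integral_cauchy one_pos]
  calc α * (Real.pi / l) + β * (Real.pi / 1) ≤ α * (10 / l) + β * (10 / 1) := by gcongr
    _ = 10 * α / l + 10 * β := by ring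

/-- the estimate along one line -/
lemma DQT_line {φ ρ σ : ℝ → ℝ} (hφ : ContDiff ℝ 4 φ) {h R l M₁ M₂ u v w v' w' : ℝ} {n : ℕ}
    (hh : 0 < h) (hl : 0 < l) (hR : R < n * h) (h0 : ∀ t, R ≤ |t| → φ t = 0)
    (hM₁ : 0 ≤ M₁) (hM₂ : 0 ≤ M₂) (hρ : ∀ t, 0 < ρ t) (hσ : ∀ t, 0 < σ t)
    (hρ2 : ∀ t, ρ t ^ 2 = (t - u) ^ 2 + v ^ 2 + w ^ 2 + l ^ 2)
    (hσ2 : ∀ t, σ t ^ 2 = (t - 0) ^ 2 + v' ^ 2 + w' ^ 2 + 1 ^ 2)
    (hb : ∀ t, |iteratedDeriv 4 φ t| ≤ M₁ / ρ t ^ 5 + M₂ / σ t ^ 5) :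
    |h * ∑ a ∈ range (2 * n + 1), φ (cr h n a) - ∫ t, φ t| ≤
      (4 * h ^ 4 * M₁ * (1 / (v ^ 2 + l ^ 2))) * (1 / (w ^ 2 + l ^ 2)) +
      (4 * h ^ 4 * M₂ * (1 / (v' ^ 2 + 1 ^ 2))) * (1 / (w' ^ 2 + 1 ^ 2)) := by
  set s := √(v ^ 2 + w ^ 2 + l ^ 2) with hs
  set s' := √(v' ^ 2 + w' ^ 2 + 1 ^ 2) with hs'
  have hs0 : 0 < s := Real.sqrt_pos.2 (by positivity)
  have hs0' : 0 < s' := Real.sqrt_pos.2 (by positivity)
  have i1 := (integrable_cauchy hs0 u).const_mul (M₁ / s ^ 3)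
  have i2 := (integrable_cauchy hs0' 0).const_mul (M₂ / s' ^ 3)
  have key := em1 (m := fun t => M₁ / s ^ 3 * (1 / ((t - u) ^ 2 + s ^ 2)) +
      M₂ / s' ^ 3 * (1 / ((t - 0) ^ 2 + s' ^ 2))) hφ hh hR h0 (i1.add i2) (fun t => by
    refine (hb t).trans (add_le_add ?_ ?_)
    · have := inv_rho5_le hl (hρ t) (hρ2 t)
      calc M₁ / ρ t ^ 5 = M₁ * (1 / ρ t ^ 5) := by ring
        _ ≤ M₁ * (1 / s ^ 3 * (1 / ((t - u) ^ 2 + s ^ 2))) := by gcongr
        _ = _ := by ring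
    · have := inv_rho5_le one_pos (hσ t) (hσ2 t)
      calc M₂ / σ t ^ 5 = M₂ * (1 / σ t ^ 5) := by ring
        _ ≤ M₂ * (1 / s' ^ 3 * (1 / ((t - 0) ^ 2 + s' ^ 2))) := by gcongr
        _ = _ := by ring)
  refine key.trans ?_
  rw [integral_add i1 i2, integral_const_mul, integral_const_mul, integral_cauchy hs0,
    integral_cauchy hs0']
  have b1 := inv_s4_le hl v w
  have b2 := inv_s4_le one_pos v' w'
  have hpi : Real.pi ≤ 4 := Real.pi_le_four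
  calc h ^ 4 * (M₁ / s ^ 3 * (Real.pi / s) + M₂ / s' ^ 3 * (Real.pi / s'))
      = Real.pi * h ^ 4 * M₁ * (1 / s ^ 4) + Real.pi * h ^ 4 * M₂ * (1 / s' ^ 4) := by
        field_simp
    _ ≤ 4 * h ^ 4 * M₁ * (1 / (v ^ 2 + l ^ 2) * (1 / (w ^ 2 + l ^ 2))) +
        4 * h ^ 4 * M₂ * (1 / (v' ^ 2 + 1 ^ 2) * (1 / (w' ^ 2 + 1 ^ 2))) := by gcongr
    _ = _ := by ring

lemma DQT_int1 {g : ℝ → ℝ} (hg : Continuous g) {R : ℝ} (h0 : ∀ t, R ≤ |t| → g t = 0) :
    Integrable g :=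
  hg.integrable_of_hasCompactSupport (HasCompactSupport.intro (isCompact_closedBall (0 : ℝ) R)
    fun t ht => h0 t (le_of_lt (by simpa using ht)))

lemma DQT_int2 {g : ℝ × ℝ → ℝ} (hg : Continuous g) {R : ℝ}
    (h0 : ∀ p : ℝ × ℝ, (R ≤ |p.1| ∨ R ≤ |p.2|) → g p = 0) : Integrable g :=
  hg.integrable_of_hasCompactSupport (HasCompactSupport.intro (isCompact_closedBall (0 : ℝ × ℝ) R)
    fun p hp => h0 p (by
      have : R < ‖p‖ := by simpa using hp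
      rw [Prod.norm_def, lt_max_iff] at this
      exact this.imp (fun h => le_of_lt (by simpa using h)) fun h => le_of_lt (by simpa using h)))

/-- the telescoping identity -/
lemma DQT_tele {F : Pos3 → ℝ} (hF : Continuous F) {R : ℝ} (hs : SuppIn R F) (h : ℝ) (n : ℕ) :
    h ^ 3 * S3 n (fun a b c => F (lpt h n a b c)) - ∫ y, F y =
      h * ∑ b ∈ range (2 * n + 1), (fun b : ℝ => h * ∑ c ∈ range (2 * n + 1), (fun c : ℝ =>
          h * ∑ a ∈ range (2 * n + 1), F (mk3 (cr h n a) b c) - ∫ a, F (mk3 a b c)) (cr h n c))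
            (cr h n b) +
      h * ∑ c ∈ range (2 * n + 1), (fun c : ℝ => ∫ a : ℝ,
          (h * ∑ b ∈ range (2 * n + 1), F (mk3 a (cr h n b) c) - ∫ b, F (mk3 a b c))) (cr h n c) +
      ∫ a : ℝ, ∫ b : ℝ,
          (h * ∑ c ∈ range (2 * n + 1), F (mk3 a b (cr h n c)) - ∫ c, F (mk3 a b c)) := by
  have hG : Continuous fun p : ℝ × ℝ × ℝ => F (mk3 p.1 p.2.1 p.2.2) := hF.comp continuous_mk3
  have z0 : ∀ a b c, R ≤ |a| → F (mk3 a b c) = 0 := fun a b c ha =>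
    hs _ (ha.trans (abs_coord_le (mk3 a b c) 0))
  have z1 : ∀ a b c, R ≤ |b| → F (mk3 a b c) = 0 := fun a b c ha =>
    hs _ (ha.trans (abs_coord_le (mk3 a b c) 1))
  have z2 : ∀ a b c, R ≤ |c| → F (mk3 a b c) = 0 := fun a b c ha =>
    hs _ (ha.trans (abs_coord_le (mk3 a b c) 2))
  have hFi : Integrable F := hF.integrable_of_hasCompactSupport (suppIn_cs hs)
  have ia : ∀ b c, Integrable fun a => F (mk3 a b c) := fun b c =>
    DQT_int1 (hG.comp (by fun_prop : Continuous fun a : ℝ => (a, b, c))) fun t ht => z0 _ _ _ ht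
  have ib : ∀ a c, Integrable fun b => F (mk3 a b c) := fun a c =>
    DQT_int1 (hG.comp (by fun_prop : Continuous fun b : ℝ => (a, b, c))) fun t ht => z1 _ _ _ ht
  have iab : ∀ c, Integrable fun p : ℝ × ℝ => F (mk3 p.1 p.2 c) := fun c =>
    DQT_int2 (hG.comp (by fun_prop : Continuous fun p : ℝ × ℝ => (p.1, p.2, c)))
      fun p hp => hp.elim (z0 _ _ _) (z1 _ _ _)
  have ibc : ∀ a, Integrable fun p : ℝ × ℝ => F (mk3 a p.1 p.2) := fun a =>
    DQT_int2 (hG.comp (by fun_prop : Continuous fun p : ℝ × ℝ => (a, p.1, p.2)))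
      fun p hp => hp.elim (z1 _ _ _) (z2 _ _ _)
  have ja : ∀ c, Integrable fun a => ∫ b, F (mk3 a b c) := fun c =>
    (iab c).integral_prod_left
  have jb : ∀ a, Integrable fun b => ∫ c, F (mk3 a b c) := fun a =>
    (ibc a).integral_prod_left
  have ka : Integrable fun a => ∫ b, ∫ c, F (mk3 a b c) := by
    have := (DQT_integrable hFi).integral_prod_left
    refine this.congr (Filter.Eventually.of_forall fun a => ?_)
    exact integral_prod _ (ibc a)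
  have e2 : ∀ c : ℝ, (∫ a : ℝ,
      (h * ∑ b ∈ range (2 * n + 1), F (mk3 a (cr h n b) c) - ∫ b, F (mk3 a b c))) =
      h * ∑ b ∈ range (2 * n + 1), (∫ a, F (mk3 a (cr h n b) c)) - ∫ a, ∫ b, F (mk3 a b c) := by
    intro c
    rw [integral_sub ((integrable_finsetSum _ fun b _ => ia _ _).const_mul h) (ja c),
      integral_const_mul, integral_finsetSum _ fun b _ => ia _ _]
  have e3' : ∀ a : ℝ, (∫ b : ℝ,
      (h * ∑ c ∈ range (2 * n + 1), F (mk3 a b (cr h n c)) - ∫ c, F (mk3 a b c))) =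
      h * ∑ c ∈ range (2 * n + 1), (∫ b, F (mk3 a b (cr h n c))) - ∫ b, ∫ c, F (mk3 a b c) := by
    intro a
    rw [integral_sub ((integrable_finsetSum _ fun b _ => ib _ _).const_mul h) (jb a),
      integral_const_mul, integral_finsetSum _ fun b _ => ib _ _]
  have e3 : (∫ a : ℝ, ∫ b : ℝ,
      (h * ∑ c ∈ range (2 * n + 1), F (mk3 a b (cr h n c)) - ∫ c, F (mk3 a b c))) =
      h * ∑ c ∈ range (2 * n + 1), (∫ a, ∫ b, F (mk3 a b (cr h n c))) - ∫ y, F y := by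
    simp only [e3']
    rw [integral_sub ((integrable_finsetSum _ fun b _ => ja _).const_mul h) ka,
      integral_const_mul, integral_finsetSum _ fun b _ => ja _, integral_pos3 hFi]
  rw [e3]
  simp only [e2, sum_sub_distrib, mul_sub, ← mul_sum]
  have s1 : S3 n (fun a b c => F (lpt h n a b c)) = ∑ b ∈ range (2 * n + 1),
      ∑ c ∈ range (2 * n + 1), ∑ a ∈ range (2 * n + 1),
        F (mk3 (cr h n a) (cr h n b) (cr h n c)) := by
    unfold S3 lpt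
    rw [sum_comm]
    exact sum_congr rfl fun b _ => sum_comm
  have s2 : ∑ c ∈ range (2 * n + 1), ∑ b ∈ range (2 * n + 1), ∫ a, F (mk3 a (cr h n b) (cr h n c)) =
      ∑ b ∈ range (2 * n + 1), ∑ c ∈ range (2 * n + 1), ∫ a, F (mk3 a (cr h n b) (cr h n c)) :=
    sum_comm
  rw [s1, s2]
  ring

/-- With `G a b c = F (mk3 a b c)`, `S_i` the one-dimensional sums and `I_i` the integrals:
`S₁S₂S₃ - I₁I₂I₃ = S₂S₃(S₁ - I₁) + I₁S₃(S₂ - I₂) + I₁I₂(S₃ - I₃)`.  The brackets are estimated by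
`em1` with the majorant `inv_rho5_le` (integral `π / s⁴`, `integral_cauchy`), then `inv_s4_le`,
`sum_cauchy`, `integral_cauchy`.  (`G` is continuous with compact support, so all the partial
integrals are integrable: `Integrable.integral_prod_left`, or continuity of parametric integrals.) -/
theorem qt0 : ∃ C : ℝ, 0 < C ∧ ∀ (F : Pos3 → ℝ) (n : ℕ) (h R l M₁ M₂ : ℝ) (x₀ : Pos3),
    ContDiff ℝ 4 F → SuppIn R F → R < n * h → 0 < h → h ≤ l → h ≤ 1 → 0 ≤ M₁ → 0 ≤ M₂ →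
    (∀ i y, |LD F i 4 y| ≤ M₁ / rho l (y - x₀) ^ 5 + M₂ / rho 1 y ^ 5) →
    |h ^ 3 * S3 n (fun a b c => F (lpt h n a b c)) - ∫ y, F y| ≤
      C * h ^ 4 * (M₁ / l ^ 2 + M₂) := by
  refine ⟨1200, by norm_num, fun F n h R l M₁ M₂ x₀ hF hs hR hh hl h1 hM₁ hM₂ hb => ?_⟩
  have hl0 : 0 < l := hh.trans_le hl
  have rsq : ∀ a b c : ℝ, rho l (mk3 a b c - x₀) ^ 2 =
      (a - x₀ 0) ^ 2 + (b - x₀ 1) ^ 2 + (c - x₀ 2) ^ 2 + l ^ 2 := by
    intro a b c
    rw [rho_sq, norm_sq_coord]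
    simp
  have ssq : ∀ a b c : ℝ, rho 1 (mk3 a b c) ^ 2 =
      (a - 0) ^ 2 + (b - 0) ^ 2 + (c - 0) ^ 2 + 1 ^ 2 := by
    intro a b c
    rw [rho_sq, norm_sq_mk3]
    ring
  have E0 : ∀ b c : ℝ,
      |h * ∑ a ∈ range (2 * n + 1), F (mk3 (cr h n a) b c) - ∫ a, F (mk3 a b c)| ≤
      (4 * h ^ 4 * M₁ * (1 / ((b - x₀ 1) ^ 2 + l ^ 2))) * (1 / ((c - x₀ 2) ^ 2 + l ^ 2)) +
      (4 * h ^ 4 * M₂ * (1 / ((b - 0) ^ 2 + 1 ^ 2))) * (1 / ((c - 0) ^ 2 + 1 ^ 2)) := by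
    intro b c
    have e : (fun t : ℝ => F (mk3 t b c)) = fun t : ℝ => F (mk3 0 b c + t • uv 0) := by
      funext t; rw [mk3_add_uv0, zero_add]
    refine DQT_line (φ := fun t => F (mk3 t b c)) (ρ := fun t => rho l (mk3 t b c - x₀))
      (σ := fun t => rho 1 (mk3 t b c)) (u := x₀ 0) (by rw [e]; exact contDiff_line hF 0 _)
      hh hl0 hR (fun t ht => hs _ (ht.trans (abs_coord_le (mk3 t b c) 0))) hM₁ hM₂
      (fun t => rho_pos hl0 _) (fun t => rho_pos one_pos _) (fun t => rsq t b c)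
      (fun t => ssq t b c) fun t => ?_
    rw [e, iteratedDeriv_line, mk3_add_uv0, zero_add]
    exact hb 0 _
  have E1 : ∀ c a : ℝ,
      |h * ∑ b ∈ range (2 * n + 1), F (mk3 a (cr h n b) c) - ∫ b, F (mk3 a b c)| ≤
      (4 * h ^ 4 * M₁ * (1 / ((c - x₀ 2) ^ 2 + l ^ 2))) * (1 / ((a - x₀ 0) ^ 2 + l ^ 2)) +
      (4 * h ^ 4 * M₂ * (1 / ((c - 0) ^ 2 + 1 ^ 2))) * (1 / ((a - 0) ^ 2 + 1 ^ 2)) := by
    intro c a
    have e : (fun t : ℝ => F (mk3 a t c)) = fun t : ℝ => F (mk3 a 0 c + t • uv 1) := by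
      funext t; rw [mk3_add_uv1, zero_add]
    refine DQT_line (φ := fun t => F (mk3 a t c)) (ρ := fun t => rho l (mk3 a t c - x₀))
      (σ := fun t => rho 1 (mk3 a t c)) (u := x₀ 1) (by rw [e]; exact contDiff_line hF 1 _)
      hh hl0 hR (fun t ht => hs _ (ht.trans (abs_coord_le (mk3 a t c) 1))) hM₁ hM₂
      (fun t => rho_pos hl0 _) (fun t => rho_pos one_pos _) (fun t => by rw [rsq]; ring)
      (fun t => by rw [ssq]; ring) fun t => ?_
    rw [e, iteratedDeriv_line, mk3_add_uv1, zero_add]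
    exact hb 1 _
  have E2 : ∀ a b : ℝ,
      |h * ∑ c ∈ range (2 * n + 1), F (mk3 a b (cr h n c)) - ∫ c, F (mk3 a b c)| ≤
      (4 * h ^ 4 * M₁ * (1 / ((a - x₀ 0) ^ 2 + l ^ 2))) * (1 / ((b - x₀ 1) ^ 2 + l ^ 2)) +
      (4 * h ^ 4 * M₂ * (1 / ((a - 0) ^ 2 + 1 ^ 2))) * (1 / ((b - 0) ^ 2 + 1 ^ 2)) := by
    intro a b
    have e : (fun t : ℝ => F (mk3 a b t)) = fun t : ℝ => F (mk3 a b 0 + t • uv 2) := by
      funext t; rw [mk3_add_uv2, zero_add]
    refine DQT_line (φ := fun t => F (mk3 a b t)) (ρ := fun t => rho l (mk3 a b t - x₀))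
      (σ := fun t => rho 1 (mk3 a b t)) (u := x₀ 2) (by rw [e]; exact contDiff_line hF 2 _)
      hh hl0 hR (fun t ht => hs _ (ht.trans (abs_coord_le (mk3 a b t) 2))) hM₁ hM₂
      (fun t => rho_pos hl0 _) (fun t => rho_pos one_pos _) (fun t => by rw [rsq]; ring)
      (fun t => by rw [ssq]; ring) fun t => ?_
    rw [e, iteratedDeriv_line, mk3_add_uv2, zero_add]
    exact hb 2 _
  have cv : ∀ p q : ℝ, 10 * (4 * h ^ 4 * M₁ * p) / l + 10 * (4 * h ^ 4 * M₂ * q) =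
      (40 * h ^ 4 * M₁ / l) * p + (40 * h ^ 4 * M₂) * q := fun p q => by ring
  have fin : 10 * (40 * h ^ 4 * M₁ / l) / l + 10 * (40 * h ^ 4 * M₂) =
      400 * h ^ 4 * (M₁ / l ^ 2 + M₂) := by field_simp; ring
  have B0 := DQT_sum hh hl h1 n (2 * n + 1) (x := x₀ 1) (α := 40 * h ^ 4 * M₁ / l)
    (β := 40 * h ^ 4 * M₂) (by positivity) (by positivity)
    (u := fun b : ℝ => h * ∑ c ∈ range (2 * n + 1), (fun c : ℝ =>
      h * ∑ a ∈ range (2 * n + 1), F (mk3 (cr h n a) b c) - ∫ a, F (mk3 a b c)) (cr h n c))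
    (fun b => (DQT_sum hh hl h1 n (2 * n + 1) (by positivity) (by positivity) (E0 b)).trans_eq
      (cv _ _))
  have B1 := DQT_sum hh hl h1 n (2 * n + 1) (x := x₀ 2) (α := 40 * h ^ 4 * M₁ / l)
    (β := 40 * h ^ 4 * M₂) (by positivity) (by positivity)
    (u := fun c : ℝ => ∫ a : ℝ,
      (h * ∑ b ∈ range (2 * n + 1), F (mk3 a (cr h n b) c) - ∫ b, F (mk3 a b c)))
    (fun c => (DQT_int hl0 (by positivity) (by positivity) (E1 c)).trans_eq (cv _ _))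
  have B2 := DQT_int hl0 (x := x₀ 0) (α := 40 * h ^ 4 * M₁ / l)
    (β := 40 * h ^ 4 * M₂) (by positivity) (by positivity)
    (u := fun a : ℝ => ∫ b : ℝ,
      (h * ∑ c ∈ range (2 * n + 1), F (mk3 a b (cr h n c)) - ∫ c, F (mk3 a b c)))
    (fun a => (DQT_int hl0 (by positivity) (by positivity) (E2 a)).trans_eq (cv _ _))
  rw [DQT_tele hF.continuous hs h n]
  rw [fin] at B0 B1 B2
  refine (abs_add_three _ _ _).trans ?_
  linarith

/-- `qt0` and `leibniz4` -/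
theorem qt1 : ∃ C : ℝ, 0 < C ∧ ∀ (a f : Pos3 → ℝ) (n : ℕ) (h R l Λ M : ℝ) (x₀ : Pos3),
    Sym a Λ → SuppIn R a → Env f x₀ l M → R < n * h → 0 < h → h ≤ l → l ≤ 1 →
    |h ^ 3 * S3 n (fun i j k => a (lpt h n i j k) * f (lpt h n i j k)) - ∫ y, a y * f y| ≤
      C * Λ * M * h ^ 4 / l ^ 2 := by
  obtain ⟨C, hC, H⟩ := qt0
  refine ⟨32 * C, by positivity, fun a f n h R l Λ M x₀ ha hs hf hR hh hl hl1 => ?_⟩
  have hl0 : 0 < l := hh.trans_le hl
  have hΛ := ha.nonneg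
  have hM := hf.nonneg hl0
  have key := H (fun y => a y * f y) n h R l (16 * Λ * M) (16 * Λ * M) x₀ (ha.1.mul hf.1)
    (fun x hx => by simp only [hs x hx, zero_mul]) hR hh hl (hl.trans hl1) (by positivity)
    (by positivity) (fun i y => leibniz4 ha hf hl0 i y)
  refine key.trans ?_
  have h1 : 16 * Λ * M ≤ 16 * Λ * M / l ^ 2 := by
    rw [le_div_iff₀ (by positivity)]
    have : l ^ 2 ≤ 1 := by nlinarith
    have h2 : 0 ≤ 16 * Λ * M := by positivity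
    nlinarith
  calc C * h ^ 4 * (16 * Λ * M / l ^ 2 + 16 * Λ * M)
      ≤ C * h ^ 4 * (16 * Λ * M / l ^ 2 + 16 * Λ * M / l ^ 2) := by gcongr
    _ = 32 * C * Λ * M * h ^ 4 / l ^ 2 := by ring

end Crest.Agent.R338.Disc
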