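import Crest.Agent.R338.DInt

/-! Row 338, module D: the Newton representation. -/

set_option autoImplicit false

open MeasureTheory Crest.MathPhysics.ElectronicCoulomb Finset

namespace Crest.Agent.R338.Disc

lemma drep_contDiff_pd {a : Pos3 → ℝ} (ha : ContDiff ℝ 2 a) (k : Fin 3) : ContDiff ℝ 1 (pd k a) :=
  (ha.fderiv_right (m := 1) (by norm_num)).clm_apply contDiff_const

lemma drep_continuous_pd {a : Pos3 → ℝ} (ha : ContDiff ℝ 1 a) (k : Fin 3) : Continuous (pd k a) :=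
  (ha.continuous_fderiv one_ne_zero).clm_apply continuous_const

lemma drep_cs_pd {a : Pos3 → ℝ} (hc : HasCompactSupport a) (k : Fin 3) :
    HasCompactSupport (pd k a) := hc.fderiv_apply (𝕜 := ℝ) _

lemma drep_ibp {a b : Pos3 → ℝ} (ha : ContDiff ℝ 1 a) (hc : HasCompactSupport a)
    (hb : ContDiff ℝ 1 b) (k : Fin 3) : ∫ y, a y * pd k b y = -∫ y, pd k a y * b y :=
  integral_mul_fderiv_eq_neg_fderiv_mul_of_integrable
    (((drep_continuous_pd ha k).mul hb.continuous).integrable_of_hasCompactSupport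
      (drep_cs_pd hc k).mul_right)
    ((ha.continuous.mul (drep_continuous_pd hb k)).integrable_of_hasCompactSupport hc.mul_right)
    ((ha.continuous.mul hb.continuous).integrable_of_hasCompactSupport hc.mul_right)
    (fun x _ => ha.differentiable one_ne_zero x) (fun x _ => hb.differentiable one_ne_zero x)

/-- Green's identity (`integral_mul_fderiv_eq_neg_fderiv_mul_of_integrable` twice per direction). -/
lemma green {a b : Pos3 → ℝ} (ha : ContDiff ℝ 2 a) (hc : HasCompactSupport a)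
    (hb : ContDiff ℝ 2 b) : ∫ y, lap a y * b y = ∫ y, a y * lap b y := by
  have ha1 : ContDiff ℝ 1 a := ha.of_le (by norm_num)
  have hb1 : ContDiff ℝ 1 b := hb.of_le (by norm_num)
  simp only [lap, Finset.sum_mul, Finset.mul_sum]
  have i1 : ∀ k, Integrable fun y => pd k (pd k a) y * b y := fun k =>
    ((drep_continuous_pd (drep_contDiff_pd ha k) k).mul hb.continuous).integrable_of_hasCompactSupport
      (drep_cs_pd (drep_cs_pd hc k) k).mul_right
  have i2 : ∀ k, Integrable fun y => a y * pd k (pd k b) y := fun k =>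
    (ha.continuous.mul (drep_continuous_pd (drep_contDiff_pd hb k) k)).integrable_of_hasCompactSupport
      hc.mul_right
  rw [integral_finsetSum _ fun k _ => i1 k, integral_finsetSum _ fun k _ => i2 k]
  refine Finset.sum_congr rfl fun k _ => ?_
  rw [drep_ibp ha1 hc (drep_contDiff_pd hb k) k,
    drep_ibp (drep_contDiff_pd ha k) (drep_cs_pd hc k) hb1 k, neg_neg]

lemma continuous_lap {a : Pos3 → ℝ} (ha : ContDiff ℝ 2 a) : Continuous (lap a) := by
  unfold lap
  exact continuous_finsetSum _ fun k _ => drep_continuous_pd (drep_contDiff_pd ha k) k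

lemma cs_lap {a : Pos3 → ℝ} (hc : HasCompactSupport a) : HasCompactSupport (lap a) := by
  have h := fun k => drep_cs_pd (drep_cs_pd hc k) k
  have e : lap a = pd 0 (pd 0 a) + pd 1 (pd 1 a) + pd 2 (pd 2 a) := by
    funext x; simp [lap, Fin.sum_univ_three]
  rw [e]
  exact ((h 0).add (h 1)).add (h 2)

lemma drep_hasFDerivAt (x z : Pos3) :
    HasFDerivAt (fun z : Pos3 => ‖z - x‖ ^ 2) (2 • innerSL ℝ (z - x)) z := by
  simpa using ((hasFDerivAt_id z).sub_const x).norm_sq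

lemma drep_pd_radial {β : ℝ → ℝ} (x z : Pos3) (hβ : DifferentiableAt ℝ β (‖z - x‖ ^ 2))
    (k : Fin 3) : pd k (fun z => β (‖z - x‖ ^ 2)) z = deriv β (‖z - x‖ ^ 2) * (2 * (z - x) k) := by
  have h := hβ.hasDerivAt.comp_hasFDerivAt z (drep_hasFDerivAt x z)
  unfold pd
  rw [show (fun z => β (‖z - x‖ ^ 2)) = β ∘ fun z : Pos3 => ‖z - x‖ ^ 2 from rfl, h.fderiv]
  simp [EuclideanSpace.inner_single_right]

/-- radial functions -/
lemma lap_radial {β : ℝ → ℝ} (x y : Pos3) (hβ : ContDiffAt ℝ 2 β (‖y - x‖ ^ 2)) :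
    lap (fun z => β (‖z - x‖ ^ 2)) y =
      6 * deriv β (‖y - x‖ ^ 2) + 4 * ‖y - x‖ ^ 2 * deriv (deriv β) (‖y - x‖ ^ 2) := by
  have hc : ContinuousAt (fun z : Pos3 => ‖z - x‖ ^ 2) y := by fun_prop
  have h1 : ∀ᶠ z in nhds y, DifferentiableAt ℝ β (‖z - x‖ ^ 2) :=
    hc.eventually ((hβ.eventually (by simp)).mono fun t ht => ht.differentiableAt (by norm_num))
  have h2 : DifferentiableAt ℝ (deriv β) (‖y - x‖ ^ 2) :=
    (hβ.derivWithin (m := 1) (by norm_num)).differentiableAt one_ne_zero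
  have h3 : ∀ k, pd k (pd k fun z => β (‖z - x‖ ^ 2)) y =
      2 * deriv β (‖y - x‖ ^ 2) + 4 * (y - x) k ^ 2 * deriv (deriv β) (‖y - x‖ ^ 2) := by
    intro k
    have e : (pd k fun z => β (‖z - x‖ ^ 2)) =ᶠ[nhds y]
        fun z => deriv β (‖z - x‖ ^ 2) * (2 * (z - x) k) :=
      h1.mono fun z hz => drep_pd_radial x z hz k
    have d1 := h2.hasDerivAt.comp_hasFDerivAt y (drep_hasFDerivAt x y)
    have d2 : HasFDerivAt (fun z : Pos3 => 2 * (z - x) k)
        ((2 : ℝ) • (EuclideanSpace.proj k : Pos3 →L[ℝ] ℝ)) y := by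
      have := (((EuclideanSpace.proj k : Pos3 →L[ℝ] ℝ).hasFDerivAt (x := y)).sub_const
        (x k)).const_mul 2
      simpa using this
    have d3 := d1.mul d2
    rw [pd, e.fderiv_eq]
    erw [d3.fderiv]
    simp [EuclideanSpace.inner_single_right]
    ring
  simp only [lap, h3, Fin.sum_univ_three]
  rw [norm_sq_coord (y - x)]
  ring

lemma drep_sqrt {c s : ℝ} (h : 0 < s + c) :
    HasDerivAt (fun s : ℝ => √(s + c)) (1 / (2 * √(s + c))) s := by
  simpa using ((hasDerivAt_id s).add_const c).sqrt h.ne'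

lemma drep_inv_pow {c s : ℝ} (h : 0 < s + c) (n : ℕ) :
    HasDerivAt (fun s : ℝ => 1 / √(s + c) ^ (n + 1)) (-((n + 1) / 2) * (1 / √(s + c) ^ (n + 3))) s := by
  have h0 : 0 < √(s + c) := Real.sqrt_pos.2 h
  have h1 := ((drep_sqrt h).pow (n + 1)).inv (pow_pos h0 _).ne'
  refine (h1.congr_of_eventuallyEq (.of_forall fun t => one_div _)).congr_deriv ?_
  simp only [Pi.pow_apply, Nat.add_sub_cancel]
  push_cast
  field_simp
  ring

lemma lap_K2 {l : ℝ} (hl : 0 < l) (x y : Pos3) :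
    lap (fun z => K2 l (x - z)) y = -(15 / 2 * l ^ 4 / rho l (x - y) ^ 7) := by
  set β : ℝ → ℝ := fun s => 1 / √(s + l ^ 2) ^ (0 + 1) + l ^ 2 / 2 * (1 / √(s + l ^ 2) ^ (2 + 1))
    with hβ
  set β₁ : ℝ → ℝ := fun s => -(1 / 2) * (1 / √(s + l ^ 2) ^ (2 + 1)) +
    l ^ 2 / 2 * (-(3 / 2) * (1 / √(s + l ^ 2) ^ (4 + 1))) with hβ₁
  have e : (fun z => K2 l (x - z)) = fun z => β (‖z - x‖ ^ 2) := by
    funext z
    simp only [hβ, K2, rho, norm_sub_rev x z]
    ring
  have hs : 0 < ‖y - x‖ ^ 2 + l ^ 2 := by positivity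
  have d1 : ∀ s, 0 < s + l ^ 2 → HasDerivAt β (β₁ s) s := fun s h => by
    refine ((drep_inv_pow h 0).add ((drep_inv_pow h 2).const_mul (l ^ 2 / 2))).congr_deriv ?_
    simp only [hβ₁]
    norm_num
  have ev : ∀ᶠ s in nhds (‖y - x‖ ^ 2), 0 < s + l ^ 2 :=
    continuousAt_const.eventually_lt (by fun_prop) hs
  have e1 : deriv β =ᶠ[nhds (‖y - x‖ ^ 2)] β₁ := ev.mono fun s h => (d1 s h).deriv
  have d2 := ((drep_inv_pow hs 2).const_mul (-(1 / 2))).add
    (((drep_inv_pow hs 4).const_mul (-(3 / 2))).const_mul (l ^ 2 / 2))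
  have hc : ContDiffAt ℝ 2 β (‖y - x‖ ^ 2) := by
    have h0 : 0 < √(‖y - x‖ ^ 2 + l ^ 2) := Real.sqrt_pos.2 hs
    have hq : ContDiffAt ℝ 2 (fun s : ℝ => √(s + l ^ 2)) (‖y - x‖ ^ 2) :=
      (contDiffAt_id.add contDiffAt_const).sqrt hs.ne'
    exact (contDiffAt_const.div (hq.pow _) (pow_pos h0 _).ne').add
      (contDiffAt_const.mul (contDiffAt_const.div (hq.pow _) (pow_pos h0 _).ne'))
  rw [e, lap_radial x y hc, e1.deriv_eq, (d1 _ hs).deriv]
  erw [d2.deriv]
  have hr : √(‖y - x‖ ^ 2 + l ^ 2) = rho l (x - y) := by rw [rho, norm_sub_rev]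
  have h2 : ‖y - x‖ ^ 2 = rho l (x - y) ^ 2 - l ^ 2 := by rw [rho_sq, norm_sub_rev]; ring
  simp only [hβ₁, hr]
  rw [h2]
  have := (rho_pos hl (x - y)).ne'
  field_simp
  ring

lemma drep_G (r : ℝ) : HasDerivAt (fun r : ℝ => r ^ 3 * (2 * r ^ 2 + 5) / 2 * (1 / √(r ^ 2 + 1) ^ (4 + 1)))
    (r ^ 2 * (15 / 2 / √(r ^ 2 + 1) ^ 7)) r := by
  have hs : 0 < r ^ 2 + 1 := by positivity
  have h0 : 0 < √(r ^ 2 + 1) := Real.sqrt_pos.2 hs
  have h1 := HasDerivAt.comp (h := fun x : ℝ => x ^ 2) r (drep_inv_pow hs 4) (hasDerivAt_pow 2 r)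
  have h2 := (((hasDerivAt_pow 3 r).mul (((hasDerivAt_pow 2 r).const_mul 2).add_const 5)).div_const
    2).mul h1
  refine h2.congr_deriv ?_
  have h3 : √(r ^ 2 + 1) ^ 2 = r ^ 2 + 1 := Real.sq_sqrt hs.le
  simp only [Function.comp, Pi.mul_apply]
  set ρ := √(r ^ 2 + 1)
  have h4 : ρ ^ 7 = ρ ^ 5 * (r ^ 2 + 1) := by rw [← h3]; ring
  norm_num
  rw [h4]
  field_simp
  ring

lemma drep_G_lim : Filter.Tendsto
    (fun r : ℝ => r ^ 3 * (2 * r ^ 2 + 5) / 2 * (1 / √(r ^ 2 + 1) ^ (4 + 1))) Filter.atTop (nhds 1) := by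
  have hc : ContinuousAt (fun u : ℝ => (2 + 5 * u ^ 2) / 2 * (1 / √(1 + u ^ 2) ^ 5)) 0 := by
    refine ContinuousAt.mul (by fun_prop) (ContinuousAt.div (by fun_prop) (by fun_prop) (by simp))
  have h := hc.tendsto.comp tendsto_inv_atTop_zero
  norm_num at h
  refine h.congr' ?_
  filter_upwards [Filter.eventually_gt_atTop 0] with r hr
  have e : √(r ^ 2 + 1) = r * √(1 + (r ^ 2)⁻¹) := by
    rw [show r ^ 2 + 1 = r ^ 2 * (1 + (r ^ 2)⁻¹) by field_simp, Real.sqrt_mul (sq_nonneg r),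
      Real.sqrt_sq hr.le]
  have h0 : 0 < √(1 + (r ^ 2)⁻¹) := Real.sqrt_pos.2 (by positivity)
  simp only [Function.comp, e, inv_pow]
  generalize √(1 + (r ^ 2)⁻¹) = w at h0
  field_simp
  ring

lemma drep_integrable : Integrable fun z : Pos3 => 15 / 2 / rho 1 z ^ 7 := by
  have h := (integrable_fun_norm_addHaar (volume : Measure Pos3)
    (f := fun r : ℝ => 15 / 2 / √(r ^ 2 + 1) ^ 7)).2 (by
      simpa using integrableOn_Ioi_deriv_of_nonneg' (a := 0) (fun r _ => drep_G r)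
        (fun r _ => by positivity) drep_G_lim)
  simpa [rho] using h

lemma drep_integral : ∫ z : Pos3, 15 / 2 / rho 1 z ^ 7 = 4 * Real.pi := by
  have h := integral_fun_norm_addHaar (volume : Measure Pos3)
    (fun r : ℝ => 15 / 2 / √(r ^ 2 + 1) ^ 7)
  have h2 := integral_Ioi_of_hasDerivAt_of_nonneg' (a := 0) (fun r _ => drep_G r)
    (fun r _ => by positivity) drep_G_lim
  simp only [finrank_euclideanSpace, Fintype.card_fin, Measure.real,
    EuclideanSpace.volume_ball_fin_three, ENNReal.ofReal_one, one_pow, one_mul, smul_eq_mul,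
    nsmul_eq_mul, Nat.add_one_sub_one] at h
  rw [h2, ENNReal.toReal_ofReal (by positivity)] at h
  simp only [rho, one_pow]
  rw [h]
  push_cast
  ring

lemma drep_K2 {Φ : Pos3 → ℝ} (hΦ : ContDiff ℝ 2 Φ) (hc : HasCompactSupport Φ) {l : ℝ} (hl : 0 < l)
    (x : Pos3) :
    ∫ y, lap Φ y * K2 l (x - y) = -∫ z, Φ (x - l • z) * (15 / 2 / rho 1 z ^ 7) := by
  have hK : ContDiff ℝ 2 fun y => K2 l (x - y) :=
    (contDiff_K2 hl).comp (contDiff_const.sub contDiff_id)
  rw [green hΦ hc hK]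
  simp only [lap_K2 hl, mul_neg, integral_neg]
  congr 1
  have h1 := integral_sub_left_eq_self (fun w => Φ (x - w) * (15 / 2 * l ^ 4 / rho l w ^ 7))
    (volume : Measure Pos3) x
  simp only [sub_sub_cancel] at h1
  have h2 := Measure.integral_comp_smul (volume : Measure Pos3)
    (fun w => Φ (x - w) * (15 / 2 * l ^ 4 / rho l w ^ 7)) l
  have h3 : ∀ z : Pos3, rho l (l • z) = l * rho 1 z := fun z => by
    rw [rho, rho, norm_smul, Real.norm_of_nonneg hl.le,
      show (l * ‖z‖) ^ 2 + l ^ 2 = l ^ 2 * (‖z‖ ^ 2 + 1 ^ 2) by ring, Real.sqrt_mul (sq_nonneg l),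
      Real.sqrt_sq hl.le]
  have h4 : ∀ z : Pos3, Φ (x - l • z) * (15 / 2 * l ^ 4 / rho l (l • z) ^ 7) =
      (l ^ 3)⁻¹ * (Φ (x - l • z) * (15 / 2 / rho 1 z ^ 7)) := fun z => by
    rw [h3]
    have := (rho_pos one_pos z).ne'
    field_simp
  simp only [h4, integral_const_mul, finrank_euclideanSpace, Fintype.card_fin, smul_eq_mul] at h2
  rw [abs_of_pos (by positivity)] at h2
  rw [h1]
  exact (mul_left_cancel₀ (by positivity) h2).symm

/-- `∫ lap Φ (K2 l + Nk l)(x - ·) = ∫ lap Φ / ‖x - ·‖` does not depend on `l`.  As `l → 0`,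
`∫ lap Φ Nk l → 0` (`abs_integral_mul_Nk_le`), and
`∫ lap Φ K2 l (x - ·) = -∫ Φ(y) (15/2) l⁴ / rho l (x-y)^7 = -∫ Φ(x - l z) (15/2) / rho 1 z ^ 7 dz
→ -4π Φ(x)` (dominated convergence; `∫ (15/2) / rho 1 z ^ 7 = 4π`: `(15/2) r² / ρ^7` has the
antiderivative `r³ (2 r² + 5) / (2 ρ^5)`). -/
theorem rep {Φ : Pos3 → ℝ} (hΦ : ContDiff ℝ 2 Φ) (hc : HasCompactSupport Φ) {l : ℝ} (hl : 0 < l)
    (x : Pos3) :
    ∫ y, lap Φ y * K2 l (x - y) = -(4 * Real.pi * Φ x) - ∫ y, lap Φ y * Nk l (x - y) := by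
  obtain ⟨Λ, hΛ⟩ := (continuous_lap hΦ).bounded_above_of_compact_support (cs_lap hc)
  obtain ⟨M, hM⟩ := hΦ.continuous.bounded_above_of_compact_support hc
  have hI : ∀ l, 0 < l → (∫ y, lap Φ y * K2 l (x - y)) + ∫ y, lap Φ y * Nk l (x - y) =
      ∫ y, lap Φ y * (1 / ‖x - y‖) := fun l hl => by
    have i1 : Integrable fun y => lap Φ y * K2 l (x - y) :=
      ((continuous_lap hΦ).mul ((continuous_K2 hl).comp
        (continuous_const.sub continuous_id))).integrable_of_hasCompactSupport (cs_lap hc).mul_right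
    rw [← integral_add i1 (integrable_mul_Nk hl (continuous_lap hΦ) hΛ x)]
    refine integral_congr_ae (ae_of_all _ fun y => ?_)
    simp only [inv_norm_eq l (x - y), mul_add]
  have t1 : Filter.Tendsto (fun l : ℝ => ∫ z, Φ (x - l • z) * (15 / 2 / rho 1 z ^ 7))
      (nhdsWithin 0 (Set.Ioi 0)) (nhds (∫ z : Pos3, Φ x * (15 / 2 / rho 1 z ^ 7))) := by
    have hw : Continuous fun z : Pos3 => 15 / 2 / rho 1 z ^ 7 :=
      continuous_const.div ((continuous_rho 1).pow 7) fun z => (pow_pos (rho_pos one_pos z) 7).ne'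
    refine tendsto_integral_filter_of_dominated_convergence
      (fun z => M * (15 / 2 / rho 1 z ^ 7)) (Filter.Eventually.of_forall fun l => ?_)
      (Filter.Eventually.of_forall fun l => ae_of_all _ fun z => ?_) (drep_integrable.const_mul M)
      (ae_of_all _ fun z => ?_)
    · exact ((hΦ.continuous.comp (by fun_prop)).mul hw).aestronglyMeasurable
    · have : 0 ≤ 15 / 2 / rho 1 z ^ 7 := by have := rho_nonneg 1 z; positivity
      rw [norm_mul, Real.norm_of_nonneg this]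
      exact mul_le_mul_of_nonneg_right (hM _) this
    · refine Filter.Tendsto.mul_const _ (tendsto_nhdsWithin_of_tendsto_nhds ?_)
      have : Continuous fun l : ℝ => Φ (x - l • z) := hΦ.continuous.comp (by fun_prop)
      simpa using this.tendsto 0
  have t2 : Filter.Tendsto (fun l : ℝ => ∫ y, lap Φ y * Nk l (x - y))
      (nhdsWithin 0 (Set.Ioi 0)) (nhds 0) := by
    have t3 : Filter.Tendsto (fun l : ℝ => 4 * Λ * l ^ 2) (nhdsWithin 0 (Set.Ioi 0)) (nhds 0) := by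
      refine tendsto_nhdsWithin_of_tendsto_nhds ?_
      have : Continuous fun l : ℝ => 4 * Λ * l ^ 2 := by fun_prop
      simpa using this.tendsto 0
    refine squeeze_zero_norm' ?_ t3
    filter_upwards [self_mem_nhdsWithin] with l hl
    exact abs_integral_mul_Nk_le hl (continuous_lap hΦ) hΛ x
  have t4 := t1.neg.add t2
  have t5 : Filter.Tendsto (fun l : ℝ => -(∫ z, Φ (x - l • z) * (15 / 2 / rho 1 z ^ 7)) +
      ∫ y, lap Φ y * Nk l (x - y)) (nhdsWithin 0 (Set.Ioi 0))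
      (nhds (∫ y, lap Φ y * (1 / ‖x - y‖))) := by
    refine tendsto_const_nhds.congr' ?_
    filter_upwards [self_mem_nhdsWithin] with l hl
    rw [← hI l hl, drep_K2 hΦ hc hl]
  have h6 := tendsto_nhds_unique t5 t4
  rw [integral_const_mul, drep_integral, ← hI l hl] at h6
  linarith

end Crest.Agent.R338.Disc
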