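import Mathlib
import Crest.Prelude.Def_CoulombProblem
import Crest.Agent.Lib.PT.Exp

/-! Row 338 (QMA-hardness of the electronic ground energy): interfaces between the modules.

* `XZ`: a two-local qubit Hamiltonian with terms `+ZZ`, `-XX`, `±Z(data) X(clock)` and fields.
* tensors `c : (Fin N → ι × Fin 2) → ℂ`: coefficients of an `N`-electron state on the products of
  spin-orbitals; `EF` is the first order energy of the Coulomb repulsion and a weak potential.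
* `OB`, `Full`: what the many-body part has to know about the one-body problem. -/

set_option autoImplicit false

open MeasureTheory Crest.MathPhysics.ElectronicCoulomb Crest.Agent.Lib.PT

namespace Crest.Agent.R338

/-! ### The qubit Hamiltonian -/

/-- Eigenvalue of `Z`. -/
def sg (b : Bool) : ℝ := if b then -1 else 1

/-- Action of `X i` on basis strings. -/
def fl {n : ℕ} (σ : Fin n → Bool) (i : Fin n) : Fin n → Bool := Function.update σ i (!σ i)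

/-- `∑ zz i j Z_i Z_j - ∑ xx i j X_i X_j + ∑ zx i j Z_i X_j + ∑ az i Z_i + ∑ ax i X_i` on `n`
qubits, with thresholds `lo`, `hi` and a size bound `B`. -/
structure XZ where
  n : ℕ
  nd : ℕ
  B : ℕ
  zz : ℕ → ℕ → ℚ
  xx : ℕ → ℕ → ℚ
  zx : ℕ → ℕ → ℚ
  az : ℕ → ℚ
  ax : ℕ → ℚ
  lo : ℚ
  hi : ℚ

structure XZ.Valid (d : XZ) : Prop where
  n_pos : 1 ≤ d.n
  n_le : d.n ≤ d.B
  zz_bd : ∀ i j, 0 ≤ d.zz i j ∧ d.zz i j ≤ d.B
  xx_bd : ∀ i j, 0 ≤ d.xx i j ∧ d.xx i j ≤ d.B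
  zx_bd : ∀ i j, |d.zx i j| ≤ d.B
  zz_diag : ∀ i, d.zz i i = 0
  xx_diag : ∀ i, d.xx i i = 0
  zx_supp : ∀ i j, d.zx i j ≠ 0 → i < d.nd ∧ d.nd ≤ j
  az_bd : ∀ i, |d.az i| ≤ d.B
  ax_bd : ∀ i, |d.ax i| ≤ d.B
  lo_bd : |d.lo| ≤ d.B
  hi_bd : |d.hi| ≤ d.B
  gap : d.lo + 1 / (d.B : ℚ) ≤ d.hi

/-- The quadratic form of the Hamiltonian on real vectors. -/
noncomputable def XZ.Q (d : XZ) (ψ : (Fin d.n → Bool) → ℝ) : ℝ :=
  ∑ σ : Fin d.n → Bool, ψ σ *
    (∑ i : Fin d.n, ∑ j : Fin d.n, ((d.zz i j : ℝ) * (sg (σ i) * sg (σ j)) * ψ σ -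
        (d.xx i j : ℝ) * ψ (fl (fl σ i) j) + (d.zx i j : ℝ) * sg (σ i) * ψ (fl σ j)) +
      ∑ i : Fin d.n, ((d.az i : ℝ) * sg (σ i) * ψ σ + (d.ax i : ℝ) * ψ (fl σ i)))

def XZ.Yes (d : XZ) : Prop :=
  ∃ ψ : (Fin d.n → Bool) → ℝ, ∑ σ, ψ σ ^ 2 = 1 ∧ d.Q ψ ≤ d.lo

def XZ.No (d : XZ) : Prop :=
  ∀ ψ : (Fin d.n → Bool) → ℝ, (d.hi : ℝ) * ∑ σ, ψ σ ^ 2 ≤ d.Q ψ

/-- A polynomial-time family of Hamiltonians. -/
structure PTFam {α : Type} [Enc α] (d : α → XZ) : Prop where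
  n : PT fun a => (d a).n
  nd : PT fun a => (d a).nd
  B : PT fun a => (d a).B
  pbB : PB fun a => (d a).B
  zz : PT fun p : α × ℕ × ℕ => (d p.1).zz p.2.1 p.2.2
  xx : PT fun p : α × ℕ × ℕ => (d p.1).xx p.2.1 p.2.2
  zx : PT fun p : α × ℕ × ℕ => (d p.1).zx p.2.1 p.2.2
  az : PT fun p : α × ℕ => (d p.1).az p.2
  ax : PT fun p : α × ℕ => (d p.1).ax p.2
  lo : PT fun a => (d a).lo
  hi : PT fun a => (d a).hi

/-! ### Coefficient tensors -/

section tensors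

variable {ι : Type} [Fintype ι] [DecidableEq ι] {N : ℕ}

/-- Antisymmetric tensors. -/
def Anti (c : (Fin N → ι × Fin 2) → ℂ) : Prop :=
  ∀ (σ : Equiv.Perm (Fin N)) (α : Fin N → ι × Fin 2),
    c (fun i => α (σ i)) = ((Equiv.Perm.sign σ : ℤ) : ℂ) * c α

/-- Labelings without repetition in which every core spin-orbital occurs. -/
def Good (core : ι → Prop) (α : Fin N → ι × Fin 2) : Prop :=
  Function.Injective α ∧ ∀ a : ι × Fin 2, core a.1 → ∃ i, α i = a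

/-- Tensors supported on good labelings. -/
def GoodT (core : ι → Prop) (c : (Fin N → ι × Fin 2) → ℂ) : Prop :=
  ∀ α, c α ≠ 0 → Good core α

noncomputable def nsq (c : (Fin N → ι × Fin 2) → ℂ) : ℝ := ∑ α, ‖c α‖ ^ 2

/-- The expectation of `∑_i v_i + ∑_{i<j} w_{ij}`; `w a a' b b'` is the integral `(a a' | b b')`. -/
noncomputable def EF (w : ι → ι → ι → ι → ℝ) (v : ι → ι → ℝ) (c : (Fin N → ι × Fin 2) → ℂ) : ℝ :=
  ∑ α : Fin N → ι × Fin 2, ∑ i : Fin N,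
    (∑ a : ι, v (α i).1 a *
        ((starRingEnd ℂ) (c α) * c (Function.update α i (a, (α i).2))).re +
      ∑ j : Fin N, if i < j then ∑ a : ι, ∑ b : ι, w (α i).1 a (α j).1 b *
        ((starRingEnd ℂ) (c α) *
          c (Function.update (Function.update α i (a, (α i).2)) j (b, (α j).2))).re else 0)

end tensors

/-! ### The one-body problem -/

/-- Partial derivative. -/
noncomputable def pd (k : Fin 3) (u : Pos3 → ℝ) (x : Pos3) : ℝ :=
  fderiv ℝ u x (EuclideanSpace.single k 1)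

/-- The attraction of the nuclei (with positive sign). -/
noncomputable def Vn {K : ℕ} (R : Fin K → Pos3) (x : Pos3) : ℝ := ∑ α, 1 / ‖x - R α‖

/-- The form of `-Δ/2 - V`. -/
noncomputable def qf (V : Pos3 → ℝ) (u u' : Pos3 → ℝ) : ℝ :=
  (1 / 2) * ∑ k, (∫ x, pd k u x * pd k u' x) - ∫ x, V x * (u x * u' x)

/-- Two-electron integrals. -/
noncomputable def coul {ι : Type} (χ : ι → Pos3 → ℝ) (a a' b b' : ι) : ℝ :=
  ∫ x, ∫ y, χ a x * χ a' x * (χ b y * χ b' y) / ‖x - y‖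

section ob

variable {ι : Type} [Fintype ι] [DecidableEq ι]

/-- The operator `-Δ/2 - V` has approximate eigenfunctions `χ a` with energies `E` (core) and
`E + lam`, and is at least `E + 3 lam / 2` on their orthogonal complement. -/
structure OB (χ : ι → Pos3 → ℝ) (core : ι → Prop) [DecidablePred core] (V : Pos3 → ℝ)
    (E lam η : ℝ) : Prop where
  c1 : ∀ a, ContDiff ℝ 1 (χ a)
  cs : ∀ a, HasCompactSupport (χ a)
  on : ∀ a b, ∫ x, χ a x * χ b x = if a = b then 1 else 0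
  lb : ∀ u : Pos3 → ℝ, ContDiff ℝ 1 u → HasCompactSupport u →
    ∑ a, (E + (if core a then 0 else lam) - η) * (∫ x, χ a x * u x) ^ 2 +
      (E + 3 / 2 * lam) * ((∫ x, u x ^ 2) - ∑ a, (∫ x, χ a x * u x) ^ 2) ≤ qf V u u
  ub : ∀ a b, |qf V (χ a) (χ b) - if a = b then E + (if core a then 0 else lam) else 0| ≤ η

/-- All the data, for nuclei of charge `q` (units in which the Coulomb coupling is `q`). -/
structure Full (χ : ι → Pos3 → ℝ) (core : ι → Prop) [DecidablePred core] (q : ℝ) {K : ℕ}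
    (R : Fin K → Pos3) (v : Pos3 → ℝ) (E lam η M η' : ℝ) (w : ι → ι → ι → ι → ℝ)
    (vm : ι → ι → ℝ) : Prop where
  ob : OB χ core (fun x => q * (Vn R x + v x)) E lam η
  lam_pos : 0 < lam
  v_cont : Continuous v
  v_bd : ∀ x, |v x| ≤ M
  k2 : ∀ y, ∫ x, (∑ a, χ a x ^ 2) / ‖x - y‖ ^ 2 ≤ M ^ 2
  w_near : ∀ a a' b b', |coul χ a a' b b' - w a a' b b'| ≤ η'
  v_near : ∀ a a', |(∫ x, v x * (χ a x * χ a' x)) - vm a a'| ≤ η'

end ob

end Crest.Agent.R338
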