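import Crest.Agent.R338.Defs

/-! Row 338, module F, auxiliary: the `L²` Fourier transform on `L¹ ∩ L²`. -/

set_option autoImplicit false

open MeasureTheory Crest.MathPhysics.ElectronicCoulomb
open scoped FourierTransform ENNReal SchwartzMap

namespace Crest.Agent.R338

variable {n : ℕ}

theorem fa_ae_eq {f : Config n → ℂ} (h1 : Integrable f) (h2 : MemLp f 2 volume) :
    ((𝓕 (h2.toLp f) : Lp ℂ 2 (volume : Measure (Config n))) : Config n → ℂ) =ᵐ[volume] 𝓕 f := by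
  have hc : Continuous (𝓕 f) :=
    VectorFourier.fourierIntegral_continuous Real.continuous_fourierChar
      (L := innerₗ (Config n)) continuous_inner h1
  refine ae_eq_of_integral_contDiff_smul_eq
    ((Lp.memLp _).locallyIntegrable (by norm_num)) hc.locallyIntegrable ?_
  intro g hg hs
  have hg' : ContDiff ℝ (⊤ : ℕ∞) (fun x => (g x : ℂ)) := Complex.ofRealCLM.contDiff.comp hg
  have hs' : HasCompactSupport (fun x => (g x : ℂ)) := hs.comp_left (g := fun r : ℝ => (r : ℂ)) (by simp)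
  set φ : 𝓢(Config n, ℂ) := hs'.toSchwartzMap hg' with hφ
  have hφx : ∀ x, φ x = (g x : ℂ) := fun x => rfl
  have e1 := congrArg (fun T : 𝓢'(Config n, ℂ) => T φ)
    (Lp.fourier_toTemperedDistribution_eq (h2.toLp f))
  simp only [TemperedDistribution.fourier_apply, Lp.toTemperedDistribution_apply] at e1
  have e2 : ∫ ξ, 𝓕 (φ : Config n → ℂ) ξ • f ξ = ∫ x, φ x • 𝓕 f x := by
    simpa using! (VectorFourier.integral_fourierIntegral_smul_eq_flip (L := innerₗ (Config n))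
      Real.continuous_fourierChar continuous_inner φ.integrable h1)
  calc ∫ x, g x • (𝓕 (h2.toLp f) : Lp ℂ 2 (volume : Measure (Config n))) x
      = ∫ x, φ x • (𝓕 (h2.toLp f) : Lp ℂ 2 (volume : Measure (Config n))) x := by
        simp [hφx]
    _ = ∫ ξ, 𝓕 (φ : Config n → ℂ) ξ • f ξ := by
        rw [← e1]
        refine integral_congr_ae ?_
        filter_upwards [h2.coeFn_toLp] with x hx
        rw [hx, SchwartzMap.fourier_coe]
    _ = ∫ x, g x • 𝓕 f x := by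
        rw [e2]; simp [hφx]

theorem fa_lint_Lp (F : Lp ℂ 2 (volume : Measure (Config n))) :
    ∫⁻ x, ‖F x‖ₑ ^ 2 = ‖F‖ₑ ^ 2 := by
  have h := eLpNorm_nnreal_pow_eq_lintegral (f := (F : Config n → ℂ)) (μ := volume)
    (p := 2) (by norm_num)
  rw [Lp.enorm_def]
  simpa using h.symm

theorem fa_lint_fourier_Lp (F : Lp ℂ 2 (volume : Measure (Config n))) :
    ∫⁻ x, ‖(𝓕 F : Lp ℂ 2 (volume : Measure (Config n))) x‖ₑ ^ 2 = ∫⁻ x, ‖F x‖ₑ ^ 2 := by
  rw [fa_lint_Lp, fa_lint_Lp, ← ofReal_norm, ← ofReal_norm, Lp.norm_fourier_eq]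

theorem fa_plancherel {f : Config n → ℂ} (h1 : Integrable f) (h2 : MemLp f 2 volume) :
    ∫⁻ x, ‖𝓕 f x‖ₑ ^ 2 = ∫⁻ x, ‖f x‖ₑ ^ 2 := by
  calc ∫⁻ x, ‖𝓕 f x‖ₑ ^ 2
      = ∫⁻ x, ‖(𝓕 (h2.toLp f) : Lp ℂ 2 (volume : Measure (Config n))) x‖ₑ ^ 2 := by
        refine lintegral_congr_ae ?_
        filter_upwards [fa_ae_eq h1 h2] with x hx
        rw [hx]
    _ = ∫⁻ x, ‖(h2.toLp f) x‖ₑ ^ 2 := fa_lint_fourier_Lp _
    _ = _ := by
        refine lintegral_congr_ae ?_
        filter_upwards [h2.coeFn_toLp] with x hx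
        rw [hx]

theorem fa_lint_eq {f : Config n → ℂ} (h2 : MemLp f 2 volume) :
    ∫⁻ x, ‖f x‖ₑ ^ 2 = ENNReal.ofReal (∫ x, ‖f x‖ ^ 2) := by
  rw [ofReal_integral_eq_lintegral_ofReal (h2.integrable_norm_pow (by norm_num))
    (Filter.Eventually.of_forall fun x => by positivity)]
  refine lintegral_congr fun x => ?_
  rw [ENNReal.ofReal_pow (norm_nonneg _), ofReal_norm]

theorem fa_fourier_pd {g : Config n → ℂ} (h1 : Integrable g) (hd : Differentiable ℝ g)
    (h3 : Integrable (fderiv ℝ g)) (k : Fin n × Fin 3) (ξ : Config n) :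
    ‖𝓕 (fun x => fderiv ℝ g x (EuclideanSpace.single k 1)) ξ‖ ^ 2 =
      (2 * Real.pi) ^ 2 * ξ k ^ 2 * ‖𝓕 g ξ‖ ^ 2 := by
  rw [← Real.fourier_continuousLinearMap_apply h3, Real.fourier_fderiv h1 hd h3]
  have e : ((innerSL ℝ) ξ) (EuclideanSpace.single k (1 : ℝ)) = ξ k := by
    rw [innerSL_apply_apply]; simp [EuclideanSpace.inner_single_right]
  simp only [VectorFourier.fourierSMulRight_apply, neg_apply, norm_smul, norm_neg, mul_pow]
  simp [Real.pi_pos.le, abs_of_nonneg, mul_pow, e]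
  ring

/-- The Fourier kinetic energy in terms of the partial derivatives. -/
theorem fa_kin {g : Config n → ℂ} (h1 : Integrable g)
    (hd : Differentiable ℝ g) (h3 : Integrable (fderiv ℝ g))
    (h4 : ∀ k : Fin n × Fin 3, MemLp (fun x => fderiv ℝ g x (EuclideanSpace.single k 1)) 2 volume) :
    ∫⁻ ξ, ENNReal.ofReal ((2 * Real.pi * ‖ξ‖) ^ 2) * ‖𝓕 g ξ‖ₑ ^ 2 =
      ENNReal.ofReal (∑ k : Fin n × Fin 3, ∫ x, ‖fderiv ℝ g x (EuclideanSpace.single k 1)‖ ^ 2) := by
  have hi : ∀ k : Fin n × Fin 3,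
      Integrable (fun x => fderiv ℝ g x (EuclideanSpace.single k 1)) := fun k =>
    h3.apply_continuousLinearMap _
  rw [ENNReal.ofReal_sum_of_nonneg fun k _ => integral_nonneg fun x => by positivity]
  simp_rw [← fa_lint_eq (h4 _), ← fa_plancherel (hi _) (h4 _)]
  rw [← lintegral_finsetSum]
  · refine lintegral_congr fun ξ => ?_
    simp_rw [← ofReal_norm, ← ENNReal.ofReal_pow (norm_nonneg _),
      fa_fourier_pd h1 hd h3]
    rw [← ENNReal.ofReal_sum_of_nonneg fun k _ => by positivity,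
      ← ENNReal.ofReal_mul (by positivity)]
    congr 1
    rw [mul_pow, EuclideanSpace.real_norm_sq_eq, Finset.mul_sum, Finset.sum_mul]
  · intro k _
    have hc : Continuous (𝓕 (fun x => fderiv ℝ g x (EuclideanSpace.single k 1))) :=
      VectorFourier.fourierIntegral_continuous Real.continuous_fourierChar
        (L := innerₗ (Config n)) continuous_inner (hi k)
    exact hc.measurable.enorm.pow_const 2

theorem fa_kineticOne {g : Config n → ℂ} (h1 : Integrable g) (h2 : MemLp g 2 volume)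
    (hd : Differentiable ℝ g) (h3 : Integrable (fderiv ℝ g))
    (h4 : ∀ k : Fin n × Fin 3, MemLp (fun x => fderiv ℝ g x (EuclideanSpace.single k 1)) 2 volume) :
    kineticOne g = ENNReal.ofReal ((1 / 2) *
      ∑ k : Fin n × Fin 3, ∫ x, ‖fderiv ℝ g x (EuclideanSpace.single k 1)‖ ^ 2) := by
  rw [kineticOne, dif_pos h2, ENNReal.ofReal_mul (by norm_num), ← fa_kin h1 hd h3 h4]
  congr 1
  · rw [ENNReal.ofReal_div_of_pos (by norm_num)]; simp
  · refine lintegral_congr_ae ?_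
    filter_upwards [fa_ae_eq h1 h2] with x hx
    rw [hx]

theorem fa_sq_le {t : ℝ} (ht : 0 < t) (a b : ℂ) :
    ‖a + b‖ ^ 2 ≤ (1 + t) * ‖a‖ ^ 2 + (1 + 1 / t) * ‖b‖ ^ 2 := by
  have h1 : ‖a + b‖ ^ 2 ≤ (‖a‖ + ‖b‖) ^ 2 :=
    pow_le_pow_left₀ (norm_nonneg _) (norm_add_le a b) 2
  have h2 : 2 * ‖a‖ * ‖b‖ ≤ t * ‖a‖ ^ 2 + 1 / t * ‖b‖ ^ 2 := by
    have : 0 ≤ (t * ‖a‖ - ‖b‖) ^ 2 / t := by positivity
    have e : (t * ‖a‖ - ‖b‖) ^ 2 / t = t * ‖a‖ ^ 2 + 1 / t * ‖b‖ ^ 2 - 2 * ‖a‖ * ‖b‖ := by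
      field_simp; ring
    linarith
  nlinarith

theorem fa_schwartz_pd (g : 𝓢(Config n, ℂ)) (k : Fin n × Fin 3) :
    MemLp (fun x => fderiv ℝ g x (EuclideanSpace.single k 1)) 2 volume := by
  have h := (SchwartzMap.fderivCLM ℝ (Config n) ℂ g).memLp 2 (volume : Measure (Config n))
  have h' : MemLp (fderiv ℝ (g : Config n → ℂ)) 2 volume := h
  exact (ContinuousLinearMap.apply ℝ ℂ (EuclideanSpace.single k (1 : ℝ) : Config n)).comp_memLp' h'

/-- Approximation by a Schwartz function. -/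
theorem fa_schwartz_approx {f : Config n → ℂ} (hf : MemLp f 2 volume) (hk : kineticOne f < ⊤)
    {δ : ℝ} (hδ : 0 < δ) : ∃ g : 𝓢(Config n, ℂ),
      ∫ x, ‖g x - f x‖ ^ 2 ≤ δ ∧ (1 / 2) * ∑ k : Fin n × Fin 3,
        ∫ x, ‖fderiv ℝ g x (EuclideanSpace.single k 1)‖ ^ 2 ≤ (kineticOne f).toReal + δ := by
  set F : Lp ℂ 2 (volume : Measure (Config n)) := 𝓕 (hf.toLp f) with hF
  set w : Config n → ℝ := fun ξ => (2 * Real.pi * ‖ξ‖) ^ 2 with hw
  have hwc : Continuous w := by fun_prop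
  have hw0 : ∀ ξ, 0 ≤ w ξ := fun ξ => by positivity
  set A : ℝ≥0∞ := ∫⁻ ξ, ENNReal.ofReal (w ξ) * ‖F ξ‖ₑ ^ 2 with hA
  have hkA : kineticOne f = 1 / 2 * A := by rw [kineticOne, dif_pos hf]
  have hAt : A ≠ ⊤ := by
    intro h
    rw [hkA, h, ENNReal.mul_top (by norm_num)] at hk
    exact lt_irrefl _ hk
  have hkR : (kineticOne f).toReal = 1 / 2 * A.toReal := by
    rw [hkA, ENNReal.toReal_mul]; simp
  have hA0 : 0 ≤ A.toReal := ENNReal.toReal_nonneg
  set μ : Measure (Config n) := volume.withDensity fun ξ => ENNReal.ofReal (1 + w ξ) with hμ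
  have : IsLocallyFiniteMeasure μ :=
    IsLocallyFiniteMeasure.withDensity_ofReal (by fun_prop)
  have hmd : Measurable fun ξ : Config n => ENNReal.ofReal (1 + w ξ) := by fun_prop
  have hmw : Measurable fun ξ : Config n => ENNReal.ofReal (w ξ) := by fun_prop
  have hlin : ∀ u : Config n → ℂ, AEStronglyMeasurable u volume →
      ∫⁻ ξ, ‖u ξ‖ₑ ^ 2 ∂μ = (∫⁻ ξ, ‖u ξ‖ₑ ^ 2) + ∫⁻ ξ, ENNReal.ofReal (w ξ) * ‖u ξ‖ₑ ^ 2 := by
    intro u hu
    have hm : AEMeasurable (fun ξ => ‖u ξ‖ₑ ^ 2) volume := hu.enorm.pow_const 2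
    rw [hμ, lintegral_withDensity_eq_lintegral_mul₀ hmd.aemeasurable hm,
      ← lintegral_add_left' hm]
    refine lintegral_congr fun ξ => ?_
    simp only [Pi.mul_apply]
    rw [ENNReal.ofReal_add zero_le_one (hw0 ξ), ENNReal.ofReal_one, add_mul, one_mul]
  have hFm : AEStronglyMeasurable (F : Config n → ℂ) volume := Lp.aestronglyMeasurable F
  have hFμ : MemLp (F : Config n → ℂ) 2 μ := by
    refine ⟨hFm.mono_ac (withDensity_absolutelyContinuous _ _), ?_⟩
    have h := eLpNorm_nnreal_pow_eq_lintegral (f := (F : Config n → ℂ)) (μ := μ)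
      (p := 2) (by norm_num)
    have h2 : eLpNorm (F : Config n → ℂ) 2 μ ^ 2 = ∫⁻ ξ, ‖F ξ‖ₑ ^ 2 ∂μ := by simpa using h
    have h3 : ∫⁻ ξ, ‖F ξ‖ₑ ^ 2 ∂μ ≠ ⊤ := by
      rw [hlin _ hFm, fa_lint_Lp]
      exact ENNReal.add_ne_top.2 ⟨ENNReal.pow_ne_top enorm_ne_top, hAt⟩
    rw [← h2] at h3
    exact lt_top_iff_ne_top.2 fun h => h3 (by simp [h])
  -- parameters
  set t : ℝ := δ / (A.toReal + 1) with ht
  have ht0 : 0 < t := by positivity
  set ε : ℝ := min δ (δ / (1 + 1 / t)) with hε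
  have hε0 : 0 < ε := by positivity
  obtain ⟨φ, hφs, hφd, hφe⟩ := hFμ.exist_eLpNorm_sub_le (by norm_num) (by norm_num)
    (Real.sqrt_pos.2 hε0)
  have hφm : AEStronglyMeasurable φ volume := hφd.continuous.aestronglyMeasurable
  have hE : ∫⁻ ξ, ‖F ξ - φ ξ‖ₑ ^ 2 ∂μ ≤ ENNReal.ofReal ε := by
    have h := eLpNorm_nnreal_pow_eq_lintegral (f := (F : Config n → ℂ) - φ) (μ := μ)
      (p := 2) (by norm_num)
    have h2 : eLpNorm ((F : Config n → ℂ) - φ) 2 μ ^ 2 = ∫⁻ ξ, ‖F ξ - φ ξ‖ₑ ^ 2 ∂μ := by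
      simpa using h
    rw [← h2]
    calc eLpNorm ((F : Config n → ℂ) - φ) 2 μ ^ 2 ≤ ENNReal.ofReal (√ε) ^ 2 := by gcongr
      _ = ENNReal.ofReal ε := by
        rw [← ENNReal.ofReal_pow (Real.sqrt_nonneg _), Real.sq_sqrt hε0.le]
  rw [hlin (fun ξ => F ξ - φ ξ) (hFm.sub hφm)] at hE
  have hE1 : ∫⁻ ξ, ‖F ξ - φ ξ‖ₑ ^ 2 ≤ ENNReal.ofReal ε := le_self_add.trans hE
  have hE2 : ∫⁻ ξ, ENNReal.ofReal (w ξ) * ‖F ξ - φ ξ‖ₑ ^ 2 ≤ ENNReal.ofReal ε :=
    le_add_self.trans hE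
  set Φ : 𝓢(Config n, ℂ) := hφs.toSchwartzMap hφd with hΦ
  have hΦx : ∀ x, Φ x = φ x := fun x => rfl
  set g : 𝓢(Config n, ℂ) := 𝓕⁻ Φ with hg
  have hgΦ : 𝓕 g = Φ := FourierTransform.fourier_fourierInv_eq Φ
  have hgφ : 𝓕 (g : Config n → ℂ) = φ := by
    rw [← SchwartzMap.fourier_coe, hgΦ]; rfl
  refine ⟨g, ?_, ?_⟩
  · have hm : MemLp (fun x => g x - f x) 2 volume := (g.memLp 2 volume).sub hf
    have h1 : ∫⁻ x, ‖g x - f x‖ₑ ^ 2 = ∫⁻ ξ, ‖F ξ - φ ξ‖ₑ ^ 2 := by
      have h2 := fa_lint_fourier_Lp (hf.toLp f - g.toLp 2 volume)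
      have h3 : (𝓕 (hf.toLp f - g.toLp 2 volume) : Lp ℂ 2 (volume : Measure (Config n))) =
          F - Φ.toLp 2 volume := by
        rw [← hgΦ, ← SchwartzMap.toLp_fourier_eq]
        exact (Lp.fourierTransformₗᵢ (Config n) ℂ).map_sub _ _
      rw [h3] at h2
      calc ∫⁻ x, ‖g x - f x‖ₑ ^ 2
          = ∫⁻ x, ‖(hf.toLp f - g.toLp 2 volume : Lp ℂ 2 (volume : Measure (Config n))) x‖ₑ ^ 2 := by
            refine lintegral_congr_ae ?_
            filter_upwards [Lp.coeFn_sub (hf.toLp f) (g.toLp 2 volume), hf.coeFn_toLp,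
              g.coeFn_toLp 2 volume] with x a b c
            rw [a, Pi.sub_apply, b, c, enorm_sub_rev]
        _ = _ := by
            rw [← h2]
            refine lintegral_congr_ae ?_
            filter_upwards [Lp.coeFn_sub F (Φ.toLp 2 volume), Φ.coeFn_toLp 2 volume] with x a b
            rw [a, Pi.sub_apply, b, hΦx]
    rw [fa_lint_eq hm] at h1
    rw [← h1, ENNReal.ofReal_le_ofReal_iff hε0.le] at hE1
    exact hE1.trans (min_le_left _ _)
  · have h1 := fa_kin g.integrable g.differentiable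
      (SchwartzMap.fderivCLM ℝ (Config n) ℂ g).integrable (fa_schwartz_pd g)
    rw [hgφ] at h1
    have h2 : ∫⁻ ξ, ENNReal.ofReal (w ξ) * ‖φ ξ‖ₑ ^ 2 ≤
        ENNReal.ofReal (1 + t) * A + ENNReal.ofReal (1 + 1 / t) * ENNReal.ofReal ε := by
      calc ∫⁻ ξ, ENNReal.ofReal (w ξ) * ‖φ ξ‖ₑ ^ 2
          ≤ ∫⁻ ξ, (ENNReal.ofReal (1 + t) * (ENNReal.ofReal (w ξ) * ‖F ξ‖ₑ ^ 2) +
              ENNReal.ofReal (1 + 1 / t) * (ENNReal.ofReal (w ξ) * ‖F ξ - φ ξ‖ₑ ^ 2)) := by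
            refine lintegral_mono fun ξ => ?_
            have h := fa_sq_le ht0 (F ξ) (φ ξ - F ξ)
            rw [add_sub_cancel, norm_sub_rev] at h
            simp only [← ofReal_norm, ← ENNReal.ofReal_pow (norm_nonneg _)]
            rw [← ENNReal.ofReal_mul (hw0 ξ), ← ENNReal.ofReal_mul (hw0 ξ),
              ← ENNReal.ofReal_mul (hw0 ξ), ← ENNReal.ofReal_mul (by positivity),
              ← ENNReal.ofReal_mul (by positivity),
              ← ENNReal.ofReal_add (by have := hw0 ξ; positivity) (by have := hw0 ξ; positivity)]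
            refine ENNReal.ofReal_le_ofReal ?_
            nlinarith [hw0 ξ]
        _ = ENNReal.ofReal (1 + t) * A + ENNReal.ofReal (1 + 1 / t) *
              ∫⁻ ξ, ENNReal.ofReal (w ξ) * ‖F ξ - φ ξ‖ₑ ^ 2 := by
            have m1 : AEMeasurable (fun ξ => ENNReal.ofReal (w ξ) * ‖F ξ‖ₑ ^ 2) volume :=
              hmw.aemeasurable.mul (hFm.enorm.pow_const 2)
            rw [lintegral_add_left' (m1.const_mul _), lintegral_const_mul' _ _ ENNReal.ofReal_ne_top,
              lintegral_const_mul' _ _ ENNReal.ofReal_ne_top]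
        _ ≤ _ := by gcongr
    rw [h1, ← ENNReal.ofReal_toReal hAt, ← ENNReal.ofReal_mul (by positivity),
      ← ENNReal.ofReal_mul (by positivity), ← ENNReal.ofReal_add (by positivity) (by positivity),
      ENNReal.ofReal_le_ofReal_iff (by positivity)] at h2
    have h3 : (1 + 1 / t) * ε ≤ δ := by
      have : ε ≤ δ / (1 + 1 / t) := min_le_right _ _
      rwa [le_div_iff₀ (by positivity), mul_comm] at this
    have h4 : t * A.toReal ≤ δ := by
      rw [ht, div_mul_eq_mul_div, div_le_iff₀ (by positivity)]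
      nlinarith
    rw [hkR]
    nlinarith

/-- Cutting off. -/
theorem fa_cutoff {g : Config n → ℂ} (hg : ContDiff ℝ 1 g) (h2 : MemLp g 2 volume)
    (h4 : ∀ k : Fin n × Fin 3, MemLp (fun x => fderiv ℝ g x (EuclideanSpace.single k 1)) 2 volume)
    {δ : ℝ} (hδ : 0 < δ) : ∃ u : Config n → ℂ, ContDiff ℝ 1 u ∧ HasCompactSupport u ∧
      ∫ x, ‖u x - g x‖ ^ 2 ≤ δ ∧
      ∑ k : Fin n × Fin 3, ∫ x, ‖fderiv ℝ u x (EuclideanSpace.single k 1)‖ ^ 2 ≤
        ∑ k : Fin n × Fin 3, (∫ x, ‖fderiv ℝ g x (EuclideanSpace.single k 1)‖ ^ 2) + δ := by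
  let b : ContDiffBump (0 : Config n) := ⟨1, 2, one_pos, one_lt_two⟩
  have hb1 : ContDiff ℝ 1 (b : Config n → ℝ) := b.contDiff
  obtain ⟨C, hC⟩ : ∃ C, ∀ x, ‖fderiv ℝ (b : Config n → ℝ) x‖ ≤ C :=
    (hb1.continuous_fderiv (by norm_num)).bounded_above_of_compact_support
      (b.hasCompactSupport.fderiv ℝ)
  have hC0 : 0 ≤ C := (norm_nonneg _).trans (hC 0)
  set S : ℝ := ∑ k : Fin n × Fin 3, ∫ x, ‖fderiv ℝ g x (EuclideanSpace.single k 1)‖ ^ 2 with hS
  have hS0 : 0 ≤ S := Finset.sum_nonneg fun k _ => integral_nonneg fun x => by positivity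
  set G : ℝ := ∫ x, ‖g x‖ ^ 2 with hG
  have hG0 : 0 ≤ G := integral_nonneg fun x => by positivity
  have hgi : Integrable fun x => ‖g x‖ ^ 2 := h2.integrable_norm_pow (by norm_num)
  set t : ℝ := δ / 2 / (S + 1) with ht
  have ht0 : 0 < t := by positivity
  -- the family of cutoffs
  let θ : ℕ → Config n → ℝ := fun m x => b (((m : ℝ) + 1)⁻¹ • x)
  have hθ1 : ∀ m, ContDiff ℝ 1 (θ m) := fun m => hb1.comp (contDiff_const_smul _)
  have hθs : ∀ m, HasCompactSupport (θ m) := fun m =>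
    b.hasCompactSupport.comp_smul (by positivity)
  have hθb : ∀ m x, 0 ≤ θ m x ∧ θ m x ≤ 1 := fun m x => ⟨b.nonneg, b.le_one⟩
  have hθd : ∀ m x, ‖fderiv ℝ (θ m) x‖ ≤ C * ((m : ℝ) + 1)⁻¹ := by
    intro m x
    have h1 : HasFDerivAt (fun y : Config n => ((m : ℝ) + 1)⁻¹ • y)
        (((m : ℝ) + 1)⁻¹ • ContinuousLinearMap.id ℝ (Config n)) x :=
      (hasFDerivAt_id x).const_smul (((m : ℝ) + 1)⁻¹)
    have h3 := ((hb1.differentiable (by norm_num)) (((m : ℝ) + 1)⁻¹ • x)).hasFDerivAt.comp x h1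
    have h5 : fderiv ℝ (θ m) x = _ := h3.fderiv
    rw [h5]
    refine (ContinuousLinearMap.opNorm_comp_le _ _).trans ?_
    refine mul_le_mul (hC _) ?_ (norm_nonneg _) hC0
    rw [norm_smul, Real.norm_of_nonneg (by positivity)]
    exact mul_le_of_le_one_right (by positivity) ContinuousLinearMap.norm_id_le
  have hL : Filter.Tendsto (fun m => ∫ x, ‖θ m x • g x - g x‖ ^ 2) Filter.atTop (nhds 0) := by
    have h0 : (0 : ℝ) = ∫ _ : Config n, (0 : ℝ) := by simp
    rw [h0]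
    refine tendsto_integral_of_dominated_convergence (fun x => ‖g x‖ ^ 2) (fun m => ?_) hgi
      (fun m => Filter.Eventually.of_forall fun x => ?_) (Filter.Eventually.of_forall fun x => ?_)
    · have := (hθ1 m).continuous
      have := hg.continuous
      exact Continuous.aestronglyMeasurable (by fun_prop)
    · have e : θ m x • g x - g x = (θ m x - 1) • g x := by rw [sub_smul, one_smul]
      rw [Real.norm_of_nonneg (by positivity), e, norm_smul, mul_pow, Real.norm_eq_abs, sq_abs]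
      have := hθb m x
      exact mul_le_of_le_one_left (by positivity) (by nlinarith)
    · refine tendsto_const_nhds.congr' ?_
      filter_upwards [Filter.eventually_ge_atTop ⌈‖x‖⌉₊] with m hm
      have h1 : θ m x = 1 := by
        refine b.one_of_mem_closedBall ?_
        rw [mem_closedBall_zero_iff, norm_smul, Real.norm_of_nonneg (by positivity),
          inv_mul_le_iff₀ (by positivity)]
        have : ‖x‖ ≤ m := Nat.ceil_le.1 hm
        show ‖x‖ ≤ ((m : ℝ) + 1) * 1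
        linarith
      simp [h1]
  have hK : Filter.Tendsto (fun m : ℕ => (Fintype.card (Fin n × Fin 3) : ℝ) *
      ((1 + 1 / t) * ((C * ((m : ℝ) + 1)⁻¹) ^ 2 * G))) Filter.atTop (nhds 0) := by
    have h1 : Filter.Tendsto (fun m : ℕ => ((m : ℝ) + 1)⁻¹) Filter.atTop (nhds 0) := by
      simpa using tendsto_one_div_add_atTop_nhds_zero_nat (𝕜 := ℝ)
    have h3 := ((((h1.const_mul C).pow 2).mul_const G).const_mul (1 + 1 / t)).const_mul
      (Fintype.card (Fin n × Fin 3) : ℝ)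
    simpa using h3
  obtain ⟨m, hm1, hm2⟩ := ((hL.eventually (ge_mem_nhds hδ)).and
    (hK.eventually (ge_mem_nhds (half_pos hδ)))).exists
  refine ⟨fun x => θ m x • g x, (hθ1 m).smul hg, (hθs m).smul_right, hm1, ?_⟩
  have hpt : ∀ (k : Fin n × Fin 3) (x : Config n),
      ‖fderiv ℝ (fun x => θ m x • g x) x (EuclideanSpace.single k 1)‖ ^ 2 ≤
        (1 + t) * ‖fderiv ℝ g x (EuclideanSpace.single k 1)‖ ^ 2 +
          (1 + 1 / t) * ((C * ((m : ℝ) + 1)⁻¹) ^ 2 * ‖g x‖ ^ 2) := by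
    intro k x
    rw [fderiv_fun_smul ((hθ1 m).differentiable (by norm_num) x) (hg.differentiable (by norm_num) x)]
    simp only [add_apply, smul_apply, ContinuousLinearMap.smulRight_apply]
    refine (fa_sq_le ht0 _ _).trans (add_le_add ?_ ?_)
    · refine mul_le_mul_of_nonneg_left ?_ (by positivity)
      rw [norm_smul, mul_pow, Real.norm_eq_abs, sq_abs]
      have := hθb m x
      exact mul_le_of_le_one_left (by positivity) (by nlinarith)
    · refine mul_le_mul_of_nonneg_left ?_ (by positivity)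
      rw [norm_smul, mul_pow]
      refine mul_le_mul_of_nonneg_right (pow_le_pow_left₀ (norm_nonneg _) ?_ 2) (by positivity)
      refine (ContinuousLinearMap.le_opNorm _ _).trans ?_
      simpa using hθd m x
  have hint : ∀ k : Fin n × Fin 3,
      ∫ x, ‖fderiv ℝ (fun x => θ m x • g x) x (EuclideanSpace.single k 1)‖ ^ 2 ≤
        (1 + t) * (∫ x, ‖fderiv ℝ g x (EuclideanSpace.single k 1)‖ ^ 2) +
          (1 + 1 / t) * ((C * ((m : ℝ) + 1)⁻¹) ^ 2 * G) := by
    intro k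
    have i1 : Integrable fun x => ‖fderiv ℝ g x (EuclideanSpace.single k 1)‖ ^ 2 :=
      (h4 k).integrable_norm_pow (by norm_num)
    rw [hG, ← integral_const_mul, ← integral_const_mul, ← integral_const_mul,
      ← integral_add (i1.const_mul _) ((hgi.const_mul _).const_mul _)]
    exact integral_mono_of_nonneg (Filter.Eventually.of_forall fun x => by positivity)
      ((i1.const_mul _).add ((hgi.const_mul _).const_mul _))
      (Filter.Eventually.of_forall (hpt k))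
  refine (Finset.sum_le_sum fun k _ => hint k).trans ?_
  rw [Finset.sum_add_distrib, ← Finset.mul_sum, ← hS, Finset.sum_const, Finset.card_univ,
    nsmul_eq_mul]
  have h5 : t * S ≤ δ / 2 := by
    rw [ht, div_mul_eq_mul_div, div_le_iff₀ (by positivity)]
    nlinarith
  nlinarith

end Crest.Agent.R338
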