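import Crest.Agent.R338.Step

/-! Row 338: lemmas for the harmonic oscillator factor. -/

set_option autoImplicit false

open MeasureTheory

namespace Crest.Agent.R338

theorem fg_int {g : ℝ → ℝ} (T : ℝ) (hg : Continuous g) (h : ∀ x, T ≤ |x| → g x = 0) :
    Integrable g :=
  hg.integrable_of_hasCompactSupport (HasCompactSupport.intro (isCompact_Icc (a := -T) (b := T))
    fun x hx => h x (le_of_not_gt fun h' => hx (abs_le.1 h'.le)))

theorem fg_interval {g : ℝ → ℝ} {T : ℝ} (h : ∀ x, T ≤ |x| → g x = 0) :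
    ∫ x, g x = ∫ x in (-T)..T, g x := by
  refine (intervalIntegral.integral_eq_integral_of_support_subset fun x hx => ?_).symm
  have h' := abs_lt.1 (lt_of_not_ge fun h' => hx (h x h'))
  exact ⟨h'.1, h'.2.le⟩

theorem fg_half {a a1 : ℝ → ℝ} (ha : ∀ x, HasDerivAt a (a1 x) x) (h1 : Continuous a1) (h0 : a 0 = 0)
    {c δ m T : ℝ} (hδ : 0 < δ) (hc : 0 ≤ c) (hm : m ≤ 1 / (16 * δ ^ 2)) (hm' : m ≤ c / 2)
    (hT : 0 ≤ T) : 0 ≤ ∫ x in (0 : ℝ)..T, ((a1 x + c * x * a x) ^ 2 - m * a x ^ 2) := by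
  have hac : Continuous a := continuous_iff_continuousAt.2 fun x => (ha x).continuousAt
  have hd : ∀ x ∈ Set.uIcc 0 T, HasDerivAt (fun x => a x ^ 2 / (2 * (x + δ)))
      (a x * a1 x / (x + δ) - a x ^ 2 / (2 * (x + δ) ^ 2)) x := fun x hx => by
    rw [Set.uIcc_of_le hT] at hx
    have hx0 : x + δ ≠ 0 := by linarith [hx.1]
    refine (((ha x).fun_pow 2).fun_div ((((hasDerivAt_id' x).add_const δ).const_mul 2))
      (mul_ne_zero two_ne_zero hx0)).congr_deriv ?_
    field_simp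
    norm_num
    ring
  have hcont : ContinuousOn (fun x => a x * a1 x / (x + δ) - a x ^ 2 / (2 * (x + δ) ^ 2))
      (Set.uIcc 0 T) := by
    rw [Set.uIcc_of_le hT]
    refine ContinuousOn.sub (ContinuousOn.div (by fun_prop) (by fun_prop) fun x hx => ?_)
      (ContinuousOn.div (by fun_prop) (by fun_prop) fun x hx => ?_)
    · linarith [hx.1]
    · have : 0 < x + δ := by linarith [hx.1]
      positivity
  have h2 := intervalIntegral.integral_eq_sub_of_hasDerivAt hd hcont.intervalIntegrable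
  have h3 : 0 ≤ a T ^ 2 / (2 * (T + δ)) := by positivity
  rw [h0] at h2
  refine le_trans (by rw [h2]; simpa using h3) (intervalIntegral.integral_mono_on hT
    hcont.intervalIntegrable (Continuous.intervalIntegrable (by fun_prop) _ _) fun x hx => ?_)
  have hx0 : 0 < x + δ := by linarith [hx.1]
  have h4 : m ≤ 1 / (4 * (x + δ) ^ 2) + c * x / (x + δ) := by
    have hx1 := hx.1
    rcases le_total x δ with h | h
    · have h5 : 1 / (16 * δ ^ 2) ≤ 1 / (4 * (x + δ) ^ 2) :=
        one_div_le_one_div_of_le (by positivity) (by nlinarith)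
      have h6 : 0 ≤ c * x / (x + δ) := by positivity
      linarith
    · have h5 : c / 2 ≤ c * x / (x + δ) := by
        rw [div_le_div_iff₀ two_pos hx0]
        nlinarith
      have h6 : 0 ≤ 1 / (4 * (x + δ) ^ 2) := by positivity
      linarith
  have e : (a1 x + c * x * a x) ^ 2 - (a x * a1 x / (x + δ) - a x ^ 2 / (2 * (x + δ) ^ 2)) =
      (a1 x + c * x * a x - a x / (2 * (x + δ))) ^ 2 +
        (1 / (4 * (x + δ) ^ 2) + c * x / (x + δ)) * a x ^ 2 := by
    field_simp
    ring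
  nlinarith [sq_nonneg (a1 x + c * x * a x - a x / (2 * (x + δ))),
    mul_le_mul_of_nonneg_right h4 (sq_nonneg (a x))]

theorem fg_dir {a a1 : ℝ → ℝ} (ha : ∀ x, HasDerivAt a (a1 x) x) (h1 : Continuous a1) (h0 : a 0 = 0)
    {c δ m T : ℝ} (hδ : 0 < δ) (hc : 0 ≤ c) (hm : m ≤ 1 / (16 * δ ^ 2)) (hm' : m ≤ c / 2)
    (hT : 0 ≤ T) (hs : ∀ x, T ≤ |x| → a x = 0 ∧ a1 x = 0) :
    m * ∫ x, a x ^ 2 ≤ ∫ x, (a1 x + c * x * a x) ^ 2 := by
  have hac : Continuous a := continuous_iff_continuousAt.2 fun x => (ha x).continuousAt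
  have h2 := fg_half ha h1 h0 hδ hc hm hm' hT
  have h3 := fg_half (a := fun x => a (-x)) (a1 := fun x => -a1 (-x))
    (fun x => ((ha (-x)).comp x (hasDerivAt_neg x)).congr_deriv (by ring)) (by fun_prop) (by simpa using h0) hδ hc hm hm' hT
  have e : ∀ x, (-a1 (-x) + c * x * a (-x)) ^ 2 - m * a (-x) ^ 2 =
      (fun y => (a1 y + c * y * a y) ^ 2 - m * a y ^ 2) (-x) := fun x => by ring
  simp only [e] at h3
  rw [intervalIntegral.integral_comp_neg fun y => (a1 y + c * y * a y) ^ 2 - m * a y ^ 2,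
    neg_zero] at h3
  have hcont : Continuous fun y => (a1 y + c * y * a y) ^ 2 - m * a y ^ 2 := by fun_prop
  have h4 := intervalIntegral.integral_add_adjacent_intervals (hcont.intervalIntegrable (-T) 0)
    (hcont.intervalIntegrable (μ := volume) 0 T)
  rw [← fg_interval (fun x hx => by simp [hs x hx]), integral_sub
    (fg_int T (by fun_prop) fun x hx => by simp [hs x hx])
    (fg_int T (by fun_prop) fun x hx => by simp [hs x hx]), integral_const_mul] at h4
  linarith

theorem fg_form {u u1 : ℝ → ℝ} (hu : ∀ x, HasDerivAt u (u1 x) x) (h1 : Continuous u1) (c : ℝ) {T : ℝ}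
    (hs : ∀ x, T ≤ |x| → u x = 0 ∧ u1 x = 0) :
    ∫ x, (1 / 2 * u1 x ^ 2 + (c ^ 2 / 2 * x ^ 2 - c / 2) * u x ^ 2) =
      1 / 2 * ∫ x, (u1 x + c * x * u x) ^ 2 := by
  have hac : Continuous u := continuous_iff_continuousAt.2 fun x => (hu x).continuousAt
  have h2 : ∫ x, (c / 2 * u x ^ 2 + c * x * u x * u1 x) = 0 :=
    integral_eq_zero_of_hasDerivAt_of_integrable (f := fun x => c / 2 * x * u x ^ 2)
      (fun x => (((hasDerivAt_id' x).const_mul (c / 2)).fun_mul ((hu x).fun_pow 2)).congr_deriv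
        (by norm_num; ring))
      (fg_int T (by fun_prop) fun x hx => by simp [hs x hx])
      (fg_int T (by fun_prop) fun x hx => by simp [hs x hx])
  rw [← integral_const_mul, ← add_zero (∫ x, (1 / 2 * u1 x ^ 2 + _)), ← h2, ← integral_add
    (fg_int T (by fun_prop) fun x hx => by simp [hs x hx])
    (fg_int T (by fun_prop) fun x hx => by simp [hs x hx])]
  congr 1
  funext x
  ring

theorem fg_gap {u u1 f f1 : ℝ → ℝ} (hu : ∀ x, HasDerivAt u (u1 x) x) (h1 : Continuous u1)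
    (hf : ∀ x, HasDerivAt f (f1 x) x) (hf1 : Continuous f1) (hf0 : f 0 = 1) {c w lam T : ℝ}
    (hT : 0 ≤ T) (hs : ∀ x, T ≤ |x| → u x = 0 ∧ u1 x = 0) (hs' : ∀ x, T ≤ |x| → f x = 0 ∧ f1 x = 0)
    (hl : 0 < lam) (hl' : lam ≤ 1) (hw : 0 < w) (hw' : w ≤ 1) (hc : 100 ≤ c * w ^ 2)
    (hN : 0 < ∫ x, f x ^ 2)
    (hR : w ^ 2 * ∫ x, (f1 x + c * x * f x) ^ 2 ≤ 1 / 100 * ∫ x, f x ^ 2) :
    (2 - 1 / 20) * lam * (∫ x, u x ^ 2) - 2 * lam * ((∫ x, f x * u x) ^ 2 / ∫ x, f x ^ 2) ≤
      ∫ x, (1 / 2 * u1 x ^ 2 + (c ^ 2 / 2 * x ^ 2 - c / 2) * u x ^ 2) := by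
  have huc : Continuous u := continuous_iff_continuousAt.2 fun x => (hu x).continuousAt
  have hfc : Continuous f := continuous_iff_continuousAt.2 fun x => (hf x).continuousAt
  have hw2 : 0 < w ^ 2 := by positivity
  have hc0 : 0 ≤ c := by nlinarith
  set t := u 0 with ht
  have h2 := fg_dir (a := fun x => u x - t * f x) (a1 := fun x => u1 x - t * f1 x)
    (fun x => (hu x).fun_sub ((hf x).const_mul t)) (by fun_prop) (by simp [hf0, ht])
    (c := c) (δ := w / 40) (m := 50 / w ^ 2) (by positivity) hc0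
    (by rw [div_le_div_iff₀ hw2 (by positivity)]; nlinarith)
    (by rw [div_le_iff₀ hw2]; linarith) hT (fun x hx => by simp [hs x hx, hs' x hx])
  have iu : Integrable fun x => u x ^ 2 := fg_int T (by fun_prop) fun x hx => by simp [hs x hx]
  have if' : Integrable fun x => f x ^ 2 := fg_int T (by fun_prop) fun x hx => by simp [hs' x hx]
  have ifu : Integrable fun x => f x * u x := fg_int T (by fun_prop) fun x hx => by simp [hs x hx]
  have ia : Integrable fun x => (u x - t * f x) ^ 2 :=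
    fg_int T (by fun_prop) fun x hx => by simp [hs x hx, hs' x hx]
  have iq : Integrable fun x => (u1 x + c * x * u x) ^ 2 :=
    fg_int T (by fun_prop) fun x hx => by simp [hs x hx]
  have iR : Integrable fun x => (f1 x + c * x * f x) ^ 2 :=
    fg_int T (by fun_prop) fun x hx => by simp [hs' x hx]
  have h3 : ∫ x, (u1 x - t * f1 x + c * x * (u x - t * f x)) ^ 2 ≤
      2 * (∫ x, (u1 x + c * x * u x) ^ 2) + 2 * t ^ 2 * ∫ x, (f1 x + c * x * f x) ^ 2 := by
    rw [← integral_const_mul, ← integral_const_mul, ← integral_add (iq.const_mul _)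
      (iR.const_mul _)]
    refine integral_mono (fg_int T (by fun_prop) fun x hx => by simp [hs x hx, hs' x hx])
      ((iq.const_mul _).add (iR.const_mul _)) fun x => ?_
    nlinarith [sq_nonneg (u1 x + c * x * u x + t * (f1 x + c * x * f x))]
  have h4 : t ^ 2 * ∫ x, f x ^ 2 ≤ 2 * (∫ x, u x ^ 2) + 2 * ∫ x, (u x - t * f x) ^ 2 := by
    rw [← integral_const_mul, ← integral_const_mul, ← integral_const_mul,
      ← integral_add (iu.const_mul _) (ia.const_mul _)]
    refine integral_mono (if'.const_mul _) ((iu.const_mul _).add (ia.const_mul _)) fun x => ?_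
    nlinarith [sq_nonneg (2 * u x - t * f x)]
  have h5 : ∫ x, (u x - t * f x) ^ 2 =
      (∫ x, u x ^ 2) - 2 * t * (∫ x, f x * u x) + t ^ 2 * ∫ x, f x ^ 2 := by
    rw [← integral_const_mul, ← integral_const_mul, ← integral_sub iu (ifu.const_mul _),
      ← integral_add (f := fun x => u x ^ 2 - 2 * t * (f x * u x)) (iu.sub (ifu.const_mul _))
        (if'.const_mul _)]
    congr 1
    funext x
    ring
  rw [fg_form hu h1 c hs]
  have hA : 0 ≤ ∫ x, (u x - t * f x) ^ 2 := integral_nonneg fun x => sq_nonneg _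
  have hU : 0 ≤ ∫ x, u x ^ 2 := integral_nonneg fun x => sq_nonneg _
  have hq : 0 ≤ ∫ x, (u1 x + c * x * u x) ^ 2 := integral_nonneg fun x => sq_nonneg _
  generalize ∫ x, (u x - t * f x) ^ 2 = A at *
  generalize ∫ x, u x ^ 2 = U at *
  generalize ∫ x, f x ^ 2 = N at *
  generalize ∫ x, f x * u x = P at *
  generalize ∫ x, (u1 x + c * x * u x) ^ 2 = q at *
  generalize ∫ x, (f1 x + c * x * f x) ^ 2 = R at *
  have h6 : U - P ^ 2 / N ≤ A := by
    have : A - (U - P ^ 2 / N) = (t * N - P) ^ 2 / N := by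
      rw [h5]
      field_simp
      ring
    have h7 : 0 ≤ (t * N - P) ^ 2 / N := by positivity
    linarith
  have h7 : 50 * A ≤ w ^ 2 * (2 * q + 2 * t ^ 2 * R) := by
    have := mul_le_mul_of_nonneg_left (h2.trans h3) hw2.le
    rwa [← mul_assoc, mul_div_cancel₀ _ hw2.ne'] at this
  have h8 : w ^ 2 * q ≤ q := mul_le_of_le_one_left hq (by nlinarith)
  have h9 : t ^ 2 * (w ^ 2 * R) ≤ t ^ 2 * (1 / 100 * N) :=
    mul_le_mul_of_nonneg_left hR (sq_nonneg t)
  have h10 : 2 * A - U / 20 ≤ q / 2 := by nlinarith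
  have h11 : lam * q ≤ q := mul_le_of_le_one_left hq hl'
  nlinarith [mul_le_mul_of_nonneg_left h10 hl.le, mul_le_mul_of_nonneg_left h6 hl.le]

theorem fg_gauss (c x : ℝ) : HasDerivAt (fun z => Real.exp (-(c * z ^ 2 / 2)))
    (-(c * x) * Real.exp (-(c * x ^ 2 / 2))) x := by
  refine ((((hasDerivAt_pow 2 x).const_mul c).div_const 2).fun_neg.exp).congr_deriv ?_
  norm_num
  ring

theorem fg_cut_deriv_le {a l : ℝ} (hl : 0 < l) (x : ℝ) : |deriv (cut a l) x| ≤ 4 / l := by
  have h := cut_iteratedDeriv a l (j := 1) (by norm_num) x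
  rw [iteratedDeriv_one] at h
  rw [h]
  norm_num [Finset.sum_range_succ]
  have h1 := Sd_one_nonneg ((a + l - x) / l)
  have h2 := Sd_one_le ((a + l - x) / l)
  have h3 := Sd_one_nonneg ((a + l + x) / l)
  have h4 := Sd_one_le ((a + l + x) / l)
  have h5 := Sd_zero_nonneg ((a + l - x) / l)
  have h6 := Sd_zero_le_one ((a + l - x) / l)
  have h7 := Sd_zero_nonneg ((a + l + x) / l)
  have h8 := Sd_zero_le_one ((a + l + x) / l)
  have h9 : 0 < l⁻¹ := inv_pos.2 hl
  rw [div_eq_mul_inv 4, abs_le]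
  have h10 := mul_le_mul h6 h4 h3 zero_le_one
  have h11 := mul_le_mul h2 h8 h7 (by norm_num : (0 : ℝ) ≤ 4)
  have h12 := mul_nonneg h5 h3
  have h13 := mul_nonneg h1 h7
  constructor <;> nlinarith [mul_le_mul_of_nonneg_left h10 h9.le,
    mul_le_mul_of_nonneg_left h11 h9.le, mul_nonneg h9.le h12, mul_nonneg h9.le h13]

theorem fg_norm {c w : ℝ} (hw : 0 < w) (hc : 100 ≤ c * w ^ 2) :
    1 / (c * w) ≤ ∫ y, (cut w w y * Real.exp (-(c * y ^ 2 / 2))) ^ 2 := by
  have hc0 : 0 < c := by nlinarith [sq_nonneg w]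
  have hcc := (cut_contDiff w w).continuous
  have hη : 0 < 1 / (c * w) := by positivity
  have hη' : 1 / (c * w) ≤ w := by
    rw [div_le_iff₀ (by positivity)]
    nlinarith
  have hcη : c * (1 / (c * w)) ^ 2 ≤ 1 / 2 := by
    have : c * (1 / (c * w)) ^ 2 = 1 / (c * w ^ 2) := by field_simp
    rw [this]
    exact one_div_le_one_div_of_le two_pos (by linarith)
  generalize 1 / (c * w) = η at *
  have hi : Integrable fun y => (cut w w y * Real.exp (-(c * y ^ 2 / 2))) ^ 2 :=
    fg_int (w + w) (by fun_prop) fun x hx => by simp [cut_eq_zero hw hx]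
  calc η = ∫ _ in (-η)..η, (1 / 2 : ℝ) := by simp; ring
    _ ≤ ∫ y in (-η)..η, (cut w w y * Real.exp (-(c * y ^ 2 / 2))) ^ 2 := by
        refine intervalIntegral.integral_mono_on (by linarith) (by simp) hi.intervalIntegrable
          fun x hx => ?_
        have hx' : |x| ≤ η := abs_le.2 hx
        rw [cut_eq_one hw (hx'.trans hη'), one_mul, ← Real.exp_nat_mul]
        have h1 := Real.add_one_le_exp ((2 : ℕ) * -(c * x ^ 2 / 2))
        have h2 : x ^ 2 ≤ η ^ 2 := sq_le_sq' hx.1 hx.2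
        push_cast at h1 ⊢
        nlinarith
    _ ≤ _ := by
        rw [intervalIntegral.integral_of_le (by linarith)]
        exact setIntegral_le_integral hi (Filter.Eventually.of_forall fun x => sq_nonneg _)

theorem fg_exp_le {c w x : ℝ} (hw : 0 < w) (hc : 0 ≤ c) (hx : w ≤ |x|) :
    Real.exp (-(c * x ^ 2 / 2)) ≤ Real.exp (-(c * w ^ 2 / 2)) := by
  have h : w ^ 2 ≤ x ^ 2 := by
    rw [← sq_abs x]
    exact pow_le_pow_left₀ hw.le hx 2
  exact Real.exp_le_exp.2 (by nlinarith)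

theorem fg_R {c w : ℝ} (hw : 0 < w) (hc : 100 ≤ c * w ^ 2) :
    w ^ 2 * ∫ x, (deriv (cut w w) x * Real.exp (-(c * x ^ 2 / 2))) ^ 2 ≤ 1 / 100 * (1 / (c * w)) := by
  have hc0 : 0 < c := by nlinarith [sq_nonneg w]
  have hz : ∀ x, |x| ≤ w ∨ w + w ≤ |x| → deriv (cut w w) x = 0 := fun x hx => by
    rw [← iteratedDeriv_one]
    exact cut_iteratedDeriv_eq_zero hw le_rfl (by norm_num) hx
  rw [fg_interval (T := w + w) fun x hx => by simp [hz x (Or.inr hx)]]
  have h1 := intervalIntegral.norm_integral_le_of_norm_le_const (a := -(w + w)) (b := w + w)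
    (f := fun x => (deriv (cut w w) x * Real.exp (-(c * x ^ 2 / 2))) ^ 2)
    (C := (4 / w * Real.exp (-(c * w ^ 2 / 2))) ^ 2) fun x _ => by
      rw [norm_pow]
      refine pow_le_pow_left₀ (norm_nonneg _) ?_ 2
      rcases le_total |x| w with h | h
      · rw [hz x (Or.inl h), zero_mul, norm_zero]
        positivity
      · rw [norm_mul, Real.norm_eq_abs, Real.norm_eq_abs, abs_of_pos (Real.exp_pos _)]
        exact mul_le_mul (fg_cut_deriv_le hw x) (fg_exp_le hw hc0.le h) (Real.exp_pos _).le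
          (by positivity)
  have h2 := (le_abs_self _).trans h1
  rw [abs_of_pos (by linarith : 0 < w + w - -(w + w))] at h2
  refine (mul_le_mul_of_nonneg_left h2 (sq_nonneg w)).trans ?_
  have h3 : Real.exp (-(c * w ^ 2 / 2)) ^ 2 = (Real.exp (c * w ^ 2))⁻¹ := by
    rw [← Real.exp_nat_mul, ← Real.exp_neg]
    congr 1
    push_cast
    ring
  have h4 : (c * w ^ 2) ^ 4 / (Nat.factorial 4 : ℝ) ≤ Real.exp (c * w ^ 2) :=
    Real.pow_div_factorial_le_exp _ (by positivity) 4
  have h5 : 6400 * (c * w ^ 2) ≤ Real.exp (c * w ^ 2) := by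
    refine le_trans ?_ h4
    generalize c * w ^ 2 = s at hc
    have h6 : (100 : ℝ) ^ 3 ≤ s ^ 3 := pow_le_pow_left₀ (by norm_num) hc 3
    norm_num [Nat.factorial]
    nlinarith
  rw [mul_pow, h3]
  have h6 := Real.exp_pos (c * w ^ 2)
  generalize Real.exp (c * w ^ 2) = X at *
  have e : w ^ 2 * ((4 / w) ^ 2 * X⁻¹ * (w + w - -(w + w))) = 64 * w / X := by
    field_simp
    ring
  rw [e, div_le_iff₀ h6]
  have e2 : 64 * w = 1 / 100 * (1 / (c * w)) * (6400 * (c * w ^ 2)) := by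
    field_simp
    ring
  rw [e2]
  exact mul_le_mul_of_nonneg_left h5 (by positivity)

theorem fg_deriv_f (c a l : ℝ) (x : ℝ) :
    HasDerivAt (fun z => cut a l z * Real.exp (-(c * z ^ 2 / 2)))
      ((deriv (cut a l) x - c * x * cut a l x) * Real.exp (-(c * x ^ 2 / 2))) x := by
  have h := ((cut_contDiff a l).differentiable (by norm_num) x).hasDerivAt
  exact (h.fun_mul (fg_gauss c x)).congr_deriv (by ring)

theorem fg_cut_deriv_contDiff (a l : ℝ) : ContDiff ℝ 1 (deriv (cut a l)) := by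
  have h : ContDiff ℝ (1 + 1) (cut a l) := (cut_contDiff a l).of_le (by norm_num)
  exact (contDiff_succ_iff_deriv.1 h).2.2

theorem fg_deriv_f1 (c a l : ℝ) (x : ℝ) :
    HasDerivAt (fun z => (deriv (cut a l) z - c * z * cut a l z) * Real.exp (-(c * z ^ 2 / 2)))
      ((deriv (deriv (cut a l)) x - 2 * c * x * deriv (cut a l) x +
        (c ^ 2 * x ^ 2 - c) * cut a l x) * Real.exp (-(c * x ^ 2 / 2))) x := by
  have h := ((cut_contDiff a l).differentiable (by norm_num) x).hasDerivAt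
  have h1 := ((fg_cut_deriv_contDiff a l).differentiable (by norm_num) x).hasDerivAt
  exact ((h1.fun_sub (((hasDerivAt_id' x).const_mul c).fun_mul h)).fun_mul
    (fg_gauss c x)).congr_deriv (by ring)

theorem fg_res {c w : ℝ} (hw : 0 < w) (hw' : w ≤ 1) (hc : 100 ≤ c * w ^ 2) {S : ℝ} (hS : 1 / c ≤ S)
    (x : ℝ) :
    |-(1 / 2) * deriv (deriv fun z => cut w w z * Real.exp (-(c * z ^ 2 / 2)) / S) x +
      (c ^ 2 / 2 * x ^ 2 - c / 2) * (cut w w x * Real.exp (-(c * x ^ 2 / 2)) / S)| ≤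
      10 ^ 50 * c ^ 3 * Real.exp (-(c * w ^ 2 / 2)) := by
  have hw2 : w ^ 2 ≤ 1 := by nlinarith
  have hc0 : 0 < c := by nlinarith [sq_nonneg w]
  have hc1 : 100 ≤ c := by nlinarith
  have hS0 : 0 < S := lt_of_lt_of_le (by positivity) hS
  have e1 : (deriv fun z => cut w w z * Real.exp (-(c * z ^ 2 / 2)) / S) = fun z =>
      (deriv (cut w w) z - c * z * cut w w z) * Real.exp (-(c * z ^ 2 / 2)) / S :=
    funext fun z => ((fg_deriv_f c w w z).div_const S).deriv
  rw [e1, ((fg_deriv_f1 c w w x).div_const S).deriv]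
  have e2 : -(1 / 2) * ((deriv (deriv (cut w w)) x - 2 * c * x * deriv (cut w w) x +
        (c ^ 2 * x ^ 2 - c) * cut w w x) * Real.exp (-(c * x ^ 2 / 2)) / S) +
      (c ^ 2 / 2 * x ^ 2 - c / 2) * (cut w w x * Real.exp (-(c * x ^ 2 / 2)) / S) =
      (c * (x * deriv (cut w w) x) - deriv (deriv (cut w w)) x / 2) * S⁻¹ *
        Real.exp (-(c * x ^ 2 / 2)) := by
    field_simp
    ring
  have e3 : deriv (deriv (cut w w)) = iteratedDeriv 2 (cut w w) := by
    rw [iteratedDeriv_succ, iteratedDeriv_one]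
  rw [e2, e3]
  by_cases hx : |x| ≤ w ∨ w + w ≤ |x|
  · rw [← iteratedDeriv_one, cut_iteratedDeriv_eq_zero hw le_rfl (by norm_num) hx,
      cut_iteratedDeriv_eq_zero hw (by norm_num) (by norm_num) hx]
    simp only [mul_zero, zero_div, sub_zero, zero_mul, abs_zero]
    positivity
  · push Not at hx
    rw [abs_mul, abs_mul, abs_of_pos (Real.exp_pos _), abs_of_pos (inv_pos.2 hS0)]
    refine mul_le_mul ?_ (fg_exp_le hw hc0.le hx.1.le) (Real.exp_pos _).le (by positivity)
    have h1 : |x * deriv (cut w w) x| ≤ 8 := by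
      rw [abs_mul]
      calc _ ≤ (w + w) * (4 / w) :=
            mul_le_mul hx.2.le (fg_cut_deriv_le hw x) (abs_nonneg _) (by positivity)
        _ = 8 := by field_simp; norm_num
    have h2 : |iteratedDeriv 2 (cut w w) x| ≤ 10 ^ 45 * c := by
      refine (cut_iteratedDeriv_le hw (by norm_num) x).trans ?_
      rw [div_le_iff₀ (by positivity)]
      nlinarith
    have h3 : |c * (x * deriv (cut w w) x) - iteratedDeriv 2 (cut w w) x / 2| ≤ 10 ^ 46 * c := by
      have h4 := abs_le.1 h1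
      have h5 := abs_le.1 h2
      rw [abs_le]
      constructor <;> nlinarith [h4.1, h4.2, h5.1, h5.2]
    have h4 : S⁻¹ ≤ c := by
      rw [inv_le_comm₀ hS0 hc0, ← one_div]
      exact hS
    calc _ ≤ 10 ^ 46 * c * c := mul_le_mul h3 h4 (inv_pos.2 hS0).le (by positivity)
      _ ≤ 10 ^ 50 * c ^ 3 := by nlinarith [mul_pos hc0 hc0]

theorem fg_norm' {c w : ℝ} (hw : 0 < w) (hw' : w ≤ 1) (hc : 100 ≤ c * w ^ 2) :
    1 / c ≤ ∫ y, (cut w w y * Real.exp (-(c * y ^ 2 / 2))) ^ 2 := by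
  have hc0 : 0 < c := by nlinarith [sq_nonneg w]
  exact (one_div_le_one_div_of_le (by positivity) (by nlinarith)).trans (fg_norm hw hc)

theorem fg_gap' {c w lam : ℝ} (hl : 0 < lam) (hl' : lam ≤ 1) (hw : 0 < w) (hw' : w ≤ 1)
    (hc : 100 ≤ c * w ^ 2) {u : ℝ → ℝ} (hu : ContDiff ℝ 1 u) (hu' : HasCompactSupport u) :
    (2 - 1 / 20) * lam * (∫ x, u x ^ 2) - 2 * lam *
      ((∫ x, cut w w x * Real.exp (-(c * x ^ 2 / 2)) * u x) ^ 2 /
        ∫ y, (cut w w y * Real.exp (-(c * y ^ 2 / 2))) ^ 2) ≤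
      ∫ x, (1 / 2 * deriv u x ^ 2 + (c ^ 2 / 2 * x ^ 2 - c / 2) * u x ^ 2) := by
  have hc0 : 0 < c := by nlinarith [sq_nonneg w]
  obtain ⟨T1, hT1⟩ := (hu'.isCompact.union hu'.deriv.isCompact).isBounded.subset_ball 0
  have hcc := (cut_contDiff w w).continuous
  have hcd := (fg_cut_deriv_contDiff w w).continuous
  refine fg_gap (T := max T1 (w + w)) (fun x => (hu.differentiable (by norm_num) x).hasDerivAt)
    (hu.continuous_deriv le_rfl) (fg_deriv_f c w w) (by fun_prop)
    (by simp [cut_eq_one hw (x := 0) (a := w) (by simpa using hw.le)])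
    (le_max_of_le_right (by positivity)) (fun x hx => ?_) (fun x hx => ?_) hl hl' hw hw' hc
    (lt_of_lt_of_le (by positivity) (fg_norm hw hc)) ?_
  · have h : x ∉ tsupport u ∪ tsupport (deriv u) := fun h => by
      have := hT1 h
      rw [mem_ball_zero_iff, Real.norm_eq_abs] at this
      exact this.not_ge ((le_max_left _ _).trans hx)
    exact ⟨image_eq_zero_of_notMem_tsupport fun h' => h (Or.inl h'),
      image_eq_zero_of_notMem_tsupport fun h' => h (Or.inr h')⟩
  · have hx' := (le_max_right _ _).trans hx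
    have h := cut_iteratedDeriv_eq_zero (a := w) hw le_rfl (by norm_num) (Or.inr hx')
    rw [iteratedDeriv_one] at h
    simp [cut_eq_zero hw hx', h]
  · have e : ∀ x, (deriv (cut w w) x - c * x * cut w w x) * Real.exp (-(c * x ^ 2 / 2)) +
        c * x * (cut w w x * Real.exp (-(c * x ^ 2 / 2))) =
        deriv (cut w w) x * Real.exp (-(c * x ^ 2 / 2)) := fun x => by ring
    simp only [e]
    exact (fg_R hw hc).trans (mul_le_mul_of_nonneg_left (fg_norm hw hc) (by norm_num))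

end Crest.Agent.R338
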