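import Crest.Agent.R338.FacA
import Crest.Agent.R338.FacG

/-! Row 338: compactly supported approximate eigenfunctions in one dimension. -/

set_option autoImplicit false

open MeasureTheory

namespace Crest.Agent.R338

/-- A factor with two levels `0`, `lam` and nothing else below `(2 - 1/20) lam`. -/
structure Fac (lam : ℝ) (W : ℝ → ℝ) (e : Fin 2 → ℝ → ℝ) (T η : ℝ) : Prop where
  W_cont : Continuous W
  c2 : ∀ a, ContDiff ℝ 2 (e a)
  supp : ∀ a x, T ≤ |x| → e a x = 0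
  on : ∀ a b, ∫ x, e a x * e b x = if a = b then 1 else 0
  res : ∀ a x, |-(1 / 2) * deriv (deriv (e a)) x + (W x - ((a : ℕ) : ℝ) * lam) * e a x| ≤ η
  gap : ∀ u : ℝ → ℝ, ContDiff ℝ 1 u → HasCompactSupport u →
    (2 - 1 / 20) * lam * (∫ x, u x ^ 2) - 2 * lam * (∫ x, e 0 x * u x) ^ 2 -
      lam * (∫ x, e 1 x * u x) ^ 2 ≤ ∫ x, (1 / 2 * deriv u x ^ 2 + W x * u x ^ 2)

/-- A factor with one level `0` and nothing else below `(2 - 1/20) lam`. -/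
structure Fac1 (lam : ℝ) (W : ℝ → ℝ) (e : ℝ → ℝ) (T η : ℝ) : Prop where
  W_cont : Continuous W
  c2 : ContDiff ℝ 2 e
  supp : ∀ x, T ≤ |x| → e x = 0
  on : ∫ x, e x * e x = 1
  res : ∀ x, |-(1 / 2) * deriv (deriv e) x + W x * e x| ≤ η
  gap : ∀ u : ℝ → ℝ, ContDiff ℝ 1 u → HasCompactSupport u →
    (2 - 1 / 20) * lam * (∫ x, u x ^ 2) - 2 * lam * (∫ x, e x * u x) ^ 2 ≤
      ∫ x, (1 / 2 * deriv u x ^ 2 + W x * u x ^ 2)

/-- Cut off and normalise. -/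
noncomputable def cn (T l : ℝ) (f : ℝ → ℝ) (x : ℝ) : ℝ :=
  cut T l x * f x / √(∫ y, (cut T l y * f y) ^ 2)

noncomputable def facE (T l : ℝ) (φ g : ℝ → ℝ) : Fin 2 → ℝ → ℝ :=
  ![cn T l φ, cn T l fun x => φ x * g x]

variable {lam : ℝ} {φ φ1 g p W : ℝ → ℝ} {x₀ β T l K : ℝ}

theorem SL.fac (h : SL lam φ φ1 g p W) (hx : 0 < x₀) (hβ : 0 < β) (h16 : 16 * lam ≤ β ^ 2)
    (hr : ∀ t, x₀ ≤ t → β * p t ≤ φ t ^ 2 * g t)
    (hm : g x₀ * ∫ t in (0 : ℝ)..x₀, φ t ^ 2 ≤ p x₀ / 2) (hlam : lam ≤ 1) (hT : x₀ ≤ T)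
    (hl : 0 < l) (hg : g x₀ = 1) (hg' : g (T + l) ≤ 2) (hp : 3 / 4 ≤ p x₀) (hp' : p T ≤ 1 / 10 ^ 6)
    (hK : 1 ≤ K) (h1 : ∀ x, T ≤ x → x ≤ T + l → |φ1 x| ≤ K * φ x ∧ φ x ^ 2 * g x ≤ K * p x) :
    Fac lam W (facE T l φ g) (T + l) (10 ^ 50 * (1 + 1 / l) ^ 2 * K ^ 2 * (1 + 1 / β) * √(p T)) := by
  have hφ := h.fa_φ_cont
  have hgc := h.fa_g_cont
  have hW := h.W_cont
  have hT0 : 0 ≤ T := by linarith
  have n0 : 7 / 10 ≤ ∫ y, (cut T l y * φ y) ^ 2 := by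
    have := h.fa_N0_ge hx hT hl hg'
    linarith
  have n1 : 7 / 5 ≤ ∫ y, (cut T l y * (φ y * g y)) ^ 2 := by
    have := h.fa_N1_ge hx hT hl hg
    linarith
  have s0 : 1 / 2 ≤ √(∫ y, (cut T l y * φ y) ^ 2) := Real.le_sqrt_of_sq_le (by linarith)
  have s1 : 1 / 2 ≤ √(∫ y, (cut T l y * (φ y * g y)) ^ 2) := Real.le_sqrt_of_sq_le (by linarith)
  have hB : 0 ≤ K ^ 2 * (1 + 1 / β) * √(p T) := by positivity
  have hη : 10 ^ 46 * (1 + 1 / l) ^ 2 * (4 * (K ^ 2 * (1 + 1 / β) * √(p T))) ≤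
      10 ^ 50 * (1 + 1 / l) ^ 2 * K ^ 2 * (1 + 1 / β) * √(p T) := by
    have : 0 ≤ (1 + 1 / l) ^ 2 * (K ^ 2 * (1 + 1 / β) * √(p T)) := by positivity
    nlinarith
  have hz := fun x (a : T ≤ |x|) (b : |x| ≤ T + l) => h.fa_zone hx hβ hr hlam hT hg hg' hK h1 a b
  refine ⟨hW, Fin.forall_fin_two.2 ⟨?_, ?_⟩, Fin.forall_fin_two.2 ⟨fun x hx => ?_, fun x hx => ?_⟩,
    Fin.forall_fin_two.2 ⟨Fin.forall_fin_two.2 ⟨?_, ?_⟩, Fin.forall_fin_two.2 ⟨?_, ?_⟩⟩,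
    Fin.forall_fin_two.2 ⟨fun x => ?_, fun x => ?_⟩, fun u hu hu' => ?_⟩
  · exact facA_cn_c2 (facA_c2 h.dφ h.dφ1 hW) _ _ _
  · exact facA_cn_c2 (facA_c2 (V := fun x => W x - lam) h.fa_dq h.fa_dq1 (by fun_prop)) _ _ _
  · change cut T l x * _ / _ = 0
    rw [cut_eq_zero hl hx, zero_mul, zero_div]
  · change cut T l x * _ / _ = 0
    rw [cut_eq_zero hl hx, zero_mul, zero_div]
  · exact facA_norm_one (f := φ) (by linarith) rfl
  · refine facA_odd (F := fun x => cn T l φ x * cn T l (fun x => φ x * g x) x) fun x => ?_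
    simp only [cn, cut_neg, h.φ_even, h.g_odd]
    ring
  · refine facA_odd (F := fun x => cn T l (fun x => φ x * g x) x * cn T l φ x) fun x => ?_
    simp only [cn, cut_neg, h.φ_even, h.g_odd]
    ring
  · exact facA_norm_one (f := fun x => φ x * g x) (by linarith) rfl
  · have := facA_res (T := T) h.dφ h.dφ1 hl s0 (B := 4 * (K ^ 2 * (1 + 1 / β) * √(p T)))
      (by positivity) (fun y a b => by
        have := (hz y a b).1
        rwa [facA_abs (F := fun y => |φ y|) (fun y => by rw [h.φ_even]),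
          facA_abs (F := fun y => |φ1 y|) (fun y => by rw [h.fa_φ1_odd, abs_neg])] at this) x
    refine le_trans (le_of_eq ?_) (this.trans hη)
    simp only [facE, Matrix.cons_val_zero, Fin.val_zero, Nat.cast_zero, zero_mul, sub_zero]
    rfl
  · have := facA_res (T := T) (V := fun x => W x - lam) h.fa_dq h.fa_dq1 hl s1
      (B := 4 * (K ^ 2 * (1 + 1 / β) * √(p T))) (by positivity) (fun y a b => by
        have := (hz y a b).2
        rwa [facA_abs (F := fun y => |φ y * g y|)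
            (fun y => by rw [h.φ_even, h.g_odd, mul_neg, abs_neg]),
          facA_abs (F := fun y => |φ1 y * g y + 2 * lam * p y / φ y|)
            (fun y => by rw [h.fa_φ1_odd, h.g_odd, h.p_even, h.φ_even, neg_mul_neg])] at this) x
    refine le_trans (le_of_eq ?_) (this.trans hη)
    simp only [facE, Matrix.cons_val_one, Matrix.cons_val_zero, Fin.val_one, Nat.cast_one, one_mul]
    rfl
  · obtain ⟨i0, i1, ht⟩ := h.tail hx hβ h16 hr
    obtain ⟨t0, t1⟩ := ht T hT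
    have g1 : 1 ≤ g T := hg ▸ h.fa_g_mono hT
    have g2 : g T ≤ 2 := (h.fa_g_mono (by linarith)).trans hg'
    have pT := h.p_pos T
    have a0 := facA_gap (T := T) (τ := 1 / 10 ^ 6) hφ i0 h.fa_sq_even hT0 hl rfl (by linarith)
      (t0.trans ((div_le_self pT.le g1).trans hp')) (by linarith) hu.continuous hu'
    have a1 := facA_gap (T := T) (f := fun x => φ x * g x) (τ := 4 / 10 ^ 6) (by fun_prop) i1
      h.fa_sq_even' hT0 hl rfl (by linarith) (t1.trans (by nlinarith)) (by linarith) hu.continuous hu'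
    have a2 := h.three_level hx hβ h16 hr hm hu hu'
    have b0 := mul_le_mul_of_nonneg_left a0 h.lam_pos.le
    have b1 := mul_le_mul_of_nonneg_left a1 h.lam_pos.le
    rw [mul_div_assoc, mul_div_assoc] at a2
    change (2 - 1 / 20) * lam * (∫ x, u x ^ 2) -
      2 * lam * (∫ x, cut T l x * φ x / √(∫ y, (cut T l y * φ y) ^ 2) * u x) ^ 2 -
      lam * (∫ x, cut T l x * (φ x * g x) / √(∫ y, (cut T l y * (φ y * g y)) ^ 2) * u x) ^ 2 ≤ _
    linarith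

/-- The norms of the cut-off functions. -/
theorem SL.norms (h : SL lam φ φ1 g p W) (hx : 0 < x₀) (hβ : 0 < β) (h16 : 16 * lam ≤ β ^ 2)
    (hr : ∀ t, x₀ ≤ t → β * p t ≤ φ t ^ 2 * g t) (hT : x₀ ≤ T) (hl : 0 < l) (hg : g x₀ = 1)
    {ε : ℝ} (hε : ε ≤ 1 / 10) (h0 : p 0 = 1) (hg' : g (T + l) ≤ 1 + ε) (hp : 1 - ε ≤ p x₀)
    (hp' : p T ≤ ε) (hm : ∫ t in (0 : ℝ)..x₀, φ t ^ 2 ≤ ε) :
    |(∫ y, (cut T l y * φ y) ^ 2) - 2| ≤ 6 * ε ∧
      |(∫ y, (cut T l y * (φ y * g y)) ^ 2) - 2| ≤ 6 * ε := by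
  have a1 := h.fa_N0_ge hx hT hl hg'
  have a2 := h.fa_N1_ge hx hT hl hg
  have a3 := h.fa_N0_le hx hT hl hg
  have a4 := h.fa_N1_le (by linarith) hl hg'
  have a5 : p x₀ ≤ 1 := h0 ▸ h.fa_p_anti le_rfl hx.le
  have e0 : 0 < ε := (h.p_pos T).trans_le hp'
  rw [h0] at a4
  refine ⟨abs_le.2 ⟨?_, by linarith⟩, abs_le.2 ⟨by linarith, by linarith⟩⟩
  by_contra hc
  rw [not_le] at hc
  nlinarith

/-- The harmonic oscillator. -/
theorem fac_gauss {c w : ℝ} (hl : 0 < lam) (hl' : lam ≤ 1) (hw : 0 < w) (hw' : w ≤ 1)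
    (hc : 100 ≤ c * w ^ 2) :
    Fac1 lam (fun z => c ^ 2 / 2 * z ^ 2 - c / 2) (cn w w fun z => Real.exp (-(c * z ^ 2 / 2)))
      (2 * w) (10 ^ 50 * c ^ 3 * Real.exp (-(c * w ^ 2 / 2))) ∧
    1 / c ≤ ∫ y, (cut w w y * Real.exp (-(c * y ^ 2 / 2))) ^ 2 := by
  have hN := fg_norm' hw hw' hc
  have hw2 : w ^ 2 ≤ 1 := by nlinarith
  have hc0 : 0 < c := by nlinarith [sq_nonneg w]
  have hc1 : 100 ≤ c := by nlinarith
  have hN0 : 0 < ∫ y, (cut w w y * Real.exp (-(c * y ^ 2 / 2))) ^ 2 :=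
    lt_of_lt_of_le (by positivity) hN
  have hS : 1 / c ≤ √(∫ y, (cut w w y * Real.exp (-(c * y ^ 2 / 2))) ^ 2) := by
    refine Real.le_sqrt_of_sq_le (le_trans ?_ hN)
    rw [div_pow, one_pow]
    exact one_div_le_one_div_of_le (by positivity) (by nlinarith)
  refine ⟨⟨by fun_prop, ?_, fun x hx => ?_, ?_, fg_res hw hw' hc hS, fun u hu hu' => ?_⟩, hN⟩
  · exact (((cut_contDiff w w).of_le (by norm_num)).mul (by fun_prop)).div_const _
  · rw [cn, cut_eq_zero hw (by rwa [← two_mul]), zero_mul, zero_div]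
  · simp only [cn, ← sq, div_pow]
    rw [integral_div, Real.sq_sqrt hN0.le, div_self hN0.ne']
  · simp only [cn, div_mul_eq_mul_div]
    rw [integral_div, div_pow, Real.sq_sqrt hN0.le]
    simpa only [div_mul_eq_mul_div] using fg_gap' hl hl' hw hw' hc hu hu'

end Crest.Agent.R338
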