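import Crest.Agent.R338.SL

/-! Row 338: helper lemmas for `Fac` (cut-off functions: norms, derivatives, projections). -/

set_option autoImplicit false

open MeasureTheory

namespace Crest.Agent.R338

theorem facA_cs {a u : ℝ → ℝ} (ha : Integrable fun x => a x ^ 2) (hu : Integrable fun x => u x ^ 2)
    (hau : Integrable fun x => a x * u x) :
    (∫ x, a x * u x) ^ 2 ≤ (∫ x, a x ^ 2) * ∫ x, u x ^ 2 := by
  have h := discrim_le_zero (a := ∫ x, a x ^ 2) (b := 2 * ∫ x, a x * u x) (c := ∫ x, u x ^ 2)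
    fun t => by
      have e : (∫ x, a x ^ 2) * (t * t) + (2 * ∫ x, a x * u x) * t + ∫ x, u x ^ 2 =
          ∫ x, (t * a x + u x) ^ 2 := by
        have e2 : (fun x => (t * a x + u x) ^ 2) =
            fun x => (t * t * a x ^ 2 + 2 * t * (a x * u x)) + u x ^ 2 := by
          funext x; ring
        have i1 : Integrable fun x => t * t * a x ^ 2 + 2 * t * (a x * u x) :=
          (ha.const_mul _).add (hau.const_mul _)
        rw [e2, integral_add i1 hu,
          integral_add (ha.const_mul _) (hau.const_mul _), integral_const_mul, integral_const_mul]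
        ring
      rw [e]
      exact integral_nonneg fun x => sq_nonneg _
  rw [discrim] at h
  nlinarith

theorem facA_abs {F : ℝ → ℝ} (he : ∀ x, F (-x) = F x) (x : ℝ) : F |x| = F x := by
  rcases abs_choice x with e | e <;> rw [e]
  exact he x

theorem facA_even_Ioi {F : ℝ → ℝ} (he : ∀ x, F (-x) = F x) :
    ∫ x, F x = 2 * ∫ x in Set.Ioi (0 : ℝ), F x := by
  rw [← integral_comp_abs]
  simp only [facA_abs he]

theorem facA_even {F : ℝ → ℝ} (he : ∀ x, F (-x) = F x) {R : ℝ} (hR : 0 ≤ R)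
    (h0 : ∀ x, R ≤ x → F x = 0) : ∫ x, F x = 2 * ∫ x in (0 : ℝ)..R, F x := by
  rw [facA_even_Ioi he, intervalIntegral.integral_of_le hR]
  congr 1
  refine setIntegral_eq_of_subset_of_forall_sdiff_eq_zero measurableSet_Ioi Set.Ioc_subset_Ioi_self
    fun x hx => h0 x ?_
  by_contra h
  exact hx.2 ⟨hx.1, (not_le.1 h).le⟩

theorem facA_odd {F : ℝ → ℝ} (he : ∀ x, F (-x) = -F x) : ∫ x, F x = 0 := by
  have h := integral_neg_eq_self F volume
  simp only [he, integral_neg] at h
  linarith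

variable {T l : ℝ} {f f1 V u : ℝ → ℝ}

theorem facA_cut_cont (T l : ℝ) : Continuous (cut T l) := (cut_contDiff T l).continuous

theorem facA_cut_d1 (T l x : ℝ) : HasDerivAt (cut T l) (iteratedDeriv 1 (cut T l) x) x := by
  rw [iteratedDeriv_one]
  exact ((cut_contDiff T l).differentiable (by norm_num) x).hasDerivAt

theorem facA_cut_d2 (T l x : ℝ) :
    HasDerivAt (iteratedDeriv 1 (cut T l)) (iteratedDeriv 2 (cut T l) x) x := by
  rw [iteratedDeriv_succ (n := 1)]
  exact ((cut_contDiff T l).differentiable_iteratedDeriv 1 (by norm_num) x).hasDerivAt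

theorem facA_c2 (h1 : ∀ x, HasDerivAt f (f1 x) x) (h2 : ∀ x, HasDerivAt f1 (2 * V x * f x) x)
    (hV : Continuous V) : ContDiff ℝ 2 f := by
  have hf : Continuous f := continuous_iff_continuousAt.2 fun x => (h1 x).continuousAt
  have e1 : deriv f = f1 := funext fun x => (h1 x).deriv
  have e2 : deriv f1 = fun x => 2 * V x * f x := funext fun x => (h2 x).deriv
  rw [show (2 : WithTop ℕ∞) = 1 + 1 from rfl, contDiff_succ_iff_deriv, e1, contDiff_one_iff_deriv, e2]
  exact ⟨fun x => (h1 x).differentiableAt, by simp, fun x => (h2 x).differentiableAt, by fun_prop⟩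

theorem facA_cn_c2 (hf : ContDiff ℝ 2 f) (T l c : ℝ) :
    ContDiff ℝ 2 fun x => cut T l x * f x / c :=
  (((cut_contDiff T l).of_le (by norm_num)).mul hf).div_const c

theorem facA_res_eq (h1 : ∀ x, HasDerivAt f (f1 x) x) (h2 : ∀ x, HasDerivAt f1 (2 * V x * f x) x)
    (T l c x : ℝ) :
    -(1 / 2) * deriv (deriv fun x => cut T l x * f x / c) x + V x * (cut T l x * f x / c) =
      -(iteratedDeriv 2 (cut T l) x * f x / 2 + iteratedDeriv 1 (cut T l) x * f1 x) / c := by
  have e1 : (deriv fun x => cut T l x * f x / c) =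
      fun x => (iteratedDeriv 1 (cut T l) x * f x + cut T l x * f1 x) / c :=
    funext fun x => (((facA_cut_d1 T l x).fun_mul (h1 x)).div_const c).deriv
  rw [e1, ((((facA_cut_d2 T l x).fun_mul (h1 x)).fun_add
    ((facA_cut_d1 T l x).fun_mul (h2 x))).div_const c).deriv]
  ring

theorem facA_res (h1 : ∀ x, HasDerivAt f (f1 x) x) (h2 : ∀ x, HasDerivAt f1 (2 * V x * f x) x)
    (hl : 0 < l) {c B : ℝ} (hc : 1 / 2 ≤ c) (hB : 0 ≤ B)
    (hb : ∀ x, T ≤ |x| → |x| ≤ T + l → |f x| ≤ B ∧ |f1 x| ≤ B) (x : ℝ) :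
    |-(1 / 2) * deriv (deriv fun x => cut T l x * f x / c) x + V x * (cut T l x * f x / c)| ≤
      10 ^ 46 * (1 + 1 / l) ^ 2 * B := by
  rw [facA_res_eq h1 h2]
  by_cases hx : |x| ≤ T ∨ T + l ≤ |x|
  · rw [cut_iteratedDeriv_eq_zero hl (by norm_num) (by norm_num) hx,
      cut_iteratedDeriv_eq_zero hl (by norm_num) (by norm_num) hx]
    simp only [zero_mul, zero_div, add_zero, neg_zero, abs_zero]
    positivity
  · rw [not_or, not_le, not_le] at hx
    obtain ⟨b1, b2⟩ := hb x hx.1.le hx.2.le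
    have d1 := cut_iteratedDeriv_le (a := T) hl (j := 1) (by norm_num) x
    have d2 := cut_iteratedDeriv_le (a := T) hl (j := 2) (by norm_num) x
    have hc0 : 0 < c := by linarith
    rw [abs_div, abs_neg, abs_of_pos hc0, div_le_iff₀ hc0]
    have hi : 0 < 1 / l := by positivity
    calc |iteratedDeriv 2 (cut T l) x * f x / 2 + iteratedDeriv 1 (cut T l) x * f1 x|
        ≤ |iteratedDeriv 2 (cut T l) x| * |f x| / 2 + |iteratedDeriv 1 (cut T l) x| * |f1 x| := by
          refine (abs_add_le _ _).trans (le_of_eq ?_)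
          rw [abs_div, abs_mul, abs_mul, abs_two]
      _ ≤ 10 ^ 45 / l ^ 2 * B / 2 + 10 ^ 45 / l ^ 1 * B := by gcongr
      _ = 10 ^ 45 * ((1 / l) ^ 2 / 2 + 1 / l) * B := by field_simp
      _ ≤ 10 ^ 45 * (1 + 1 / l) ^ 2 * B := by
          gcongr
          nlinarith
      _ ≤ 10 ^ 46 * (1 + 1 / l) ^ 2 * B * c := by
          have : 0 ≤ (1 + 1 / l) ^ 2 * B := by positivity
          nlinarith

theorem facA_norm_one {N : ℝ} (hN : 0 < N) (e : (∫ y, (cut T l y * f y) ^ 2) = N) :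
    ∫ x, cut T l x * f x / √N * (cut T l x * f x / √N) = 1 := by
  have e2 : (fun x => cut T l x * f x / √N * (cut T l x * f x / √N)) =
      fun x => (cut T l x * f x) ^ 2 / N := by
    funext x
    rw [div_mul_div_comm, Real.mul_self_sqrt hN.le, sq]
  rw [e2, integral_div, e, div_self hN.ne']

theorem facA_gap (hf : Continuous f) (hi : Integrable fun x => f x ^ 2)
    (he : ∀ x, f (-x) ^ 2 = f x ^ 2) (hT : 0 ≤ T) (hl : 0 < l) {N τ : ℝ}
    (e : (∫ y, (cut T l y * f y) ^ 2) = N) (hN : 0 < N)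
    (hτ : (∫ x in Set.Ioi T, f x ^ 2) ≤ τ) (hτN : 30000 * τ ≤ N) (hu : Continuous u)
    (hu' : HasCompactSupport u) :
    (∫ x, f x * u x) ^ 2 / (∫ x, f x ^ 2) ≤
      (∫ x, cut T l x * f x / √N * u x) ^ 2 + 1 / 60 * ∫ x, u x ^ 2 := by
  have hψ := facA_cut_cont T l
  have hb1 : ∀ x, (cut T l x * f x) ^ 2 ≤ f x ^ 2 := fun x => by
    rw [mul_pow]
    exact mul_le_of_le_one_left (sq_nonneg _) (pow_le_one₀ (cut_nonneg _ _ _) (cut_le_one _ _ _))
  have hb2 : ∀ x, ((1 - cut T l x) * f x) ^ 2 ≤ f x ^ 2 := fun x => by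
    rw [mul_pow]
    exact mul_le_of_le_one_left (sq_nonneg _) (pow_le_one₀ (sub_nonneg.2 (cut_le_one _ _ _))
      (by linarith [cut_nonneg T l x]))
  have ia : Integrable fun x => (cut T l x * f x) ^ 2 :=
    hi.mono' (by fun_prop) (Filter.Eventually.of_forall fun x => by
      rw [Real.norm_of_nonneg (sq_nonneg _)]; exact hb1 x)
  have ib : Integrable fun x => ((1 - cut T l x) * f x) ^ 2 :=
    hi.mono' (by fun_prop) (Filter.Eventually.of_forall fun x => by
      rw [Real.norm_of_nonneg (sq_nonneg _)]; exact hb2 x)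
  have iu : Integrable fun x => u x ^ 2 := by
    have : HasCompactSupport fun x => u x * u x := hu'.mul_left
    simp only [sq]
    exact Continuous.integrable_of_hasCompactSupport (by fun_prop) this
  have iau : Integrable fun x => cut T l x * f x * u x :=
    Continuous.integrable_of_hasCompactSupport (by fun_prop) hu'.mul_left
  have ibu : Integrable fun x => (1 - cut T l x) * f x * u x :=
    Continuous.integrable_of_hasCompactSupport (by fun_prop) hu'.mul_left
  have c1 := facA_cs ia iu iau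
  have c2 := facA_cs ib iu ibu
  have hM : N ≤ ∫ x, f x ^ 2 := e ▸ integral_mono ia hi hb1
  have hbτ : (∫ x, ((1 - cut T l x) * f x) ^ 2) ≤ 2 * τ := by
    rw [facA_even_Ioi (F := fun x => ((1 - cut T l x) * f x) ^ 2)
      fun x => by simp only [mul_pow, cut_neg, he]]
    have e1 : (∫ x in Set.Ioi (0 : ℝ), ((1 - cut T l x) * f x) ^ 2) =
        ∫ x in Set.Ioi T, ((1 - cut T l x) * f x) ^ 2 := by
      refine setIntegral_eq_of_subset_of_forall_sdiff_eq_zero measurableSet_Ioi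
        (Set.Ioi_subset_Ioi hT) fun x hx => ?_
      have h1 : 0 < x := hx.1
      have h2 : x ≤ T := not_lt.1 hx.2
      rw [cut_eq_one hl (by rwa [abs_of_pos h1])]
      simp
    rw [e1]
    have := setIntegral_mono (s := Set.Ioi T) ib.integrableOn hi.integrableOn hb2
    linarith
  have es : (∫ x, f x * u x) =
      (∫ x, cut T l x * f x * u x) + ∫ x, (1 - cut T l x) * f x * u x := by
    rw [← integral_add iau ibu]
    congr 1; funext x; ring
  have ee : (∫ x, cut T l x * f x / √N * u x) ^ 2 = (∫ x, cut T l x * f x * u x) ^ 2 / N := by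
    have : (fun x => cut T l x * f x / √N * u x) = fun x => cut T l x * f x * u x / √N := by
      funext x; ring
    rw [this, integral_div, div_pow, Real.sq_sqrt hN.le]
  have hU : 0 ≤ ∫ x, u x ^ 2 := integral_nonneg fun x => sq_nonneg _
  rw [es, ee]
  rw [e] at c1
  generalize (∫ x, cut T l x * f x * u x) = A at *
  generalize (∫ x, (1 - cut T l x) * f x * u x) = B at *
  generalize (∫ x, u x ^ 2) = U at *
  generalize (∫ x, f x ^ 2) = M at *
  generalize (∫ x, ((1 - cut T l x) * f x) ^ 2) = b at *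
  have h3 : B ^ 2 ≤ N / 15000 * U := c2.trans (mul_le_mul_of_nonneg_right (by linarith) hU)
  have h4 : (A + B) ^ 2 ≤ A ^ 2 + 1 / 60 * (N * U) := by
    nlinarith [sq_nonneg (A - 120 * B)]
  calc (A + B) ^ 2 / M ≤ (A + B) ^ 2 / N := by gcongr
    _ ≤ (A ^ 2 + 1 / 60 * (N * U)) / N := by gcongr
    _ = A ^ 2 / N + 1 / 60 * U := by field_simp

/-! ### Elementary facts on an `SL` system -/

variable {lam : ℝ} {φ φ1 g p W : ℝ → ℝ}

theorem SL.fa_φ_cont (h : SL lam φ φ1 g p W) : Continuous φ :=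
  continuous_iff_continuousAt.2 fun x => (h.dφ x).continuousAt

theorem SL.fa_g_cont (h : SL lam φ φ1 g p W) : Continuous g :=
  continuous_iff_continuousAt.2 fun x => (h.dg x).continuousAt

theorem SL.fa_g_mono (h : SL lam φ φ1 g p W) : Monotone g :=
  monotone_of_hasDerivAt_nonneg h.dg fun x => by
    have := h.lam_pos; have := h.p_pos x; have := h.φ_pos x
    simp only [Pi.zero_apply]
    positivity

theorem SL.fa_g_zero (h : SL lam φ φ1 g p W) : g 0 = 0 := by
  have := h.g_odd 0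
  rw [neg_zero] at this
  linarith

theorem SL.fa_g_nonneg (h : SL lam φ φ1 g p W) {x : ℝ} (hx : 0 ≤ x) : 0 ≤ g x :=
  h.fa_g_zero ▸ h.fa_g_mono hx

theorem SL.fa_int_g (h : SL lam φ φ1 g p W) (a b : ℝ) : ∫ x in a..b, φ x ^ 2 * g x = p a - p b := by
  have := intervalIntegral.integral_eq_sub_of_hasDerivAt (f := fun x => -p x)
    (f' := fun x => φ x ^ 2 * g x) (a := a) (b := b)
    (fun x _ => by simpa using (h.dp x).fun_neg)
    (((h.fa_φ_cont.pow 2).mul h.fa_g_cont).intervalIntegrable _ _)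
  rw [this]; ring

theorem SL.fa_p_anti (h : SL lam φ φ1 g p W) {a b : ℝ} (ha : 0 ≤ a) (hab : a ≤ b) : p b ≤ p a := by
  have := intervalIntegral.integral_nonneg (μ := volume) (f := fun x => φ x ^ 2 * g x) hab
    fun x hx => mul_nonneg (sq_nonneg _) (h.fa_g_nonneg (ha.trans hx.1))
  rw [h.fa_int_g] at this
  linarith

theorem facA_deriv_even (h1 : ∀ x, HasDerivAt f (f1 x) x) (he : ∀ x, f (-x) = f x) (x : ℝ) :
    f1 (-x) = -f1 x := by
  have h2 : HasDerivAt (fun y => f (-y)) (f1 (-x) * -1) x := (h1 (-x)).comp x (hasDerivAt_neg x)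
  simp only [he] at h2
  have := h2.unique (h1 x)
  linarith

theorem SL.fa_φ1_odd (h : SL lam φ φ1 g p W) (x : ℝ) : φ1 (-x) = -φ1 x :=
  facA_deriv_even h.dφ h.φ_even x

theorem SL.fa_dq (h : SL lam φ φ1 g p W) (x : ℝ) :
    HasDerivAt (fun x => φ x * g x) (φ1 x * g x + 2 * lam * p x / φ x) x := by
  refine ((h.dφ x).fun_mul (h.dg x)).congr_deriv ?_
  have := (h.φ_pos x).ne'
  field_simp

theorem SL.fa_dq1 (h : SL lam φ φ1 g p W) (x : ℝ) :
    HasDerivAt (fun x => φ1 x * g x + 2 * lam * p x / φ x) (2 * (W x - lam) * (φ x * g x)) x := by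
  have h0 := (h.φ_pos x).ne'
  refine (((h.dφ1 x).fun_mul (h.dg x)).fun_add
    (((h.dp x).const_mul (2 * lam)).fun_div (h.dφ x) h0)).congr_deriv ?_
  field_simp
  ring

/-- Two-sided bounds for the norm of a cut-off function. -/
theorem facA_norm_ge (hf : Continuous f) (he : ∀ x, f (-x) ^ 2 = f x ^ 2) (hl : 0 < l) {a : ℝ}
    (ha : 0 ≤ a) (hT : a ≤ T) : 2 * ∫ x in a..T, f x ^ 2 ≤ ∫ y, (cut T l y * f y) ^ 2 := by
  have hψ := facA_cut_cont T l
  rw [facA_even (F := fun y => (cut T l y * f y) ^ 2) (fun x => by simp only [mul_pow, cut_neg, he])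
    (R := T + l) (by linarith) fun x hx => by
      rw [cut_eq_zero hl (hx.trans (le_abs_self x))]; simp]
  have e : (∫ x in a..T, f x ^ 2) = ∫ x in a..T, (cut T l x * f x) ^ 2 := by
    refine intervalIntegral.integral_congr fun x hx => ?_
    rw [Set.uIcc_of_le hT] at hx
    rw [cut_eq_one hl (by rw [abs_of_nonneg (ha.trans hx.1)]; exact hx.2), one_mul]
  rw [e]
  have := intervalIntegral.integral_mono_interval (μ := volume)
    (f := fun x => (cut T l x * f x) ^ 2) ha hT (by linarith : T ≤ T + l)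
    (Filter.Eventually.of_forall fun x => sq_nonneg _)
    (Continuous.intervalIntegrable (by fun_prop) _ _)
  linarith

theorem facA_norm_le (hf : Continuous f) (he : ∀ x, f (-x) ^ 2 = f x ^ 2) (hl : 0 < l)
    (hT : 0 ≤ T) : ∫ y, (cut T l y * f y) ^ 2 ≤ 2 * ∫ x in (0 : ℝ)..(T + l), f x ^ 2 := by
  have hψ := facA_cut_cont T l
  rw [facA_even (F := fun y => (cut T l y * f y) ^ 2) (fun x => by simp only [mul_pow, cut_neg, he])
    (R := T + l) (by linarith) fun x hx => by
      rw [cut_eq_zero hl (hx.trans (le_abs_self x))]; simp]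
  have := intervalIntegral.integral_mono_on (μ := volume) (a := 0) (b := T + l)
    (f := fun x => (cut T l x * f x) ^ 2) (g := fun x => f x ^ 2) (by linarith)
    (Continuous.intervalIntegrable (by fun_prop) _ _)
    (Continuous.intervalIntegrable (by fun_prop) _ _) fun x _ => by
      rw [mul_pow]
      exact mul_le_of_le_one_left (sq_nonneg _) (pow_le_one₀ (cut_nonneg _ _ _) (cut_le_one _ _ _))
  linarith

variable {x₀ : ℝ}

theorem SL.fa_sq_even (h : SL lam φ φ1 g p W) (x : ℝ) : φ (-x) ^ 2 = φ x ^ 2 := by rw [h.φ_even]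

theorem SL.fa_sq_even' (h : SL lam φ φ1 g p W) (x : ℝ) : (φ (-x) * g (-x)) ^ 2 = (φ x * g x) ^ 2 := by
  rw [h.φ_even, h.g_odd]; ring

theorem SL.fa_N0_ge (h : SL lam φ φ1 g p W) (hx : 0 < x₀) (hT : x₀ ≤ T) (hl : 0 < l) {G : ℝ}
    (hG : g (T + l) ≤ G) : 2 * (p x₀ - p T) ≤ G * ∫ y, (cut T l y * φ y) ^ 2 := by
  have hφ := h.fa_φ_cont
  have hg := h.fa_g_cont
  have h1 := facA_norm_ge (T := T) h.fa_φ_cont h.fa_sq_even hl hx.le hT
  have hG0 : 0 ≤ G := (h.fa_g_nonneg (by linarith)).trans hG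
  have h2 := intervalIntegral.integral_mono_on (μ := volume) (a := x₀) (b := T)
    (f := fun x => φ x ^ 2 * g x) (g := fun x => G * φ x ^ 2) hT
    (Continuous.intervalIntegrable (by fun_prop) _ _)
    (Continuous.intervalIntegrable (by fun_prop) _ _) fun x hx' => by
      rw [mul_comm G]
      exact mul_le_mul_of_nonneg_left ((h.fa_g_mono (by linarith [hx'.2])).trans hG) (sq_nonneg _)
  rw [h.fa_int_g, intervalIntegral.integral_const_mul] at h2
  nlinarith [mul_le_mul_of_nonneg_left h1 hG0]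

theorem SL.fa_N1_ge (h : SL lam φ φ1 g p W) (hx : 0 < x₀) (hT : x₀ ≤ T) (hl : 0 < l) (hg : g x₀ = 1) :
    2 * (p x₀ - p T) ≤ ∫ y, (cut T l y * (φ y * g y)) ^ 2 := by
  have hφ := h.fa_φ_cont
  have hg' := h.fa_g_cont
  have h1 := facA_norm_ge (T := T) (f := fun y => φ y * g y) (by fun_prop) h.fa_sq_even' hl hx.le hT
  have h2 := intervalIntegral.integral_mono_on (μ := volume) (a := x₀) (b := T)
    (f := fun x => φ x ^ 2 * g x) (g := fun x => (φ x * g x) ^ 2) hT
    (Continuous.intervalIntegrable (by fun_prop) _ _)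
    (Continuous.intervalIntegrable (by fun_prop) _ _) fun x hx' => by
      have : 1 ≤ g x := hg ▸ h.fa_g_mono hx'.1
      rw [mul_pow]
      exact mul_le_mul_of_nonneg_left (by nlinarith) (sq_nonneg _)
  rw [h.fa_int_g] at h2
  linarith

theorem SL.fa_N0_le (h : SL lam φ φ1 g p W) (hx : 0 < x₀) (hT : x₀ ≤ T) (hl : 0 < l) (hg : g x₀ = 1) :
    ∫ y, (cut T l y * φ y) ^ 2 ≤ 2 * ((∫ t in (0 : ℝ)..x₀, φ t ^ 2) + p x₀) := by
  have hφ := h.fa_φ_cont
  have hg' := h.fa_g_cont
  have h1 := facA_norm_le (T := T) h.fa_φ_cont h.fa_sq_even hl (by linarith)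
  have h2 := intervalIntegral.integral_mono_on (μ := volume) (a := x₀) (b := T + l)
    (f := fun x => φ x ^ 2) (g := fun x => φ x ^ 2 * g x) (by linarith)
    (Continuous.intervalIntegrable (by fun_prop) _ _)
    (Continuous.intervalIntegrable (by fun_prop) _ _) fun x hx' => by
      have : 1 ≤ g x := hg ▸ h.fa_g_mono hx'.1
      exact le_mul_of_one_le_right (sq_nonneg _) this
  rw [h.fa_int_g] at h2
  rw [← intervalIntegral.integral_add_adjacent_intervals (b := x₀)
    (Continuous.intervalIntegrable (by fun_prop) _ _)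
    (Continuous.intervalIntegrable (by fun_prop) _ _)] at h1
  linarith [h.p_pos (T + l)]

theorem SL.fa_N1_le (h : SL lam φ φ1 g p W) (hT : 0 ≤ T) (hl : 0 < l) {G : ℝ} (hG : g (T + l) ≤ G) :
    ∫ y, (cut T l y * (φ y * g y)) ^ 2 ≤ 2 * (G * p 0) := by
  have hφ := h.fa_φ_cont
  have hg' := h.fa_g_cont
  have h1 := facA_norm_le (T := T) (f := fun y => φ y * g y) (by fun_prop) h.fa_sq_even' hl hT
  have hG0 : 0 ≤ G := (h.fa_g_nonneg (by linarith)).trans hG
  have h2 := intervalIntegral.integral_mono_on (μ := volume) (a := 0) (b := T + l)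
    (f := fun x => (φ x * g x) ^ 2) (g := fun x => G * (φ x ^ 2 * g x)) (by linarith)
    (Continuous.intervalIntegrable (by fun_prop) _ _)
    (Continuous.intervalIntegrable (by fun_prop) _ _) fun x hx' => by
      have h3 : g x ≤ G := (h.fa_g_mono hx'.2).trans hG
      have h4 := mul_nonneg (sq_nonneg (φ x)) (h.fa_g_nonneg hx'.1)
      nlinarith [mul_le_mul_of_nonneg_left h3 h4]
  rw [intervalIntegral.integral_const_mul, h.fa_int_g] at h2
  nlinarith [mul_nonneg hG0 (h.p_pos (T + l)).le]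

/-- Pointwise bounds on the transition zone. -/
theorem SL.fa_zone (h : SL lam φ φ1 g p W) (hx : 0 < x₀) {β K : ℝ} (hβ : 0 < β)
    (hr : ∀ t, x₀ ≤ t → β * p t ≤ φ t ^ 2 * g t) (hlam : lam ≤ 1) (hT : x₀ ≤ T) (hg : g x₀ = 1)
    (hg' : g (T + l) ≤ 2) (hK : 1 ≤ K)
    (h1 : ∀ x, T ≤ x → x ≤ T + l → |φ1 x| ≤ K * φ x ∧ φ x ^ 2 * g x ≤ K * p x) {x : ℝ}
    (ha : T ≤ x) (hb : x ≤ T + l) :
    (|φ x| ≤ 4 * (K ^ 2 * (1 + 1 / β) * √(p T)) ∧ |φ1 x| ≤ 4 * (K ^ 2 * (1 + 1 / β) * √(p T))) ∧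
    |φ x * g x| ≤ 4 * (K ^ 2 * (1 + 1 / β) * √(p T)) ∧
      |φ1 x * g x + 2 * lam * p x / φ x| ≤ 4 * (K ^ 2 * (1 + 1 / β) * √(p T)) := by
  obtain ⟨a1, a2⟩ := h1 x ha hb
  have g1 : 1 ≤ g x := hg ▸ h.fa_g_mono (hT.trans ha)
  have g2 : g x ≤ 2 := (h.fa_g_mono hb).trans hg'
  have p1 : p x ≤ p T := h.fa_p_anti (by linarith) ha
  have p0 := h.p_pos x
  have pT := h.p_pos T
  have f0 := h.φ_pos x
  have l0 := h.lam_pos
  have hs : √(p T) ^ 2 = p T := Real.sq_sqrt (h.p_pos T).le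
  have hs0 : 0 ≤ √(p T) := Real.sqrt_nonneg _
  have hi : 0 < 1 / β := by positivity
  generalize √(p T) = s at *
  have b1 : φ x ≤ K * s := by
    refine (pow_le_pow_iff_left₀ f0.le (by positivity) two_ne_zero).1 ?_
    rw [mul_pow, hs]
    have : φ x ^ 2 ≤ φ x ^ 2 * g x := le_mul_of_one_le_right (sq_nonneg _) g1
    have : K * p x ≤ K * p T := by gcongr
    have : K * p T ≤ K ^ 2 * p T := by
      have := h.p_pos T
      gcongr
      nlinarith
    linarith
  have b2 : p x / φ x ≤ (1 + 1 / β) * s := by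
    refine (pow_le_pow_iff_left₀ (by positivity) (by positivity) two_ne_zero).1 ?_
    have r := hr x (hT.trans ha)
    have r2 : p x ≤ 2 * (1 / β) * φ x ^ 2 := by
      rw [mul_one_div, div_mul_eq_mul_div, le_div_iff₀ hβ]
      nlinarith [sq_nonneg (φ x)]
    rw [mul_pow, hs, div_pow, div_le_iff₀ (by positivity)]
    calc p x ^ 2 = p x * p x := sq _
      _ ≤ p T * (2 * (1 / β) * φ x ^ 2) := by gcongr
      _ = 2 * (1 / β) * (p T * φ x ^ 2) := by ring
      _ ≤ (1 + 1 / β) ^ 2 * (p T * φ x ^ 2) := by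
          have := h.p_pos T
          gcongr
          nlinarith
      _ = _ := by ring
  have c1 : K * s ≤ K ^ 2 * s := by gcongr; nlinarith
  have c2 : K ^ 2 * s ≤ K ^ 2 * (1 + 1 / β) * s := by
    rw [mul_assoc]
    gcongr
    nlinarith
  have c3 : (1 + 1 / β) * s ≤ K ^ 2 * (1 + 1 / β) * s := by
    rw [mul_assoc]
    exact le_mul_of_one_le_left (by positivity) (by nlinarith)
  have c4 : |φ1 x| ≤ K ^ 2 * s := a1.trans (by nlinarith)
  have c0 : 0 ≤ K ^ 2 * (1 + 1 / β) * s := by positivity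
  refine ⟨⟨?_, by linarith⟩, ?_, ?_⟩
  · rw [abs_of_pos f0]; linarith
  · rw [abs_of_pos (by positivity)]; nlinarith
  · refine (abs_add_le _ _).trans ?_
    rw [abs_mul, abs_of_pos (by linarith : 0 < g x),
      abs_of_pos (by positivity : 0 < 2 * lam * p x / φ x), mul_div_assoc]
    have d1 : |φ1 x| * g x ≤ K ^ 2 * s * 2 := by gcongr
    have d2 : 2 * lam * (p x / φ x) ≤ 2 * 1 * ((1 + 1 / β) * s) := by gcongr
    linarith

end Crest.Agent.R338
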