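import Crest.Agent.R338.FinR

/-! Row 338, module FIN: a Slater type tensor for a qubit state.

Let `κ : Orb n × Fin 2 → Fin n × Fin 3` send the core spin orbital `((m,0),s)` to
`(m, s.castSucc)` and the `p` spin orbitals of `m` to `(m, 2)`; let
`ε α = det (fun i j => if κ (α i) = eqv j then 1 else 0)` (`eqv : Fin (3 * n) ≃ Fin n × Fin 3`).
`ε` is antisymmetric (`Matrix.det_permute`), `ε (setL α σ) = ε α`, `ε α ≠ 0` forces `κ ∘ α` to be
surjective (a zero column kills the determinant), hence bijective, so all cores occur and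
`cnt m α = 1`; `ε α₀ = 1` for a section `α₀`.  For `c₀ α = ε α * ψ (sig α)` (`sig` is invariant
under permutations of the slots) `nsq_avg`, `HQ_avg` give `2^n c₀ ⬝ c₀ = S`, `2^n HQ c₀ = S * Q ψ`,
`S = ∑ ε² > 0` (`Q (r • ψ) = r² Q ψ`); normalise (`HQ (r • c) = r² HQ c`). -/

set_option autoImplicit false
set_option linter.unusedSectionVars false
set_option linter.unusedVariables false

open Matrix Finset

namespace Crest.Agent.R338.FinM

section aux

variable {n N : ℕ}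

/-- The class of a spin orbital. -/
def finYes_kap (x : Orb n × Fin 2) : Fin n × Fin 3 :=
  (x.1.1, if x.1.2 = 0 then x.2.castSucc else 2)

/-- The sign of a labeling. -/
def finYes_eps (e : Fin N ≃ Fin n × Fin 3) (α : Lab n N) : ℝ :=
  (Matrix.of fun i j => if finYes_kap (α i) = e j then (1 : ℝ) else 0).det

lemma finYes_eps_perm (e : Fin N ≃ Fin n × Fin 3) (σ : Equiv.Perm (Fin N)) (α : Lab n N) :
    finYes_eps e (fun i => α (σ i)) = ((Equiv.Perm.sign σ : ℤ) : ℝ) * finYes_eps e α :=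
  Matrix.det_permute σ (Matrix.of fun i j => if finYes_kap (α i) = e j then (1 : ℝ) else 0)

lemma finYes_kap_setL (α : Lab n N) (σ : Fin n → Bool) (i : Fin N) :
    finYes_kap (setL α σ i) = finYes_kap (α i) := by
  unfold setL
  split_ifs with h h' <;> simp [finYes_kap, h]

lemma finYes_eps_setL (e : Fin N ≃ Fin n × Fin 3) (α : Lab n N) (σ : Fin n → Bool) :
    finYes_eps e (setL α σ) = finYes_eps e α := by
  simp only [finYes_eps, finYes_kap_setL]

lemma finYes_surj {e : Fin N ≃ Fin n × Fin 3} {α : Lab n N} (h : finYes_eps e α ≠ 0) :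
    Function.Surjective fun i => finYes_kap (α i) := by
  intro y
  by_contra hy
  refine h (Matrix.det_eq_zero_of_column_eq_zero (e.symm y) fun i => ?_)
  rw [Matrix.of_apply, Equiv.apply_symm_apply, if_neg fun hi => hy ⟨i, hi⟩]

lemma finYes_full {e : Fin N ≃ Fin n × Fin 3} {α : Lab n N} (h : finYes_eps e α ≠ 0)
    (m : Fin n) (s : Fin 2) : ∃ i, α i = ((m, 0), s) := by
  obtain ⟨i, hi⟩ := finYes_surj h (m, s.castSucc)
  refine ⟨i, ?_⟩
  simp only [finYes_kap, Prod.mk.injEq] at hi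
  obtain ⟨h1, h2⟩ := hi
  split_ifs at h2 with h3
  · exact Prod.ext (Prod.ext h1 h3) (Fin.castSucc_injective _ h2)
  · exact absurd h2 (by revert s; decide)

lemma finYes_kap_eq_two (x : Orb n × Fin 2) (m : Fin n) :
    finYes_kap x = (m, 2) ↔ x.1.1 = m ∧ x.1.2 ≠ 0 := by
  obtain ⟨⟨a, k⟩, s⟩ := x
  simp only [finYes_kap, Prod.mk.injEq]
  refine and_congr_right fun _ => ?_
  revert k s
  decide

lemma finYes_cnt {e : Fin N ≃ Fin n × Fin 3} {α : Lab n N} (h : finYes_eps e α ≠ 0)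
    (m : Fin n) : cnt m α = 1 := by
  have hs := finYes_surj h
  have hi := (Finite.injective_iff_surjective_of_equiv e).2 hs
  obtain ⟨i, hi'⟩ := hs (m, 2)
  refine Finset.card_eq_one.2 ⟨i, ?_⟩
  ext k
  rw [Finset.mem_filter, Finset.mem_singleton, ← finYes_kap_eq_two]
  constructor
  · rintro ⟨-, hk⟩
    exact hi (hk.trans hi'.symm)
  · rintro rfl
    exact ⟨Finset.mem_univ _, hi'⟩

lemma finYes_exists (e : Fin N ≃ Fin n × Fin 3) : ∃ α : Lab n N, finYes_eps e α = 1 := by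
  let s : Fin n × Fin 3 → Orb n × Fin 2 := fun y =>
    ![((y.1, 0), 0), ((y.1, 0), 1), ((y.1, 1), 0)] y.2
  have hs : ∀ y, finYes_kap (s y) = y := by
    rintro ⟨m, k⟩
    fin_cases k <;> rfl
  refine ⟨fun i => s (e i), ?_⟩
  have : (Matrix.of fun i j => if finYes_kap (s (e i)) = e j then (1 : ℝ) else 0) = 1 := by
    ext i j
    simp only [hs, Matrix.of_apply, Matrix.one_apply, e.apply_eq_iff_eq]
  rw [finYes_eps, this, Matrix.det_one]

lemma finYes_sig_perm (σ : Equiv.Perm (Fin N)) (α : Lab n N) :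
    sig (fun i => α (σ i)) = sig α := by
  funext m
  simp only [sig, decide_eq_decide]
  exact (σ.surjective.exists (p := fun i => (α i).1 = (m, 2))).symm

end aux

lemma finYes_Q_smul (d : XZ) (r : ℝ) (ψ : (Fin d.n → Bool) → ℝ) :
    (d.Q fun σ => r * ψ σ) = r ^ 2 * d.Q ψ := by
  simp only [XZ.Q, Finset.mul_sum, mul_add]
  refine Finset.sum_congr rfl fun σ _ => ?_
  congr 1
  · exact Finset.sum_congr rfl fun i _ => Finset.sum_congr rfl fun j _ => by ring
  · exact Finset.sum_congr rfl fun i _ => by ring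

lemma finYes_HQ_smul (d : XZ) {N : ℕ} (r : ℝ) (c : Tn (Orb d.n) N) :
    HQ d (r • c) = r ^ 2 * HQ d c := by
  simp only [HQ, ex, map_smul, smul_dotProduct, dotProduct_smul, smul_eq_mul, Finset.mul_sum,
    mul_add]
  congr 1
  · exact Finset.sum_congr rfl fun i _ => by ring
  · exact Finset.sum_congr rfl fun i _ => Finset.sum_congr rfl fun j _ => by ring

theorem exists_yes (d : XZ) (ψ : (Fin d.n → Bool) → ℝ) (hψ : ∑ σ, ψ σ ^ 2 = 1) :
    ∃ c : Tn (Orb d.n) (3 * d.n), InV c ∧ Rt c ∧ c ⬝ᵥ c = 1 ∧ HQ d c = d.Q ψ := by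
  let e : Fin (3 * d.n) ≃ Fin d.n × Fin 3 := (finCongr (mul_comm 3 d.n)).trans finProdFinEquiv.symm
  let c₀ : Tn (Orb d.n) (3 * d.n) := fun α => finYes_eps e α * ψ (sig α)
  have hne : ∀ α, c₀ α ≠ 0 → finYes_eps e α ≠ 0 := fun α h => left_ne_zero_of_mul h
  have hR : Rt c₀ := fun α h m => finYes_cnt (hne α h) m
  have hset : ∀ α : Lab d.n (3 * d.n), (∀ m, cnt m α = 1) → ∀ σ,
      c₀ (setL α σ) = finYes_eps e α * ψ σ := fun α h σ => by
    simp only [c₀, finYes_eps_setL, sig_setL h]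
  set S : ℝ := ∑ α : Lab d.n (3 * d.n) with (∀ m, cnt m α = 1), finYes_eps e α ^ 2 with hS
  have h1 : 2 ^ d.n * (c₀ ⬝ᵥ c₀) = S := by
    rw [hR.nsq_avg, hS]
    refine Finset.sum_congr rfl fun α hα => ?_
    simp only [hset α (Finset.mem_filter.1 hα).2, mul_pow]
    rw [← Finset.mul_sum, hψ, mul_one]
  have h2 : 2 ^ d.n * HQ d c₀ = S * d.Q ψ := by
    rw [hR.HQ_avg, hS, Finset.sum_mul]
    refine Finset.sum_congr rfl fun α hα => ?_
    simp only [hset α (Finset.mem_filter.1 hα).2]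
    exact finYes_Q_smul d _ ψ
  have hS0 : 0 < S := by
    obtain ⟨α₀, h0⟩ := finYes_exists e
    refine Finset.sum_pos' (fun α _ => sq_nonneg _) ⟨α₀, Finset.mem_filter.2
      ⟨Finset.mem_univ _, finYes_cnt (e := e) (by rw [h0]; exact one_ne_zero)⟩, ?_⟩
    rw [h0]; norm_num
  have h2n : (0 : ℝ) < 2 ^ d.n := by positivity
  have hc : 0 < c₀ ⬝ᵥ c₀ := by
    rw [← h1] at hS0
    exact (mul_pos_iff_of_pos_left h2n).1 hS0
  have h3 : HQ d c₀ = (c₀ ⬝ᵥ c₀) * d.Q ψ := by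
    apply mul_left_cancel₀ h2n.ne'
    rw [h2, ← h1, mul_assoc]
  have hr : (Real.sqrt (c₀ ⬝ᵥ c₀))⁻¹ ^ 2 * (c₀ ⬝ᵥ c₀) = 1 := by
    rw [inv_pow, Real.sq_sqrt hc.le, inv_mul_cancel₀ hc.ne']
  have hne' : ∀ α, ((Real.sqrt (c₀ ⬝ᵥ c₀))⁻¹ • c₀) α ≠ 0 → c₀ α ≠ 0 := fun α h =>
    right_ne_zero_of_mul h
  refine ⟨(Real.sqrt (c₀ ⬝ᵥ c₀))⁻¹ • c₀, ⟨fun σ α => ?_, fun α h => finYes_full (hne α (hne' α h))⟩,
    fun α h => hR α (hne' α h), ?_, ?_⟩
  · simp only [Pi.smul_apply, smul_eq_mul, c₀, finYes_eps_perm, finYes_sig_perm]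
    ring
  · rw [smul_dotProduct, dotProduct_smul, smul_eq_mul, smul_eq_mul, ← mul_assoc, ← sq, hr]
  · rw [finYes_HQ_smul, h3, ← mul_assoc, hr, one_mul]

end Crest.Agent.R338.FinM
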