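import Crest.Agent.R338.FinEff
import Crest.Agent.R338.FinYes

/-! Row 338, module FIN: the dot model realises the qubit Hamiltonian (`XZ.C0` is defined in
`FinDefs.lean`). -/

set_option autoImplicit false

open Crest.Agent.Lib.PT

namespace Crest.Agent.R338

open FinM Matrix Finset in
theorem fin_yes {d : XZ} (hv : d.Valid) {U : ℚ} (hU : 1 / 2 ≤ U) (h : d.Yes) :
    ∃ c : (Fin (3 * d.n) → (Fin d.n × Fin 3) × Fin 2) → ℂ, Anti c ∧ GoodT core3 c ∧ nsq c = 1 ∧
      EF (d.wbar U) (d.vbar U) c ≤ (d.C0 U : ℝ) + d.lo := by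
  obtain ⟨ψ, h1, h2⟩ := h
  obtain ⟨c, hc, hr, hn, hq⟩ := exists_yes d ψ h1
  refine ⟨fun α => (c α : ℂ), fun σ α => ?_, fun α hα => ?_, ?_, ?_⟩
  · simp only [hc.anti σ α]
    push_cast
    rfl
  · have hα' : c α ≠ 0 := fun e => hα (by simp [e])
    refine ⟨hc.anti.injective hα', fun a ha => ?_⟩
    obtain ⟨⟨m, k⟩, s⟩ := a
    obtain rfl : k = 0 := ha
    exact hc.full α hα' m s
  · rw [nsq_eq]
    simp only [Complex.ofReal_re, Complex.ofReal_im]
    rw [hn]
    simp [dotProduct]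
  · rw [EF_eq]
    simp only [Complex.ofReal_re, Complex.ofReal_im]
    have e0 : EFr (d.wbar U) (d.vbar U) (fun _ => 0 : Tn (Orb d.n) (3 * d.n)) = 0 := by simp [EFr]
    rw [e0, eff_right hv U hc hr, hn, hq]
    linarith

open FinM Matrix Finset in
lemma fin_no_real {d : XZ} (hv : d.Valid) {U : ℚ} (hU : 1 / 2 ≤ U) (h : d.No)
    {c : Tn (Orb d.n) (3 * d.n)} (hc : InV c) :
    ((d.C0 U : ℝ) + d.hi) * (c ⬝ᵥ c) ≤ EFr (d.wbar U) (d.vbar U) c := by
  classical
  set p : (Fin (3 * d.n) → Fin d.n) → Prop := fun μ => ∀ m, #{i | μ i = m} = 3 with hp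
  have hperm : ∀ (σ : Equiv.Perm (Fin (3 * d.n))) (α : Lab d.n (3 * d.n)),
      p (fun i => (α (σ i)).1.1) ↔ p (fun i => (α i).1.1) := by
    intro σ α
    refine forall_congr' fun m => ?_
    rw [show #{i | (α (σ i)).1.1 = m} = #{i | (α i).1.1 = m} from
      card_equiv σ fun i => by simp]
  set cR : Tn (Orb d.n) (3 * d.n) := fun α => if p (fun i => (α i).1.1) then c α else 0 with hR
  set cW : Tn (Orb d.n) (3 * d.n) := fun α => if p (fun i => (α i).1.1) then 0 else c α with hW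
  have sR : ∀ α, cR α ≠ 0 → p (fun i => (α i).1.1) ∧ c α ≠ 0 := by
    intro α hα
    simp only [hR] at hα
    split_ifs at hα with e
    · exact ⟨e, hα⟩
    · exact absurd rfl hα
  have sW : ∀ α, cW α ≠ 0 → ¬ p (fun i => (α i).1.1) ∧ c α ≠ 0 := by
    intro α hα
    simp only [hW] at hα
    split_ifs at hα with e
    · exact absurd rfl hα
    · exact ⟨e, hα⟩
  have vR : InV cR := ⟨fun σ α => by
    simp only [hR, hperm σ α, hc.anti σ α]
    split_ifs <;> simp, fun α hα => hc.full α (sR α hα).2⟩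
  have vW : InV cW := ⟨fun σ α => by
    simp only [hW, hperm σ α, hc.anti σ α]
    split_ifs <;> simp, fun α hα => hc.full α (sW α hα).2⟩
  have rR : Rt cR := by
    intro α hα m
    have h1 : mc m α = 3 := (sR α hα).1 m
    rw [hc.mc_eq (sR α hα).2] at h1
    omega
  have e1 : EFr (d.wbar U) (d.vbar U) c =
      EFr (d.wbar U) (d.vbar U) cR + EFr (d.wbar U) (d.vbar U) cW :=
    EFr_split Prod.fst (eff_wbar_mol U) (eff_vbar_mol U) p c
  have e2 : c ⬝ᵥ c = cR ⬝ᵥ cR + cW ⬝ᵥ cW := by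
    simp only [dotProduct, ← sum_add_distrib, hR, hW]
    refine sum_congr rfl fun α _ => ?_
    split_ifs <;> simp
  have e3 := eff_wrong hv hU vW fun α hα => (sW α hα).1
  have e4 := rR.HQ_ge h
  rw [e1, e2, eff_right hv U vR rR]
  linarith

open FinM in
theorem fin_no {d : XZ} (hv : d.Valid) {U : ℚ} (hU : 1 / 2 ≤ U) (h : d.No)
    (c : (Fin (3 * d.n) → (Fin d.n × Fin 3) × Fin 2) → ℂ) (h1 : Anti c) (h2 : GoodT core3 c) :
    ((d.C0 U : ℝ) + d.hi) * nsq c ≤ EF (d.wbar U) (d.vbar U) c := by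
  have v1 : InV (fun α => (c α).re : Tn (Orb d.n) (3 * d.n)) :=
    ⟨fun σ α => by simp [h1 σ α], fun α hα m s =>
      (h2 α fun e => hα (by simp [e])).2 ((m, 0), s) rfl⟩
  have v2 : InV (fun α => (c α).im : Tn (Orb d.n) (3 * d.n)) :=
    ⟨fun σ α => by simp [h1 σ α], fun α hα m s =>
      (h2 α fun e => hα (by simp [e])).2 ((m, 0), s) rfl⟩
  rw [EF_eq, nsq_eq, mul_add]
  exact add_le_add (fin_no_real hv hU h v1) (fin_no_real hv hU h v2)

end Crest.Agent.R338
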