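import Crest.Agent.R338.FinDefs

/-! Row 338, module FIN: calculus of one-body and two-body operators on real tensors. -/

set_option autoImplicit false
set_option linter.unusedSectionVars false
set_option linter.unusedVariables false

open Matrix Finset

namespace Crest.Agent.R338.FinM

variable {ι : Type} [Fintype ι] [DecidableEq ι] {N : ℕ}

lemma opx_apply (i : Fin N) (A : Matrix ι ι ℝ) (c : Tn ι N) (α : Fin N → ι × Fin 2) :
    opx i A c α = ∑ a, A (α i).1 a * c (Function.update α i (a, (α i).2)) := rfl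

lemma dG_apply (A : Matrix ι ι ℝ) (c : Tn ι N) (α : Fin N → ι × Fin 2) :
    dG A c α = ∑ i, ∑ a, A (α i).1 a * c (Function.update α i (a, (α i).2)) := by
  unfold dG
  rw [LinearMap.sum_apply, Finset.sum_apply]
  rfl

lemma opx_add (i : Fin N) (A B : Matrix ι ι ℝ) : opx i (A + B) = opx i A + opx i B := by
  refine LinearMap.ext fun c => funext fun α => ?_
  simp only [opx_apply, LinearMap.add_apply, Pi.add_apply, Matrix.add_apply, add_mul,
    sum_add_distrib]

lemma opx_smul (i : Fin N) (r : ℝ) (A : Matrix ι ι ℝ) : opx i (r • A) = r • opx i A := by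
  refine LinearMap.ext fun c => funext fun α => ?_
  simp only [opx_apply, LinearMap.smul_apply, Pi.smul_apply, Matrix.smul_apply, smul_eq_mul,
    mul_sum, mul_assoc]

lemma opx_mul (i : Fin N) (A B : Matrix ι ι ℝ) : opx i (A * B) = opx i A * opx i B := by
  refine LinearMap.ext fun c => funext fun α => ?_
  simp only [opx_apply, Module.End.mul_apply, Matrix.mul_apply, Function.update_self,
    Function.update_idem, sum_mul, mul_sum, mul_assoc]
  exact sum_comm

lemma opx_comm {i j : Fin N} (h : i ≠ j) (A B : Matrix ι ι ℝ) :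
    opx i A * opx j B = opx j B * opx i A := by
  refine LinearMap.ext fun c => funext fun α => ?_
  simp only [opx_apply, Module.End.mul_apply, Function.update_of_ne h, Function.update_of_ne h.symm,
    mul_sum]
  rw [sum_comm]
  refine sum_congr rfl fun b _ => sum_congr rfl fun a _ => ?_
  rw [Function.update_comm h]
  ring

lemma finA_sum_update (i : Fin N) (F : (Fin N → ι × Fin 2) → ι → ℝ) :
    ∑ α, ∑ a, F α a = ∑ α, ∑ a, F (Function.update α i (a, (α i).2)) (α i).1 := by
  let e : (Fin N → ι × Fin 2) × ι ≃ (Fin N → ι × Fin 2) × ι :=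
    { toFun := fun p => (Function.update p.1 i (p.2, (p.1 i).2), (p.1 i).1)
      invFun := fun p => (Function.update p.1 i (p.2, (p.1 i).2), (p.1 i).1)
      left_inv := fun p => by simp
      right_inv := fun p => by simp }
  rw [← Fintype.sum_prod_type', ← Fintype.sum_prod_type',
    ← Equiv.sum_comp e fun p => F p.1 p.2]
  rfl

lemma dot_opx (i : Fin N) (A : Matrix ι ι ℝ) (c c' : Tn ι N) :
    c ⬝ᵥ opx i A c' = opx i Aᵀ c ⬝ᵥ c' := by
  simp only [dotProduct, opx_apply, mul_sum, sum_mul, transpose_apply]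
  rw [finA_sum_update i]
  refine sum_congr rfl fun α _ => sum_congr rfl fun a _ => ?_
  simp only [Function.update_self, Function.update_idem, Prod.mk.eta, Function.update_eq_self]
  ring

lemma dG_add (A B : Matrix ι ι ℝ) : (dG (A + B) : Module.End ℝ (Tn ι N)) = dG A + dG B := by
  simp only [dG, opx_add, sum_add_distrib]

lemma dG_sub (A B : Matrix ι ι ℝ) : (dG (A - B) : Module.End ℝ (Tn ι N)) = dG A - dG B := by
  rw [eq_sub_iff_add_eq, ← dG_add, sub_add_cancel]

lemma dG_smul (r : ℝ) (A : Matrix ι ι ℝ) : (dG (r • A) : Module.End ℝ (Tn ι N)) = r • dG A := by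
  simp only [dG, opx_smul, smul_sum]

lemma dG_zero : (dG (0 : Matrix ι ι ℝ) : Module.End ℝ (Tn ι N)) = 0 := by
  rw [← sub_self (0 : Matrix ι ι ℝ), dG_sub, sub_self]

lemma dot_dG (A : Matrix ι ι ℝ) (c c' : Tn ι N) : c ⬝ᵥ dG A c' = dG Aᵀ c ⬝ᵥ c' := by
  simp only [dG, LinearMap.sum_apply, dotProduct_sum, sum_dotProduct, dot_opx]

lemma ex_dG_transpose (A : Matrix ι ι ℝ) (c : Tn ι N) : ex (dG Aᵀ) c = ex (dG A) c := by
  unfold ex
  rw [dot_dG A, dotProduct_comm]

lemma tw_eq (A B : Matrix ι ι ℝ) :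
    (tw A B : Module.End ℝ (Tn ι N)) = dG A * dG B - dG (A * B) := by
  unfold tw dG
  rw [sum_mul_sum, ← sum_sub_distrib]
  refine sum_congr rfl fun i _ => ?_
  rw [eq_sub_iff_add_eq, opx_mul]
  have : (opx i A * opx i B : Module.End ℝ (Tn ι N)) =
      ∑ j, if i = j then opx i A * opx j B else 0 := by
    rw [sum_ite_eq]; simp
  rw [this, ← sum_add_distrib]
  refine sum_congr rfl fun j _ => ?_
  split_ifs <;> simp

lemma tw_comm (A B : Matrix ι ι ℝ) : (tw A B : Module.End ℝ (Tn ι N)) = tw B A := by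
  unfold tw
  rw [sum_comm]
  refine sum_congr rfl fun i _ => sum_congr rfl fun j _ => ?_
  by_cases h : i = j
  · rw [if_pos h, if_pos h.symm]
  · rw [if_neg h, if_neg (Ne.symm h), opx_comm h]

lemma dG_comm (A B : Matrix ι ι ℝ) :
    (dG A * dG B : Module.End ℝ (Tn ι N)) = dG B * dG A + dG (A * B) - dG (B * A) := by
  have h := tw_comm (N := N) A B
  rw [tw_eq, tw_eq] at h
  rw [sub_eq_iff_eq_add.1 h]
  abel

lemma tw_add_left (A A' B : Matrix ι ι ℝ) :
    (tw (A + A') B : Module.End ℝ (Tn ι N)) = tw A B + tw A' B := by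
  simp only [tw_eq, dG_add, add_mul]
  abel

lemma tw_add_right (A B B' : Matrix ι ι ℝ) :
    (tw A (B + B') : Module.End ℝ (Tn ι N)) = tw A B + tw A B' := by
  simp only [tw_eq, dG_add, mul_add]
  abel

lemma tw_smul (r s : ℝ) (A B : Matrix ι ι ℝ) :
    (tw (r • A) (s • B) : Module.End ℝ (Tn ι N)) = (r * s) • tw A B := by
  simp only [tw_eq, dG_smul, smul_mul_smul_comm, smul_sub]

lemma AntiR.dG {c : Tn ι N} (h : AntiR c) (A : Matrix ι ι ℝ) : AntiR (dG A c) := by
  intro σ α
  rw [dG_apply, dG_apply, ← Equiv.sum_comp σ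
    (fun i => ∑ a, A (α i).1 a * c (Function.update α i (a, (α i).2))), mul_sum]
  refine sum_congr rfl fun i _ => ?_
  rw [mul_sum]
  refine sum_congr rfl fun a _ => ?_
  have : Function.update (fun i => α (σ i)) i (a, (α (σ i)).2) =
      fun k => Function.update α (σ i) (a, (α (σ i)).2) (σ k) := by
    funext k
    by_cases hk : k = i
    · subst hk; simp
    · rw [Function.update_of_ne hk, Function.update_of_ne (σ.injective.ne hk)]
  rw [this, h σ]
  ring

lemma AntiR.injective {c : Tn ι N} (h : AntiR c) {α : Fin N → ι × Fin 2} (hα : c α ≠ 0) :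
    Function.Injective α := by
  intro i j hij
  by_contra hne
  have h1 := h (Equiv.swap i j) α
  have h2 : (fun k => α (Equiv.swap i j k)) = α := by
    funext k
    rw [Equiv.swap_apply_def]
    split_ifs with e1 e2
    · rw [e1, hij]
    · rw [e2, hij]
    · rfl
  rw [h2, Equiv.Perm.sign_swap hne] at h1
  apply hα
  simp only [Units.val_neg, Units.val_one, Int.cast_neg, Int.cast_one] at h1
  linarith

lemma nsq_opx_le (i : Fin N) (A : Matrix ι ι ℝ) (c : Tn ι N) :
    opx i A c ⬝ᵥ opx i A c ≤ (∑ a, ∑ b, A a b ^ 2) * (c ⬝ᵥ c) := by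
  have h1 : opx i A c ⬝ᵥ opx i A c ≤
      ∑ α : Fin N → ι × Fin 2, ∑ a, (∑ b, A (α i).1 b ^ 2) *
        c (Function.update α i (a, (α i).2)) ^ 2 := by
    refine sum_le_sum fun α _ => ?_
    rw [← mul_sum, ← pow_two, opx_apply]
    exact sum_mul_sq_le_sq_mul_sq _ _ _
  rw [finA_sum_update i] at h1
  refine h1.trans (le_of_eq ?_)
  simp only [Function.update_self, Function.update_idem, Prod.mk.eta, Function.update_eq_self]
  rw [dotProduct, mul_sum]
  refine sum_congr rfl fun α _ => ?_
  rw [← sum_mul, pow_two (c α)]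

lemma nsq_dG_le (A : Matrix ι ι ℝ) (c : Tn ι N) :
    dG A c ⬝ᵥ dG A c ≤ (N : ℝ) ^ 2 * (∑ a, ∑ b, A a b ^ 2) * (c ⬝ᵥ c) := by
  have h1 : dG A c ⬝ᵥ dG A c ≤ ∑ α, (N : ℝ) * ∑ i, opx i A c α ^ 2 := by
    refine sum_le_sum fun α _ => ?_
    have := sq_sum_le_card_mul_sum_sq (s := (univ : Finset (Fin N))) (f := fun i => opx i A c α)
    rw [card_univ, Fintype.card_fin] at this
    rw [← pow_two, dG_apply]
    exact this
  refine h1.trans ?_
  rw [← mul_sum, sum_comm]
  have h2 : ∑ i : Fin N, ∑ α, opx i A c α ^ 2 ≤ ∑ i : Fin N, (∑ a, ∑ b, A a b ^ 2) * (c ⬝ᵥ c) := by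
    refine sum_le_sum fun i _ => le_trans (le_of_eq ?_) (nsq_opx_le i A c)
    simp only [dotProduct, pow_two]
  rw [sum_const, card_univ, Fintype.card_fin, nsmul_eq_mul] at h2
  calc _ ≤ (N : ℝ) * (N * ((∑ a, ∑ b, A a b ^ 2) * (c ⬝ᵥ c))) :=
        mul_le_mul_of_nonneg_left h2 (Nat.cast_nonneg _)
    _ = _ := by ring

lemma abs_dot_le (c c' : Tn ι N) : |c ⬝ᵥ c'| ≤ (c ⬝ᵥ c + c' ⬝ᵥ c') / 2 := by
  unfold dotProduct
  rw [← sum_add_distrib, sum_div]
  refine (abs_sum_le_sum_abs _ _).trans (sum_le_sum fun α _ => abs_le.2 ⟨?_, ?_⟩)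
  · nlinarith [sq_nonneg (c α + c' α)]
  · nlinarith [sq_nonneg (c α - c' α)]

lemma finA_dot_self_nonneg (c : Tn ι N) : 0 ≤ c ⬝ᵥ c :=
  sum_nonneg fun α _ => mul_self_nonneg _

lemma finA_ex_tw (A B : Matrix ι ι ℝ) (c : Tn ι N) :
    ex (tw A B) c = ∑ i, ∑ j, if i = j then 0 else c ⬝ᵥ opx i A (opx j B c) := by
  unfold ex tw
  simp only [LinearMap.sum_apply, dotProduct_sum]
  refine sum_congr rfl fun i _ => sum_congr rfl fun j _ => ?_
  split_ifs
  · simp
  · rfl

/-- Multiples of orthogonal projections give a nonnegative two-body operator. -/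
lemma ex_tw_nonneg {A B : Matrix ι ι ℝ} {p q : ℝ} (hp : 0 < p) (hq : 0 < q) (hA : Aᵀ = A)
    (hB : Bᵀ = B) (hA2 : A * A = p • A) (hB2 : B * B = q • B) (c : Tn ι N) :
    0 ≤ ex (tw A B) c := by
  rw [finA_ex_tw]
  refine sum_nonneg fun i _ => sum_nonneg fun j _ => ?_
  split_ifs with h
  · exact le_rfl
  · have e1 : ∀ x : Tn ι N, opx i A (opx i A x) = p • opx i A x := fun x => by
      rw [← Module.End.mul_apply, ← opx_mul, hA2, opx_smul, LinearMap.smul_apply]
    have e2 : ∀ x : Tn ι N, opx j B (opx j B x) = q • opx j B x := fun x => by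
      rw [← Module.End.mul_apply, ← opx_mul, hB2, opx_smul, LinearMap.smul_apply]
    have e3 : ∀ x : Tn ι N, opx i A (opx j B x) = opx j B (opx i A x) := fun x => by
      rw [← Module.End.mul_apply, opx_comm h, Module.End.mul_apply]
    have d1 : ∀ x y : Tn ι N, opx i A x ⬝ᵥ y = x ⬝ᵥ opx i A y := fun x y => by rw [dot_opx, hA]
    have d2 : ∀ x y : Tn ι N, opx j B x ⬝ᵥ y = x ⬝ᵥ opx j B y := fun x y => by rw [dot_opx, hB]
    have key : opx i A (opx j B c) ⬝ᵥ opx i A (opx j B c) = p * q * (c ⬝ᵥ opx i A (opx j B c)) := by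
      rw [d1, e1, d2, map_smul, e3, e2, dotProduct_smul, dotProduct_smul, smul_eq_mul, smul_eq_mul,
        mul_assoc]
    have h0 := finA_dot_self_nonneg (opx i A (opx j B c))
    rw [key] at h0
    exact le_of_mul_le_mul_left (by simpa using h0) (mul_pos hp hq)

lemma EF_eq (w : ι → ι → ι → ι → ℝ) (v : ι → ι → ℝ) (c : (Fin N → ι × Fin 2) → ℂ) :
    EF w v c = EFr w v (fun α => (c α).re) + EFr w v (fun α => (c α).im) := by
  have e : ∀ x y : ℂ, ((starRingEnd ℂ) x * y).re = x.re * y.re + x.im * y.im := fun x y => by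
    simp
  unfold EF EFr
  simp only [e, ← sum_add_distrib]
  refine sum_congr rfl fun α _ => sum_congr rfl fun i _ => ?_
  simp only [mul_add, sum_add_distrib]
  rw [add_add_add_comm]
  congr 1
  rw [← sum_add_distrib]
  refine sum_congr rfl fun j _ => ?_
  split_ifs <;> simp

lemma nsq_eq (c : (Fin N → ι × Fin 2) → ℂ) :
    nsq c = (fun α => (c α).re) ⬝ᵥ (fun α => (c α).re) +
      (fun α => (c α).im) ⬝ᵥ (fun α => (c α).im) := by
  unfold nsq dotProduct
  rw [← sum_add_distrib]
  refine sum_congr rfl fun α _ => ?_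
  rw [Complex.sq_norm, Complex.normSq_apply]

lemma finA_sum_lt (G : Fin N → Fin N → ℝ) (hG : ∀ i j, i ≠ j → G i j = G j i) :
    ∑ i, ∑ j, (if i = j then 0 else G i j) = 2 * ∑ i, ∑ j, if i < j then G i j else 0 := by
  have h1 : ∑ i, ∑ j, (if i < j then G i j else 0) = ∑ i, ∑ j, if j < i then G i j else 0 := by
    rw [sum_comm]
    refine sum_congr rfl fun i _ => sum_congr rfl fun j _ => ?_
    split_ifs with h
    · exact hG _ _ h.ne
    · rfl
  rw [two_mul]
  nth_rewrite 2 [h1]
  simp only [← sum_add_distrib]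
  refine sum_congr rfl fun i _ => sum_congr rfl fun j _ => ?_
  rcases lt_trichotomy i j with h | h | h
  · simp [h, h.ne, h.not_gt]
  · simp [h]
  · simp [h, h.ne', h.not_gt]

lemma finA_comm3 {α β γ : Type} [Fintype α] [Fintype β] [Fintype γ] (F : α → β → γ → ℝ) :
    ∑ a, ∑ b, ∑ x, F a b x = ∑ x, ∑ a, ∑ b, F a b x := by
  rw [sum_congr rfl fun a _ => sum_comm (f := F a), sum_comm]

lemma finA_EFr (w : ι → ι → ι → ι → ℝ) (v : ι → ι → ℝ) (c : Tn ι N) :
    EFr w v c = (∑ i : Fin N, ∑ α : Fin N → ι × Fin 2,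
      ∑ a : ι, v (α i).1 a * (c α * c (Function.update α i (a, (α i).2)))) +
      ∑ i : Fin N, ∑ j : Fin N, if i < j then ∑ α : Fin N → ι × Fin 2, ∑ a : ι, ∑ b : ι,
        w (α i).1 a (α j).1 b *
        (c α * c (Function.update (Function.update α i (a, (α i).2)) j (b, (α j).2))) else 0 := by
  unfold EFr
  rw [sum_comm, ← sum_add_distrib]
  refine sum_congr rfl fun i _ => ?_
  rw [sum_add_distrib]
  congr 1
  rw [sum_comm]
  refine sum_congr rfl fun j _ => ?_
  split_ifs <;> simp

lemma EFr_eq {E : Type} [Fintype E] (T : E → Matrix ι ι ℝ) (K : E → E → ℝ)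
    (hK : ∀ e e', K e e' = K e' e) (pot : E → ℝ) (c : Tn ι N) :
    EFr (fun a a' b b' => ∑ e, ∑ e', T e a a' * K e e' * T e' b b')
        (fun a a' => ∑ e, pot e * T e a a') c =
      ∑ e, pot e * ex (dG (T e)) c + 1 / 2 * ∑ e, ∑ e', K e e' * ex (tw (T e) (T e')) c := by
  rw [finA_EFr]
  congr 1
  · simp only [ex, dG, LinearMap.sum_apply, dotProduct_sum, mul_sum]
    rw [sum_comm (s := (univ : Finset E))]
    refine sum_congr rfl fun i _ => ?_
    simp only [dotProduct, opx_apply, mul_sum, sum_mul]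
    rw [sum_comm (s := (univ : Finset E))]
    refine sum_congr rfl fun α _ => ?_
    rw [sum_comm (s := (univ : Finset E))]
    refine sum_congr rfl fun a _ => sum_congr rfl fun e _ => ?_
    ring
  · set G : Fin N → Fin N → ℝ :=
      fun i j => ∑ e, ∑ e', K e e' * (c ⬝ᵥ opx i (T e) (opx j (T e') c)) with hG
    have h1 : ∑ e, ∑ e', K e e' * ex (tw (T e) (T e')) c =
        ∑ i, ∑ j, (if i = j then 0 else G i j) := by
      simp only [finA_ex_tw, mul_sum]
      rw [finA_comm3 (α := E) (β := E)]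
      refine sum_congr rfl fun i _ => ?_
      rw [finA_comm3 (α := E) (β := E)]
      refine sum_congr rfl fun j _ => ?_
      split_ifs <;> simp [hG]
    have h2 : ∀ i j, i ≠ j → G i j = G j i := by
      intro i j h
      simp only [hG]
      rw [sum_comm]
      refine sum_congr rfl fun e _ => sum_congr rfl fun e' _ => ?_
      rw [hK, ← Module.End.mul_apply, opx_comm h, Module.End.mul_apply]
    rw [h1, finA_sum_lt G h2, ← mul_assoc, show (1 / 2 * 2 : ℝ) = 1 by norm_num, one_mul]
    refine sum_congr rfl fun i _ => sum_congr rfl fun j _ => ?_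
    split_ifs with h
    · simp only [hG, dotProduct, opx_apply, Function.update_of_ne h.ne', mul_sum, sum_mul]
      rw [finA_comm3 (α := E) (β := E)]
      refine sum_congr rfl fun α _ => ?_
      rw [finA_comm3 (α := E) (β := E)]
      refine sum_congr rfl fun a _ => ?_
      rw [finA_comm3 (α := E) (β := E)]
      refine sum_congr rfl fun b _ => sum_congr rfl fun e _ => sum_congr rfl fun e' _ => ?_
      ring
    · rfl

/-- Splitting along a property which only depends on the classes `f` of the orbitals. -/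
lemma EFr_split {κ : Type} (f : ι → κ) {w : ι → ι → ι → ι → ℝ} {v : ι → ι → ℝ}
    (hw : ∀ a a' b b', w a a' b b' ≠ 0 → f a = f a' ∧ f b = f b')
    (hv : ∀ a a', v a a' ≠ 0 → f a = f a') (p : (Fin N → κ) → Prop) [DecidablePred p]
    (c : Tn ι N) :
    EFr w v c = EFr w v (fun α => if p (fun i => f (α i).1) then c α else 0) +
      EFr w v (fun α => if p (fun i => f (α i).1) then 0 else c α) := by
  have key : ∀ (r : ℝ) (α β : Fin N → ι × Fin 2),
      (r ≠ 0 → (fun i => f (β i).1) = fun i => f (α i).1) →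
      r * (c α * c β) = r * ((if p (fun i => f (α i).1) then c α else 0) *
          if p (fun i => f (β i).1) then c β else 0) +
        r * ((if p (fun i => f (α i).1) then 0 else c α) *
          if p (fun i => f (β i).1) then 0 else c β) := by
    intro r α β h
    by_cases hr : r = 0
    · simp [hr]
    · rw [h hr]
      split_ifs <;> simp
  have up : ∀ (α : Fin N → ι × Fin 2) (i : Fin N) (a : ι) (s : Fin 2), f (α i).1 = f a →
      (fun k => f (Function.update α i (a, s) k).1) = fun k => f (α k).1 := by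
    intro α i a s h
    funext k
    by_cases hk : k = i
    · subst hk; simp [h]
    · rw [Function.update_of_ne hk]
  unfold EFr
  simp only [← sum_add_distrib]
  refine sum_congr rfl fun α _ => sum_congr rfl fun i _ => ?_
  rw [add_add_add_comm]
  congr 1
  · rw [← sum_add_distrib]
    exact sum_congr rfl fun a _ => key _ _ _ fun h => up α i a _ (hv _ _ h)
  · rw [← sum_add_distrib]
    refine sum_congr rfl fun j _ => ?_
    by_cases hij : i < j
    · simp only [if_pos hij, ← sum_add_distrib]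
      refine sum_congr rfl fun a _ => sum_congr rfl fun b _ => key _ _ _ fun h => ?_
      rw [up _ j b _ (by rw [Function.update_of_ne hij.ne']; exact (hw _ _ _ _ h).2),
        up α i a _ (hw _ _ _ _ h).1]
    · simp only [if_neg hij, add_zero]

end Crest.Agent.R338.FinM
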