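import Crest.Agent.R338.Fin

/-! Row 338, module FIN: bounds and polynomial time computability of the dot model. -/

set_option autoImplicit false

open Crest.Agent.Lib.PT

namespace Crest.Agent.R338

theorem finB_one_le {d : XZ} (hv : d.Valid) : (1 : ℚ) ≤ d.B := by
  exact_mod_cast hv.n_pos.trans hv.n_le

theorem finB_pow_le {d : XZ} (hv : d.Valid) {a b : ℕ} (h : a ≤ b) :
    (d.B : ℚ) ^ a ≤ (d.B : ℚ) ^ b := pow_le_pow_right₀ (finB_one_le hv) h

theorem finB_one_le_alc {d : XZ} (hv : d.Valid) : 1 ≤ d.alc := by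
  have := one_le_pow₀ (n := 8) (finB_one_le hv)
  unfold XZ.alc
  linarith

theorem finB_dist {n B i j : ℕ} (hn : n ≤ B) (hi : i < n) (hj : j < n) (hij : i ≠ j) :
    1 ≤ |(i : ℚ) - j| ∧ |(i : ℚ) - j| ≤ B := by
  constructor
  · have h : (i : ℤ) - j ≠ 0 := by omega
    have := Int.one_le_abs h
    exact_mod_cast this
  · have h1 : (i : ℚ) ≤ B := by exact_mod_cast (hi.le.trans hn)
    have h2 : (j : ℚ) ≤ B := by exact_mod_cast (hj.le.trans hn)
    have h3 : (0 : ℚ) ≤ i := Nat.cast_nonneg i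
    have h4 : (0 : ℚ) ≤ j := Nat.cast_nonneg j
    rw [abs_le]
    constructor <;> linarith

theorem amp_bd {d : XZ} (hv : d.Valid) {m k i j : ℕ} (hi : i < d.n) (hj : j < d.n) :
    0 ≤ d.amp m k i j ∧ d.amp m k i j ≤ d.alc := by
  have h1 := finB_one_le_alc hv
  have hB := finB_one_le hv
  unfold XZ.amp
  split_ifs with hij _ _ _ _ _ hk0 hk1
  · exact ⟨zero_le_one, h1⟩
  · exact ⟨by linarith, le_rfl⟩
  · exact ⟨le_rfl, by linarith⟩
  · exact ⟨le_rfl, by linarith⟩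
  · exact ⟨zero_le_one, h1⟩
  · obtain ⟨a1, a2⟩ := finB_dist hv.n_le hi hj hij
    obtain ⟨z1, z2⟩ := hv.zz_bd i j
    generalize |(i : ℚ) - j| = D at a1 a2
    have p1 : 0 < 2 / (8 * D) := by positivity
    have p2 : 0 < 1 / (8 * D + 2) := by positivity
    have p3 : 0 < 1 / (8 * D - 2) := one_div_pos.2 (by linarith)
    refine ⟨by positivity, ?_⟩
    have h2 : d.zz i j * 4 / (2 / (8 * D) + 1 / (8 * D + 2) + 1 / (8 * D - 2)) ≤
        d.zz i j * 4 / (2 / (8 * D)) :=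
      div_le_div_of_nonneg_left (by positivity) p1 (by linarith)
    have h3 : d.zz i j * 4 / (2 / (8 * D)) = 16 * (d.zz i j * D) := by
      field_simp
      ring
    have h4 : d.zz i j * D ≤ (d.B : ℚ) ^ 2 := by
      rw [sq]; exact mul_le_mul z2 a2 (by linarith) (by linarith)
    have h5 := finB_pow_le hv (show 2 ≤ 8 by norm_num)
    have h6 : (0 : ℚ) ≤ (d.B : ℚ) ^ 8 := by positivity
    unfold XZ.alc
    linarith
  · obtain ⟨a1, a2⟩ := finB_dist hv.n_le hi hj hij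
    have z2 := hv.zx_bd i j
    have z1 := abs_nonneg (d.zx i j)
    generalize |(i : ℚ) - j| = D at a1 a2
    have p1 : 0 ≤ (8 * D) ^ 2 - 4 := by nlinarith
    refine ⟨by positivity, ?_⟩
    have p2 : (8 * D) ^ 2 - 4 ≤ 64 * (d.B : ℚ) ^ 2 := by nlinarith
    have h4 : |d.zx i j| * ((8 * D) ^ 2 - 4) ≤ d.B * (64 * (d.B : ℚ) ^ 2) :=
      mul_le_mul z2 p2 p1 (by linarith)
    have h5 := finB_pow_le hv (show 3 ≤ 8 by norm_num)
    have h6 : (0 : ℚ) ≤ (d.B : ℚ) ^ 8 := by positivity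
    unfold XZ.alc
    nlinarith
  · obtain ⟨a1, a2⟩ := finB_dist hv.n_le hi hj hij
    obtain ⟨z1, z2⟩ := hv.xx_bd i j
    generalize |(i : ℚ) - j| = D at a1 a2
    have p0 : 0 ≤ D := by linarith
    have p1 : 0 ≤ (8 * D) ^ 2 - 4 := by nlinarith
    refine ⟨by positivity, ?_⟩
    have p2 : (8 * D) ^ 2 - 4 ≤ 64 * (d.B : ℚ) ^ 2 := by nlinarith
    have h3 : d.xx i j * (8 * D) ≤ d.B * (8 * d.B) :=
      mul_le_mul z2 (by linarith) (by linarith) (by linarith)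
    have h4 : d.xx i j * (8 * D) * ((8 * D) ^ 2 - 4) ≤ d.B * (8 * d.B) * (64 * (d.B : ℚ) ^ 2) :=
      mul_le_mul h3 p2 p1 (by positivity)
    have h5 := finB_pow_le hv (show 4 ≤ 8 by norm_num)
    have h6 : (0 : ℚ) ≤ (d.B : ℚ) ^ 8 := by positivity
    unfold XZ.alc
    nlinarith
  · exact ⟨le_rfl, by linarith⟩

theorem finB_cc (d : XZ) (m k : ℕ) : 0 ≤ d.cc m k ∧ d.cc m k ≤ 1 := by
  unfold XZ.cc XZ.typ
  split_ifs <;> norm_num

theorem finB_inv_int (z : ℤ) : 0 ≤ 1 / |(z : ℚ)| ∧ 1 / |(z : ℚ)| ≤ 1 := by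
  refine ⟨by positivity, ?_⟩
  by_cases h : z = 0
  · simp [h]
  · have h1 : (1 : ℚ) ≤ |(z : ℚ)| := by exact_mod_cast Int.one_le_abs h
    rw [div_le_one (by linarith)]
    exact h1

theorem finB_rs_int (r : Bool) : ∃ z : ℤ, rs r = z := by
  cases r
  · exact ⟨1, by simp [rs]⟩
  · exact ⟨-1, by simp [rs]⟩

theorem finB_abs_rs (r : Bool) : |rs r| = 1 := by cases r <;> simp [rs]

theorem finB_inv (x y : ℕ) (s t : ℚ) (hs : ∃ z : ℤ, s = z) (ht : ∃ z : ℤ, t = z) :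
    0 ≤ 1 / |8 * ((x : ℚ) - y) + s - t| ∧ 1 / |8 * ((x : ℚ) - y) + s - t| ≤ 1 := by
  obtain ⟨a, rfl⟩ := hs
  obtain ⟨b, rfl⟩ := ht
  have := finB_inv_int (8 * ((x : ℤ) - y) + a - b)
  push_cast at this
  exact this

theorem finB_sum_range_le {n : ℕ} {f : ℕ → ℚ} {c : ℚ} (h : ∀ i < n, 0 ≤ f i ∧ f i ≤ c) :
    0 ≤ ∑ i ∈ Finset.range n, f i ∧ ∑ i ∈ Finset.range n, f i ≤ n * c := by
  refine ⟨Finset.sum_nonneg fun i hi => (h i (Finset.mem_range.1 hi)).1, ?_⟩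
  have := Finset.sum_le_card_nsmul (Finset.range n) f c fun i hi => (h i (Finset.mem_range.1 hi)).2
  rwa [Finset.card_range, nsmul_eq_mul] at this

theorem finB_phi {d : XZ} (hv : d.Valid) (m : ℕ) : |d.phi m| ≤ 7 * 10 ^ 8 * (d.B : ℚ) ^ 18 := by
  have hB := finB_one_le hv
  have hn : (d.n : ℚ) ≤ d.B := by exact_mod_cast hv.n_le
  have h1 := finB_sum_range_le (n := 3) (c := d.n * (d.n * (2 * d.alc ^ 2)))
    (f := fun k => ∑ i ∈ Finset.range d.n, ∑ j ∈ Finset.range d.n,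
      2 * d.amp m k i j ^ 2 * d.cc m k) fun k _ =>
    finB_sum_range_le fun i hi => finB_sum_range_le fun j hj => by
      obtain ⟨a1, a2⟩ := amp_bd hv (m := m) (k := k) hi hj
      obtain ⟨c1, c2⟩ := finB_cc d m k
      refine ⟨by positivity, ?_⟩
      have : d.amp m k i j ^ 2 ≤ d.alc ^ 2 := by gcongr
      have h3 : 0 ≤ d.amp m k i j ^ 2 := by positivity
      nlinarith
  have h2 : (d.n : ℚ) * (d.n * (2 * d.alc ^ 2)) ≤ d.B * (d.B * (2 * d.alc ^ 2)) := by gcongr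
  have h3 : (d.B : ℚ) * (d.B * (2 * d.alc ^ 2)) = 2 * 10 ^ 8 * (d.B : ℚ) ^ 18 := by
    unfold XZ.alc; ring
  have h4 := abs_le.1 (hv.az_bd m)
  have h5 := finB_pow_le hv (show 1 ≤ 18 by norm_num)
  rw [pow_one] at h5
  unfold XZ.phi
  rw [abs_le]
  push_cast at h1
  constructor <;> linarith [h1.1, h1.2]

theorem pot_bd {d : XZ} (hv : d.Valid) {U : ℚ} (hU : 1 / 2 ≤ U) {m k i j : ℕ} (hm : m < d.n)
    (hi : i < d.n) (hj : j < d.n) (mir r : Bool) :
    |d.pot U m k i j mir r| ≤ 10 ^ 10 * (d.B : ℚ) ^ 18 * U := by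
  have hB := finB_one_le hv
  have hn : (d.n : ℚ) ≤ d.B := by exact_mod_cast hv.n_le
  have hal := finB_one_le_alc hv
  obtain ⟨a1, a2⟩ := amp_bd hv (m := m) (k := k) hi hj
  have h1 := finB_sum_range_le (n := d.n) (c := d.alc * 3 * 2)
    (f := fun m' => if m' = m then 0 else d.amp m' k i j * (2 + d.cc m' k) *
        (1 / |8 * ((m' : ℚ) - m) + 1 - rs r| + 1 / |8 * ((m' : ℚ) - m) - 1 - rs r|))
    fun m' _ => by
      split_ifs
      · exact ⟨le_rfl, by linarith⟩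
      · obtain ⟨b1, b2⟩ := amp_bd hv (m := m') (k := k) hi hj
        obtain ⟨c1, c2⟩ := finB_cc d m' k
        obtain ⟨e1, e2⟩ := finB_inv m' m 1 (rs r) ⟨1, by simp⟩ (finB_rs_int r)
        obtain ⟨f1, f2⟩ := finB_inv m' m (-1) (rs r) ⟨-1, by simp⟩ (finB_rs_int r)
        rw [← sub_eq_add_neg] at f1 f2
        refine ⟨by positivity, ?_⟩
        gcongr <;> linarith
  have h2 : |if mir = false ∧ i = j ∧ m = i then
      (if k = 0 then d.phi m else if k = 2 then rs r * d.ax m / (2 * d.alc) else 0) else 0| ≤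
      7 * 10 ^ 8 * (d.B : ℚ) ^ 18 := by
    split_ifs
    · exact finB_phi hv m
    · rw [abs_div, abs_mul, finB_abs_rs, one_mul, abs_of_pos (a := 2 * d.alc) (by linarith)]
      have h5 := finB_pow_le hv (show 1 ≤ 18 by norm_num)
      rw [pow_one] at h5
      have h6 := div_le_self (abs_nonneg (d.ax m)) (show 1 ≤ 2 * d.alc by linarith)
      have h7 := hv.ax_bd m
      linarith
    · rw [abs_zero]; positivity
    · rw [abs_zero]; positivity
  have h3 : (d.n : ℚ) * (d.alc * 3 * 2) ≤ 6 * 10 ^ 4 * (d.B : ℚ) ^ 18 := by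
    have h5 := finB_pow_le hv (show 9 ≤ 18 by norm_num)
    calc (d.n : ℚ) * (d.alc * 3 * 2) ≤ d.B * (d.alc * 3 * 2) := by gcongr
      _ = 6 * 10 ^ 4 * (d.B : ℚ) ^ 9 := by unfold XZ.alc; ring
      _ ≤ _ := by linarith
  have h4 : d.amp m k i j ≤ 10 ^ 4 * (d.B : ℚ) ^ 18 := by
    have h5 := finB_pow_le hv (show 8 ≤ 18 by norm_num)
    unfold XZ.alc at a2
    linarith
  have h5 : (U + 1) * d.amp m k i j ≤ (3 * U) * (10 ^ 4 * (d.B : ℚ) ^ 18) :=
    mul_le_mul (by linarith) h4 a1 (by linarith)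
  have h6 : 0 ≤ (U + 1) * d.amp m k i j := mul_nonneg (by linarith) a1
  have h7 : (d.B : ℚ) ^ 18 ≤ 2 * ((d.B : ℚ) ^ 18 * U) := by
    have : (0 : ℚ) ≤ (d.B : ℚ) ^ 18 := by positivity
    nlinarith
  have h8 : (0 : ℚ) ≤ (d.B : ℚ) ^ 18 := by positivity
  have h9 := abs_le.1 h2
  unfold XZ.pot
  generalize (if mir = false ∧ i = j ∧ m = i then
      (if k = 0 then d.phi m else if k = 2 then rs r * d.ax m / (2 * d.alc) else 0) else 0) = T
    at h9 ⊢
  rw [abs_le]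
  constructor <;> split_ifs <;> linarith [h1.1, h1.2, h9.1, h9.2]

theorem finB_card (n : ℕ) : Fintype.card (Dot n) = 12 * n ^ 3 := by
  simp only [Fintype.card_prod, Fintype.card_fin, Fintype.card_bool]
  ring

theorem finB_abs_sum {n : ℕ} {f : Dot n → ℚ} {c : ℚ} (h : ∀ e, |f e| ≤ c) :
    |∑ e, f e| ≤ 12 * (n : ℚ) ^ 3 * c := by
  refine (Finset.abs_sum_le_sum_abs _ _).trans ?_
  have := Finset.sum_le_card_nsmul Finset.univ (fun e => |f e|) c fun e _ => h e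
  rw [Finset.card_univ, finB_card, nsmul_eq_mul] at this
  push_cast at this
  exact this

theorem finB_Kb {n : ℕ} {U : ℚ} (hU : 1 / 2 ≤ U) (e e' : Dot n) : |Kb U e e'| ≤ 2 * U := by
  have h := finB_inv e'.1 e.1 _ _ (finB_rs_int e'.2.2.2) (finB_rs_int e.2.2.2)
  unfold Kb
  rw [abs_le]
  split_ifs <;> constructor <;> linarith [h.1, h.2]

theorem finB_dVec (d : XZ) (e : Dot d.n) : |d.dVec e 1| ≤ 1 ∧ |d.dVec e 2| ≤ 1 := by
  constructor
  · change |d.xi _ _ _ _ _| ≤ 1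
    unfold XZ.xi XZ.typ XZ.side
    rw [abs_mul, abs_mul, finB_abs_rs]
    split_ifs <;> norm_num
  · exact (finB_abs_rs _).le

theorem C0_bd {d : XZ} (hv : d.Valid) {U : ℚ} (hU : 1 / 2 ≤ U) :
    |d.C0 U| ≤ 10 ^ 17 * (d.B : ℚ) ^ 30 * U := by
  have hB := finB_one_le hv
  have hn : (d.n : ℚ) ≤ d.B := by exact_mod_cast hv.n_le
  have hal := finB_one_le_alc hv
  have hU0 : 0 ≤ U := by linarith
  have hamp : ∀ e : Dot d.n, |d.dAmp e| ≤ d.alc := fun e => by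
    obtain ⟨a1, a2⟩ := amp_bd hv (m := e.1) (k := e.2.1.1) e.2.1.2.1.2 e.2.1.2.2.2
    rw [XZ.dAmp, abs_of_nonneg a1]
    exact a2
  have h1 := finB_abs_sum (c := 10 ^ 10 * (d.B : ℚ) ^ 18 * U * d.alc * 3)
    (f := fun e : Dot d.n => d.dPot U e * d.dAmp e * (2 + d.cc e.1 e.2.1.1)) fun e => by
      obtain ⟨c1, c2⟩ := finB_cc d e.1 e.2.1.1
      have p : |d.dPot U e| ≤ 10 ^ 10 * (d.B : ℚ) ^ 18 * U :=
        pot_bd hv hU e.1.2 e.2.1.2.1.2 e.2.1.2.2.2 _ _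
      rw [abs_mul, abs_mul, abs_of_nonneg (a := 2 + d.cc e.1 e.2.1.1) (by linarith)]
      gcongr
      · exact hamp e
      · linarith
  have h2 := finB_abs_sum (c := 12 * (d.n : ℚ) ^ 3 * (2 * U * d.alc * d.alc * 5))
    (f := fun e : Dot d.n => ∑ e' : Dot d.n, Kb U e e' * d.dAmp e * d.dAmp e' *
      (if e.1 = e'.1 then 1 + 2 * d.cc e'.1 e'.2.1.1 -
          (d.dVec e 1 * d.dVec e' 1 + d.dVec e 2 * d.dVec e' 2) / 2
       else (2 + d.cc e.1 e.2.1.1) * (2 + d.cc e'.1 e'.2.1.1) / 2)) fun e =>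
    finB_abs_sum fun e' => by
      obtain ⟨c1, c2⟩ := finB_cc d e.1 e.2.1.1
      obtain ⟨c3, c4⟩ := finB_cc d e'.1 e'.2.1.1
      have p : |if e.1 = e'.1 then 1 + 2 * d.cc e'.1 e'.2.1.1 -
          (d.dVec e 1 * d.dVec e' 1 + d.dVec e 2 * d.dVec e' 2) / 2
          else (2 + d.cc e.1 e.2.1.1) * (2 + d.cc e'.1 e'.2.1.1) / 2| ≤ 5 := by
        obtain ⟨v1, v2⟩ := finB_dVec d e
        obtain ⟨v3, v4⟩ := finB_dVec d e'
        have w1 : |d.dVec e 1 * d.dVec e' 1| ≤ 1 := by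
          rw [abs_mul]; exact mul_le_one₀ v1 (abs_nonneg _) v3
        have w2 : |d.dVec e 2 * d.dVec e' 2| ≤ 1 := by
          rw [abs_mul]; exact mul_le_one₀ v2 (abs_nonneg _) v4
        have w3 := abs_le.1 w1
        have w4 := abs_le.1 w2
        rw [abs_le]
        split_ifs <;> constructor <;> nlinarith [w3.1, w3.2, w4.1, w4.2]
      rw [abs_mul, abs_mul, abs_mul]
      gcongr
      · exact finB_Kb hU e e'
      · exact hamp e
      · exact hamp e'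
  have h3 : 12 * (d.n : ℚ) ^ 3 * (10 ^ 10 * (d.B : ℚ) ^ 18 * U * d.alc * 3) ≤
      36 * 10 ^ 14 * ((d.B : ℚ) ^ 30 * U) := by
    have h5 := finB_pow_le hv (show 29 ≤ 30 by norm_num)
    calc 12 * (d.n : ℚ) ^ 3 * (10 ^ 10 * (d.B : ℚ) ^ 18 * U * d.alc * 3)
        ≤ 12 * (d.B : ℚ) ^ 3 * (10 ^ 10 * (d.B : ℚ) ^ 18 * U * d.alc * 3) := by gcongr
      _ = 36 * 10 ^ 14 * ((d.B : ℚ) ^ 29 * U) := by unfold XZ.alc; ring
      _ ≤ _ := by gcongr
  have h4 : 12 * (d.n : ℚ) ^ 3 * (12 * (d.n : ℚ) ^ 3 * (2 * U * d.alc * d.alc * 5)) ≤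
      1440 * 10 ^ 8 * ((d.B : ℚ) ^ 30 * U) := by
    have h5 := finB_pow_le hv (show 22 ≤ 30 by norm_num)
    calc 12 * (d.n : ℚ) ^ 3 * (12 * (d.n : ℚ) ^ 3 * (2 * U * d.alc * d.alc * 5))
        ≤ 12 * (d.B : ℚ) ^ 3 * (12 * (d.B : ℚ) ^ 3 * (2 * U * d.alc * d.alc * 5)) := by gcongr
      _ = 1440 * 10 ^ 8 * ((d.B : ℚ) ^ 22 * U) := by unfold XZ.alc; ring
      _ ≤ _ := by gcongr
  have h5 : 0 ≤ (d.B : ℚ) ^ 30 * U := by positivity
  unfold XZ.C0
  refine (abs_add_le _ _).trans ?_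
  linarith

variable {α : Type} [Enc α] {d : α → XZ}

theorem PTFam.comp {β : Type} [Enc β] (h : PTFam d) {f : β → α} (hf : PT f) :
    PTFam (fun b => d (f b)) where
  n := h.n.comp hf
  nd := h.nd.comp hf
  B := h.B.comp hf
  pbB := h.pbB.comp hf
  zz := h.zz.comp (f := fun p : β × ℕ × ℕ => (f p.1, p.2)) (by fun_prop)
  xx := h.xx.comp (f := fun p : β × ℕ × ℕ => (f p.1, p.2)) (by fun_prop)
  zx := h.zx.comp (f := fun p : β × ℕ × ℕ => (f p.1, p.2)) (by fun_prop)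
  az := h.az.comp (f := fun p : β × ℕ => (f p.1, p.2)) (by fun_prop)
  ax := h.ax.comp (f := fun p : β × ℕ => (f p.1, p.2)) (by fun_prop)
  lo := h.lo.comp hf
  hi := h.hi.comp hf

theorem finB_pt_alc (h : PTFam d) : PT fun a => (d a).alc := by
  have hB := h.B
  unfold XZ.alc
  fun_prop

theorem finB_pt_rs {r : α → Bool} (hr : PT r) : PT fun a => rs (r a) := by
  unfold rs
  fun_prop

theorem pt_amp (h : PTFam d) {m k i j : α → ℕ} (hm : PT m) (hk : PT k) (hi : PT i) (hj : PT j) :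
    PT fun a => (d a).amp (m a) (k a) (i a) (j a) := by
  have h1 : PT fun a => (d a).zz (i a) (j a) :=
    h.zz.comp (f := fun a => (a, i a, j a)) (by fun_prop)
  have h2 : PT fun a => (d a).xx (i a) (j a) :=
    h.xx.comp (f := fun a => (a, i a, j a)) (by fun_prop)
  have h3 : PT fun a => (d a).zx (i a) (j a) :=
    h.zx.comp (f := fun a => (a, i a, j a)) (by fun_prop)
  have h4 := finB_pt_alc h
  unfold XZ.amp
  fun_prop

theorem pt_side (h : PTFam d) {k i j : α → ℕ} (hk : PT k) (hi : PT i) (hj : PT j) :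
    PT fun a => (d a).side (k a) (i a) (j a) := by
  have h3 : PT fun a => (d a).zx (i a) (j a) :=
    h.zx.comp (f := fun a => (a, i a, j a)) (by fun_prop)
  unfold XZ.side
  fun_prop

theorem pt_typ (h : PTFam d) {m k : α → ℕ} (hm : PT m) (hk : PT k) :
    PT fun a => (d a).typ (m a) (k a) := by
  have h1 := h.nd
  unfold XZ.typ
  fun_prop

theorem finB_pt_cc (h : PTFam d) {m k : α → ℕ} (hm : PT m) (hk : PT k) :
    PT fun a => (d a).cc (m a) (k a) := by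
  have h1 := pt_typ h hm hk
  unfold XZ.cc
  fun_prop

theorem finB_pt_xi (h : PTFam d) {m k i j : α → ℕ} (hm : PT m) (hk : PT k) (hi : PT i)
    (hj : PT j) {mir : α → Bool} (hmir : PT mir) :
    PT fun a => (d a).xi (m a) (k a) (i a) (j a) (mir a) :=
  ((finB_pt_rs hmir).ratMul (pt_typ h hm hk)).ratMul (pt_side h hk hi hj)

theorem finB_pb_n (h : PTFam d) (hv : ∀ a, (d a).Valid) : PB fun a => (d a).n :=
  h.pbB.of_le fun a => (hv a).n_le

theorem finB_pt_phi (h : PTFam d) (hv : ∀ a, (d a).Valid) {m : α → ℕ} (hm : PT m) :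
    PT fun a => (d a).phi (m a) := by
  have h1 : PT fun a => (d a).az (m a) := h.az.comp (f := fun a => (a, m a)) (by fun_prop)
  have hn := h.n
  have hb := finB_pb_n h hv
  unfold XZ.phi
  refine h1.ratNeg.ratSub ?_
  refine PT.rat_sum_range (PT.const 3) (PB.const 3) ?_
  refine PT.rat_sum_range (hn.comp PT.id.fst) (hb.comp PT.id.fst) ?_
  refine PT.rat_sum_range (hn.comp PT.id.fst.fst) (hb.comp PT.id.fst.fst) ?_
  have h' := h.comp (f := fun p : ((α × ℕ) × ℕ) × ℕ => p.1.1.1) (by fun_prop)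
  have h2 := pt_amp h' (m := fun p => m p.1.1.1) (k := fun p => p.1.1.2) (i := fun p => p.1.2)
    (j := fun p => p.2) (by fun_prop) (by fun_prop) (by fun_prop) (by fun_prop)
  have h3 := finB_pt_cc h' (m := fun p => m p.1.1.1) (k := fun p => p.1.1.2) (by fun_prop)
    (by fun_prop)
  exact ((PT.const 2).ratMul (h2.ratPow (PT.const 2) (PB.const 2))).ratMul h3

theorem pt_pot (h : PTFam d) (hv : ∀ a, (d a).Valid) {U : α → ℚ} (hU : PT U)
    {m k i j : α → ℕ} (hm : PT m) (hk : PT k) (hi : PT i) (hj : PT j) {mir r : α → Bool}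
    (hmir : PT mir) (hr : PT r) :
    PT fun a => (d a).pot (U a) (m a) (k a) (i a) (j a) (mir a) (r a) := by
  have h1 := pt_amp h hm hk hi hj
  have h2 := finB_pt_phi h hv hm
  have h3 : PT fun a => (d a).ax (m a) := h.ax.comp (f := fun a => (a, m a)) (by fun_prop)
  have h4 := finB_pt_alc h
  have h5 := finB_pt_rs hr
  have h6 : PT fun a => ∑ m' ∈ Finset.range (d a).n, if m' = m a then 0 else
      (d a).amp m' (k a) (i a) (j a) * (2 + (d a).cc m' (k a)) *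
        (1 / |8 * ((m' : ℚ) - m a) + 1 - rs (r a)| +
          1 / |8 * ((m' : ℚ) - m a) - 1 - rs (r a)|) := by
    refine PT.rat_sum_range h.n (finB_pb_n h hv) ?_
    have h' := h.comp (f := fun p : α × ℕ => p.1) (by fun_prop)
    have g1 := pt_amp h' (m := fun p => p.2) (k := fun p => k p.1) (i := fun p => i p.1)
      (j := fun p => j p.1) (by fun_prop) (by fun_prop) (by fun_prop) (by fun_prop)
    have g2 := finB_pt_cc h' (m := fun p => p.2) (k := fun p => k p.1) (by fun_prop) (by fun_prop)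
    have g3 : PT fun p : α × ℕ => rs (r p.1) := h5.comp PT.id.fst
    refine PT.ite (by fun_prop) (PT.const 0) ((g1.ratMul ((PT.const 2).ratAdd g2)).ratMul ?_)
    have g4 : PT fun p : α × ℕ => 8 * ((p.2 : ℚ) - m p.1) := by fun_prop
    exact ((PT.const 1).ratDiv ((g4.ratAdd (PT.const 1)).ratSub g3).ratAbs).ratAdd
      ((PT.const 1).ratDiv ((g4.ratSub (PT.const 1)).ratSub g3).ratAbs)
  unfold XZ.pot
  refine PT.ratAdd (PT.ratSub (by fun_prop) (PT.ite (by fun_prop) (PT.const 0) h6)) ?_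
  refine PT.ite (by fun_prop) (PT.ite (by fun_prop) h2 (PT.ite (by fun_prop) ?_ (PT.const 0)))
    (PT.const 0)
  exact (h5.ratMul h3).ratDiv ((PT.const 2).ratMul h4)

/-- Dots as tuples of numbers. -/
abbrev FinBRaw : Type := ℕ × ℕ × ℕ × ℕ × Bool × Bool

def finBRaw {n : ℕ} (e : Dot n) : FinBRaw :=
  (e.1, e.2.1.1, e.2.1.2.1, e.2.1.2.2, e.2.2.1, e.2.2.2)

theorem finB_sum_dot (n : ℕ) (F : FinBRaw → ℚ) :
    ∑ e : Dot n, F (finBRaw e) = ∑ m ∈ Finset.range n, ∑ k ∈ Finset.range 3,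
      ∑ i ∈ Finset.range n, ∑ j ∈ Finset.range n,
        (F (m, k, i, j, true, true) + F (m, k, i, j, true, false) +
          (F (m, k, i, j, false, true) + F (m, k, i, j, false, false))) := by
  simp only [Fintype.sum_prod_type, Fintype.sum_bool, finBRaw, Finset.sum_range]

theorem finB_pt_sum {n : α → ℕ} (hn : PT n) (hb : PB n) {F : α → FinBRaw → ℚ}
    (hF : PT fun p : α × FinBRaw => F p.1 p.2) :
    PT fun a => ∑ e : Dot (n a), F a (finBRaw e) := by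
  simp only [finB_sum_dot]
  refine PT.rat_sum_range hn hb ?_
  refine PT.rat_sum_range (PT.const 3) (PB.const 3) ?_
  refine PT.rat_sum_range (hn.comp PT.id.fst.fst) (hb.comp PT.id.fst.fst) ?_
  refine PT.rat_sum_range (hn.comp PT.id.fst.fst.fst) (hb.comp PT.id.fst.fst.fst) ?_
  have key : ∀ b b' : Bool, PT fun p : (((α × ℕ) × ℕ) × ℕ) × ℕ =>
      F p.1.1.1.1 (p.1.1.1.2, p.1.1.2, p.1.2, p.2, b, b') := fun b b' =>
    hF.comp (f := fun p : (((α × ℕ) × ℕ) × ℕ) × ℕ =>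
      (p.1.1.1.1, (p.1.1.1.2, p.1.1.2, p.1.2, p.2, b, b'))) (by fun_prop)
  exact ((key _ _).ratAdd (key _ _)).ratAdd ((key _ _).ratAdd (key _ _))

/-- `Kb` on tuples. -/
def finBKb (U : ℚ) (e e' : FinBRaw) : ℚ :=
  if e.2.1 = e'.2.1 ∧ e.2.2.1 = e'.2.2.1 ∧ e.2.2.2.1 = e'.2.2.2.1 then
    (if e.1 = e'.1 then
      (if e.2.2.2.2.1 = e'.2.2.2.2.1 then (if e.2.2.2.2.2 = e'.2.2.2.2.2 then U else 1 / 2) else 0)
     else if e.2.2.2.2.1 = false ∧ e'.2.2.2.2.1 = false then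
       1 / |8 * ((e'.1 : ℚ) - e.1) + rs e'.2.2.2.2.2 - rs e.2.2.2.2.2| else 0)
  else 0

theorem finB_Kb_eq {n : ℕ} (U : ℚ) (e e' : Dot n) :
    Kb U e e' = finBKb U (finBRaw e) (finBRaw e') := by
  simp only [Kb, finBKb, finBRaw, Prod.ext_iff, Fin.ext_iff]
  congr

theorem finB_pt_Kb {U : α → ℚ} (hU : PT U) {e e' : α → FinBRaw} (he : PT e) (he' : PT e') :
    PT fun a => finBKb (U a) (e a) (e' a) := by
  have h1 : PT fun a => rs (e a).2.2.2.2.2 := finB_pt_rs (by fun_prop)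
  have h2 : PT fun a => rs (e' a).2.2.2.2.2 := finB_pt_rs (by fun_prop)
  unfold finBKb
  refine PT.ite (by fun_prop) (PT.ite (by fun_prop) (by fun_prop)
    (PT.ite (by fun_prop) ?_ (PT.const 0))) (PT.const 0)
  exact (PT.const 1).ratDiv (PT.ratAbs (PT.ratSub (PT.ratAdd (by fun_prop) h2) h1))

/-- The terms of `C0` on tuples. -/
def finBT1 (d : XZ) (U : ℚ) (e : FinBRaw) : ℚ :=
  d.pot U e.1 e.2.1 e.2.2.1 e.2.2.2.1 e.2.2.2.2.1 e.2.2.2.2.2 * d.amp e.1 e.2.1 e.2.2.1 e.2.2.2.1 *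
    (2 + d.cc e.1 e.2.1)

def finBT2 (d : XZ) (U : ℚ) (e e' : FinBRaw) : ℚ :=
  finBKb U e e' * d.amp e.1 e.2.1 e.2.2.1 e.2.2.2.1 * d.amp e'.1 e'.2.1 e'.2.2.1 e'.2.2.2.1 *
    (if e.1 = e'.1 then 1 + 2 * d.cc e'.1 e'.2.1 -
      (d.xi e.1 e.2.1 e.2.2.1 e.2.2.2.1 e.2.2.2.2.1 *
        d.xi e'.1 e'.2.1 e'.2.2.1 e'.2.2.2.1 e'.2.2.2.2.1 +
        rs e.2.2.2.2.2 * rs e'.2.2.2.2.2) / 2
     else (2 + d.cc e.1 e.2.1) * (2 + d.cc e'.1 e'.2.1) / 2)

theorem finB_C0_eq (d : XZ) (U : ℚ) : d.C0 U = ∑ e : Dot d.n, finBT1 d U (finBRaw e) +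
    ∑ e : Dot d.n, ∑ e' : Dot d.n, finBT2 d U (finBRaw e) (finBRaw e') := by
  unfold XZ.C0
  congr 1
  refine Finset.sum_congr rfl fun e _ => Finset.sum_congr rfl fun e' _ => ?_
  rw [finB_Kb_eq]
  simp only [finBT2, Fin.ext_iff]
  rfl

theorem finB_pt_T1 (h : PTFam d) (hv : ∀ a, (d a).Valid) {U : α → ℚ} (hU : PT U)
    {e : α → FinBRaw} (he : PT e) : PT fun a => finBT1 (d a) (U a) (e a) :=
  ((pt_pot h hv hU he.fst he.snd.fst he.snd.snd.fst he.snd.snd.snd.fst he.snd.snd.snd.snd.fst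
    he.snd.snd.snd.snd.snd).ratMul
    (pt_amp h he.fst he.snd.fst he.snd.snd.fst he.snd.snd.snd.fst)).ratMul
    ((PT.const 2).ratAdd (finB_pt_cc h he.fst he.snd.fst))

theorem finB_pt_T2 (h : PTFam d) {U : α → ℚ} (hU : PT U)
    {e e' : α → FinBRaw} (he : PT e) (he' : PT e') :
    PT fun a => finBT2 (d a) (U a) (e a) (e' a) := by
  have c1 := finB_pt_cc h he.fst he.snd.fst
  have c2 := finB_pt_cc h he'.fst he'.snd.fst
  have x1 := finB_pt_xi h he.fst he.snd.fst he.snd.snd.fst he.snd.snd.snd.fst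
    he.snd.snd.snd.snd.fst
  have x2 := finB_pt_xi h he'.fst he'.snd.fst he'.snd.snd.fst he'.snd.snd.snd.fst
    he'.snd.snd.snd.snd.fst
  have r1 := finB_pt_rs he.snd.snd.snd.snd.snd
  have r2 := finB_pt_rs he'.snd.snd.snd.snd.snd
  exact (((finB_pt_Kb hU he he').ratMul
    (pt_amp h he.fst he.snd.fst he.snd.snd.fst he.snd.snd.snd.fst)).ratMul
    (pt_amp h he'.fst he'.snd.fst he'.snd.snd.fst he'.snd.snd.snd.fst)).ratMul
    (PT.ite (he.fst.decide_eq he'.fst)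
      (((PT.const 1).ratAdd ((PT.const 2).ratMul c2)).ratSub
        (((x1.ratMul x2).ratAdd (r1.ratMul r2)).ratDiv (PT.const 2)))
      ((((PT.const 2).ratAdd c1).ratMul ((PT.const 2).ratAdd c2)).ratDiv (PT.const 2)))

theorem pt_C0 (h : PTFam d) (hv : ∀ a, (d a).Valid) {U : α → ℚ} (hU : PT U) :
    PT fun a => (d a).C0 (U a) := by
  have hn := h.n
  have hb := finB_pb_n h hv
  simp only [finB_C0_eq]
  refine PT.ratAdd ?_ ?_
  · refine finB_pt_sum (F := fun a e => finBT1 (d a) (U a) e) hn hb ?_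
    exact finB_pt_T1 (h.comp PT.id.fst) (fun p => hv p.1) (hU.comp PT.id.fst) PT.id.snd
  · refine finB_pt_sum
      (F := fun a e => ∑ e' : Dot (d a).n, finBT2 (d a) (U a) e (finBRaw e')) hn hb ?_
    refine finB_pt_sum (n := fun p : α × FinBRaw => (d p.1).n)
      (F := fun p e' => finBT2 (d p.1) (U p.1) p.2 e') (hn.comp PT.id.fst) (hb.comp PT.id.fst) ?_
    exact finB_pt_T2 (h.comp PT.id.fst.fst) (hU.comp PT.id.fst.fst) PT.id.fst.snd PT.id.snd

end Crest.Agent.R338
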