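import Crest.Agent.R338.Defs2

/-! Row 338, module FIN: definitions (real tensors, one-body operators, the effective
Hamiltonian on tensors with full cores, the qubit dictionary). -/

set_option autoImplicit false
set_option linter.unusedSectionVars false

open Matrix Finset

namespace Crest.Agent.R338

/-- The constant term. -/
def XZ.C0 (d : XZ) (U : ℚ) : ℚ :=
  ∑ e : Dot d.n, d.dPot U e * d.dAmp e * (2 + d.cc e.1 e.2.1.1) +
    ∑ e : Dot d.n, ∑ e' : Dot d.n, Kb U e e' * d.dAmp e * d.dAmp e' *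
      (if e.1 = e'.1 then 1 + 2 * d.cc e'.1 e'.2.1.1 -
          (d.dVec e 1 * d.dVec e' 1 + d.dVec e 2 * d.dVec e' 2) / 2
       else (2 + d.cc e.1 e.2.1.1) * (2 + d.cc e'.1 e'.2.1.1) / 2)

namespace FinM

section calculus

variable {ι : Type} [Fintype ι] [DecidableEq ι] {N : ℕ}

/-- Real tensors. -/
abbrev Tn (ι : Type) (N : ℕ) : Type := (Fin N → ι × Fin 2) → ℝ

/-- The matrix `A` acting on the slot `i` (the spin is untouched). -/
def opx (i : Fin N) (A : Matrix ι ι ℝ) : Module.End ℝ (Tn ι N) where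
  toFun c := fun α => ∑ a, A (α i).1 a * c (Function.update α i (a, (α i).2))
  map_add' c c' := by
    funext α
    simp only [Pi.add_apply, mul_add, Finset.sum_add_distrib]
  map_smul' r c := by
    funext α
    simp only [Pi.smul_apply, smul_eq_mul, RingHom.id_apply, Finset.mul_sum]
    exact Finset.sum_congr rfl fun a _ => by ring

/-- Second quantisation `∑_i A_i`. -/
def dG (A : Matrix ι ι ℝ) : Module.End ℝ (Tn ι N) := ∑ i, opx i A

/-- The two-body operator `∑_{i ≠ j} A_i B_j`. -/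
def tw (A B : Matrix ι ι ℝ) : Module.End ℝ (Tn ι N) :=
  ∑ i, ∑ j, if i = j then 0 else opx i A * opx j B

/-- Expectation. -/
def ex (O : Module.End ℝ (Tn ι N)) (c : Tn ι N) : ℝ := c ⬝ᵥ O c

def AntiR (c : Tn ι N) : Prop :=
  ∀ (σ : Equiv.Perm (Fin N)) (α : Fin N → ι × Fin 2),
    c (fun i => α (σ i)) = ((Equiv.Perm.sign σ : ℤ) : ℝ) * c α

/-- The real form of `EF`. -/
def EFr (w : ι → ι → ι → ι → ℝ) (v : ι → ι → ℝ) (c : Tn ι N) : ℝ :=
  ∑ α : Fin N → ι × Fin 2, ∑ i : Fin N,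
    (∑ a : ι, v (α i).1 a * (c α * c (Function.update α i (a, (α i).2))) +
      ∑ j : Fin N, if i < j then ∑ a : ι, ∑ b : ι, w (α i).1 a (α j).1 b *
        (c α * c (Function.update (Function.update α i (a, (α i).2)) j (b, (α j).2))) else 0)

end calculus

section mol

variable {n N : ℕ}

abbrev Orb (n : ℕ) : Type := Fin n × Fin 3
abbrev Lab (n N : ℕ) : Type := Fin N → Orb n × Fin 2

/-- The rank one matrix `x yᵀ` on the molecule `m`. -/
def mo (m : Fin n) (x y : Fin 3 → ℝ) : Matrix (Orb n) (Orb n) ℝ :=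
  Matrix.of fun a b => if a.1 = m ∧ b.1 = m then x a.2 * y b.2 else 0

def bv (k : Fin 3) : Fin 3 → ℝ := Pi.single k 1

def Nm (m : Fin n) : Matrix (Orb n) (Orb n) ℝ := mo m (bv 1) (bv 1) + mo m (bv 2) (bv 2)
def Zm (m : Fin n) : Matrix (Orb n) (Orb n) ℝ := mo m (bv 1) (bv 1) - mo m (bv 2) (bv 2)
def Xm (m : Fin n) : Matrix (Orb n) (Orb n) ℝ := mo m (bv 1) (bv 2) + mo m (bv 2) (bv 1)

/-- Antisymmetric tensors with full cores. -/
structure InV (c : Tn (Orb n) N) : Prop where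
  anti : AntiR c
  full : ∀ α, c α ≠ 0 → ∀ (m : Fin n) (s : Fin 2), ∃ i, α i = ((m, 0), s)

/-- The number of `p` electrons of the molecule `m`. -/
def cnt (m : Fin n) (α : Lab n N) : ℕ := #{i | (α i).1.1 = m ∧ (α i).1.2 ≠ 0}

/-- The number of electrons of the molecule `m`. -/
def mc (m : Fin n) (α : Lab n N) : ℕ := #{i | (α i).1.1 = m}

/-- Tensors in the qubit sector. -/
def Rt (c : Tn (Orb n) N) : Prop := ∀ α, c α ≠ 0 → ∀ m, cnt m α = 1

/-- The qubit configuration of a labeling. -/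
def sig (α : Lab n N) (m : Fin n) : Bool := decide (∃ i, (α i).1 = (m, 2))

/-- Exchange the two `p` orbitals of the molecule `m`. -/
def flp (m : Fin n) (α : Lab n N) : Lab n N :=
  fun i => if (α i).1.1 = m then (((α i).1.1, Equiv.swap 1 2 (α i).1.2), (α i).2) else α i

/-- Prescribe the qubit configuration. -/
def setL (α : Lab n N) (σ : Fin n → Bool) : Lab n N :=
  fun i => if (α i).1.2 = 0 then α i else (((α i).1.1, if σ (α i).1.1 then 2 else 1), (α i).2)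

end mol

section dots

variable (d : XZ) {N : ℕ}

/-- The `p` part of `dVec`. -/
def uu (e : Dot d.n) : Fin 3 → ℝ := ![0, (d.dVec e 1 : ℝ), (d.dVec e 2 : ℝ)]
def ccr (e : Dot d.n) : ℝ := (d.cc e.1 e.2.1.1 : ℝ)
def Pm (e : Dot d.n) : Matrix (Orb d.n) (Orb d.n) ℝ := mo e.1 (uu d e) (uu d e)
/-- The centred `p` charge of a dot. -/
def Qv (e : Dot d.n) (c : Tn (Orb d.n) N) : Tn (Orb d.n) N := dG (Pm d e) c - ccr d e • c

/-- The expansion of `sym (u u'ᵀ)` on `N`, `Z`, `X`. -/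
noncomputable def yy (nn zz xx : Fin d.n → ℝ) (e e' : Dot d.n) : ℝ :=
  (uu d e 1 * uu d e' 1 + uu d e 2 * uu d e' 2) / 2 * nn e.1 +
    (uu d e 1 * uu d e' 1 - uu d e 2 * uu d e' 2) / 2 * zz e.1 +
    (uu d e 1 * uu d e' 2 + uu d e 2 * uu d e' 1) / 2 * xx e.1

/-- The chemical potential of the molecule `m`. -/
def nu (m : ℕ) : ℚ :=
  d.phi m + ∑ k ∈ Finset.range 3, ∑ i ∈ Finset.range d.n, ∑ j ∈ Finset.range d.n,
    2 * d.amp m k i j ^ 2 * (1 - d.cc m k)

/-- The kernel between the rows of the molecules `i` and `j`. -/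
def kk (i j : ℕ) (r r' : Bool) : ℚ := 1 / |8 * ((j : ℚ) - i) + rs r' - rs r|

/-- The interaction of different molecules. -/
def quad (g : Dot d.n → Dot d.n → ℝ) : ℝ :=
  ∑ k : Fin 3, ∑ i : Fin d.n, ∑ j : Fin d.n, if i = j then 0 else
    (d.amp i k i j : ℝ) * ∑ r : Bool, ∑ r' : Bool, (kk i j r r' : ℝ) *
      g (i, (k, i, j), false, r) (j, (k, i, j), false, r')

/-- The repulsion of the `p` electrons of one molecule. -/
noncomputable def PP (U : ℚ) (c : Tn (Orb d.n) N) : ℝ :=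
  1 / 2 * ∑ e : Dot d.n, ∑ e' : Dot d.n, if e.1 = e'.1 then
    (Kb U e e' : ℝ) * d.dAmp e * d.dAmp e' * ex (tw (Pm d e) (Pm d e')) c else 0

/-- The one-molecule terms. -/
def lin (c : Tn (Orb d.n) N) : ℝ :=
  ∑ m : Fin d.n, ((nu d m : ℝ) * (ex (dG (Nm m)) c - c ⬝ᵥ c) + (d.az m : ℝ) * ex (dG (Zm m)) c +
    (d.ax m : ℝ) * ex (dG (Xm m)) c)

/-- The qubit Hamiltonian written with the operators `dG (Zm m)`, `dG (Xm m)`. -/
def HQ (c : Tn (Orb d.n) N) : ℝ :=
  ∑ m : Fin d.n, ((d.az m : ℝ) * ex (dG (Zm m)) c + (d.ax m : ℝ) * ex (dG (Xm m)) c) +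
    ∑ i : Fin d.n, ∑ j : Fin d.n, ((d.zz i j : ℝ) * (dG (Zm i) c ⬝ᵥ dG (Zm j) c) -
      (d.xx i j : ℝ) * (dG (Xm i) c ⬝ᵥ dG (Xm j) c) +
      (d.zx i j : ℝ) * (dG (Zm i) c ⬝ᵥ dG (Xm j) c))

end dots

end FinM

end Crest.Agent.R338
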