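import Crest.Agent.R338.FinDefs

/-! Row 338, module FIN: the terms which are linear in the one-molecule operators (a pure scalar
identity).

Write a dot as `e = (m, (k,i,j), mir, r)`, `a = amp m k i j`, `u = uu d e = (0, ξ, rs r)`,
`ξ² = typ m k ∈ {0,1}` (`ξ = rs mir * typ * side`), `cc = (typ+1)/2`,
`q e := yy e e = cc * nn m + (cc - 1) * zz m + ξ * rs r * xx m`.
* Different molecules: by the symmetry of `Kb` the double sum is `∑ e, a_e q_e ∑_{e'} Kb e e' a_e' (2 + cc e')`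
  (over `e'.1 ≠ e.1`); `Kb e e' ≠ 0` forces the same slot and `mir = mir' = false`, and the inner sum
  is exactly the second term of `pot`: they cancel.
* Same molecule: `Kb e e' ≠ 0` forces the same slot and the same `mir`; a column `(m, slot, mir)`
  gives `a² [U (q₊ + q₋) + (q₊ + q₋) - y₊₋]`, `y₊₋ = y₋₊ = (cc - 1) nn + cc zz`; the term
  `-(U+1) a` of `pot` cancels `(U+1)(q₊+q₋)`; two columns give `2 a² ((1 - cc) nn - cc zz)`.
* The fields: slot `(0,m,m)` (`a = 1`, `typ = 0`, `q = (nn - zz)/2`) gives `phi m (nn - zz)`;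
  slot `(2,m,m)` (`a = alc ≠ 0`, `typ = 1`, `side = 1`, `q = nn + rs r * xx`) gives `ax m * xx`.
* `-phi m - ∑ 2 a² cc = az m` and `phi m + ∑ 2 a² (1 - cc) = nu d m`
  (`Finset.sum_range` / `Fin.sum_univ_eq_sum_range` to pass between `range` and `Fin`). -/

set_option autoImplicit false
set_option linter.unusedSectionVars false
set_option linter.unusedVariables false

open Matrix Finset

namespace Crest.Agent.R338.FinM

lemma finLin_Kb_symm {n : ℕ} (U : ℚ) (e e' : Dot n) : Kb U e e' = Kb U e' e := by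
  obtain ⟨m, s, mir, r⟩ := e
  obtain ⟨m', s', mir', r'⟩ := e'
  have h : |8 * (((m' : ℕ) : ℚ) - (m : ℕ)) + rs r' - rs r| =
      |8 * (((m : ℕ) : ℚ) - (m' : ℕ)) + rs r - rs r'| := by
    rw [← abs_neg]; congr 1; ring
  simp only [Kb, h, eq_comm (a := s), eq_comm (a := m), eq_comm (a := mir) (b := mir'),
    eq_comm (a := r) (b := r'), and_comm (a := mir = false)]

lemma finLin_inner {n : ℕ} (U : ℚ) (m : Fin n) (s : Fin 3 × Fin n × Fin n) (mir r : Bool)
    (F : Dot n → ℝ) :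
    ∑ e' : Dot n, (Kb U (m, s, mir, r) e' : ℝ) * F e' =
      U * F (m, s, mir, r) + 1 / 2 * F (m, s, mir, !r) +
      if mir = true then 0 else ∑ m' : Fin n, if m' = m then 0 else
        (((1 / |8 * (((m' : ℕ) : ℚ) - (m : ℕ)) + 1 - rs r| : ℚ) : ℝ) * F (m', s, false, false) +
          ((1 / |8 * (((m' : ℕ) : ℚ) - (m : ℕ)) - 1 - rs r| : ℚ) : ℝ) * F (m', s, false, true)) := by
  have h1 : ∀ m' : Fin n, ∑ p : (Fin 3 × Fin n × Fin n) × Bool × Bool,
      (Kb U (m, s, mir, r) (m', p) : ℝ) * F (m', p) =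
      (if m' = m then U * F (m, s, mir, r) + 1 / 2 * F (m, s, mir, !r) else 0) +
      if mir = true then 0 else if m' = m then 0 else
        (((1 / |8 * (((m' : ℕ) : ℚ) - (m : ℕ)) + 1 - rs r| : ℚ) : ℝ) * F (m', s, false, false) +
          ((1 / |8 * (((m' : ℕ) : ℚ) - (m : ℕ)) - 1 - rs r| : ℚ) : ℝ) * F (m', s, false, true)) := by
    intro m'
    rw [Fintype.sum_prod_type, Finset.sum_eq_single s
      (fun s' _ hs => by simp [Kb, Ne.symm hs]) (fun h => absurd (mem_univ _) h),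
      Fintype.sum_prod_type]
    simp only [Fintype.sum_bool]
    by_cases hm : m' = m
    · subst hm
      cases mir <;> cases r <;> simp [Kb, add_comm]
    · have e1 : rs false = 1 := rfl
      have e2 : rs true = -1 := rfl
      cases mir
      · simp only [Kb, hm, Ne.symm hm, if_true, if_false, and_self, e1, e2, ← sub_eq_add_neg,
          reduceCtorEq, and_false, Rat.cast_zero, zero_mul, zero_add]
        ring
      · simp [Kb, hm, Ne.symm hm]
  rw [Fintype.sum_prod_type, Finset.sum_congr rfl fun m' _ => h1 m', Finset.sum_add_distrib,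
    Finset.sum_ite_eq' univ m, if_pos (mem_univ _)]
  cases mir <;> simp

/-- The field part of `pot`. -/
def finLinFld (d : XZ) (e : Dot d.n) : ℚ :=
  if e.2.2.1 = false ∧ (e.2.1.2.1 : ℕ) = e.2.1.2.2 ∧ (e.1 : ℕ) = e.2.1.2.1 then
    (if (e.2.1.1 : ℕ) = 0 then d.phi e.1 else if (e.2.1.1 : ℕ) = 2 then
      rs e.2.2.2 * d.ax e.1 / (2 * d.alc) else 0) else 0

lemma finLin_xi_sq (d : XZ) (m k i j : ℕ) (mir : Bool) :
    d.xi m k i j mir * d.xi m k i j mir = 2 * d.cc m k - 1 := by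
  unfold XZ.xi XZ.cc XZ.typ XZ.side rs
  split_ifs <;> norm_num

lemma finLin_yy_flip (d : XZ) (nn zz xx : Fin d.n → ℝ) (m : Fin d.n)
    (s : Fin 3 × Fin d.n × Fin d.n) (mir r : Bool) :
    yy d nn zz xx (m, s, mir, r) (m, s, mir, !r) =
      ((d.cc m s.1 : ℝ) - 1) * nn m + (d.cc m s.1 : ℝ) * zz m := by
  have h : (d.xi m s.1 s.2.1 s.2.2 mir : ℝ) * d.xi m s.1 s.2.1 s.2.2 mir = 2 * d.cc m s.1 - 1 := by
    exact_mod_cast finLin_xi_sq d m s.1 s.2.1 s.2.2 mir
  have e1 : ∀ b, uu d (m, s, mir, b) 1 = (d.xi m s.1 s.2.1 s.2.2 mir : ℝ) := fun _ => rfl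
  have e2 : ∀ b, uu d (m, s, mir, b) 2 = (rs b : ℝ) := fun _ => rfl
  simp only [yy, e1, e2, h]
  cases r <;> simp only [rs, Bool.not_true, Bool.not_false, Bool.false_eq_true, if_true, if_false] <;>
    push_cast <;> ring

lemma finLin_dot (d : XZ) (U : ℚ) (nn zz xx : Fin d.n → ℝ) (e : Dot d.n) :
    (d.dPot U e : ℝ) * d.dAmp e * yy d nn zz xx e e +
      ∑ e' : Dot d.n, (Kb U e e' : ℝ) * (d.dAmp e * d.dAmp e' *
        (if e.1 = e'.1 then 2 * yy d nn zz xx e e - yy d nn zz xx e e'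
         else (2 + ccr d e') * yy d nn zz xx e e)) =
      (finLinFld d e : ℝ) * d.dAmp e * yy d nn zz xx e e -
        (d.dAmp e : ℝ) ^ 2 * (((d.cc e.1 e.2.1.1 : ℝ) - 1) * nn e.1 +
          (d.cc e.1 e.2.1.1 : ℝ) * zz e.1) / 2 := by
  obtain ⟨m, s, mir, r⟩ := e
  rw [finLin_inner]
  simp only [if_true, finLin_yy_flip]
  generalize yy d nn zz xx (m, s, mir, r) (m, s, mir, r) = q
  have hp : d.dPot U (m, s, mir, r) = -(U + 1) * d.dAmp (m, s, mir, r) -
      (if mir = true then 0 else ∑ m' : Fin d.n, if m' = m then 0 else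
        d.amp m' s.1 s.2.1 s.2.2 * (2 + d.cc m' s.1) *
          (1 / |8 * (((m' : ℕ) : ℚ) - (m : ℕ)) + 1 - rs r| +
            1 / |8 * (((m' : ℕ) : ℚ) - (m : ℕ)) - 1 - rs r|)) + finLinFld d (m, s, mir, r) := by
    simp only [XZ.dPot, XZ.pot, XZ.dAmp, finLinFld, Finset.sum_range, Fin.ext_iff]
  have ha : d.dAmp (m, s, mir, !r) = d.dAmp (m, s, mir, r) := rfl
  rw [hp, ha]
  cases mir
  · simp only [Bool.false_eq_true, if_false]
    have h2 : ∑ m' : Fin d.n, (if m' = m then (0 : ℝ) else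
        (((1 / |8 * (((m' : ℕ) : ℚ) - (m : ℕ)) + 1 - rs r| : ℚ) : ℝ) *
          (d.dAmp (m, s, false, r) * d.dAmp (m', s, false, false) *
            (if m = m' then 2 * q - yy d nn zz xx (m, s, false, r) (m', s, false, false)
              else (2 + ccr d (m', s, false, false)) * q)) +
        ((1 / |8 * (((m' : ℕ) : ℚ) - (m : ℕ)) - 1 - rs r| : ℚ) : ℝ) *
          (d.dAmp (m, s, false, r) * d.dAmp (m', s, false, true) *
            (if m = m' then 2 * q - yy d nn zz xx (m, s, false, r) (m', s, false, true)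
              else (2 + ccr d (m', s, false, true)) * q)))) =
        ((∑ m' : Fin d.n, if m' = m then 0 else
          d.amp m' s.1 s.2.1 s.2.2 * (2 + d.cc m' s.1) *
            (1 / |8 * (((m' : ℕ) : ℚ) - (m : ℕ)) + 1 - rs r| +
              1 / |8 * (((m' : ℕ) : ℚ) - (m : ℕ)) - 1 - rs r|) : ℚ) : ℝ) *
          d.dAmp (m, s, false, r) * q := by
      rw [Rat.cast_sum, Finset.sum_mul, Finset.sum_mul]
      refine Finset.sum_congr rfl fun m' _ => ?_
      by_cases hm : m' = m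
      · simp [hm]
      · rw [if_neg hm, if_neg hm, if_neg (Ne.symm hm), if_neg (Ne.symm hm)]
        simp only [ccr, XZ.dAmp]
        push_cast
        ring
    rw [h2]
    simp only [Rat.cast_add, Rat.cast_sub, Rat.cast_mul, Rat.cast_neg, Rat.cast_one]
    ring
  · simp only [if_true]
    push_cast
    ring

lemma finLin_fld {d : XZ} (hv : d.Valid) (nn zz xx : Fin d.n → ℝ) (m : Fin d.n) :
    ∑ p : (Fin 3 × Fin d.n × Fin d.n) × Bool × Bool,
      (finLinFld d (m, p) : ℝ) * d.dAmp (m, p) * yy d nn zz xx (m, p) (m, p) =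
      (d.phi m : ℝ) * (nn m - zz m) + (d.ax m : ℝ) * xx m := by
  have hB : (d.B : ℚ) ≠ 0 := by
    have := hv.n_pos.trans hv.n_le
    exact_mod_cast (by omega : d.B ≠ 0)
  have hal : (d.alc : ℝ) ≠ 0 := by
    have : d.alc ≠ 0 := by unfold XZ.alc; positivity
    exact_mod_cast this
  have h1 : ∀ k : Fin 3, ∑ ij : Fin d.n × Fin d.n, ∑ b : Bool × Bool,
      (finLinFld d (m, (k, ij), b) : ℝ) * d.dAmp (m, (k, ij), b) *
        yy d nn zz xx (m, (k, ij), b) (m, (k, ij), b) =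
      ∑ r : Bool, (finLinFld d (m, (k, m, m), false, r) : ℝ) * d.dAmp (m, (k, m, m), false, r) *
        yy d nn zz xx (m, (k, m, m), false, r) (m, (k, m, m), false, r) := by
    intro k
    rw [Finset.sum_eq_single (m, m) _ (fun h => absurd (mem_univ _) h), Fintype.sum_prod_type,
      Fintype.sum_bool]
    · simp [finLinFld]
    · rintro ⟨i, j⟩ _ hij
      refine Finset.sum_eq_zero fun b _ => ?_
      have : finLinFld d (m, (k, i, j), b) = 0 := by
        rw [finLinFld, if_neg]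
        rintro ⟨-, h2, h3⟩
        exact hij (Prod.ext (Fin.ext h3).symm ((Fin.ext h3).trans (Fin.ext h2)).symm)
      rw [this]; simp
  rw [Fintype.sum_prod_type, Fintype.sum_prod_type, Finset.sum_congr rfl fun k _ => h1 k,
    Fin.sum_univ_three]
  simp [finLinFld, XZ.dAmp, XZ.amp, yy, uu, XZ.dVec, XZ.xi, XZ.typ, XZ.side, rs]
  field_simp
  ring

theorem lin_identity {d : XZ} (hv : d.Valid) (U : ℚ) (nn zz xx : Fin d.n → ℝ) :
    ∑ e : Dot d.n, (d.dPot U e : ℝ) * d.dAmp e * yy d nn zz xx e e +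
      ∑ e : Dot d.n, ∑ e' : Dot d.n, (Kb U e e' : ℝ) * d.dAmp e * d.dAmp e' *
        (if e.1 = e'.1 then yy d nn zz xx e e + yy d nn zz xx e' e' - yy d nn zz xx e e'
         else ((2 + ccr d e) * yy d nn zz xx e' e' + (2 + ccr d e') * yy d nn zz xx e e) / 2) =
      ∑ m : Fin d.n, ((nu d m : ℝ) * nn m + (d.az m : ℝ) * zz m + (d.ax m : ℝ) * xx m) := by
  obtain ⟨B, hB⟩ : ∃ B : Dot d.n → Dot d.n → ℝ, B = fun e e' =>
      (Kb U e e' : ℝ) * (d.dAmp e * d.dAmp e' * (if e.1 = e'.1 then yy d nn zz xx e e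
        else (2 + ccr d e') * yy d nn zz xx e e / 2)) := ⟨_, rfl⟩
  obtain ⟨A, hA⟩ : ∃ A : Dot d.n → Dot d.n → ℝ, A = fun e e' =>
      (Kb U e e' : ℝ) * (d.dAmp e * d.dAmp e' * (if e.1 = e'.1 then -yy d nn zz xx e e'
        else 0)) := ⟨_, rfl⟩
  have h1 : ∀ e e' : Dot d.n, (Kb U e e' : ℝ) * d.dAmp e * d.dAmp e' *
      (if e.1 = e'.1 then yy d nn zz xx e e + yy d nn zz xx e' e' - yy d nn zz xx e e'
        else ((2 + ccr d e) * yy d nn zz xx e' e' + (2 + ccr d e') * yy d nn zz xx e e) / 2) =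
      A e e' + B e e' + B e' e := by
    intro e e'
    simp only [hA, hB, finLin_Kb_symm U e' e, eq_comm (a := e'.1)]
    split_ifs <;> ring
  have h2 : ∀ e e' : Dot d.n, (Kb U e e' : ℝ) * (d.dAmp e * d.dAmp e' *
      (if e.1 = e'.1 then 2 * yy d nn zz xx e e - yy d nn zz xx e e'
        else (2 + ccr d e') * yy d nn zz xx e e)) = A e e' + B e e' + B e e' := by
    intro e e'
    simp only [hA, hB]
    split_ifs <;> ring
  have h3 : ∑ e, ∑ e', (A e e' + B e e' + B e' e) = ∑ e, ∑ e', (A e e' + B e e' + B e e') := by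
    simp only [Finset.sum_add_distrib]
    rw [Finset.sum_comm (f := fun e e' => B e' e)]
  simp only [h1]
  rw [h3, ← Finset.sum_add_distrib]
  simp only [← h2, finLin_dot]
  rw [Fintype.sum_prod_type]
  refine Finset.sum_congr rfl fun m _ => ?_
  rw [Finset.sum_sub_distrib, finLin_fld hv]
  have h4 : ∑ p : (Fin 3 × Fin d.n × Fin d.n) × Bool × Bool, (d.dAmp (m, p) : ℝ) ^ 2 *
      (((d.cc m p.1.1 : ℝ) - 1) * nn m + (d.cc m p.1.1 : ℝ) * zz m) / 2 =
      -((∑ k ∈ Finset.range 3, ∑ i ∈ Finset.range d.n, ∑ j ∈ Finset.range d.n,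
        2 * d.amp m k i j ^ 2 * (1 - d.cc m k) : ℚ) : ℝ) * nn m +
      ((∑ k ∈ Finset.range 3, ∑ i ∈ Finset.range d.n, ∑ j ∈ Finset.range d.n,
        2 * d.amp m k i j ^ 2 * d.cc m k : ℚ) : ℝ) * zz m := by
    simp only [Finset.sum_range, Rat.cast_sum, Fintype.sum_prod_type, Fintype.sum_bool, XZ.dAmp,
      Finset.sum_mul, ← Finset.sum_neg_distrib, ← Finset.sum_add_distrib]
    refine Finset.sum_congr rfl fun k _ => Finset.sum_congr rfl fun i _ =>
      Finset.sum_congr rfl fun j _ => ?_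
    push_cast
    ring
  rw [h4]
  have h5 : d.az m = -d.phi m - ∑ k ∈ Finset.range 3, ∑ i ∈ Finset.range d.n,
      ∑ j ∈ Finset.range d.n, 2 * d.amp m k i j ^ 2 * d.cc m k := by
    rw [XZ.phi]; ring
  rw [h5, nu]
  simp only [Rat.cast_add, Rat.cast_sub, Rat.cast_neg]
  ring

end Crest.Agent.R338.FinM
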