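import Crest.Agent.R338.FinDefs

/-! Row 338, module FIN: the interaction of different molecules and size bounds (pure scalar
statements). -/

set_option autoImplicit false
set_option linter.unusedSectionVars false
set_option linter.unusedVariables false

open Matrix Finset

namespace Crest.Agent.R338.FinM

lemma Kb_symm {n : ℕ} (U : ℚ) (e e' : Dot n) : Kb U e e' = Kb U e' e := by
  obtain ⟨m, s, mir, r⟩ := e
  obtain ⟨m', s', mir', r'⟩ := e'
  have h : |8 * (((m' : ℕ) : ℚ) - (m : ℕ)) + rs r' - rs r| =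
      |8 * (((m : ℕ) : ℚ) - (m' : ℕ)) + rs r - rs r'| := by
    rw [← abs_neg]; congr 1; ring
  simp only [Kb, h, eq_comm (a := s'), eq_comm (a := m'), eq_comm (a := mir') (b := mir),
    eq_comm (a := r') (b := r), and_comm (a := mir' = false)]

lemma Kb_nonneg {n : ℕ} {U : ℚ} (hU : 1 / 2 ≤ U) (e e' : Dot n) : 0 ≤ Kb U e e' := by
  unfold Kb
  split_ifs <;> positivity

lemma Kb_slot {n : ℕ} {U : ℚ} {e e' : Dot n} (h : Kb U e e' ≠ 0) : e.2.1 = e'.2.1 := by
  by_contra hne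
  exact h (by simp only [Kb, hne, if_false])

lemma fq_rs_sq (r : Bool) : rs r ^ 2 = 1 := by cases r <;> simp [rs]

lemma fq_side_sq (d : XZ) (k i j : ℕ) : d.side k i j ^ 2 = 1 := by
  unfold XZ.side; split_ifs <;> norm_num

lemma fq_typ (d : XZ) (m k : ℕ) : d.typ m k = 0 ∨ d.typ m k = 1 := by
  unfold XZ.typ; split_ifs <;> simp

lemma fq_uu_one (d : XZ) (e : Dot d.n) : uu d e 1 =
    ((rs e.2.2.1 * d.typ e.1 e.2.1.1 * d.side e.2.1.1 e.2.1.2.1 e.2.1.2.2 : ℚ) : ℝ) := rfl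

lemma fq_uu_two (d : XZ) (e : Dot d.n) : uu d e 2 = ((rs e.2.2.2 : ℚ) : ℝ) := rfl

lemma fq_ccr (d : XZ) (e : Dot d.n) : ccr d e = (((d.typ e.1 e.2.1.1 + 1) / 2 : ℚ) : ℝ) := rfl

lemma uu_zero (d : XZ) (e : Dot d.n) : uu d e 0 = 0 := rfl

lemma uu_two_sq (d : XZ) (e : Dot d.n) : uu d e 2 ^ 2 = 1 := by
  rw [fq_uu_two]
  exact_mod_cast fq_rs_sq _

lemma uu_one_sq (d : XZ) (e : Dot d.n) : uu d e 1 ^ 2 = 2 * ccr d e - 1 := by
  rw [fq_uu_one, fq_ccr]
  have h : (rs e.2.2.1 * d.typ e.1 e.2.1.1 * d.side e.2.1.1 e.2.1.2.1 e.2.1.2.2) ^ 2 =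
      2 * ((d.typ e.1 e.2.1.1 + 1) / 2) - 1 := by
    rw [mul_pow, mul_pow, fq_rs_sq, fq_side_sq]
    rcases fq_typ d e.1 e.2.1.1 with h | h <;> rw [h] <;> norm_num
  exact_mod_cast h

lemma ccr_bd (d : XZ) (e : Dot d.n) : 1 / 2 ≤ ccr d e ∧ ccr d e ≤ 1 := by
  rw [fq_ccr]
  rcases fq_typ d e.1 e.2.1.1 with h | h <;> rw [h] <;> norm_num

lemma fq_two {n : ℕ} {i j : Fin n} (hij : i ≠ j) (a : Fin n → ℝ) (ha : ∀ m, m ≠ i → m ≠ j → a m = 0)
    (H : Fin n → Fin n → ℝ) (hH : H j i = H i j) :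
    ∑ m, ∑ m', (if m = m' then 0 else a m * a m' * H m m') = 2 * (a i * a j * H i j) := by
  rw [Fintype.sum_eq_add i j hij (fun c hc => by simp [ha c hc.1 hc.2]),
    Fintype.sum_eq_add i j hij (fun c hc => by simp [ha c hc.1 hc.2]),
    Fintype.sum_eq_add i j hij (fun c hc => by simp [ha c hc.1 hc.2])]
  simp only [if_true, hij, hij.symm, if_false, hH]
  ring

lemma fq_one {n : ℕ} (i : Fin n) (a : Fin n → ℝ) (ha : ∀ m, m ≠ i → a m = 0)
    (H : Fin n → Fin n → ℝ) :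
    ∑ m, ∑ m', (if m = m' then 0 else a m * a m' * H m m') = 0 := by
  refine Finset.sum_eq_zero fun m _ => Finset.sum_eq_zero fun m' _ => ?_
  split_ifs with h
  · rfl
  · by_cases hm : m = i
    · rw [ha m' (fun h' => h (hm.trans h'.symm))]; ring
    · rw [ha m hm]; ring

lemma fq_kk_symm (i j : ℕ) (r r' : Bool) : kk j i r' r = kk i j r r' := by
  unfold kk
  rw [← abs_neg]; congr 2; ring

/-- For `e.1 ≠ e'.1`, `Kb ≠ 0` forces the same slot `(k,i,j)` and `mir = mir' = false`;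
`amp m k i j ≠ 0` forces `m = i` or `m = j`, so `i ≠ j` and `(e.1, e'.1) = (i,j)` or `(j,i)`;
`amp j k i j = 1`; the two orders give the same contribution. -/
theorem quad_identity (d : XZ) (U : ℚ) (g : Dot d.n → Dot d.n → ℝ) (hg : ∀ e e', g e e' = g e' e) :
    ∑ e : Dot d.n, ∑ e' : Dot d.n, (Kb U e e' : ℝ) * d.dAmp e * d.dAmp e' *
      (if e.1 = e'.1 then 0 else g e e' / 2) = quad d g := by
  obtain ⟨H, hH⟩ : ∃ H : Fin 3 × Fin d.n × Fin d.n → Fin d.n → Fin d.n → ℝ, 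
      H = fun s (m m' : Fin d.n) =>
    ∑ r : Bool, ∑ r' : Bool, (kk m m' r r' : ℝ) * (g (m, s, false, r) (m', s, false, r') / 2) :=
    ⟨_, rfl⟩
  have h1 : ∀ (m : Fin d.n) (s : Fin 3 × Fin d.n × Fin d.n),
      ∑ p : Bool × Bool, ∑ e' : Dot d.n, (Kb U (m, s, p) e' : ℝ) * d.dAmp (m, s, p) * d.dAmp e' *
        (if m = e'.1 then 0 else g (m, s, p) e' / 2) =
      ∑ m' : Fin d.n, if m = m' then 0 else
        (d.amp m s.1 s.2.1 s.2.2 : ℝ) * (d.amp m' s.1 s.2.1 s.2.2 : ℝ) * H s m m' := by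
    intro m s
    rw [Finset.sum_comm, Fintype.sum_prod_type]
    refine Finset.sum_congr rfl fun m' _ => ?_
    by_cases hm : m = m'
    · simp [hm]
    · rw [Fintype.sum_prod_type, Finset.sum_eq_single s]
      · simp only [hH, Fintype.sum_prod_type, Fintype.sum_bool, Kb, hm, if_true, if_false, kk,
          XZ.dAmp, Bool.true_eq_false, false_and, and_false, and_self, Rat.cast_zero, zero_mul]
        ring
      · intro s' _ hs'
        simp [Kb, hs'.symm]
      · simp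
  rw [Fintype.sum_prod_type]
  simp only [Fintype.sum_prod_type (α₁ := Fin 3 × Fin d.n × Fin d.n) (α₂ := Bool × Bool), h1]
  rw [Finset.sum_comm, quad, Fintype.sum_prod_type]
  refine Finset.sum_congr rfl fun k _ => ?_
  rw [Fintype.sum_prod_type]
  refine Finset.sum_congr rfl fun i _ => Finset.sum_congr rfl fun j _ => ?_
  by_cases hij : i = j
  · rw [if_pos hij]
    refine fq_one i (fun m => (d.amp m k i j : ℝ)) (fun m hm => ?_) _
    have : (m : ℕ) ≠ j := fun h => hm (Fin.ext (hij ▸ h))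
    simp [XZ.amp, hij, this]
  · have hij' : (i : ℕ) ≠ j := fun h => hij (Fin.ext h)
    have ha : ∀ m : Fin d.n, m ≠ i → m ≠ j → (d.amp m k i j : ℝ) = 0 := by
      intro m hi hj
      have h2 : (m : ℕ) ≠ i := fun h => hi (Fin.ext h)
      have h3 : (m : ℕ) ≠ j := fun h => hj (Fin.ext h)
      simp [XZ.amp, hij', h2, h3]
    have hs : H (k, i, j) j i = H (k, i, j) i j := by
      simp only [hH]
      rw [Finset.sum_comm]
      refine Finset.sum_congr rfl fun r _ => Finset.sum_congr rfl fun r' _ => ?_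
      rw [fq_kk_symm, hg]
    rw [if_neg hij, fq_two hij (fun m => (d.amp m k i j : ℝ)) ha (H (k, i, j)) hs]
    have : d.amp j k i j = 1 := by simp [XZ.amp, hij']
    simp only [this, hH, Fintype.sum_bool, Rat.cast_one]
    ring

lemma fq_kk {i j : ℕ} (h : i ≠ j) : ∃ s : ℚ, 1 ≤ s ∧ |(i : ℚ) - j| = s ∧
    kk i j false false = 1 / (8 * s) ∧ kk i j true true = 1 / (8 * s) ∧
    ((i < j ∧ kk i j false true = 1 / (8 * s - 2) ∧ kk i j true false = 1 / (8 * s + 2)) ∨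
      (j < i ∧ kk i j false true = 1 / (8 * s + 2) ∧ kk i j true false = 1 / (8 * s - 2))) := by
  rcases lt_or_gt_of_ne h with h | h
  · have h1 : (i : ℚ) + 1 ≤ j := by exact_mod_cast h
    refine ⟨(j : ℚ) - i, by linarith, by rw [abs_of_neg (by linarith)]; ring, ?_, ?_,
      Or.inl ⟨h, ?_, ?_⟩⟩ <;>
    · simp only [kk, rs, Bool.false_eq_true, if_true, if_false]
      rw [abs_of_pos (by linarith)]; congr 1; ring
  · have h1 : (j : ℚ) + 1 ≤ i := by exact_mod_cast h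
    refine ⟨(i : ℚ) - j, by linarith, by rw [abs_of_pos (by linarith)], ?_, ?_,
      Or.inr ⟨h, ?_, ?_⟩⟩ <;>
    · simp only [kk, rs, Bool.false_eq_true, if_true, if_false]
      rw [abs_of_neg (by linarith)]; congr 1; ring

/-- Evaluation of the three slots of a pair `i ≠ j`; put `D = 8 |i - j| ≥ 8`.  `k = 0`:
`ccr - 1 = -1/2`, `uu 1 = 0` on both molecules and `∑ kk = 2/D + 1/(D+2) + 1/(D-2)`.  `k = 1`: if
`zx i j = 0` the amplitude vanishes, otherwise `i < nd ≤ j`, and `∑ kk * rs r' = -4/(D²-4)`,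
`side * |zx| = zx`.  `k = 2`: `ccr = 1`, `uu 1 = 1`, `∑ kk * rs r * rs r' = -8/(D (D²-4))`.
The diagonal terms on the right vanish (`zz_diag`, `xx_diag`, `zx_supp`). -/
theorem quad_eval {d : XZ} (hv : d.Valid) (gzz gzx gxz gxx : Fin d.n → Fin d.n → ℝ) :
    quad d (fun e e' => (ccr d e - 1) * (ccr d e' - 1) * gzz e.1 e'.1 +
        (ccr d e - 1) * (uu d e' 1 * uu d e' 2) * gzx e.1 e'.1 +
        (uu d e 1 * uu d e 2) * (ccr d e' - 1) * gxz e.1 e'.1 +
        (uu d e 1 * uu d e 2) * (uu d e' 1 * uu d e' 2) * gxx e.1 e'.1) =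
      ∑ i : Fin d.n, ∑ j : Fin d.n, ((d.zz i j : ℝ) * gzz i j - (d.xx i j : ℝ) * gxx i j +
        (d.zx i j : ℝ) * gzx i j) := by
  rw [quad, Finset.sum_comm]
  refine Finset.sum_congr rfl fun i _ => ?_
  rw [Finset.sum_comm]
  refine Finset.sum_congr rfl fun j _ => ?_
  by_cases hij : i = j
  · subst hij
    have : d.zx i i = 0 := by
      by_contra h
      have := hv.zx_supp _ _ h
      omega
    simp [hv.zz_diag, hv.xx_diag, this]
  · have hij' : (i : ℕ) ≠ j := fun h => hij (Fin.ext h)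
    obtain ⟨s, hs, habs, k1, k2, k3⟩ := fq_kk hij'
    have hsR : (1 : ℝ) ≤ s := by exact_mod_cast hs
    have n1 : (8 * (s : ℝ) - 2) ≠ 0 := by linarith
    have n2 : (8 * (s : ℝ) + 2) ≠ 0 := by linarith
    have n3 : (s : ℝ) ≠ 0 := by linarith
    have a0 : d.amp i 0 i j = d.zz i j * 4 / (2 / (8 * s) + 1 / (8 * s + 2) + 1 / (8 * s - 2)) := by
      simp only [XZ.amp, hij', if_false, if_true, habs]
    have a1 : d.amp i 1 i j = |d.zx i j| * ((8 * s) ^ 2 - 4) / 2 := by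
      simp only [XZ.amp, hij', if_false, if_true, habs, one_ne_zero]
    have a2 : d.amp i 2 i j = d.xx i j * (8 * s) * ((8 * s) ^ 2 - 4) / 8 := by
      simp only [XZ.amp, hij', if_false, if_true, habs, OfNat.ofNat_ne_zero, OfNat.ofNat_ne_one]
    have t0 : ∀ m, d.typ m 0 = 0 := fun m => by simp [XZ.typ]
    have t2 : ∀ m, d.typ m 2 = 1 := fun m => by simp [XZ.typ]
    have s2 : d.side 2 i j = 1 := by simp [XZ.side]
    have r0 : rs false = 1 := rfl
    have r1 : rs true = -1 := rfl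
    have hsum : (0 : ℝ) < 2 / (8 * s) + 1 / (8 * s + 2) + 1 / (8 * s - 2) := by
      have : (0 : ℝ) < 8 * s - 2 := by linarith
      positivity
    rw [Fin.sum_univ_three]
    simp only [hij, if_false, Fintype.sum_bool, fq_uu_one, fq_uu_two, fq_ccr, Fin.val_zero,
      Fin.val_one, Fin.val_two, a0, a1, a2, t0, t2, s2, r0, r1, k1, k2]
    have e0 : ∀ x y : ℝ, x + y = 1 / (8 * s + 2) + 1 / (8 * s - 2) →
        (d.zz i j : ℝ) * 4 / (2 / (8 * s) + 1 / (8 * s + 2) + 1 / (8 * s - 2)) *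
          ((2 / (8 * s) + (x + y)) / 4) = d.zz i j := by
      intro x y hxy
      rw [hxy, ← add_assoc]
      obtain ⟨S, hS⟩ : ∃ S : ℝ, S = 2 / (8 * s) + 1 / (8 * s + 2) + 1 / (8 * s - 2) := ⟨_, rfl⟩
      rw [← hS] at hsum ⊢
      field_simp
    have e2 : ∀ x y : ℝ, x + y = 1 / (8 * s + 2) + 1 / (8 * s - 2) →
        (d.xx i j : ℝ) * (8 * s) * ((8 * s) ^ 2 - 4) / 8 * (2 / (8 * s) - (x + y)) = -d.xx i j := by
      intro x y hxy
      rw [hxy]
      field_simp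
      ring
    have hxy : ((kk i j true false : ℚ) : ℝ) + (kk i j false true : ℚ) =
        1 / (8 * s + 2) + 1 / (8 * s - 2) := by
      rcases k3 with ⟨-, k3, k4⟩ | ⟨-, k3, k4⟩ <;> rw [k3, k4] <;> push_cast <;> ring
    have f0 := e0 _ _ hxy
    have f2 := e2 _ _ hxy
    by_cases hz : d.zx i j = 0
    · simp only [hz, abs_zero, zero_mul, zero_div, Rat.cast_zero]
      push_cast
      linear_combination gzz i j * f0 + gxx i j * f2
    · obtain ⟨z1, z2⟩ := hv.zx_supp _ _ hz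
      have t1 : d.typ i 1 = 0 := by simp [XZ.typ, z1]
      have t1' : d.typ j 1 = 1 := by simp [XZ.typ, not_lt.2 z2]
      have hside : |d.zx i j| * d.side 1 i j = d.zx i j := by
        unfold XZ.side
        by_cases hn : d.zx i j < 0
        · simp [hn, abs_of_neg hn]
        · simp [hn, abs_of_nonneg (not_lt.1 hn)]
      have hsideR : |(d.zx i j : ℝ)| * (d.side 1 i j : ℝ) = d.zx i j := by exact_mod_cast hside
      have hd : ((8 * (s : ℝ)) ^ 2 - 4) / 4 *
          (((kk i j false true : ℚ) : ℝ) - (kk i j true false : ℚ)) = 1 := by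
        rcases k3 with ⟨-, k3, k4⟩ | ⟨hlt, -, -⟩
        · rw [k3, k4]; push_cast; field_simp; ring
        · omega
      simp only [t1, t1']
      push_cast
      linear_combination gzz i j * f0 + gxx i j * f2 + gzx i j * hsideR +
        gzx i j * |(d.zx i j : ℝ)| * (d.side 1 i j : ℝ) * hd

/-- Off-diagonal amplitudes: `1`, `≤ 2 B D ≤ 16 B²`, `≤ 32 B³`, `≤ 64 B⁴` (`8 ≤ D ≤ 8 B`). -/
lemma amp_off {d : XZ} (hv : d.Valid) {m k i j : ℕ} (hi : i < d.n) (hj : j < d.n) (hij : i ≠ j) :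
    0 ≤ d.amp m k i j ∧ d.amp m k i j ≤ 64 * (d.B : ℚ) ^ 4 := by
  obtain ⟨s, hs, habs, -⟩ := fq_kk hij
  have hB : (1 : ℚ) ≤ d.B := by exact_mod_cast hv.n_pos.trans hv.n_le
  have hsB : s ≤ d.B := by
    have h1 : (i : ℚ) ≤ d.B := by exact_mod_cast hi.le.trans hv.n_le
    have h2 : (j : ℚ) ≤ d.B := by exact_mod_cast hj.le.trans hv.n_le
    have h3 : (0 : ℚ) ≤ i := Nat.cast_nonneg _
    have h4 : (0 : ℚ) ≤ j := Nat.cast_nonneg _
    rw [← habs, abs_le]
    constructor <;> linarith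
  have hB4 : (1 : ℚ) ≤ (d.B : ℚ) ^ 4 := one_le_pow₀ hB
  have p1 : 0 < 8 * s - 2 := by linarith
  have p2 : 0 ≤ (8 * s) ^ 2 - 4 := by nlinarith
  have hB2 : (d.B : ℚ) ^ 2 ≤ (d.B : ℚ) ^ 4 := pow_le_pow_right₀ hB (by norm_num)
  have hB3 : (d.B : ℚ) ^ 3 ≤ (d.B : ℚ) ^ 4 := pow_le_pow_right₀ hB (by norm_num)
  simp only [XZ.amp, hij, if_false, habs]
  split_ifs
  · constructor <;> linarith
  · obtain ⟨z1, z2⟩ := hv.zz_bd i j
    refine ⟨by positivity, ?_⟩
    calc d.zz i j * 4 / (2 / (8 * s) + 1 / (8 * s + 2) + 1 / (8 * s - 2))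
        ≤ d.B * 4 / (2 / (8 * s)) := by
          have : 0 ≤ 1 / (8 * s + 2) + 1 / (8 * s - 2) := by positivity
          gcongr
          linarith
      _ = 16 * (d.B * s) := by field_simp; ring
      _ ≤ 16 * (d.B * d.B) := by gcongr
      _ ≤ _ := by nlinarith
  · refine ⟨by positivity, ?_⟩
    calc |d.zx i j| * ((8 * s) ^ 2 - 4) / 2 ≤ d.B * (8 * d.B) ^ 2 / 2 := by
          have h1 := hv.zx_bd i j
          have h2 : (8 * s) ^ 2 ≤ (8 * (d.B : ℚ)) ^ 2 := by gcongr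
          gcongr
          linarith
      _ = 32 * (d.B : ℚ) ^ 3 := by ring
      _ ≤ _ := by nlinarith
  · obtain ⟨z1, z2⟩ := hv.xx_bd i j
    refine ⟨by positivity, ?_⟩
    calc d.xx i j * (8 * s) * ((8 * s) ^ 2 - 4) / 8 ≤ d.B * (8 * d.B) * (8 * d.B) ^ 2 / 8 := by
          have h2 : (8 * s) ^ 2 ≤ (8 * (d.B : ℚ)) ^ 2 := by gcongr
          gcongr
          linarith
      _ = _ := by ring
  · constructor <;> linarith

lemma dAmp_nonneg {d : XZ} (hv : d.Valid) (e : Dot d.n) : 0 ≤ d.dAmp e := by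
  unfold XZ.dAmp
  by_cases h : (e.2.1.2.1 : ℕ) = e.2.1.2.2
  · simp only [XZ.amp, h, if_true, XZ.alc]
    split_ifs <;> positivity
  · exact (amp_off hv e.2.1.2.1.2 e.2.1.2.2.2 h).1

lemma kk_bd {i j : ℕ} (h : i ≠ j) (r r' : Bool) : 0 ≤ kk i j r r' ∧ kk i j r r' ≤ 1 := by
  refine ⟨by unfold kk; positivity, ?_⟩
  obtain ⟨s, hs, -, k1, k2, k3⟩ := fq_kk h
  have b1 : 1 / (8 * s) ≤ 1 := by rw [div_le_one (by linarith)]; linarith
  have b2 : 1 / (8 * s - 2) ≤ 1 := by rw [div_le_one (by linarith)]; linarith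
  have b3 : 1 / (8 * s + 2) ≤ 1 := by rw [div_le_one (by linarith)]; linarith
  rcases k3 with ⟨-, k3, k4⟩ | ⟨-, k3, k4⟩ <;> cases r <;> cases r' <;> linarith

lemma quad_bd {d : XZ} (hv : d.Valid) {g : Dot d.n → Dot d.n → ℝ} {G : ℝ}
    (hg : ∀ e e', |g e e'| ≤ G) : |quad d g| ≤ 768 * (d.B : ℝ) ^ 6 * G := by
  have hG : 0 ≤ G := (abs_nonneg _).trans (hg (⟨0, hv.n_pos⟩, (0, ⟨0, hv.n_pos⟩, ⟨0, hv.n_pos⟩), false,
    false) (⟨0, hv.n_pos⟩, (0, ⟨0, hv.n_pos⟩, ⟨0, hv.n_pos⟩), false, false))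
  have hn : (d.n : ℝ) ≤ d.B := by exact_mod_cast hv.n_le
  have h1 : ∀ (k : Fin 3) (i j : Fin d.n), |if i = j then (0 : ℝ) else
      (d.amp i k i j : ℝ) * ∑ r : Bool, ∑ r' : Bool, (kk i j r r' : ℝ) *
        g (i, (k, i, j), false, r) (j, (k, i, j), false, r')| ≤ 64 * (d.B : ℝ) ^ 4 * (4 * G) := by
    intro k i j
    split_ifs with hij
    · rw [abs_zero]; positivity
    · have hij' : (i : ℕ) ≠ j := fun h => hij (Fin.ext h)
      obtain ⟨a1, a2⟩ := amp_off hv (m := i) (k := k) i.2 j.2 hij'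
      have a1' : (0 : ℝ) ≤ d.amp i k i j := by exact_mod_cast a1
      have a2' : (d.amp i k i j : ℝ) ≤ 64 * (d.B : ℝ) ^ 4 := by exact_mod_cast a2
      rw [abs_mul, abs_of_nonneg a1']
      refine mul_le_mul a2' ?_ (abs_nonneg _) (by positivity)
      have h2 : ∀ r r' : Bool, |(kk i j r r' : ℝ) *
          g (i, (k, i, j), false, r) (j, (k, i, j), false, r')| ≤ G := by
        intro r r'
        obtain ⟨b1, b2⟩ := kk_bd hij' r r'
        have b1' : (0 : ℝ) ≤ kk i j r r' := by exact_mod_cast b1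
        have b2' : (kk i j r r' : ℝ) ≤ 1 := by exact_mod_cast b2
        rw [abs_mul, abs_of_nonneg b1']
        exact (mul_le_of_le_one_left (abs_nonneg _) b2').trans (hg _ _)
      simp only [Fintype.sum_bool]
      have c1 := abs_le.1 (h2 true true)
      have c2 := abs_le.1 (h2 true false)
      have c3 := abs_le.1 (h2 false true)
      have c4 := abs_le.1 (h2 false false)
      rw [abs_le]
      constructor <;> linarith [c1.1, c1.2, c2.1, c2.2, c3.1, c3.2, c4.1, c4.2]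
  calc |quad d g| ≤ ∑ _k : Fin 3, ∑ _i : Fin d.n, ∑ _j : Fin d.n, 64 * (d.B : ℝ) ^ 4 * (4 * G) := by
        refine (Finset.abs_sum_le_sum_abs _ _).trans (Finset.sum_le_sum fun k _ => ?_)
        refine (Finset.abs_sum_le_sum_abs _ _).trans (Finset.sum_le_sum fun i _ => ?_)
        exact (Finset.abs_sum_le_sum_abs _ _).trans (Finset.sum_le_sum fun j _ => h1 k i j)
    _ = 768 * ((d.n : ℝ) * d.n) * (d.B : ℝ) ^ 4 * G := by
        simp only [Finset.sum_const, Finset.card_univ, Fintype.card_fin, nsmul_eq_mul]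
        push_cast
        ring
    _ ≤ 768 * ((d.B : ℝ) * d.B) * (d.B : ℝ) ^ 4 * G := by gcongr
    _ = _ := by ring

/-- `nu d m = -az m - ∑ 2 amp² typ`; the diagonal slots contribute only `2 alc²` (slot
`(2,m,m)`; `typ m 0 = 0`), the at most `3 n²` others at most `2 (64 B⁴)²` each. -/
lemma nu_bd {d : XZ} (hv : d.Valid) {m : ℕ} (hm : m < d.n) :
    |nu d m + 2 * d.alc ^ 2| ≤ 25000 * (d.B : ℚ) ^ 10 := by
  have hB : (1 : ℚ) ≤ d.B := by exact_mod_cast hv.n_pos.trans hv.n_le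
  have hn : (d.n : ℚ) ≤ d.B := by exact_mod_cast hv.n_le
  obtain ⟨T, hT⟩ : ∃ T : ℕ → ℕ → ℕ → ℚ, T = fun k i j =>
    if i = j then 0 else 2 * d.amp m k i j ^ 2 * d.typ m k := ⟨_, rfl⟩
  have h1 : ∀ k i j, 2 * d.amp m k i j ^ 2 * (1 - d.cc m k) - 2 * d.amp m k i j ^ 2 * d.cc m k =
      -T k i j - (if k = 2 then if i = m then if j = m then 2 * d.alc ^ 2 else 0 else 0 else 0) := by
    intro k i j
    simp only [hT, XZ.cc]
    by_cases hij : i = j
    · subst hij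
      by_cases hm' : i = m
      · subst hm'
        by_cases h0 : k = 0
        · simp [XZ.amp, XZ.typ, h0]; norm_num
        · by_cases h2 : k = 2
          · simp [XZ.amp, XZ.typ, h2]
          · simp [XZ.amp, h0, h2]
      · simp [XZ.amp, hm', Ne.symm hm']
    · have : (if k = 2 then if i = m then if j = m then 2 * d.alc ^ 2 else 0 else 0 else 0) = 0 := by
        split_ifs with h1 h2 h3
        · exact absurd (h2.trans h3.symm) hij
        all_goals rfl
      rw [this, if_neg hij]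
      ring
  have h2 : nu d m + 2 * d.alc ^ 2 = -d.az m - ∑ k ∈ Finset.range 3, ∑ i ∈ Finset.range d.n,
      ∑ j ∈ Finset.range d.n, T k i j := by
    have h3 : ∑ k ∈ Finset.range 3, ∑ i ∈ Finset.range d.n, ∑ j ∈ Finset.range d.n,
        (if k = 2 then if i = m then if j = m then 2 * d.alc ^ 2 else 0 else 0 else 0) =
        2 * d.alc ^ 2 := by
      simp [hm]
    have h4 : ∑ k ∈ Finset.range 3, ∑ i ∈ Finset.range d.n, ∑ j ∈ Finset.range d.n,
        (2 * d.amp m k i j ^ 2 * (1 - d.cc m k) - 2 * d.amp m k i j ^ 2 * d.cc m k) =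
        -(∑ k ∈ Finset.range 3, ∑ i ∈ Finset.range d.n, ∑ j ∈ Finset.range d.n, T k i j) -
          2 * d.alc ^ 2 := by
      rw [← h3]
      simp only [h1, Finset.sum_sub_distrib, Finset.sum_neg_distrib]
    simp only [Finset.sum_sub_distrib] at h4
    unfold nu XZ.phi
    linarith
  have h3 : ∀ k, ∀ i ∈ Finset.range d.n, ∀ j ∈ Finset.range d.n,
      0 ≤ T k i j ∧ T k i j ≤ 8192 * (d.B : ℚ) ^ 8 := by
    intro k i hi j hj
    simp only [hT]
    split_ifs with hij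
    · exact ⟨le_rfl, by positivity⟩
    · obtain ⟨a1, a2⟩ := amp_off hv (m := m) (k := k) (Finset.mem_range.1 hi) (Finset.mem_range.1 hj) hij
      have a3 : d.amp m k i j ^ 2 ≤ (64 * (d.B : ℚ) ^ 4) ^ 2 := by gcongr
      rcases fq_typ d m k with h | h <;> rw [h]
      · exact ⟨by simp, by rw [mul_zero]; positivity⟩
      · exact ⟨by positivity, by nlinarith⟩
  have h4 : 0 ≤ ∑ k ∈ Finset.range 3, ∑ i ∈ Finset.range d.n, ∑ j ∈ Finset.range d.n, T k i j :=
    Finset.sum_nonneg fun k _ => Finset.sum_nonneg fun i hi => Finset.sum_nonneg fun j hj =>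
      (h3 k i hi j hj).1
  have h5 : ∑ k ∈ Finset.range 3, ∑ i ∈ Finset.range d.n, ∑ j ∈ Finset.range d.n, T k i j ≤
      24576 * (d.B : ℚ) ^ 10 := by
    calc ∑ k ∈ Finset.range 3, ∑ i ∈ Finset.range d.n, ∑ j ∈ Finset.range d.n, T k i j
        ≤ ∑ k ∈ Finset.range 3, ∑ i ∈ Finset.range d.n, ∑ j ∈ Finset.range d.n,
          8192 * (d.B : ℚ) ^ 8 :=
          Finset.sum_le_sum fun k _ => Finset.sum_le_sum fun i hi => Finset.sum_le_sum fun j hj =>
            (h3 k i hi j hj).2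
      _ = 24576 * ((d.n : ℚ) * d.n) * (d.B : ℚ) ^ 8 := by
          simp only [Finset.sum_const, Finset.card_range, nsmul_eq_mul]
          push_cast
          ring
      _ ≤ 24576 * ((d.B : ℚ) * d.B) * (d.B : ℚ) ^ 8 := by gcongr
      _ = _ := by ring
  have h6 := abs_le.1 (hv.az_bd m)
  have h7 : (d.B : ℚ) ≤ (d.B : ℚ) ^ 10 := le_self_pow₀ hB (by norm_num)
  rw [h2, abs_le]
  constructor <;> linarith [h6.1, h6.2]

end Crest.Agent.R338.FinM
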