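import Crest.Agent.R338.FinV
import Crest.Agent.R338.FinLin
import Crest.Agent.R338.FinQuad

/-! Row 338, module FIN: the effective Hamiltonian and the two sectors. -/

set_option autoImplicit false
set_option linter.unusedSectionVars false
set_option linter.unusedVariables false

open Matrix Finset

namespace Crest.Agent.R338.FinM

variable {d : XZ} {N : ℕ}

/-- The charge matrix of a dot. -/
def Tm (d : XZ) (e : Dot d.n) : Matrix (Orb d.n) (Orb d.n) ℝ :=
  (d.dAmp e : ℝ) • mo e.1 (bv 0 + uu d e) (bv 0 + uu d e)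

lemma eff_vec (e : Dot d.n) (k : Fin 3) : (bv 0 + uu d e) k = (d.dVec e k : ℝ) := by
  fin_cases k <;> simp [bv, uu, XZ.dVec]

lemma eff_dT (e : Dot d.n) (a a' : Orb d.n) : (d.dT e a a' : ℝ) = Tm d e a a' := by
  unfold XZ.dT Tm mo
  rw [Matrix.smul_apply, Matrix.of_apply, eff_vec, eff_vec]
  split_ifs <;> simp

lemma eff_wbar (U : ℚ) : d.wbar U =
    fun a a' b b' => ∑ e, ∑ e', Tm d e a a' * (Kb U e e' : ℝ) * Tm d e' b b' := by
  funext a a' b b'
  unfold XZ.wbar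
  push_cast
  simp only [eff_dT]

lemma eff_vbar (U : ℚ) : d.vbar U = fun a a' => ∑ e, (d.dPot U e : ℝ) * Tm d e a a' := by
  funext a a'
  unfold XZ.vbar
  push_cast
  simp only [eff_dT]

lemma eff_Tm_mol {e : Dot d.n} {a a' : Orb d.n} (h : Tm d e a a' ≠ 0) : a.1 = a'.1 := by
  unfold Tm mo at h
  rw [Matrix.smul_apply, Matrix.of_apply] at h
  split_ifs at h with h1
  · exact h1.1.trans h1.2.symm
  · simp at h

lemma eff_wbar_mol (U : ℚ) (a a' b b' : Orb d.n) (h : d.wbar U a a' b b' ≠ 0) :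
    a.1 = a'.1 ∧ b.1 = b'.1 := by
  rw [eff_wbar] at h
  obtain ⟨e, -, h⟩ := exists_ne_zero_of_sum_ne_zero h
  obtain ⟨e', -, h⟩ := exists_ne_zero_of_sum_ne_zero h
  exact ⟨eff_Tm_mol (left_ne_zero_of_mul (left_ne_zero_of_mul h)),
    eff_Tm_mol (right_ne_zero_of_mul h)⟩

lemma eff_vbar_mol (U : ℚ) (a a' : Orb d.n) (h : d.vbar U a a' ≠ 0) : a.1 = a'.1 := by
  rw [eff_vbar] at h
  obtain ⟨e, -, h⟩ := exists_ne_zero_of_sum_ne_zero h
  exact eff_Tm_mol (right_ne_zero_of_mul h)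

lemma eff_ex_smul (r : ℝ) (O : Module.End ℝ (Tn (Orb d.n) N)) (c : Tn (Orb d.n) N) :
    ex (r • O) c = r * ex O c := by
  unfold ex
  rw [LinearMap.smul_apply, dotProduct_smul, smul_eq_mul]

lemma eff_ex_add (O O' : Module.End ℝ (Tn (Orb d.n) N)) (c : Tn (Orb d.n) N) :
    ex (O + O') c = ex O c + ex O' c := by
  unfold ex
  rw [LinearMap.add_apply, dotProduct_add]

lemma eff_ex_sub (O O' : Module.End ℝ (Tn (Orb d.n) N)) (c : Tn (Orb d.n) N) :
    ex (O - O') c = ex O c - ex O' c := by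
  unfold ex
  rw [LinearMap.sub_apply, dotProduct_sub]

theorem eff (hv : d.Valid) (U : ℚ) {c : Tn (Orb d.n) N} (h : InV c) :
    EFr (d.wbar U) (d.vbar U) c = (d.C0 U : ℝ) * (c ⬝ᵥ c) + lin d c +
      quad d (fun e e' => Qv d e c ⬝ᵥ Qv d e' c) + PP d U c := by
  set S := c ⬝ᵥ c with hS
  set nn : Fin d.n → ℝ := fun m => ex (dG (Nm m)) c - S with hnn
  set zz : Fin d.n → ℝ := fun m => ex (dG (Zm m)) c with hzz
  set xx : Fin d.n → ℝ := fun m => ex (dG (Xm m)) c with hxx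
  set y := yy d nn zz xx with hy
  have hY : ∀ e e' : Dot d.n, ex (dG (mo e.1 (uu d e) (uu d e'))) c =
      (uu d e 1 * uu d e' 1 + uu d e 2 * uu d e' 2) / 2 * S + y e e' := by
    intro e e'
    rw [ex_mo _ (uu_zero d e) (uu_zero d e')]
    simp only [hy, yy, hnn, hzz, hxx]
    ring
  have hP : ∀ e : Dot d.n, ex (dG (Pm d e)) c = ccr d e * S + y e e := by
    intro e
    have h1 := uu_one_sq d e
    have h2 := uu_two_sq d e
    rw [Pm, hY, ← pow_two, ← pow_two, h1, h2]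
    ring
  have hQ : ∀ e : Dot d.n, c ⬝ᵥ Qv d e c = y e e := by
    intro e
    have := hP e
    unfold ex at this
    rw [Qv, dotProduct_sub, this, dotProduct_smul, smul_eq_mul]
    ring
  have h1 : ∀ e : Dot d.n, (d.dPot U e : ℝ) * ex (dG (Tm d e)) c =
      (d.dPot U e : ℝ) * d.dAmp e * (2 + ccr d e) * S + (d.dPot U e : ℝ) * d.dAmp e * y e e := by
    intro e
    have := hP e
    rw [Pm] at this
    rw [Tm, dG_smul, eff_ex_smul, h.ex_one _ (uu_zero d e) (uu_zero d e), this]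
    ring
  have h2 : ∀ e e' : Dot d.n, 1 / 2 * ((Kb U e e' : ℝ) * ex (tw (Tm d e) (Tm d e')) c) =
      (Kb U e e' : ℝ) * d.dAmp e * d.dAmp e' * (if e.1 = e'.1 then 1 + 2 * ccr d e' -
          ((d.dVec e 1 : ℝ) * d.dVec e' 1 + (d.dVec e 2 : ℝ) * d.dVec e' 2) / 2
        else (2 + ccr d e) * (2 + ccr d e') / 2) * S +
      (Kb U e e' : ℝ) * d.dAmp e * d.dAmp e' * (if e.1 = e'.1 then y e e + y e' e' - y e e'
         else ((2 + ccr d e) * y e' e' + (2 + ccr d e') * y e e) / 2) +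
      (Kb U e e' : ℝ) * d.dAmp e * d.dAmp e' *
        (if e.1 = e'.1 then 0 else (Qv d e c ⬝ᵥ Qv d e' c) / 2) +
      1 / 2 * (if e.1 = e'.1 then
        (Kb U e e' : ℝ) * d.dAmp e * d.dAmp e' * ex (tw (Pm d e) (Pm d e')) c else 0) := by
    intro e e'
    rw [Tm, Tm, tw_smul, eff_ex_smul]
    by_cases he : e.1 = e'.1
    · simp only [if_pos he]
      by_cases hK : Kb U e e' = 0
      · simp [hK]
      · have hc : ccr d e = ccr d e' := by unfold ccr; rw [he, Kb_slot hK]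
        have p1 := hP e
        have p2 := hP e'
        have p3 := hY e e'
        rw [Pm] at p1 p2
        rw [Pm, Pm, ← he] at *
        rw [h.ex_same _ (uu_zero d e) (uu_zero d e'), p1, p2, p3, hc]
        have u1 : ∀ e : Dot d.n, uu d e 1 = (d.dVec e 1 : ℝ) := fun e => rfl
        have u2 : ∀ e : Dot d.n, uu d e 2 = (d.dVec e 2 : ℝ) := fun e => rfl
        rw [u1, u1, u2, u2]
        ring
    · simp only [if_neg he]
      have e1 : ∀ e : Dot d.n, (2 : ℝ) • c + dG (mo e.1 (uu d e) (uu d e)) c =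
          (2 + ccr d e) • c + Qv d e c := by
        intro e
        rw [Qv, Pm, add_smul]
        abel
      rw [h.ex_diff he (uu_zero d e) (uu_zero d e'), e1, e1]
      simp only [add_dotProduct, dotProduct_add, smul_dotProduct, dotProduct_smul, smul_eq_mul]
      rw [dotProduct_comm (Qv d e c) c, hQ, hQ, ← hS]
      ring
  have hC : (d.C0 U : ℝ) = ∑ e : Dot d.n, (d.dPot U e : ℝ) * d.dAmp e * (2 + ccr d e) +
      ∑ e : Dot d.n, ∑ e' : Dot d.n, (Kb U e e' : ℝ) * d.dAmp e * d.dAmp e' *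
        (if e.1 = e'.1 then 1 + 2 * ccr d e' -
          ((d.dVec e 1 : ℝ) * d.dVec e' 1 + (d.dVec e 2 : ℝ) * d.dVec e' 2) / 2
        else (2 + ccr d e) * (2 + ccr d e') / 2) := by
    unfold XZ.C0 ccr
    push_cast [apply_ite (Rat.cast : ℚ → ℝ)]
    rfl
  have hL : lin d c = _ := (lin_identity hv U nn zz xx).symm
  rw [eff_wbar, eff_vbar, EFr_eq _ _ (fun e e' => by rw [Kb_symm]), hC, hL,
    ← quad_identity d U _ (fun e e' => dotProduct_comm _ _), PP]
  simp only [mul_sum, h1, h2, sum_add_distrib, add_mul, sum_mul, ← hy]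
  ring

lemma eff_Qv_right {c : Tn (Orb d.n) N} (hr : Rt c) (e : Dot d.n) :
    Qv d e c = (ccr d e - 1) • dG (Zm e.1) c + (uu d e 1 * uu d e 2) • dG (Xm e.1) c := by
  have h1 := uu_one_sq d e
  have h2 := uu_two_sq d e
  have h3 := mo_sym e.1 (uu_zero d e) (uu_zero d e)
  rw [← pow_two, ← pow_two, h1, h2] at h3
  have h4 : Pm d e = ccr d e • Nm e.1 + (ccr d e - 1) • Zm e.1 + (uu d e 1 * uu d e 2) • Xm e.1 := by
    have : Pm d e = (1 / 2 : ℝ) • (mo e.1 (uu d e) (uu d e) + mo e.1 (uu d e) (uu d e)) := by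
      rw [Pm]; module
    rw [this, h3]
    module
  rw [Qv, h4, dG_add, dG_add, dG_smul, dG_smul, dG_smul]
  simp only [LinearMap.add_apply, LinearMap.smul_apply, hr.dG_Nm]
  abel

theorem eff_right (hv : d.Valid) (U : ℚ) {c : Tn (Orb d.n) N} (h : InV c) (hr : Rt c) :
    EFr (d.wbar U) (d.vbar U) c = (d.C0 U : ℝ) * (c ⬝ᵥ c) + HQ d c := by
  have h1 : PP d U c = 0 := by
    unfold PP
    rw [sum_eq_zero, mul_zero]
    intro e _
    refine sum_eq_zero fun e' _ => ?_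
    split_ifs with he
    · rw [Pm, Pm, ← he, ex, hr.tw_pp _ _ _ (uu_zero d e) (uu_zero d e'), dotProduct_zero, mul_zero]
    · rfl
  have h2 := quad_eval hv (fun i j => dG (Zm i) c ⬝ᵥ dG (Zm j) c) (fun i j => dG (Zm i) c ⬝ᵥ dG (Xm j) c)
    (fun i j => dG (Xm i) c ⬝ᵥ dG (Zm j) c) (fun i j => dG (Xm i) c ⬝ᵥ dG (Xm j) c)
  have h3 : (fun e e' => Qv d e c ⬝ᵥ Qv d e' c) = fun e e' : Dot d.n =>
      (ccr d e - 1) * (ccr d e' - 1) * (dG (Zm e.1) c ⬝ᵥ dG (Zm e'.1) c) +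
        (ccr d e - 1) * (uu d e' 1 * uu d e' 2) * (dG (Zm e.1) c ⬝ᵥ dG (Xm e'.1) c) +
        (uu d e 1 * uu d e 2) * (ccr d e' - 1) * (dG (Xm e.1) c ⬝ᵥ dG (Zm e'.1) c) +
        (uu d e 1 * uu d e 2) * (uu d e' 1 * uu d e' 2) * (dG (Xm e.1) c ⬝ᵥ dG (Xm e'.1) c) := by
    funext e e'
    rw [eff_Qv_right hr, eff_Qv_right hr]
    simp only [add_dotProduct, dotProduct_add, smul_dotProduct, dotProduct_smul, smul_eq_mul]
    ring
  rw [eff hv U h, h1, h3, h2, add_zero, add_assoc, HQ, lin]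
  congr 2
  refine sum_congr rfl fun m _ => ?_
  rw [ex, hr.dG_Nm]
  ring

lemma eff_sum_inj {α β : Type} [Fintype α] [Fintype β] {φ : α → β} (hφ : Function.Injective φ)
    {f : β → ℝ} (hf : ∀ b, 0 ≤ f b) : ∑ a, f (φ a) ≤ ∑ b, f b := by
  classical
  rw [← sum_image (s := univ) (g := φ) (f := f) hφ.injOn]
  exact sum_le_sum_of_subset_of_nonneg (subset_univ _) fun b _ _ => hf b

lemma eff_uu_sq (e : Dot d.n) : uu d e ⬝ᵥ uu d e = 2 * ccr d e := by
  have h1 := uu_one_sq d e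
  have h2 := uu_two_sq d e
  rw [dotProduct, Fin.sum_univ_three, uu_zero]
  linarith [pow_two (uu d e 1), pow_two (uu d e 2)]

lemma eff_tw_nonneg (e e' : Dot d.n) (c : Tn (Orb d.n) N) : 0 ≤ ex (tw (Pm d e) (Pm d e')) c := by
  have hp : ∀ e : Dot d.n, 0 < uu d e ⬝ᵥ uu d e := fun e => by
    rw [eff_uu_sq]; linarith [(ccr_bd d e).1]
  exact ex_tw_nonneg (hp e) (hp e') (mo_transpose _ _ _) (mo_transpose _ _ _) (mo_mul _ _ _ _ _)
    (mo_mul _ _ _ _ _) c

/-- The charging dots. -/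
def chg (d : XZ) (m : Fin d.n) (r : Bool) : Dot d.n := (m, (2, m, m), false, r)

lemma eff_chg_amp (m : Fin d.n) (r : Bool) : d.dAmp (chg d m r) = d.alc := by
  simp [XZ.dAmp, chg, XZ.amp]

lemma eff_chg_P (m : Fin d.n) : Pm d (chg d m false) + Pm d (chg d m true) = (2 : ℝ) • Nm m := by
  ext a b
  have e1 : uu d (chg d m false) = ![0, 1, 1] := by
    simp [uu, XZ.dVec, chg, XZ.xi, XZ.typ, XZ.side, rs]
  have e2 : uu d (chg d m true) = ![0, 1, -1] := by
    simp [uu, XZ.dVec, chg, XZ.xi, XZ.typ, XZ.side, rs]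
  obtain ⟨a1, a2⟩ := a
  obtain ⟨b1, b2⟩ := b
  have e3 : ∀ r, (chg d m r).1 = m := fun r => rfl
  rw [Pm, Pm, e1, e2, e3, e3]
  simp only [Nm, mo, Matrix.add_apply, Matrix.smul_apply, Matrix.of_apply, smul_eq_mul]
  by_cases h : a1 = m ∧ b1 = m
  · simp only [if_pos h]
    fin_cases a2 <;> fin_cases b2 <;> simp [bv] <;> norm_num
  · simp only [if_neg h]
    simp

lemma eff_PP_ge (hv : d.Valid) {U : ℚ} (hU : 1 / 2 ≤ U) (c : Tn (Orb d.n) N) :
    (d.alc : ℝ) ^ 2 * ∑ m, ex (tw (Nm m) (Nm m)) c ≤ PP d U c := by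
  set f : Dot d.n × Dot d.n → ℝ := fun p => if p.1.1 = p.2.1 then
    (Kb U p.1 p.2 : ℝ) * d.dAmp p.1 * d.dAmp p.2 * ex (tw (Pm d p.1) (Pm d p.2)) c else 0 with hf
  have hf0 : ∀ p, 0 ≤ f p := by
    intro p
    simp only [hf]
    split_ifs
    · have a1 : (0 : ℝ) ≤ Kb U p.1 p.2 := by exact_mod_cast Kb_nonneg hU _ _
      have a2 : (0 : ℝ) ≤ d.dAmp p.1 := by exact_mod_cast dAmp_nonneg hv _
      have a3 : (0 : ℝ) ≤ d.dAmp p.2 := by exact_mod_cast dAmp_nonneg hv _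
      have a4 := eff_tw_nonneg p.1 p.2 c
      positivity
    · exact le_rfl
  have hinj : Function.Injective fun q : Fin d.n × Bool × Bool =>
      (chg d q.1 q.2.1, chg d q.1 q.2.2) := by
    rintro ⟨m, r, s⟩ ⟨m', r', s'⟩ hq
    simp only [chg, Prod.mk.injEq] at hq
    obtain ⟨⟨rfl, -, -, rfl⟩, -, -, -, rfl⟩ := hq
    rfl
  have h1 := eff_sum_inj hinj hf0
  rw [Fintype.sum_prod_type, Fintype.sum_prod_type (f := f)] at h1
  have h2 : ∀ m, 2 * ((d.alc : ℝ) ^ 2 * ex (tw (Nm m) (Nm m)) c) ≤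
      ∑ q : Bool × Bool, f (chg d m q.1, chg d m q.2) := by
    intro m
    have h3 : ∀ r s, 1 / 2 * (d.alc : ℝ) ^ 2 * ex (tw (Pm d (chg d m r)) (Pm d (chg d m s))) c ≤
        f (chg d m r, chg d m s) := by
      intro r s
      have hK : (1 / 2 : ℝ) ≤ Kb U (chg d m r) (chg d m s) := by
        have : (1 / 2 : ℚ) ≤ Kb U (chg d m r) (chg d m s) := by
          unfold Kb
          rw [if_pos (show (chg d m r).2.1 = (chg d m s).2.1 from rfl),
            if_pos (show (chg d m r).1 = (chg d m s).1 from rfl),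
            if_pos (show (chg d m r).2.2.1 = (chg d m s).2.2.1 from rfl)]
          split_ifs
          · exact hU
          · exact le_rfl
        have h' : ((1 / 2 : ℚ) : ℝ) ≤ _ := Rat.cast_le.2 this
        simpa using h'
      simp only [hf, eff_chg_amp]
      rw [if_pos (show (chg d m r).1 = (chg d m s).1 from rfl), mul_assoc _ (d.alc : ℝ) (d.alc : ℝ),
        ← pow_two]
      exact mul_le_mul_of_nonneg_right (mul_le_mul_of_nonneg_right hK (sq_nonneg _))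
        (eff_tw_nonneg _ _ c)
    have h4 : ex (tw (Pm d (chg d m false) + Pm d (chg d m true))
        (Pm d (chg d m false) + Pm d (chg d m true))) c = 2 * 2 * ex (tw (Nm m) (Nm m)) c := by
      rw [eff_chg_P, tw_smul, eff_ex_smul]
    rw [tw_add_left, tw_add_right, tw_add_right, eff_ex_add, eff_ex_add, eff_ex_add] at h4
    rw [Fintype.sum_prod_type, Fintype.sum_bool, Fintype.sum_bool, Fintype.sum_bool]
    have a1 := h3 false false
    have a2 := h3 false true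
    have a3 := h3 true false
    have a4 := h3 true true
    have a5 := congrArg (fun t => 1 / 2 * (d.alc : ℝ) ^ 2 * t) h4
    linarith
  have h5 := (sum_le_sum fun m (_ : m ∈ univ) => h2 m).trans h1
  rw [← mul_sum, ← mul_sum] at h5
  unfold PP
  simp only [hf] at h5
  linarith

lemma eff_sum_cnt {n : ℕ} {c : Tn (Orb n) (3 * n)} (h : InV c) {α : Lab n (3 * n)} (hα : c α ≠ 0) :
    ∑ m, cnt m α = n := by
  have h1 := sum_mc α
  simp only [h.mc_eq hα, sum_add_distrib, sum_const, card_univ, Fintype.card_fin, smul_eq_mul] at h1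
  omega

lemma eff_ex_bv {n : ℕ} {B : ℝ} (hB : 1 ≤ B) (hn : (n : ℝ) ≤ B) (m : Fin n) (k l : Fin 3)
    (c : Tn (Orb n) (3 * n)) : |ex (dG (mo m (bv k) (bv l))) c| ≤ 5 * B ^ 2 * (c ⬝ᵥ c) := by
  have h1 := abs_dot_le c (dG (mo m (bv k) (bv l)) c)
  have h2 := nsq_dG_le (mo m (bv k) (bv l)) c
  have h3 : ∀ k, bv k ⬝ᵥ bv k = 1 := fun k => by simp [bv]
  rw [mo_frob, h3, h3] at h2
  have h4 := finA_dot_self_nonneg c
  have h5 : ((3 * n : ℕ) : ℝ) ^ 2 ≤ 9 * B ^ 2 := by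
    push_cast
    nlinarith [Nat.cast_nonneg (α := ℝ) n]
  have h6 := mul_le_mul_of_nonneg_right h5 h4
  have h7 := mul_le_mul_of_nonneg_right (one_le_pow₀ (n := 2) hB) h4
  unfold ex
  linarith

lemma eff_Qv_bd {B : ℝ} (hB : 1 ≤ B) (hn : (d.n : ℝ) ≤ B) (e : Dot d.n)
    (c : Tn (Orb d.n) (3 * d.n)) : Qv d e c ⬝ᵥ Qv d e c ≤ 74 * B ^ 2 * (c ⬝ᵥ c) := by
  have h2 := nsq_dG_le (Pm d e) c
  rw [Pm, mo_frob, eff_uu_sq, ← Pm] at h2
  have h4 := finA_dot_self_nonneg c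
  obtain ⟨c1, c2⟩ := ccr_bd d e
  have h5 : ((3 * d.n : ℕ) : ℝ) ^ 2 * (2 * ccr d e * (2 * ccr d e)) ≤ 9 * B ^ 2 * 4 := by
    refine mul_le_mul ?_ (by nlinarith) (by positivity) (by positivity)
    push_cast
    nlinarith [Nat.cast_nonneg (α := ℝ) d.n]
  have h6 := mul_le_mul_of_nonneg_right h5 h4
  have h7 := mul_le_mul_of_nonneg_right (one_le_pow₀ (n := 2) hB) h4
  have h8 := finA_dot_self_nonneg (dG (Pm d e) c + ccr d e • c)
  have h9 := mul_le_mul_of_nonneg_right (show ccr d e * ccr d e ≤ 1 by nlinarith) h4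
  unfold Qv
  simp only [add_dotProduct, dotProduct_add, sub_dotProduct, dotProduct_sub, smul_dotProduct,
    dotProduct_smul, smul_eq_mul] at h8 ⊢
  nlinarith

theorem eff_wrong (hv : d.Valid) {U : ℚ} (hU : 1 / 2 ≤ U) {c : Tn (Orb d.n) (3 * d.n)} (h : InV c)
    (hw : ∀ α, c α ≠ 0 → ¬ ∀ m, mc m α = 3) :
    ((d.C0 U : ℝ) + d.hi) * (c ⬝ᵥ c) ≤ EFr (d.wbar U) (d.vbar U) c := by
  set S := c ⬝ᵥ c with hS
  set B : ℝ := ((d.B : ℕ) : ℝ) with hBdef
  have hS0 : 0 ≤ S := finA_dot_self_nonneg c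
  have hn : (d.n : ℝ) ≤ B := by rw [hBdef]; exact_mod_cast hv.n_le
  have hB : 1 ≤ B := by rw [hBdef]; exact_mod_cast hv.n_pos.trans hv.n_le
  -- the repulsion
  have hPP : 2 * ((d.alc : ℝ) ^ 2 * S) ≤ PP d U c := by
    refine le_trans ?_ (eff_PP_ge hv hU c)
    rw [mul_left_comm]
    refine mul_le_mul_of_nonneg_left ?_ (sq_nonneg _)
    simp only [ex, dotProduct, tw_Nm, hS]
    rw [sum_comm, mul_sum]
    refine sum_le_sum fun α _ => ?_
    by_cases hα : c α = 0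
    · simp [hα]
    · have h1 := eff_sum_cnt h hα
      have h2 : ∃ m, 2 ≤ cnt m α := by
        by_contra h3
        push Not at h3
        apply hw α hα
        intro m
        rw [h.mc_eq hα]
        by_contra h4
        have : ∑ m, cnt m α < ∑ m : Fin d.n, 1 :=
          sum_lt_sum (fun m _ => by have := h3 m; omega) ⟨m, mem_univ _, by have := h3 m; omega⟩
        simp only [sum_const, card_univ, Fintype.card_fin, smul_eq_mul] at this
        omega
      obtain ⟨m, hm⟩ := h2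
      have h5 : ∀ m', 0 ≤ c α * ((cnt m' α : ℝ) * (cnt m' α - 1) * c α) := by
        intro m'
        rw [mul_left_comm]
        refine mul_nonneg ?_ (mul_self_nonneg _)
        rcases Nat.eq_zero_or_pos (cnt m' α) with e | e
        · simp [e]
        · exact mul_nonneg (Nat.cast_nonneg _) (sub_nonneg.2 (by exact_mod_cast e))
      refine le_trans ?_ (single_le_sum (fun m' _ => h5 m') (mem_univ m))
      rw [mul_left_comm (c α)]
      have hm' : (2 : ℝ) ≤ cnt m α := by exact_mod_cast hm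
      exact mul_le_mul_of_nonneg_right (by nlinarith) (mul_self_nonneg _)
  -- particle number
  have hN : ∑ m, (ex (dG (Nm m)) c - S) = 0 := by
    simp only [ex, dotProduct, dG_Nm, hS, ← sum_sub_distrib]
    rw [sum_comm]
    refine sum_eq_zero fun α _ => ?_
    by_cases hα : c α = 0
    · simp [hα]
    · have h1 : ∑ m, (cnt m α : ℝ) = d.n := by exact_mod_cast eff_sum_cnt h hα
      rw [sum_sub_distrib, ← mul_sum, ← sum_mul, h1, sum_const, card_univ, Fintype.card_fin,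
        nsmul_eq_mul]
      ring
  have bN : ∀ m, |ex (dG (Nm m)) c - S| ≤ 11 * B ^ 2 * S := by
    intro m
    have a1 := abs_le.1 (eff_ex_bv hB hn m 1 1 c)
    have a2 := abs_le.1 (eff_ex_bv hB hn m 2 2 c)
    have a3 := mul_le_mul_of_nonneg_right (one_le_pow₀ (n := 2) hB) hS0
    rw [Nm, dG_add, eff_ex_add, abs_le]
    constructor <;> linarith [a1.1, a1.2, a2.1, a2.2]
  have bZ : ∀ m, |ex (dG (Zm m)) c| ≤ 10 * B ^ 2 * S := by
    intro m
    have a1 := abs_le.1 (eff_ex_bv hB hn m 1 1 c)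
    have a2 := abs_le.1 (eff_ex_bv hB hn m 2 2 c)
    rw [Zm, dG_sub, eff_ex_sub, abs_le]
    constructor <;> linarith [a1.1, a1.2, a2.1, a2.2]
  have bX : ∀ m, |ex (dG (Xm m)) c| ≤ 10 * B ^ 2 * S := by
    intro m
    have a1 := abs_le.1 (eff_ex_bv hB hn m 1 2 c)
    have a2 := abs_le.1 (eff_ex_bv hB hn m 2 1 c)
    rw [Xm, dG_add, eff_ex_add, abs_le]
    constructor <;> linarith [a1.1, a1.2, a2.1, a2.2]
  have hlin : -(B * (25000 * B ^ 10 * (11 * B ^ 2 * S) + 2 * (B * (10 * B ^ 2 * S)))) ≤ lin d c := by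
    have e1 : lin d c = ∑ m : Fin d.n, (((nu d m : ℝ) + 2 * (d.alc : ℝ) ^ 2) *
        (ex (dG (Nm m)) c - S) + (d.az m : ℝ) * ex (dG (Zm m)) c +
        (d.ax m : ℝ) * ex (dG (Xm m)) c) := by
      unfold lin
      simp only [add_mul, sum_add_distrib, ← mul_sum, hN, ← hS]
      ring
    have e2 : ∀ m : Fin d.n, -(25000 * B ^ 10 * (11 * B ^ 2 * S) + 2 * (B * (10 * B ^ 2 * S))) ≤
        ((nu d m : ℝ) + 2 * (d.alc : ℝ) ^ 2) * (ex (dG (Nm m)) c - S) +
          (d.az m : ℝ) * ex (dG (Zm m)) c + (d.ax m : ℝ) * ex (dG (Xm m)) c := by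
      intro m
      have a1 : |(nu d m : ℝ) + 2 * (d.alc : ℝ) ^ 2| ≤ 25000 * B ^ 10 := by
        rw [hBdef]; exact_mod_cast nu_bd hv m.2
      have a2 : |(d.az m : ℝ)| ≤ B := by rw [hBdef]; exact_mod_cast hv.az_bd m
      have a3 : |(d.ax m : ℝ)| ≤ B := by rw [hBdef]; exact_mod_cast hv.ax_bd m
      have b1 := mul_le_mul a1 (bN m) (abs_nonneg _) (by positivity)
      have b2 := mul_le_mul a2 (bZ m) (abs_nonneg _) (by positivity)
      have b3 := mul_le_mul a3 (bX m) (abs_nonneg _) (by positivity)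
      rw [← abs_mul] at b1 b2 b3
      linarith [(abs_le.1 b1).1, (abs_le.1 b2).1, (abs_le.1 b3).1]
    have e3 := sum_le_sum fun m (_ : m ∈ univ) => e2 m
    rw [sum_const, card_univ, Fintype.card_fin, nsmul_eq_mul, ← e1] at e3
    have e4 := mul_le_mul_of_nonneg_right hn
      (show 0 ≤ 25000 * B ^ 10 * (11 * B ^ 2 * S) + 2 * (B * (10 * B ^ 2 * S)) by positivity)
    linarith
  have hq := (abs_le.1 (quad_bd hv (g := fun e e' => Qv d e c ⬝ᵥ Qv d e' c)
    (G := 74 * B ^ 2 * S) fun e e' => (abs_dot_le _ _).trans (by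
      linarith [eff_Qv_bd hB hn e c, eff_Qv_bd hB hn e' c]))).1
  have hhi : (d.hi : ℝ) * S ≤ B * S := by
    refine mul_le_mul_of_nonneg_right ?_ hS0
    rw [hBdef]
    exact_mod_cast (abs_le.1 hv.hi_bd).2
  have halc : (d.alc : ℝ) ^ 2 = 10 ^ 8 * B ^ 16 := by
    unfold XZ.alc
    push_cast
    ring
  have p : ∀ k : ℕ, k ≤ 16 → B ^ k * S ≤ B ^ 16 * S := fun k hk =>
    mul_le_mul_of_nonneg_right (pow_le_pow_right₀ hB hk) hS0
  have p1 := p 1 (by norm_num)
  have p4 := p 4 (by norm_num)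
  have p8 := p 8 (by norm_num)
  have p13 := p 13 (by norm_num)
  have p0 : 0 ≤ B ^ 16 * S := by positivity
  rw [eff hv U h, ← hS]
  rw [halc] at hPP
  rw [← hBdef] at hq
  nlinarith

end Crest.Agent.R338.FinM
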