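import Crest.Agent.R338.FinV

/-! Row 338, module FIN: the qubit dictionary in the sector with one `p` electron per molecule. -/

set_option autoImplicit false
set_option linter.unusedSectionVars false
set_option linter.unusedVariables false

open Matrix Finset

namespace Crest.Agent.R338.FinM

variable {n N : ℕ}

lemma finr_swap_ne (k : Fin 3) : Equiv.swap (1 : Fin 3) 2 k ≠ 0 ↔ k ≠ 0 := by
  revert k; decide

lemma finr_swap_eq (k : Fin 3) : Equiv.swap (1 : Fin 3) 2 k = 0 ↔ k = 0 := by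
  revert k; decide

lemma finr_Zrow (m : Fin n) (b : Orb n) (g : Orb n → ℝ) :
    ∑ a, Zm m b a * g a =
      (if b.1 = m ∧ b.2 ≠ 0 then sg (decide (b.2 = 2)) else 0) * g b := by
  obtain ⟨b1, b2⟩ := b
  rw [Fintype.sum_prod_type, Finset.sum_eq_single m]
  · by_cases hb : b1 = m
    · subst hb
      fin_cases b2 <;> simp [Zm, mo, bv, sg, Fin.sum_univ_three]
    · simp [Zm, mo, hb]
  · intro m' _ hm'
    simp [Zm, mo, hm']
  · simp

lemma finr_Xrow (m : Fin n) (b : Orb n) (g : Orb n → ℝ) :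
    ∑ a, Xm m b a * g a =
      if b.1 = m ∧ b.2 ≠ 0 then g (b.1, Equiv.swap 1 2 b.2) else 0 := by
  obtain ⟨b1, b2⟩ := b
  rw [Fintype.sum_prod_type, Finset.sum_eq_single m]
  · by_cases hb : b1 = m
    · subst hb
      fin_cases b2 <;> simp [Xm, mo, bv, Fin.sum_univ_three]
    · simp [Xm, mo, hb]
  · intro m' _ hm'
    simp [Xm, mo, hm']
  · simp

/-- The unique `p` slot of a molecule. -/
lemma finr_unique {α : Lab n N} {m : Fin n} (h : cnt m α = 1) :
    ∃ i₀, ∀ i, ((α i).1.1 = m ∧ (α i).1.2 ≠ 0) ↔ i = i₀ := by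
  obtain ⟨i₀, hi⟩ := Finset.card_eq_one.mp h
  refine ⟨i₀, fun i => ?_⟩
  have := Finset.ext_iff.mp hi i
  simpa using this

lemma finr_sig {α : Lab n N} {m : Fin n} {i₀ : Fin N}
    (hi : ∀ i, ((α i).1.1 = m ∧ (α i).1.2 ≠ 0) ↔ i = i₀) :
    sig α m = decide ((α i₀).1.2 = 2) := by
  have h0 := (hi i₀).mpr rfl
  unfold sig
  rw [decide_eq_decide]
  constructor
  · rintro ⟨i, h⟩
    have : i = i₀ := (hi i).mp (by rw [h]; exact ⟨rfl, show (2 : Fin 3) ≠ 0 by decide⟩)
    subst this
    rw [h]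
  · intro h
    exact ⟨i₀, Prod.ext h0.1 h⟩

lemma finr_cnt_update (m m' : Fin n) (α : Lab n N) (i : Fin N) (hi : (α i).1.1 = m) :
    cnt m' (Function.update α i (((α i).1.1, Equiv.swap 1 2 (α i).1.2), (α i).2)) = cnt m' α := by
  unfold cnt
  congr 1
  refine Finset.filter_congr fun j _ => ?_
  by_cases hj : j = i
  · subst hj
    simp [finr_swap_eq]
  · simp [Function.update_of_ne hj]

lemma flp_flp (m : Fin n) (α : Lab n N) : flp m (flp m α) = α := by
  funext i
  unfold flp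
  by_cases h : (α i).1.1 = m <;> simp [h]
  rw [← h]

lemma cnt_flp (m m' : Fin n) (α : Lab n N) : cnt m' (flp m α) = cnt m' α := by
  unfold cnt
  congr 1
  refine Finset.filter_congr fun i _ => ?_
  unfold flp
  by_cases h : (α i).1.1 = m <;> simp [h, finr_swap_eq]

lemma cnt_setL (m : Fin n) (α : Lab n N) (σ : Fin n → Bool) : cnt m (setL α σ) = cnt m α := by
  unfold cnt
  congr 1
  refine Finset.filter_congr fun i _ => ?_
  unfold setL
  by_cases h : (α i).1.2 = 0
  · simp [h]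
  · cases hσ : σ (α i).1.1 <;> simp [h]

lemma flp_setL (m : Fin n) (α : Lab n N) (σ : Fin n → Bool) :
    flp m (setL α σ) = setL α (fl σ m) := by
  funext i
  unfold flp setL fl
  by_cases h : (α i).1.2 = 0
  · by_cases hm : (α i).1.1 = m
    · simp only [h, hm, if_true]
      rw [← hm, ← h]
      have : Equiv.swap (1 : Fin 3) 2 (α i).1.2 = (α i).1.2 := by rw [h]; decide
      rw [this]
    · simp [h, hm]
  · by_cases hm : (α i).1.1 = m
    · cases hσ : σ m <;> simp [h, hm, hσ]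
    · simp [h, hm]

lemma setL_setL (α : Lab n N) (σ τ : Fin n → Bool) : setL (setL α σ) τ = setL α τ := by
  funext i
  unfold setL
  by_cases h : (α i).1.2 = 0
  · simp [h]
  · cases hσ : σ (α i).1.1 <;> simp [h]

lemma sig_setL {α : Lab n N} (h : ∀ m, cnt m α = 1) (σ : Fin n → Bool) : sig (setL α σ) = σ := by
  funext m
  obtain ⟨i₀, hi⟩ := finr_unique (show cnt m (setL α σ) = 1 by rw [cnt_setL, h])
  rw [finr_sig hi]
  have h0 := (hi i₀).mpr rfl
  unfold setL at h0 ⊢
  by_cases h1 : (α i₀).1.2 = 0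
  · simp [h1] at h0
  · simp only [h1, if_false] at h0 ⊢
    rw [h0.1]
    cases σ m <;> simp

lemma setL_sig {α : Lab n N} (h : ∀ m, cnt m α = 1) : setL α (sig α) = α := by
  funext i
  unfold setL
  by_cases h1 : (α i).1.2 = 0
  · simp [h1]
  · obtain ⟨i₀, hi⟩ := finr_unique (h (α i).1.1)
    have hi0 : i = i₀ := (hi i).mp ⟨rfl, h1⟩
    subst hi0
    rw [if_neg h1, finr_sig hi]
    refine Prod.ext (Prod.ext rfl ?_) rfl
    show (if decide ((α i).1.2 = 2) = true then (2 : Fin 3) else 1) = (α i).1.2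
    generalize (α i).1.2 = k at h1
    revert k; decide

/-- `dG (Zm m) c α = (#{i | (α i).1 = (m,1)} - #{i | (α i).1 = (m,2)}) * c α`. -/
lemma Rt.dG_Zm {c : Tn (Orb n) N} (h : Rt c) (m : Fin n) (α : Lab n N) :
    dG (Zm m) c α = sg (sig α m) * c α := by
  rw [dG_apply]
  simp only [finr_Zrow m _ (fun a => c (Function.update α _ (a, (α _).2))), Prod.mk.eta,
    Function.update_eq_self]
  rw [← Finset.sum_mul]
  by_cases hc : c α = 0
  · simp [hc]
  obtain ⟨i₀, hi⟩ := finr_unique (h α hc m)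
  simp only [hi, Finset.sum_ite_eq', Finset.mem_univ, if_true, finr_sig hi]

/-- `dG (Xm m) c α = ∑ i` (over the `p` electrons of `m` in `α`) `c (update α i (swapped))`; if
`cnt m α ≠ 1` both sides vanish since the updates and `flp m α` have the same `cnt m`. -/
lemma Rt.dG_Xm {c : Tn (Orb n) N} (h : Rt c) (m : Fin n) (α : Lab n N) :
    dG (Xm m) c α = c (flp m α) := by
  rw [dG_apply]
  simp only [finr_Xrow m _ (fun a => c (Function.update α _ (a, (α _).2)))]
  by_cases hc : cnt m α = 1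
  · obtain ⟨i₀, hi⟩ := finr_unique hc
    simp only [hi, Finset.sum_ite_eq', Finset.mem_univ, if_true]
    congr 1
    funext i
    have h0 := (hi i₀).mpr rfl
    unfold flp
    by_cases hii : i = i₀
    · subst hii
      simp [h0.1]
    · rw [Function.update_of_ne hii]
      split_ifs with hm
      · have hz : (α i).1.2 = 0 := by
          by_contra hz
          exact hii ((hi i).mp ⟨hm, hz⟩)
        have : Equiv.swap (1 : Fin 3) 2 (α i).1.2 = (α i).1.2 := by rw [hz]; decide
        rw [this]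
      · rfl
  · have h1 : c (flp m α) = 0 := by
      by_contra h1
      exact hc (by rw [← cnt_flp m m α]; exact h _ h1 m)
    rw [h1]
    refine Finset.sum_eq_zero fun i _ => ?_
    split_ifs with hi
    · by_contra h2
      exact hc (by rw [← finr_cnt_update m m α i hi.1]; exact h _ h2 m)
    · rfl

/-- The involution `(α, σ) ↦ (setL α σ, sig α)`. -/
lemma sum_setL (f : Lab n N → ℝ) :
    ∑ α : Lab n N with (∀ m, cnt m α = 1), ∑ σ : Fin n → Bool, f (setL α σ) =
      2 ^ n * ∑ α : Lab n N with (∀ m, cnt m α = 1), f α := by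
  have h2 : (2 : ℝ) ^ n * ∑ α : Lab n N with (∀ m, cnt m α = 1), f α =
      ∑ α : Lab n N with (∀ m, cnt m α = 1), ∑ _σ : Fin n → Bool, f α := by
    rw [Finset.mul_sum]
    refine Finset.sum_congr rfl fun α _ => ?_
    simp
  rw [h2, ← Finset.sum_product', ← Finset.sum_product']
  refine Finset.sum_nbij' (fun p => (setL p.1 p.2, sig p.1)) (fun p => (setL p.1 p.2, sig p.1))
    ?_ ?_ ?_ ?_ ?_
  · intro p hp
    simp only [Finset.mem_product, Finset.mem_filter, Finset.mem_univ, true_and, and_true] at hp ⊢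
    intro m
    rw [cnt_setL, hp]
  · intro p hp
    simp only [Finset.mem_product, Finset.mem_filter, Finset.mem_univ, true_and, and_true] at hp ⊢
    intro m
    rw [cnt_setL, hp]
  · intro p hp
    simp only [Finset.mem_product, Finset.mem_filter, Finset.mem_univ, true_and, and_true] at hp
    simp only [setL_setL, setL_sig hp, sig_setL hp]
  · intro p hp
    simp only [Finset.mem_product, Finset.mem_filter, Finset.mem_univ, true_and, and_true] at hp
    simp only [setL_setL, setL_sig hp, sig_setL hp]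
  · intro p _
    rfl

lemma finr_sum_sector {c : Tn (Orb n) N} (h : Rt c) (G : Lab n N → ℝ) :
    ∑ α, c α * G α = ∑ α : Lab n N with (∀ m, cnt m α = 1), c α * G α := by
  rw [Finset.sum_filter]
  refine Finset.sum_congr rfl fun α _ => ?_
  split_ifs with hα
  · rfl
  · have : c α = 0 := by
      by_contra hc
      exact hα (h α hc)
    rw [this, zero_mul]

lemma finr_avg {c : Tn (Orb n) N} (h : Rt c) (G : Lab n N → ℝ) :
    2 ^ n * ∑ α, c α * G α =
      ∑ α : Lab n N with (∀ m, cnt m α = 1), ∑ σ, c (setL α σ) * G (setL α σ) := by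
  rw [finr_sum_sector h, ← sum_setL (fun α => c α * G α)]

lemma finr_XX (c : Tn (Orb n) N) (i j : Fin n) :
    ∑ α, c (flp i α) * c (flp j α) = ∑ α, c α * c (flp j (flp i α)) := by
  refine Fintype.sum_equiv (Function.Involutive.toPerm (flp i) (flp_flp i)) _ _ fun α => ?_
  simp [Function.Involutive.toPerm, flp_flp]

/-- The local form of `HQ`. -/
noncomputable def finr_G (d : XZ) (c : Tn (Orb d.n) N) (α : Lab d.n N) : ℝ :=
  ∑ i : Fin d.n, ∑ j : Fin d.n, ((d.zz i j : ℝ) * (sg (sig α i) * sg (sig α j)) * c α -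
      (d.xx i j : ℝ) * c (flp j (flp i α)) + (d.zx i j : ℝ) * sg (sig α i) * c (flp j α)) +
    ∑ i : Fin d.n, ((d.az i : ℝ) * sg (sig α i) * c α + (d.ax i : ℝ) * c (flp i α))

lemma finr_HQ {d : XZ} {c : Tn (Orb d.n) N} (h : Rt c) :
    HQ d c = ∑ α, c α * finr_G d c α := by
  have h1 : ∀ m : Fin d.n, (d.az m : ℝ) * ex (dG (Zm m)) c + (d.ax m : ℝ) * ex (dG (Xm m)) c =
      ∑ α, c α * ((d.az m : ℝ) * sg (sig α m) * c α + (d.ax m : ℝ) * c (flp m α)) := by
    intro m
    simp only [ex, dotProduct, h.dG_Zm, h.dG_Xm, Finset.mul_sum, ← Finset.sum_add_distrib]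
    exact Finset.sum_congr rfl fun α _ => by ring
  have h2 : ∀ i j : Fin d.n, (d.zz i j : ℝ) * (dG (Zm i) c ⬝ᵥ dG (Zm j) c) -
      (d.xx i j : ℝ) * (dG (Xm i) c ⬝ᵥ dG (Xm j) c) +
      (d.zx i j : ℝ) * (dG (Zm i) c ⬝ᵥ dG (Xm j) c) =
      ∑ α, c α * ((d.zz i j : ℝ) * (sg (sig α i) * sg (sig α j)) * c α -
        (d.xx i j : ℝ) * c (flp j (flp i α)) + (d.zx i j : ℝ) * sg (sig α i) * c (flp j α)) := by
    intro i j
    simp only [dotProduct, h.dG_Zm, h.dG_Xm]
    rw [finr_XX]
    simp only [Finset.mul_sum, ← Finset.sum_add_distrib, ← Finset.sum_sub_distrib]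
    exact Finset.sum_congr rfl fun α _ => by ring
  unfold HQ finr_G
  simp only [h1, h2]
  rw [add_comm, Finset.sum_comm (s := (univ : Finset (Fin d.n))) (t := (univ : Finset (Lab d.n N)))]
  have h3 : ∀ F : Fin d.n → Fin d.n → Lab d.n N → ℝ,
      ∑ i, ∑ j, ∑ α, F i j α = ∑ α, ∑ i, ∑ j, F i j α := by
    intro F
    rw [Finset.sum_comm (s := (univ : Finset (Lab d.n N)))]
    exact Finset.sum_congr rfl fun i _ => Finset.sum_comm
  rw [h3, ← Finset.sum_add_distrib]
  refine Finset.sum_congr rfl fun α _ => ?_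
  simp only [mul_add (c α) (∑ _, _), Finset.mul_sum]

lemma Rt.nsq_avg {c : Tn (Orb n) N} (h : Rt c) :
    2 ^ n * (c ⬝ᵥ c) = ∑ α : Lab n N with (∀ m, cnt m α = 1), ∑ σ, c (setL α σ) ^ 2 := by
  have := finr_avg h c
  simp only [dotProduct, sq]
  exact this

/-- Write `HQ d c = ∑ α, F α` with `F α = c α * (…)` (reindex the `X X` term by `flp i`), `F`
vanishes off the sector; then `sum_setL`, `sig_setL`, `flp_setL`. -/
lemma Rt.HQ_avg {d : XZ} {c : Tn (Orb d.n) N} (h : Rt c) :
    2 ^ d.n * HQ d c = ∑ α : Lab d.n N with (∀ m, cnt m α = 1), d.Q fun σ => c (setL α σ) := by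
  rw [finr_HQ h, finr_avg h]
  refine Finset.sum_congr rfl fun α hα => ?_
  have hα' : ∀ m, cnt m α = 1 := by simpa using hα
  unfold XZ.Q finr_G
  simp only [sig_setL hα', flp_setL]

theorem Rt.HQ_ge {d : XZ} (hd : d.No) {c : Tn (Orb d.n) N} (h : Rt c) :
    (d.hi : ℝ) * (c ⬝ᵥ c) ≤ HQ d c := by
  have h2 : (0 : ℝ) < 2 ^ d.n := by positivity
  refine le_of_mul_le_mul_left ?_ h2
  rw [h.HQ_avg, mul_left_comm, h.nsq_avg, Finset.mul_sum]
  exact Finset.sum_le_sum fun α _ => hd _

end Crest.Agent.R338.FinM
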