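import Crest.Agent.R338.FinA

/-! Row 338, module FIN: elimination of the cores. -/

set_option autoImplicit false
set_option linter.unusedSectionVars false
set_option linter.unusedVariables false

open Matrix Finset

namespace Crest.Agent.R338.FinM

variable {n N : ℕ}

lemma mo_transpose (m : Fin n) (x y : Fin 3 → ℝ) : (mo m x y)ᵀ = mo m y x := by
  ext a b
  simp only [mo, transpose_apply, of_apply, and_comm, mul_comm]

lemma mo_mul (m : Fin n) (x y z w : Fin 3 → ℝ) : mo m x y * mo m z w = (y ⬝ᵥ z) • mo m x w := by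
  ext a b
  simp only [mo, Matrix.mul_apply, of_apply, Fintype.sum_prod_type, Matrix.smul_apply, smul_eq_mul,
    dotProduct]
  rw [Finset.sum_eq_single m (fun m' _ h => by simp [h]) (by simp)]
  by_cases ha : a.1 = m <;> by_cases hb : b.1 = m <;> simp [ha, hb, Fin.sum_univ_three]
  ring

lemma mo_mul_ne {m m' : Fin n} (h : m ≠ m') (x y z w : Fin 3 → ℝ) : mo m x y * mo m' z w = 0 := by
  ext a b
  simp only [mo, Matrix.mul_apply, of_apply, Matrix.zero_apply]
  refine Finset.sum_eq_zero fun c _ => ?_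
  by_cases hc : c.1 = m
  · rw [if_neg (fun h' : c.1 = m' ∧ _ => h (hc.symm.trans h'.1)), mul_zero]
  · rw [if_neg (fun h' : _ ∧ c.1 = m => hc h'.2), zero_mul]

lemma mo_add_left (m : Fin n) (x x' y : Fin 3 → ℝ) : mo m (x + x') y = mo m x y + mo m x' y := by
  ext a b
  simp only [mo, of_apply, Matrix.add_apply, Pi.add_apply]
  split_ifs <;> ring

lemma mo_add_right (m : Fin n) (x y y' : Fin 3 → ℝ) : mo m x (y + y') = mo m x y + mo m x y' := by
  ext a b
  simp only [mo, of_apply, Matrix.add_apply, Pi.add_apply]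
  split_ifs <;> ring

lemma mo_frob (m : Fin n) (x y : Fin 3 → ℝ) :
    ∑ a, ∑ b, mo m x y a b ^ 2 = (x ⬝ᵥ x) * (y ⬝ᵥ y) := by
  simp only [mo, of_apply, Fintype.sum_prod_type, dotProduct]
  rw [Finset.sum_eq_single m (fun m' _ h => by simp [h]) (by simp), Finset.sum_mul_sum]
  refine Finset.sum_congr rfl fun k _ => ?_
  rw [Finset.sum_eq_single m (fun m' _ h => by simp [h]) (by simp)]
  refine Finset.sum_congr rfl fun l _ => ?_
  simp only [and_self, if_true]
  ring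

/-- The symmetric part of a `p` matrix in terms of `N`, `Z`, `X`. -/
lemma mo_sym (m : Fin n) {u u' : Fin 3 → ℝ} (hu : u 0 = 0) (hu' : u' 0 = 0) :
    mo m u u' + mo m u' u = (u 1 * u' 1 + u 2 * u' 2) • Nm m + (u 1 * u' 1 - u 2 * u' 2) • Zm m +
      (u 1 * u' 2 + u 2 * u' 1) • Xm m := by
  ext ⟨a, k⟩ ⟨b, l⟩
  simp only [Nm, Zm, Xm, mo, of_apply, Matrix.add_apply, Matrix.sub_apply, Matrix.smul_apply,
    smul_eq_mul]
  split_ifs
  · fin_cases k <;> fin_cases l <;> simp [bv, hu, hu'] <;> ring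
  · simp

lemma v_ex_add (A B : Module.End ℝ (Tn (Orb n) N)) (c : Tn (Orb n) N) :
    ex (A + B) c = ex A c + ex B c := by
  simp only [ex, LinearMap.add_apply, dotProduct_add]

lemma v_ex_sub (A B : Module.End ℝ (Tn (Orb n) N)) (c : Tn (Orb n) N) :
    ex (A - B) c = ex A c - ex B c := by
  simp only [ex, LinearMap.sub_apply, dotProduct_sub]

lemma v_ex_smul (r : ℝ) (A : Module.End ℝ (Tn (Orb n) N)) (c : Tn (Orb n) N) :
    ex (r • A) c = r * ex A c := by
  simp only [ex, LinearMap.smul_apply, dotProduct_smul, smul_eq_mul]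

lemma v_dG (A : Matrix (Orb n) (Orb n) ℝ) (c : Tn (Orb n) N) (α : Lab n N) :
    dG A c α = ∑ i, opx i A c α := dG_apply A c α

lemma v_opx (i : Fin N) (m : Fin n) (x y : Fin 3 → ℝ) (c : Tn (Orb n) N) (α : Lab n N) :
    opx i (mo m x y) c α = if (α i).1.1 = m then
      x (α i).1.2 * ∑ k, y k * c (Function.update α i ((m, k), (α i).2)) else 0 := by
  simp only [opx_apply, mo, of_apply, Fintype.sum_prod_type]
  rw [Finset.sum_eq_single m (fun m' _ h => by simp [h]) (by simp)]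
  by_cases h : (α i).1.1 = m
  · simp only [h, and_self, if_true, Finset.mul_sum, mul_assoc]
  · simp [h]

lemma v_opx_ne {i : Fin N} {m : Fin n} {x y : Fin 3 → ℝ} {c : Tn (Orb n) N} {α : Lab n N}
    (h : opx i (mo m x y) c α ≠ 0) : (α i).1.1 = m ∧ x (α i).1.2 ≠ 0 ∧
      ∃ k, y k ≠ 0 ∧ c (Function.update α i ((m, k), (α i).2)) ≠ 0 := by
  rw [v_opx] at h
  split_ifs at h with h1
  · obtain ⟨k, -, hk⟩ := Finset.exists_ne_zero_of_sum_ne_zero (right_ne_zero_of_mul h)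
    exact ⟨h1, left_ne_zero_of_mul h, k, left_ne_zero_of_mul hk, right_ne_zero_of_mul hk⟩
  · exact absurd rfl h

lemma v_opx_diag (i : Fin N) (m : Fin n) (k : Fin 3) (c : Tn (Orb n) N) (α : Lab n N) :
    opx i (mo m (bv k) (bv k)) c α = if (α i).1 = (m, k) then c α else 0 := by
  rw [v_opx, Finset.sum_eq_single k (fun l _ h => by simp [bv, h]) (by simp)]
  by_cases h : (α i).1 = (m, k)
  · rw [if_pos h, if_pos (by rw [h]), ← h, Prod.mk.eta, Function.update_eq_self, h]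
    simp [bv]
  · rw [if_neg h]
    split_ifs with h1
    · have : (α i).1.2 ≠ k := fun h2 => h (Prod.ext h1 h2)
      simp [bv, this]
    · rfl

lemma v_card {c : Tn (Orb n) N} (h : InV c) {α : Lab n N} (hα : c α ≠ 0) (m : Fin n) :
    #{i | (α i).1 = (m, 0)} = 2 := by
  obtain ⟨i, hi⟩ := h.full α hα m 0
  obtain ⟨j, hj⟩ := h.full α hα m 1
  refine Finset.card_eq_two.2 ⟨i, j, fun e => ?_, ?_⟩
  · rw [e, hj] at hi
    simp at hi
  · ext l
    simp only [Finset.mem_filter, Finset.mem_univ, true_and, Finset.mem_insert,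
      Finset.mem_singleton]
    constructor
    · intro hl
      have h2 : ∀ s : Fin 2, s = 0 ∨ s = 1 := by decide
      refine (h2 (α l).2).imp (fun e => h.anti.injective hα ?_) fun e => h.anti.injective hα ?_
      · rw [hi]
        exact Prod.ext hl e
      · rw [hj]
        exact Prod.ext hl e
    · rintro (rfl | rfl)
      · rw [hi]
      · rw [hj]

lemma ex_mo (m : Fin n) {u u' : Fin 3 → ℝ} (hu : u 0 = 0) (hu' : u' 0 = 0) (c : Tn (Orb n) N) :
    ex (dG (mo m u u')) c = (u 1 * u' 1 + u 2 * u' 2) / 2 * ex (dG (Nm m)) c +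
      (u 1 * u' 1 - u 2 * u' 2) / 2 * ex (dG (Zm m)) c +
      (u 1 * u' 2 + u 2 * u' 1) / 2 * ex (dG (Xm m)) c := by
  have h1 := ex_dG_transpose (mo m u u') c
  have h2 := congrArg (fun A => ex (dG A) c) (mo_sym m hu hu')
  simp only [dG_add, dG_smul, v_ex_add, v_ex_smul] at h2
  rw [mo_transpose] at h1
  linarith

lemma dG_Nm (m : Fin n) (c : Tn (Orb n) N) (α : Lab n N) : dG (Nm m) c α = cnt m α * c α := by
  rw [cnt, Finset.card_filter, v_dG, Nat.cast_sum, Finset.sum_mul]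
  refine Finset.sum_congr rfl fun i _ => ?_
  rw [Nm, opx_add, LinearMap.add_apply, Pi.add_apply, v_opx_diag, v_opx_diag]
  generalize (α i).1 = a
  obtain ⟨a, k⟩ := a
  by_cases h : a = m <;> fin_cases k <;> simp [h]

lemma tw_Nm (m : Fin n) (c : Tn (Orb n) N) (α : Lab n N) :
    tw (Nm m) (Nm m) c α = (cnt m α : ℝ) * (cnt m α - 1) * c α := by
  have h : Nm m * Nm m = Nm m := by
    simp [Nm, add_mul, mul_add, mo_mul, bv]
  rw [tw_eq, h, LinearMap.sub_apply, Pi.sub_apply, Module.End.mul_apply, dG_Nm, dG_Nm]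
  ring

/-- Both core spin orbitals are occupied exactly once. -/
lemma InV.core {c : Tn (Orb n) N} (h : InV c) (m : Fin n) :
    dG (mo m (bv 0) (bv 0)) c = (2 : ℝ) • c := by
  funext α
  simp only [v_dG, v_opx_diag, Pi.smul_apply, smul_eq_mul]
  by_cases hα : c α = 0
  · simp [hα]
  · rw [← Finset.sum_filter, Finset.sum_const, v_card h hα]
    simp

/-- No electron can be moved into a full core. -/
lemma InV.kill {c : Tn (Orb n) N} (h : InV c) (m : Fin n) {u : Fin 3 → ℝ} (hu : u 0 = 0) :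
    dG (mo m (bv 0) u) c = 0 := by
  funext α
  by_contra hα
  have hinj := (h.anti.dG _).injective hα
  rw [v_dG] at hα
  obtain ⟨i, -, hi⟩ := Finset.exists_ne_zero_of_sum_ne_zero hα
  obtain ⟨h1, h2, k, h3, h4⟩ := v_opx_ne hi
  obtain ⟨j, hj⟩ := h.full _ h4 m (α i).2
  have hji : j ≠ i := by
    rintro rfl
    rw [Function.update_self] at hj
    exact h3 (by rw [show k = 0 from congrArg (·.1.2) hj, hu])
  rw [Function.update_of_ne hji] at hj
  refine hji (hinj (hj.trans (Prod.ext (Prod.ext h1.symm ?_) rfl)))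
  by_contra h5
  exact h2 (Pi.single_eq_of_ne' h5 _)

lemma InV.pp {c : Tn (Orb n) N} (h : InV c) (m : Fin n) {u u' : Fin 3 → ℝ} (hu : u 0 = 0)
    (hu' : u' 0 = 0) : InV (dG (mo m u u') c) := by
  refine ⟨h.anti.dG _, fun α hα m' s => ?_⟩
  rw [v_dG] at hα
  obtain ⟨i, -, hi⟩ := Finset.exists_ne_zero_of_sum_ne_zero hα
  obtain ⟨h1, h2, k, h3, h4⟩ := v_opx_ne hi
  obtain ⟨j, hj⟩ := h.full _ h4 m' s
  have hji : j ≠ i := by
    rintro rfl
    rw [Function.update_self] at hj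
    exact h3 (by rw [show k = 0 from congrArg (·.1.2) hj, hu'])
  exact ⟨j, by rwa [Function.update_of_ne hji] at hj⟩

lemma InV.v_low {c : Tn (Orb n) N} (h : InV c) (m : Fin n) (u : Fin 3 → ℝ) {u' : Fin 3 → ℝ}
    (hu' : u' 0 = 0) : dG (mo m (bv 0 + u) (bv 0 + u')) c =
      (2 : ℝ) • c + dG (mo m u u') c + dG (mo m u (bv 0)) c := by
  simp only [mo_add_left, mo_add_right, dG_add, LinearMap.add_apply, h.core, h.kill m hu']
  abel

lemma InV.v_R {c : Tn (Orb n) N} (h : InV c) (m : Fin n) {u : Fin 3 → ℝ} (hu : u 0 = 0)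
    (w : Tn (Orb n) N) : c ⬝ᵥ dG (mo m u (bv 0)) w = 0 := by
  rw [dot_dG, mo_transpose, h.kill m hu, zero_dotProduct]

lemma InV.v_two {c : Tn (Orb n) N} (h : InV c) (m m' : Fin n) {u u' : Fin 3 → ℝ}
    (hu : u 0 = 0) (hu' : u' 0 = 0) :
    ex (dG (mo m (bv 0 + u) (bv 0 + u)) * dG (mo m' (bv 0 + u') (bv 0 + u'))) c =
      ((2 : ℝ) • c + dG (mo m u u) c) ⬝ᵥ ((2 : ℝ) • c + dG (mo m' u' u') c) +
        ex (dG (mo m (bv 0) u * mo m' u' (bv 0))) c -
        ex (dG (mo m' u' (bv 0) * mo m (bv 0) u)) c := by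
  have h1 : dG (mo m u (bv 0)) c ⬝ᵥ dG (mo m' u' (bv 0)) c =
      ex (dG (mo m (bv 0) u * mo m' u' (bv 0))) c -
        ex (dG (mo m' u' (bv 0) * mo m (bv 0) u)) c := by
    have := congrArg (ex · c) (dG_comm (N := N) (mo m (bv 0) u) (mo m' u' (bv 0)))
    simp only [v_ex_add, v_ex_sub] at this
    rw [ex, ex, Module.End.mul_apply, Module.End.mul_apply, h.kill m hu, map_zero, dotProduct_zero,
      zero_add, dot_dG, mo_transpose] at this
    exact this
  have h2 : ((2 : ℝ) • c + dG (mo m u u) c) ⬝ᵥ dG (mo m' u' (bv 0)) c = 0 := by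
    rw [add_dotProduct, smul_dotProduct, h.v_R m' hu', (h.pp m hu hu).v_R m' hu', smul_zero,
      add_zero]
  have h3 : dG (mo m u (bv 0)) c ⬝ᵥ ((2 : ℝ) • c + dG (mo m' u' u') c) = 0 := by
    rw [dotProduct_comm, add_dotProduct, smul_dotProduct, h.v_R m hu, (h.pp m' hu' hu').v_R m hu,
      smul_zero, add_zero]
  rw [ex, Module.End.mul_apply, dot_dG, mo_transpose, h.v_low m u hu, h.v_low m' u' hu',
    add_dotProduct, dotProduct_add _ _ (dG (mo m' u' (bv 0)) c),
    dotProduct_add _ _ (dG (mo m' u' (bv 0)) c), h1, h2, h3]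
  ring

lemma InV.ex_one {c : Tn (Orb n) N} (h : InV c) (m : Fin n) {u u' : Fin 3 → ℝ} (hu : u 0 = 0)
    (hu' : u' 0 = 0) :
    ex (dG (mo m (bv 0 + u) (bv 0 + u'))) c = 2 * (c ⬝ᵥ c) + ex (dG (mo m u u')) c := by
  rw [ex, h.v_low m u hu', dotProduct_add, dotProduct_add, dotProduct_smul, h.v_R m hu, add_zero,
    ex, smul_eq_mul]

lemma InV.ex_same {c : Tn (Orb n) N} (h : InV c) (m : Fin n) {u u' : Fin 3 → ℝ} (hu : u 0 = 0)
    (hu' : u' 0 = 0) :
    ex (tw (mo m (bv 0 + u) (bv 0 + u)) (mo m (bv 0 + u') (bv 0 + u'))) c =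
      2 * (c ⬝ᵥ c) + 2 * ex (dG (mo m u u)) c + 2 * ex (dG (mo m u' u')) c -
        2 * ex (dG (mo m u u')) c + ex (tw (mo m u u) (mo m u' u')) c := by
  have e0 : bv 0 ⬝ᵥ bv 0 = 1 := by simp [bv]
  have e1 : (bv 0 + u) ⬝ᵥ (bv 0 + u') = 1 + u ⬝ᵥ u' := by
    simp [bv, hu, hu']
  have e2 : ex (dG (mo m (bv 0) (bv 0))) c = 2 * (c ⬝ᵥ c) := by
    rw [ex, h.core, dotProduct_smul, smul_eq_mul]
  have e3 : ex (dG (mo m u' u)) c = ex (dG (mo m u u')) c := by
    rw [← ex_dG_transpose, mo_transpose]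
  have e4 : ex (dG (mo m u u) * dG (mo m u' u')) c = dG (mo m u u) c ⬝ᵥ dG (mo m u' u') c := by
    rw [ex, Module.End.mul_apply, dot_dG, mo_transpose]
  have e5 : dG (mo m u u) c ⬝ᵥ c = ex (dG (mo m u u)) c := dotProduct_comm _ _
  have e6 : c ⬝ᵥ dG (mo m u' u') c = ex (dG (mo m u' u')) c := rfl
  simp only [tw_eq, v_ex_sub, h.v_two m m hu hu', mo_mul, dG_smul, v_ex_smul, h.ex_one m hu hu',
    e0, e1, e2, e3, e4, e5, e6, add_dotProduct, dotProduct_add, smul_dotProduct, dotProduct_smul,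
    smul_eq_mul]
  ring

lemma InV.ex_diff {c : Tn (Orb n) N} (h : InV c) {m m' : Fin n} (hm : m ≠ m') {u u' : Fin 3 → ℝ}
    (hu : u 0 = 0) (hu' : u' 0 = 0) :
    ex (tw (mo m (bv 0 + u) (bv 0 + u)) (mo m' (bv 0 + u') (bv 0 + u'))) c =
      ((2 : ℝ) • c + dG (mo m u u) c) ⬝ᵥ ((2 : ℝ) • c + dG (mo m' u' u') c) := by
  rw [tw_eq, v_ex_sub, h.v_two m m' hu hu', mo_mul_ne hm, mo_mul_ne hm.symm, mo_mul_ne hm, dG_zero]
  simp [ex]

lemma InV.mc_eq {c : Tn (Orb n) N} (h : InV c) {α : Lab n N} (hα : c α ≠ 0) (m : Fin n) :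
    mc m α = cnt m α + 2 := by
  rw [← v_card h hα m, mc, cnt]
  simp only [Finset.card_filter, ← Finset.sum_add_distrib]
  refine Finset.sum_congr rfl fun i _ => ?_
  generalize (α i).1 = a
  obtain ⟨a, k⟩ := a
  by_cases h1 : a = m <;> by_cases h2 : k = 0 <;> simp [h1, h2]

lemma sum_mc (α : Lab n N) : ∑ m, mc m α = N := by
  have := Finset.card_eq_sum_card_fiberwise (s := univ) (t := univ) (f := fun i => (α i).1.1)
    fun _ _ => mem_univ _
  simpa [mc] using this.symm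

/-- With one `p` electron per molecule there is no `p`-`p` repulsion. -/
lemma Rt.tw_pp {c : Tn (Orb n) N} (h : Rt c) (m : Fin n) (u : Fin 3 → ℝ) {v : Fin 3 → ℝ}
    (u' : Fin 3 → ℝ) {v' : Fin 3 → ℝ} (hv : v 0 = 0) (hv' : v' 0 = 0) :
    tw (mo m u v) (mo m u' v') c = 0 := by
  funext α
  simp only [tw, LinearMap.sum_apply, Finset.sum_apply, Pi.zero_apply]
  refine Finset.sum_eq_zero fun i _ => Finset.sum_eq_zero fun j _ => ?_
  split_ifs with hij
  · rfl
  by_contra h0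
  obtain ⟨-, -, k, h1, h2⟩ := v_opx_ne h0
  obtain ⟨-, -, l, h3, h4⟩ := v_opx_ne h2
  refine hij (Finset.card_le_one.1 (h _ h4 m).le i ?_ j ?_)
  · simp only [Finset.mem_filter, Finset.mem_univ, true_and, Function.update_of_ne hij,
      Function.update_self]
    exact fun e => h1 (by rw [e, hv])
  · simp only [Finset.mem_filter, Finset.mem_univ, true_and, Function.update_self]
    exact fun e => h3 (by rw [e, hv'])

lemma Rt.dG_Nm {c : Tn (Orb n) N} (h : Rt c) (m : Fin n) : dG (Nm m) c = c := by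
  funext α
  rw [FinM.dG_Nm]
  by_cases hα : c α = 0
  · rw [hα, mul_zero]
  · rw [h α hα m, Nat.cast_one, one_mul]

end Crest.Agent.R338.FinM
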