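import Crest.Agent.R338.Step

/-! Row 338: polynomially bounded jets. `PJ k s f x`: for every index `i` the function `f i` is
`C^k` at `x i`, with derivatives bounded by a fixed power of the size `s i`. -/

set_option autoImplicit false

open Crest.MathPhysics.ElectronicCoulomb

namespace Crest.Agent.R338

variable {E : Type} [NormedAddCommGroup E] [NormedSpace ℝ E]

def JB (k : ℕ) (K : ℝ) (f : E → ℝ) (x : E) : Prop :=
  ContDiffAt ℝ k f x ∧ ∀ j ≤ k, ‖iteratedFDeriv ℝ j f x‖ ≤ K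

/-- Polynomially bounded numbers. -/
def PN {I : Type} (s : I → ℝ) (a : I → ℝ) : Prop := ∃ c : ℕ, ∀ i, |a i| ≤ s i ^ c

/-- Polynomially bounded jets. -/
def PJ {I : Type} (k : ℕ) (s : I → ℝ) (f : I → E → ℝ) (x : I → E) : Prop :=
  ∃ c : ℕ, ∀ i, JB k (s i ^ c) (f i) (x i)

theorem sb_iff_jb {k : ℕ} {A : ℝ} {f : Pos3 → ℝ} : SB k A f ↔ ∀ x, JB k A f x := by
  constructor
  · exact fun h x => ⟨h.1.contDiffAt, fun j hj => h.2 j hj x⟩
  · exact fun h => ⟨contDiff_iff_contDiffAt.2 fun x => (h x).1, fun j hj x => (h x).2 j hj⟩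

theorem JB.mono {k k' : ℕ} {K K' : ℝ} {f : E → ℝ} {x : E} (h : JB k K f x) (hk : k' ≤ k)
    (hK : K ≤ K') : JB k' K' f x := by
  exact ⟨h.1.of_le (by exact_mod_cast hk), fun j hj => (h.2 j (hj.trans hk)).trans hK⟩

theorem JB.congr {k : ℕ} {K : ℝ} {f g : E → ℝ} {x : E} (h : JB k K f x) (e : g =ᶠ[nhds x] f) :
    JB k K g x := by
  refine ⟨h.1.congr_of_eventuallyEq e, fun j hj => ?_⟩
  rw [(e.iteratedFDeriv ℝ j).eq_of_nhds]
  exact h.2 j hj

theorem jb_real_iff {k : ℕ} {K : ℝ} {f : ℝ → ℝ} {x : ℝ} :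
    JB k K f x ↔ ContDiffAt ℝ k f x ∧ ∀ j ≤ k, |iteratedDeriv j f x| ≤ K := by
  simp only [JB, norm_iteratedFDeriv_eq_norm_iteratedDeriv, Real.norm_eq_abs]

/-- A function that vanishes near `x`. -/
theorem jb_of_eventually_zero {k : ℕ} {K : ℝ} (hK : 0 ≤ K) {f : E → ℝ} {x : E}
    (h : f =ᶠ[nhds x] fun _ => 0) : JB k K f x := by
  refine JB.congr ⟨contDiffAt_const, fun j _ => ?_⟩ h
  simpa using hK

theorem jb_const (k : ℕ) (t : ℝ) (x : E) : JB k |t| (fun _ => t) x := by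
  refine ⟨contDiffAt_const, fun j _ => ?_⟩
  rcases j with _ | j
  · simp
  · rw [iteratedFDeriv_succ_const]; simp

theorem JB.nonneg {k : ℕ} {K : ℝ} {f : E → ℝ} {x : E} (h : JB k K f x) : 0 ≤ K :=
  (norm_nonneg _).trans (h.2 0 (Nat.zero_le _))

theorem JB.add {k : ℕ} {K K' : ℝ} {f g : E → ℝ} {x : E} (h : JB k K f x) (h' : JB k K' g x) :
    JB k (K + K') (fun y => f y + g y) x := by
  refine ⟨h.1.add h'.1, fun j hj => ?_⟩
  have hj' : (j : WithTop ℕ∞) ≤ k := by exact_mod_cast hj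
  rw [fun_iteratedFDeriv_add_apply (h.1.of_le hj') (h'.1.of_le hj')]
  exact (norm_add_le _ _).trans (add_le_add (h.2 j hj) (h'.2 j hj))

theorem JB.neg {k : ℕ} {K : ℝ} {f : E → ℝ} {x : E} (h : JB k K f x) :
    JB k K (fun y => -f y) x := by
  refine ⟨h.1.neg, fun j hj => ?_⟩
  have : iteratedFDeriv ℝ j (fun y => -f y) x = -iteratedFDeriv ℝ j f x := iteratedFDeriv_neg_apply
  rw [this, norm_neg]
  exact h.2 j hj

theorem jb_sum {k : ℕ} {K : ℝ} {κ : Type} (t : Finset κ) {T : κ → E → ℝ} {x : E}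
    (h : ∀ e ∈ t, JB k K (T e) x) : JB k (t.card * K) (fun y => ∑ e ∈ t, T e y) x := by
  refine ⟨ContDiffAt.sum fun e he => (h e he).1, fun j hj => ?_⟩
  have hj' : (j : WithTop ℕ∞) ≤ k := by exact_mod_cast hj
  rw [iteratedFDeriv_fun_sum_apply fun e he => (h e he).1.of_le hj']
  refine (norm_sum_le _ _).trans ?_
  rw [← nsmul_eq_mul]
  exact Finset.sum_le_card_nsmul _ _ _ fun e he => (h e he).2 j hj

theorem exists_open_contDiffOn {F : Type} [NormedAddCommGroup F] [NormedSpace ℝ F] {k : ℕ}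
    {f : F → ℝ} {x : F} (h : ContDiffAt ℝ k f x) :
    ∃ u, IsOpen u ∧ x ∈ u ∧ ContDiffOn ℝ k f u := by
  obtain ⟨u, hu, hx, hf⟩ := h.contDiffOn' le_rfl (by simp)
  exact ⟨u, hu, hx, by simpa using hf⟩

theorem JB.mul {k : ℕ} {K K' : ℝ} {f g : E → ℝ} {x : E} (h : JB k K f x) (h' : JB k K' g x) :
    JB k (2 ^ k * K * K') (fun y => f y * g y) x := by
  refine ⟨h.1.mul h'.1, fun j hj => ?_⟩
  obtain ⟨u, hu, hxu, hf⟩ := exists_open_contDiffOn h.1
  obtain ⟨v, hv, hxv, hg⟩ := exists_open_contDiffOn h'.1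
  have ho := hu.inter hv
  have hx : x ∈ u ∩ v := ⟨hxu, hxv⟩
  have hb := norm_iteratedFDerivWithin_mul_le (hf.mono Set.inter_subset_left)
    (hg.mono Set.inter_subset_right) ho.uniqueDiffOn hx (n := j) (by exact_mod_cast hj)
  simp only [iteratedFDerivWithin_of_isOpen _ ho hx] at hb
  refine hb.trans ?_
  have hK := h.nonneg
  have hK' := h'.nonneg
  calc _ ≤ ∑ i ∈ Finset.range (j + 1), (j.choose i : ℝ) * K * K' := by
        refine Finset.sum_le_sum fun i hi => ?_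
        have hi' := Finset.mem_range.1 hi
        exact mul_le_mul (mul_le_mul_of_nonneg_left (h.2 i (by omega)) (by positivity))
          (h'.2 _ (by omega)) (norm_nonneg _) (by positivity)
    _ = 2 ^ j * K * K' := by
        rw [← Finset.sum_mul, ← Finset.sum_mul, ← Nat.cast_sum, Nat.sum_range_choose]; push_cast; rfl
    _ ≤ 2 ^ k * K * K' := by gcongr; norm_num

theorem JB.comp {k : ℕ} {C D : ℝ} {F : ℝ → ℝ} {f : E → ℝ} {x : E} (hF : JB k C F (f x))
    (hf : ContDiffAt ℝ k f x) (hD : 1 ≤ D)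
    (h : ∀ j, 1 ≤ j → j ≤ k → ‖iteratedFDeriv ℝ j f x‖ ≤ D) :
    JB k (k.factorial * C * D ^ k) (fun y => F (f y)) x := by
  refine ⟨hF.1.comp x hf, fun j hj => ?_⟩
  obtain ⟨u, hu, hxu, hfu⟩ := exists_open_contDiffOn hf
  obtain ⟨v, hv, hxv, hFv⟩ := exists_open_contDiffOn hF.1
  have ho : IsOpen (u ∩ f ⁻¹' v) := hfu.continuousOn.isOpen_inter_preimage hu hv
  have hx : x ∈ u ∩ f ⁻¹' v := ⟨hxu, hxv⟩
  have hb := norm_iteratedFDerivWithin_comp_le hFv (hfu.mono Set.inter_subset_left) (n := j)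
    (by exact_mod_cast hj) hv.uniqueDiffOn ho.uniqueDiffOn (fun y hy => hy.2) hx (C := C) (D := D)
    (fun i hi => by rw [iteratedFDerivWithin_of_isOpen _ hv hxv]; exact hF.2 i (hi.trans hj))
    (fun i h1 hi => by
      rw [iteratedFDerivWithin_of_isOpen _ ho hx]
      exact (h i h1 (hi.trans hj)).trans (le_self_pow₀ hD (by omega)))
  rw [iteratedFDerivWithin_of_isOpen _ ho hx] at hb
  refine hb.trans ?_
  have hC := hF.nonneg
  have : (j.factorial : ℝ) ≤ k.factorial := by exact_mod_cast Nat.factorial_le hj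
  gcongr

theorem jb_inv {k : ℕ} {D t : ℝ} (ht : t ≠ 0) (hD : 1 ≤ D) (h : |t⁻¹| ≤ D) :
    JB k (k.factorial * D ^ (k + 1)) (Inv.inv : ℝ → ℝ) t := by
  refine jb_real_iff.2 ⟨contDiffAt_inv ℝ ht, fun j hj => ?_⟩
  rw [iteratedDeriv_eq_iterate, iter_deriv_inv,
    show (-1 - j : ℤ) = -((j + 1 : ℕ) : ℤ) by push_cast; ring, zpow_neg, zpow_natCast, ← inv_pow,
    abs_mul, abs_mul, abs_pow, abs_pow, abs_neg, abs_one, one_pow, one_mul, Nat.abs_cast]
  have : (j.factorial : ℝ) ≤ k.factorial := by exact_mod_cast Nat.factorial_le hj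
  calc _ ≤ (k.factorial : ℝ) * D ^ (j + 1) := by gcongr
    _ ≤ _ := by gcongr

theorem norm_iteratedFDeriv_affine (L : E →L[ℝ] ℝ) (b : ℝ) (x : E) {j : ℕ} (hj : 1 ≤ j) :
    ‖iteratedFDeriv ℝ j (fun y => L y + b) x‖ ≤ ‖L‖ := by
  obtain ⟨j, rfl⟩ : ∃ i, j = i + 1 := ⟨j - 1, by omega⟩
  have e : fderiv ℝ (fun y => L y + b) = fun _ => L := by
    funext y; exact (L.hasFDerivAt.add_const b).fderiv
  rw [← norm_iteratedFDeriv_fderiv, e]
  rcases j with _ | j
  · simp
  · rw [iteratedFDeriv_succ_const]; simp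

theorem norm_proj_le (l : Fin 3) : ‖(EuclideanSpace.proj l : Pos3 →L[ℝ] ℝ)‖ ≤ 1 :=
  ContinuousLinearMap.opNorm_le_bound _ zero_le_one fun y => by
    rw [one_mul]; exact PiLp.norm_apply_le y l

variable {I : Type} {s : I → ℝ} {k : ℕ} {f g : I → E → ℝ} {x : I → E} {a b : I → ℝ}

namespace PN

theorem const (hs : ∀ i, 2 ≤ s i) (t : ℝ) : PN s fun _ => t := by
  obtain ⟨c, hc⟩ := pow_unbounded_of_one_lt |t| (one_lt_two (α := ℝ))
  exact ⟨c, fun i => hc.le.trans (pow_le_pow_left₀ zero_le_two (hs i) c)⟩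

theorem self (hs : ∀ i, 2 ≤ s i) : PN s s := by
  exact ⟨1, fun i => by rw [pow_one, abs_of_nonneg (by linarith [hs i])]⟩

theorem of_le (h : PN s b) (e : ∀ i, |a i| ≤ |b i|) : PN s a := by
  obtain ⟨c, hc⟩ := h
  exact ⟨c, fun i => (e i).trans (hc i)⟩

theorem add (hs : ∀ i, 2 ≤ s i) (h : PN s a) (h' : PN s b) : PN s fun i => a i + b i := by
  obtain ⟨c, hc⟩ := h
  obtain ⟨d, hd⟩ := h'
  refine ⟨c + d + 1, fun i => (abs_add_le _ _).trans ?_⟩
  have h1 : 1 ≤ s i := by linarith [hs i]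
  have h2 : s i ^ c ≤ s i ^ (c + d) := pow_le_pow_right₀ h1 (by omega)
  have h3 : s i ^ d ≤ s i ^ (c + d) := pow_le_pow_right₀ h1 (by omega)
  have h4 : 0 ≤ s i ^ (c + d) := by positivity
  rw [pow_succ]
  nlinarith [hc i, hd i, hs i]

theorem sub (hs : ∀ i, 2 ≤ s i) (h : PN s a) (h' : PN s b) : PN s fun i => a i - b i := by
  have := add hs h (b := fun i => -b i) (h'.of_le fun i => (abs_neg _).le)
  simpa only [sub_eq_add_neg] using this

theorem neg (h : PN s a) : PN s fun i => -a i := by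
  exact h.of_le fun i => (abs_neg _).le

theorem mul (h : PN s a) (h' : PN s b) : PN s fun i => a i * b i := by
  obtain ⟨c, hc⟩ := h
  obtain ⟨d, hd⟩ := h'
  refine ⟨c + d, fun i => ?_⟩
  rw [abs_mul, pow_add]
  exact mul_le_mul (hc i) (hd i) (abs_nonneg _) ((abs_nonneg _).trans (hc i))

theorem pow (h : PN s a) (n : ℕ) : PN s fun i => a i ^ n := by
  obtain ⟨c, hc⟩ := h
  refine ⟨c * n, fun i => ?_⟩
  rw [abs_pow, pow_mul]
  exact pow_le_pow_left₀ (abs_nonneg _) (hc i) n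

theorem comp {J : Type} (h : PN s a) (φ : J → I) : PN (fun j => s (φ j)) fun j => a (φ j) := by
  obtain ⟨c, hc⟩ := h
  exact ⟨c, fun j => hc (φ j)⟩

end PN

namespace PJ

theorem of_pn {K : I → ℝ} (hK : PN s K) (h : ∀ i, JB k (K i) (f i) (x i)) : PJ k s f x := by
  obtain ⟨c, hc⟩ := hK
  exact ⟨c, fun i => (h i).mono le_rfl ((le_abs_self _).trans (hc i))⟩

theorem comp_aux (hs : ∀ i, 2 ≤ s i) {F : I → ℝ → ℝ} (hF : PJ k s F fun i => f i (x i))
    (h : PJ k s f x) : PJ k s (fun i y => F i (f i y)) x := by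
  obtain ⟨c, hc⟩ := hF
  obtain ⟨d, hd⟩ := h
  exact of_pn (((PN.const hs (k.factorial : ℝ)).mul ((PN.self hs).pow c)).mul
    (((PN.self hs).pow d).pow k)) fun i =>
      (hc i).comp (hd i).1 (one_le_pow₀ (by linarith [hs i])) fun j _ hj => (hd i).2 j hj

theorem affine_aux (hs : ∀ i, 2 ≤ s i) {L : I → E →L[ℝ] ℝ} (hL : PN s fun i => ‖L i‖)
    (h : PN s fun i => L i (x i) + b i) : PJ k s (fun i y => L i y + b i) x := by
  refine of_pn (K := fun i => ‖L i‖ + |L i (x i) + b i|)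
    (hL.add hs (h.of_le fun i => (abs_abs _).le)) fun i =>
      ⟨((L i).contDiff.add contDiff_const).contDiffAt, fun j _ => ?_⟩
  rcases j with _ | j
  · simp
  · linarith [norm_iteratedFDeriv_affine (L i) (b i) (x i) (j := j + 1) (by omega),
      abs_nonneg (L i (x i) + b i)]

theorem comp_affine_aux (hs : ∀ i, 2 ≤ s i) {L : I → E →L[ℝ] ℝ} {F : I → ℝ → ℝ}
    (hL : PN s fun i => ‖L i‖) (hF : PJ k s F fun i => L i (x i) + b i) :
    PJ k s (fun i y => F i (L i y + b i)) x := by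
  obtain ⟨c, hc⟩ := hF
  obtain ⟨d, hd⟩ := hL
  exact of_pn (((PN.const hs (k.factorial : ℝ)).mul ((PN.self hs).pow c)).mul
    (((PN.self hs).pow d).pow k)) fun i =>
      JB.comp (f := fun y => L i y + b i) (hc i) ((L i).contDiff.add contDiff_const).contDiffAt
        (one_le_pow₀ (by linarith [hs i])) fun j hj _ =>
          (norm_iteratedFDeriv_affine _ _ _ hj).trans ((le_abs_self _).trans (hd i))

theorem val (h : PJ k s f x) : PN s fun i => f i (x i) := by
  obtain ⟨c, hc⟩ := h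
  exact ⟨c, fun i => by simpa using (hc i).2 0 (Nat.zero_le _)⟩

theorem mono (h : PJ k s f x) {k' : ℕ} (hk : k' ≤ k) : PJ k' s f x := by
  obtain ⟨c, hc⟩ := h
  exact ⟨c, fun i => (hc i).mono hk le_rfl⟩

theorem congr (h : PJ k s f x) (e : ∀ i, g i =ᶠ[nhds (x i)] f i) : PJ k s g x := by
  obtain ⟨c, hc⟩ := h
  exact ⟨c, fun i => (hc i).congr (e i)⟩

theorem reindex {J : Type} (h : PJ k s f x) (φ : J → I) :
    PJ k (fun j => s (φ j)) (fun j => f (φ j)) fun j => x (φ j) := by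
  obtain ⟨c, hc⟩ := h
  exact ⟨c, fun j => hc (φ j)⟩

/-- Case distinction on the index. -/
theorem cases (hs : ∀ i, 2 ≤ s i) (P : I → Prop)
    (h1 : PJ k (fun j : {i // P i} => s j) (fun j => f j) fun j => x j)
    (h2 : PJ k (fun j : {i // ¬P i} => s j) (fun j => f j) fun j => x j) : PJ k s f x := by
  obtain ⟨c, hc⟩ := h1
  obtain ⟨d, hd⟩ := h2
  refine ⟨c + d, fun i => ?_⟩
  have h1 : 1 ≤ s i := by linarith [hs i]
  by_cases hP : P i
  · exact (hc ⟨i, hP⟩).mono le_rfl (pow_le_pow_right₀ h1 (by omega))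
  · exact (hd ⟨i, hP⟩).mono le_rfl (pow_le_pow_right₀ h1 (by omega))

theorem of_eventually_zero (hs : ∀ i, 2 ≤ s i) (h : ∀ i, f i =ᶠ[nhds (x i)] fun _ => 0) :
    PJ k s f x := by
  exact ⟨0, fun i => jb_of_eventually_zero (by simp) (h i)⟩

theorem const (hs : ∀ i, 2 ≤ s i) (h : PN s a) : PJ k s (fun i _ => a i) x := by
  exact of_pn (K := fun i => |a i|) (h.of_le fun i => (abs_abs _).le) fun i => jb_const _ _ _

theorem add (hs : ∀ i, 2 ≤ s i) (h : PJ k s f x) (h' : PJ k s g x) :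
    PJ k s (fun i y => f i y + g i y) x := by
  obtain ⟨c, hc⟩ := h
  obtain ⟨d, hd⟩ := h'
  exact of_pn (((PN.self hs).pow c).add hs ((PN.self hs).pow d)) fun i => (hc i).add (hd i)

theorem neg (h : PJ k s f x) : PJ k s (fun i y => -f i y) x := by
  obtain ⟨c, hc⟩ := h
  exact ⟨c, fun i => (hc i).neg⟩

theorem sub (hs : ∀ i, 2 ≤ s i) (h : PJ k s f x) (h' : PJ k s g x) :
    PJ k s (fun i y => f i y - g i y) x := by
  simpa only [sub_eq_add_neg] using add hs h h'.neg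

theorem mul (hs : ∀ i, 2 ≤ s i) (h : PJ k s f x) (h' : PJ k s g x) :
    PJ k s (fun i y => f i y * g i y) x := by
  obtain ⟨c, hc⟩ := h
  obtain ⟨d, hd⟩ := h'
  exact of_pn (((PN.const hs (2 ^ k)).mul ((PN.self hs).pow c)).mul ((PN.self hs).pow d))
    fun i => (hc i).mul (hd i)

theorem pow (hs : ∀ i, 2 ≤ s i) (h : PJ k s f x) (n : ℕ) : PJ k s (fun i y => f i y ^ n) x := by
  induction n with
  | zero => simpa using const (k := k) (x := x) hs (PN.const hs 1)
  | succ n ih => simpa only [pow_succ] using mul hs ih h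

theorem inv (hs : ∀ i, 2 ≤ s i) (h : PJ k s f x) (h0 : ∀ i, f i (x i) ≠ 0)
    (h' : PN s fun i => (f i (x i))⁻¹) : PJ k s (fun i y => (f i y)⁻¹) x := by
  obtain ⟨d, hd⟩ := h'
  have hF : PJ k s (fun _ => (Inv.inv : ℝ → ℝ)) fun i => f i (x i) :=
    of_pn ((PN.const hs (k.factorial : ℝ)).mul (((PN.self hs).pow d).pow (k + 1))) fun i =>
      jb_inv (h0 i) (one_le_pow₀ (by linarith [hs i])) (hd i)
  exact comp_aux hs hF h

theorem div (hs : ∀ i, 2 ≤ s i) (h : PJ k s f x) (hg : PJ k s g x) (h0 : ∀ i, g i (x i) ≠ 0)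
    (h' : PN s fun i => (g i (x i))⁻¹) : PJ k s (fun i y => f i y / g i y) x := by
  simpa only [div_eq_mul_inv] using mul hs h (inv hs hg h0 h')

/-- Composition with real functions. -/
theorem comp (hs : ∀ i, 2 ≤ s i) {F : I → ℝ → ℝ} (hF : PJ k s F fun i => f i (x i))
    (h : PJ k s f x) : PJ k s (fun i y => F i (f i y)) x := by
  exact comp_aux hs hF h

/-- Sums of polynomially many terms. -/
theorem sum (hs : ∀ i, 2 ≤ s i) {κ : I → Type} (t : (i : I) → Finset (κ i))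
    (ht : PN s fun i => ((t i).card : ℝ)) {T : (i : I) → κ i → E → ℝ}
    (h : PJ k (fun j : Σ i, {e : κ i // e ∈ t i} => s j.1) (fun j => T j.1 j.2.1) fun j => x j.1) :
    PJ k s (fun i y => ∑ e ∈ t i, T i e y) x := by
  obtain ⟨c, hc⟩ := h
  exact of_pn (ht.mul ((PN.self hs).pow c)) fun i =>
    jb_sum (t i) fun e he => hc ⟨i, ⟨e, he⟩⟩

theorem id (hs : ∀ i, 2 ≤ s i) {x : I → ℝ} (h : PN s x) : PJ k s (fun _ y => y) x := by
  have h1 : PJ k s (fun _ (y : ℝ) => (ContinuousLinearMap.id ℝ ℝ) y + 0) x :=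
    affine_aux hs (L := fun _ => ContinuousLinearMap.id ℝ ℝ) (b := fun _ => 0)
      ((PN.const hs 1).of_le fun i => by simp) (by simpa using h)
  simpa using h1

theorem coord (hs : ∀ i, 2 ≤ s i) {x : I → Pos3} (l : Fin 3) (h : PN s fun i => x i l) :
    PJ k s (fun _ y => y l) x := by
  have h1 : PJ k s (fun _ (y : Pos3) => (EuclideanSpace.proj l : Pos3 →L[ℝ] ℝ) y + 0) x :=
    affine_aux hs (L := fun _ => (EuclideanSpace.proj l : Pos3 →L[ℝ] ℝ)) (b := fun _ => 0)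
      ((PN.const hs 1).of_le fun i => by simpa using norm_proj_le l) (by simpa using h)
  simpa using h1

/-- A real function of one coordinate, no bound on the point needed. -/
theorem comp_coord (hs : ∀ i, 2 ≤ s i) {x : I → Pos3} (l : Fin 3) {F : I → ℝ → ℝ}
    (hF : PJ k s F fun i => x i l - a i) : PJ k s (fun i y => F i (y l - a i)) x := by
  have h1 := comp_affine_aux hs (L := fun _ => (EuclideanSpace.proj l : Pos3 →L[ℝ] ℝ))
    (b := fun i => -a i) (x := x) (F := F)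
    ((PN.const hs 1).of_le fun i => by simpa using norm_proj_le l)
    (by simp only [sub_eq_add_neg] at hF; exact hF)
  simp only [sub_eq_add_neg]
  exact h1

/-- Affine substitutions, no bound on the point needed. -/
theorem comp_affine (hs : ∀ i, 2 ≤ s i) {x : I → ℝ} {F : I → ℝ → ℝ} (ha : PN s a)
    (hF : PJ k s F fun i => a i * x i + b i) : PJ k s (fun i y => F i (a i * y + b i)) x := by
  have h1 := comp_affine_aux hs (L := fun i => a i • ContinuousLinearMap.id ℝ ℝ) (b := b) (x := x)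
    (F := F) (ha.of_le fun i => by simp [norm_smul]) (by simpa using hF)
  simpa using h1

theorem deriv {F : I → ℝ → ℝ} {x : I → ℝ} (h : PJ (k + 1) s F x) :
    PJ k s (fun i => deriv (F i)) x := by
  obtain ⟨c, hc⟩ := h
  refine ⟨c, fun i => ?_⟩
  obtain ⟨h1, h2⟩ := jb_real_iff.1 (hc i)
  refine jb_real_iff.2 ⟨?_, fun j hj => ?_⟩
  · have h3 : ContDiffAt ℝ k (fderiv ℝ (F i)) (x i) := h1.fderiv_right (by push_cast; rfl)
    exact h3.clm_apply contDiffAt_const
  · rw [← iteratedDeriv_succ']; exact h2 (j + 1) (by omega)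

theorem of_deriv (hs : ∀ i, 2 ≤ s i) {F F' : I → ℝ → ℝ} {x : I → ℝ}
    (hd : ∀ i, ∀ᶠ y in nhds (x i), HasDerivAt (F i) (F' i y) y) (h : PJ k s F' x)
    (h0 : PN s fun i => F i (x i)) : PJ (k + 1) s F x := by
  obtain ⟨c, hc⟩ := h
  refine of_pn (K := fun i => s i ^ c + |F i (x i)|)
    (((PN.self hs).pow c).add hs (h0.of_le fun i => (abs_abs _).le)) fun i => ?_
  obtain ⟨h1, h2⟩ := jb_real_iff.1 (hc i)
  have hp : 0 ≤ s i ^ c := pow_nonneg (by linarith [hs i]) c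
  refine jb_real_iff.2 ⟨?_, fun j hj => ?_⟩
  · push_cast
    refine contDiffAt_succ_iff_hasFDerivAt.2
      ⟨fun y => ContinuousLinearMap.toSpanSingleton ℝ (F' i y), ⟨_, hd i, fun y hy => hy.hasFDerivAt⟩, ?_⟩
    exact (ContinuousLinearMap.toSpanSingletonCLE (𝕜 := ℝ) (E := ℝ)).contDiff.contDiffAt.comp _ h1
  · rcases j with _ | j
    · rw [iteratedDeriv_zero]; linarith
    · have e : _root_.deriv (F i) =ᶠ[nhds (x i)] F' i := (hd i).mono fun y hy => hy.deriv
      rw [iteratedDeriv_succ', e.iteratedDeriv_eq]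
      linarith [h2 j (by omega), abs_nonneg (F i (x i))]

/-- Solutions of `F' = G F`. -/
theorem of_ode (hs : ∀ i, 2 ≤ s i) {F G : I → ℝ → ℝ} {x : I → ℝ}
    (hd : ∀ i, ∀ᶠ y in nhds (x i), HasDerivAt (F i) (G i y * F i y) y) (h : PJ k s G x)
    (h0 : PN s fun i => F i (x i)) : PJ (k + 1) s F x := by
  have key : ∀ j ≤ k + 1, PJ j s F x := by
    intro j
    induction j with
    | zero =>
      intro _
      refine of_pn (K := fun i => |F i (x i)|) (h0.of_le fun i => (abs_abs _).le) fun i => ?_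
      refine jb_real_iff.2 ⟨?_, fun j hj => ?_⟩
      · exact contDiffAt_zero.2 ⟨_, hd i, fun y hy => hy.continuousAt.continuousWithinAt⟩
      · rw [Nat.le_zero.1 hj, iteratedDeriv_zero]
    | succ j ih =>
      intro hj
      exact of_deriv hs hd (mul hs (h.mono (by omega)) (ih (by omega))) h0
  exact key _ le_rfl

theorem Sd (hs : ∀ i, 2 ≤ s i) {j : ℕ} (h : j + k ≤ 9) (x : I → ℝ) :
    PJ k s (fun _ => Sd j) x := by
  refine of_pn (PN.const hs (10 ^ 21)) fun i => jb_real_iff.2 ⟨(Sd_contDiff h).contDiffAt, ?_⟩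
  intro m hm
  rw [Sd_iteratedDeriv (by omega)]
  exact Sd_abs_le (by omega) _

theorem bs (hs : ∀ i, 2 ≤ s i) (hk : k ≤ 8) (h : PN s fun i => (a i)⁻¹) (x : I → ℝ) :
    PJ k s (fun i => bs (a i)) x := by
  have h1 := comp_affine (k := k) hs (x := x) (F := fun _ => R338.Sd 1) (b := fun _ => 1 / 2) h
    (Sd hs (by omega) _)
  refine (mul hs h1 (const hs h)).congr fun i => Filter.Eventually.of_forall fun y => ?_
  simp only [R338.bs, div_eq_mul_inv, mul_comm y]

theorem cut (hs : ∀ i, 2 ≤ s i) (hk : k ≤ 9) (h : PN s fun i => (b i)⁻¹) (x : I → ℝ) :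
    PJ k s (fun i => cut (a i) (b i)) x := by
  have h1 := comp_affine (k := k) hs (x := x) (F := fun _ => R338.Sd 0)
    (b := fun i => (a i + b i) / b i) h.neg (Sd hs (by omega) _)
  have h2 := comp_affine (k := k) hs (x := x) (F := fun _ => R338.Sd 0)
    (b := fun i => (a i + b i) / b i) h (Sd hs (by omega) _)
  refine (mul hs h1 h2).congr fun i => Filter.Eventually.of_forall fun y => ?_
  simp only [R338.cut]
  congr 2 <;> ring

end PJ

end Crest.Agent.R338
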