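import Crest.Agent.R338.SL
import Crest.Agent.R338.JB

/-! Row 338: the operator attached to a hazard function `r`. -/

set_option autoImplicit false

open MeasureTheory

namespace Crest.Agent.R338

noncomputable def hzP (r : ℝ → ℝ) (x : ℝ) : ℝ := Real.exp (-∫ t in (0 : ℝ)..x, r t)

noncomputable def hzS (lam : ℝ) (r : ℝ → ℝ) (x : ℝ) : ℝ :=
  (deriv r x - 2 * lam) / (2 * r x) - r x / 2

/-- The potential `(σ' + σ²) / 2` in terms of the two-jet of `r`. -/
noncomputable def hzW0 (lam r0 r1 r2 : ℝ) : ℝ :=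
  (r2 / (2 * r0) - (r1 - 2 * lam) * r1 / (2 * r0 ^ 2) - r1 / 2 +
    ((r1 - 2 * lam) / (2 * r0) - r0 / 2) ^ 2) / 2

noncomputable def hzW (lam : ℝ) (r : ℝ → ℝ) (x : ℝ) : ℝ :=
  hzW0 lam (r x) (deriv r x) (deriv (deriv r) x)

noncomputable def hzF0 (lam : ℝ) (r : ℝ → ℝ) (x : ℝ) : ℝ :=
  Real.exp (∫ t in (0 : ℝ)..x, hzS lam r t)

noncomputable def hzG0 (lam : ℝ) (r : ℝ → ℝ) (x : ℝ) : ℝ := r x * hzP r x / hzF0 lam r x ^ 2

/-- The ground state, normalised by `hzG x₀ = 1`. -/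
noncomputable def hzF (lam x₀ : ℝ) (r : ℝ → ℝ) (x : ℝ) : ℝ := √(hzG0 lam r x₀) * hzF0 lam r x

noncomputable def hzG (lam x₀ : ℝ) (r : ℝ → ℝ) (x : ℝ) : ℝ := hzG0 lam r x / hzG0 lam r x₀

structure Haz (lam ε : ℝ) (r : ℝ → ℝ) : Prop where
  lam_pos : 0 < lam
  ε_pos : 0 < ε
  smooth : ContDiff ℝ 8 r
  odd : ∀ x, r (-x) = -r x
  near : ∀ x, |x| ≤ ε → r x = 2 * lam * x
  pos : ∀ x, 0 < x → 0 < r x

variable {lam ε x₀ : ℝ} {r : ℝ → ℝ}

theorem hz_odd_int {f : ℝ → ℝ} (h : ∀ x, f (-x) = -f x) (x : ℝ) :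
    ∫ t in (0 : ℝ)..(-x), f t = ∫ t in (0 : ℝ)..x, f t := by
  have := intervalIntegral.integral_comp_neg (a := x) (b := 0) f
  simp only [h, neg_zero, intervalIntegral.integral_neg] at this
  rw [← this, intervalIntegral.integral_symm x 0]

theorem hzP_pos (r : ℝ → ℝ) (x : ℝ) : 0 < hzP r x := Real.exp_pos _

theorem hzF0_pos (lam : ℝ) (r : ℝ → ℝ) (x : ℝ) : 0 < hzF0 lam r x := Real.exp_pos _

namespace Haz

theorem r_ne (h : Haz lam ε r) {x : ℝ} (hx : x ≠ 0) : r x ≠ 0 := by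
  rcases hx.lt_or_gt with h1 | h1
  · have := h.pos (-x) (neg_pos.2 h1)
    rw [h.odd] at this
    exact (neg_pos.1 this).ne
  · exact (h.pos x h1).ne'

theorem c1 (h : Haz lam ε r) : ContDiff ℝ 7 (deriv r) := ContDiff.deriv' (n := 7) h.smooth

theorem c2 (h : Haz lam ε r) : ContDiff ℝ 6 (deriv (deriv r)) := ContDiff.deriv' (n := 6) h.c1

theorem d1 (h : Haz lam ε r) (x : ℝ) : HasDerivAt r (deriv r x) x :=
  (h.smooth.differentiable (by norm_num) x).hasDerivAt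

theorem d2 (h : Haz lam ε r) (x : ℝ) : HasDerivAt (deriv r) (deriv (deriv r) x) x :=
  (h.c1.differentiable (by norm_num) x).hasDerivAt

theorem ev {x : ℝ} (hx : |x| < ε) : ∀ᶠ y in nhds x, |y| < ε :=
  continuous_abs.continuousAt.eventually_lt continuousAt_const hx

theorem r1_near (h : Haz lam ε r) {x : ℝ} (hx : |x| < ε) : deriv r x = 2 * lam := by
  rw [Filter.EventuallyEq.deriv_eq ((ev hx).mono fun y hy => h.near y hy.le)]
  simp

theorem r2_near (h : Haz lam ε r) {x : ℝ} (hx : |x| < ε) : deriv (deriv r) x = 0 := by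
  rw [Filter.EventuallyEq.deriv_eq ((ev hx).mono fun y hy => h.r1_near hy)]
  simp

theorem S_near (h : Haz lam ε r) {x : ℝ} (hx : |x| < ε) : hzS lam r x = -lam * x := by
  rw [hzS, h.r1_near hx, h.near x hx.le]
  ring

theorem abs0 (h : Haz lam ε r) : |(0 : ℝ)| < ε := by simpa using h.ε_pos

theorem S_odd (h : Haz lam ε r) (x : ℝ) : hzS lam r (-x) = -hzS lam r x := by
  have := deriv_comp_neg r x
  simp only [h.odd, deriv.fun_neg, neg_inj] at this
  rw [hzS, hzS, h.odd, ← this]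
  ring

theorem S_key (h : Haz lam ε r) (x : ℝ) :
    2 * hzS lam r x * r x = deriv r x - 2 * lam - r x ^ 2 := by
  rcases eq_or_ne x 0 with rfl | hx
  · rw [h.r1_near h.abs0, h.near 0 h.abs0.le]
    ring
  · have := h.r_ne hx
    rw [hzS]
    field_simp

theorem dS (h : Haz lam ε r) (x : ℝ) :
    HasDerivAt (hzS lam r) (2 * hzW lam r x - hzS lam r x ^ 2) x := by
  rcases eq_or_ne x 0 with rfl | hx
  · refine HasDerivAt.congr_of_eventuallyEq ?_ ((ev h.abs0).mono fun y hy => h.S_near hy)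
    refine ((hasDerivAt_id 0).const_mul (-lam)).congr_deriv ?_
    rw [hzW, hzW0, hzS, h.r1_near h.abs0, h.r2_near h.abs0]
    ring
  · have := h.r_ne hx
    refine ((((h.d2 x).sub_const (2 * lam)).div ((h.d1 x).const_mul 2)
      (mul_ne_zero two_ne_zero this)).sub ((h.d1 x).div_const 2)).congr_deriv ?_
    rw [hzW, hzW0, hzS]
    field_simp
    ring

theorem S_cont (h : Haz lam ε r) : Continuous (hzS lam r) :=
  continuous_iff_continuousAt.2 fun x => (h.dS x).continuousAt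

theorem W_cont (h : Haz lam ε r) : Continuous (hzW lam r) := by
  refine continuous_iff_continuousAt.2 fun x => ?_
  rcases eq_or_ne x 0 with rfl | hx
  · refine ContinuousAt.congr (f := fun y => (lam ^ 2 * y ^ 2 - lam) / 2) (by fun_prop)
      ((ev h.abs0).mono fun y hy => ?_)
    simp only [hzW, hzW0, h.r1_near hy, h.r2_near hy, h.near y hy.le]
    ring
  · have := h.r_ne hx
    have h0 := h.smooth.continuous
    have h1 := h.c1.continuous
    have h2 := h.c2.continuous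
    unfold hzW hzW0
    fun_prop (disch := positivity)

theorem dP (h : Haz lam ε r) (x : ℝ) : HasDerivAt (hzP r) (-(r x * hzP r x)) x :=
  ((h.smooth.continuous.integral_hasStrictDerivAt 0 x).hasDerivAt.neg.exp).congr_deriv (by
    rw [hzP]; simp [mul_comm])

theorem dF0 (h : Haz lam ε r) (x : ℝ) :
    HasDerivAt (hzF0 lam r) (hzS lam r x * hzF0 lam r x) x :=
  ((h.S_cont.integral_hasStrictDerivAt 0 x).hasDerivAt.exp).congr_deriv (mul_comm _ _)

theorem dG0 (h : Haz lam ε r) (x : ℝ) :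
    HasDerivAt (hzG0 lam r) (2 * lam * hzP r x / hzF0 lam r x ^ 2) x := by
  have := (hzF0_pos lam r x).ne'
  refine (((h.d1 x).mul (h.dP x)).div ((h.dF0 x).pow 2) (pow_ne_zero 2 this)).congr_deriv ?_
  simp only [Pi.pow_apply, Pi.mul_apply]
  field_simp
  linear_combination (-hzF0 lam r x * hzP r x) * h.S_key x

theorem G0_pos (h : Haz lam ε r) {x : ℝ} (hx : 0 < x) : 0 < hzG0 lam r x :=
  div_pos (mul_pos (h.pos x hx) (hzP_pos r x)) (pow_pos (hzF0_pos lam r x) 2)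

theorem F_sq (h : Haz lam ε r) (hx : 0 < x₀) (x : ℝ) :
    hzF lam x₀ r x ^ 2 = hzG0 lam r x₀ * hzF0 lam r x ^ 2 := by
  rw [hzF, mul_pow, Real.sq_sqrt (h.G0_pos hx).le]

theorem P_even (h : Haz lam ε r) (x : ℝ) : hzP r (-x) = hzP r x := by
  rw [hzP, hz_odd_int h.odd, hzP]

theorem F0_even (h : Haz lam ε r) (x : ℝ) : hzF0 lam r (-x) = hzF0 lam r x := by
  rw [hzF0, hz_odd_int h.S_odd, hzF0]

theorem F0_near (h : Haz lam ε r) {x : ℝ} (hx : |x| ≤ ε) : hzF0 lam r x ^ 2 = hzP r x := by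
  have h1 : Set.EqOn r (fun t => -2 * hzS lam r t) (closure (Set.Ioo (-ε) ε)) :=
    Set.EqOn.closure (fun t ht => by
      simp only [h.S_near (abs_lt.2 ht), h.near t (abs_lt.2 ht).le]; ring)
      h.smooth.continuous (continuous_const.mul h.S_cont)
  rw [closure_Ioo (by linarith [h.ε_pos])] at h1
  rw [hzP, intervalIntegral.integral_congr (h1.mono (Set.uIcc_subset_Icc (abs_le.1 h.abs0.le)
    (abs_le.1 hx))), intervalIntegral.integral_const_mul, hzF0, ← Real.exp_nat_mul]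
  congr 1
  push_cast
  ring

theorem G0_near (h : Haz lam ε r) {x : ℝ} (hx : |x| ≤ ε) : hzG0 lam r x = 2 * lam * x := by
  rw [hzG0, h.F0_near hx, mul_div_cancel_right₀ _ (hzP_pos r x).ne', h.near x hx]

end Haz

theorem Haz.fg (h : Haz lam ε r) (hx : 0 < x₀) (x : ℝ) :
    hzF lam x₀ r x ^ 2 * hzG lam x₀ r x = r x * hzP r x := by
  have h1 := (h.G0_pos hx).ne'
  have h2 := (hzF0_pos lam r x).ne'
  rw [h.F_sq hx, hzG, show hzG0 lam r x = r x * hzP r x / hzF0 lam r x ^ 2 from rfl]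
  field_simp

theorem Haz.sl (h : Haz lam ε r) (hx : 0 < x₀) :
    SL lam (hzF lam x₀ r) (fun x => hzS lam r x * hzF lam x₀ r x) (hzG lam x₀ r) (hzP r)
      (hzW lam r) := by
  have dF : ∀ x, HasDerivAt (hzF lam x₀ r) (hzS lam r x * hzF lam x₀ r x) x := fun x =>
    ((h.dF0 x).const_mul _).congr_deriv (mul_left_comm _ _ _)
  refine ⟨h.lam_pos, fun x => mul_pos (Real.sqrt_pos.2 (h.G0_pos hx)) (hzF0_pos _ _ _),
    fun x => by rw [hzF, h.F0_even, hzF], dF, fun x => ((h.dS x).mul (dF x)).congr_deriv (by ring),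
    h.W_cont, fun x => ?_, fun x => ((h.dG0 x).div_const _).congr_deriv ?_, hzP_pos r, h.P_even,
    fun x => by rw [h.fg hx]; exact h.dP x⟩
  · rw [hzG, hzG, show hzG0 lam r x = r x * hzP r x / hzF0 lam r x ^ 2 from rfl,
      show hzG0 lam r (-x) = r (-x) * hzP r (-x) / hzF0 lam r (-x) ^ 2 from rfl, h.odd, h.P_even,
      h.F0_even]
    ring
  · rw [h.F_sq hx, div_div, mul_comm (hzG0 lam r x₀)]

theorem Haz.g_one (h : Haz lam ε r) (hx : 0 < x₀) : hzG lam x₀ r x₀ = 1 := by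
  exact div_self (h.G0_pos hx).ne'

theorem Haz.g_pos (h : Haz lam ε r) (hx : 0 < x₀) {x : ℝ} (h' : 0 < x) : 0 < hzG lam x₀ r x := by
  exact div_pos (h.G0_pos h') (h.G0_pos hx)

theorem Haz.dg (h : Haz lam ε r) (hx : 0 < x₀) {x : ℝ} (h' : x ≠ 0) :
    HasDerivAt (hzG lam x₀ r) (2 * lam / r x * hzG lam x₀ r x) x := by
  refine ((h.sl hx).dg x).congr_deriv ?_
  have h1 := h.r_ne h'
  have h2 := ((h.sl hx).φ_pos x).ne'
  field_simp
  linear_combination (-lam) * h.fg hx x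

theorem Haz.g_exp (h : Haz lam ε r) (hx : 0 < x₀) {a b : ℝ} (ha : 0 < a) (hb : 0 < b) :
    hzG lam x₀ r b = hzG lam x₀ r a * Real.exp (∫ t in a..b, 2 * lam / r t) := by
  have hp : ∀ t ∈ Set.uIcc a b, 0 < t := fun t ht => (lt_min ha hb).trans_le ht.1
  rw [intervalIntegral.integral_eq_sub_of_hasDerivAt (f := fun t => Real.log (hzG lam x₀ r t))
    (fun t ht => ((h.dg hx (hp t ht).ne').log (h.g_pos hx (hp t ht)).ne').congr_deriv
      (mul_div_cancel_right₀ _ (h.g_pos hx (hp t ht)).ne'))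
    (continuousOn_const.div h.smooth.continuous.continuousOn
      fun t ht => h.r_ne (hp t ht).ne').intervalIntegrable,
    Real.exp_sub, Real.exp_log (h.g_pos hx hb), Real.exp_log (h.g_pos hx ha),
    mul_div_cancel₀ _ (h.g_pos hx ha).ne']

theorem Haz.g_near (h : Haz lam ε r) (hx : 0 < x₀) {x : ℝ} (h' : |x| ≤ ε) :
    hzG lam x₀ r x = x * (hzG lam x₀ r ε / ε) := by
  have := h.ε_pos.ne'
  rw [hzG, hzG, h.G0_near h', h.G0_near (abs_of_pos h.ε_pos).le]
  field_simp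

theorem Haz.f_near (h : Haz lam ε r) (hx : 0 < x₀) {x : ℝ} (h' : |x| ≤ ε) :
    hzF lam x₀ r x ^ 2 = 2 * lam * ε * hzP r x / hzG lam x₀ r ε := by
  have h1 := h.ε_pos.ne'
  have h2 := h.lam_pos.ne'
  have h3 := (h.G0_pos hx).ne'
  rw [h.F_sq hx, h.F0_near h', hzG, h.G0_near (abs_of_pos h.ε_pos).le]
  field_simp

theorem hzP_zero (r : ℝ → ℝ) : hzP r 0 = 1 := by
  simp [hzP]

theorem Haz.p_le_one (h : Haz lam ε r) (x : ℝ) : hzP r x ≤ 1 := by
  wlog hx : 0 ≤ x generalizing x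
  · exact h.P_even x ▸ this (-x) (by linarith)
  refine Real.exp_le_one_iff.2 (neg_nonpos.2 (intervalIntegral.integral_nonneg hx fun t ht => ?_))
  rcases ht.1.eq_or_lt with rfl | h1
  · exact ((h.near 0 h.abs0.le).trans (mul_zero _)).ge
  · exact (h.pos t h1).le

theorem Haz.abs_r (h : Haz lam ε r) (x : ℝ) : |r (|x|)| = |r x| := by
  rcases abs_choice x with e | e <;> rw [e]
  rw [h.odd, abs_neg]

theorem Haz.abs_g (h : Haz lam ε r) (hx : 0 < x₀) (x : ℝ) :
    |hzG lam x₀ r (|x|)| = |hzG lam x₀ r x| := by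
  rcases abs_choice x with e | e <;> rw [e]
  rw [(h.sl hx).g_odd, abs_neg]

theorem Haz.f_le (h : Haz lam ε r) (hx : 0 < x₀) (x : ℝ) :
    |hzF lam x₀ r x| ≤ |1 + (2 * lam * ε + |r x|) * (hzG lam x₀ r ε)⁻¹| := by
  have h1 := h.g_pos hx h.ε_pos
  have h2 := h.lam_pos
  have h3 := h.ε_pos
  have h4 : hzF lam x₀ r x ^ 2 ≤ (2 * lam * ε + |r x|) * (hzG lam x₀ r ε)⁻¹ := by
    rw [← div_eq_mul_inv]
    rcases le_total |x| ε with h' | h'
    · rw [h.f_near hx h']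
      gcongr
      exact (mul_le_of_le_one_right (by positivity) (h.p_le_one x)).trans
        (le_add_of_nonneg_right (abs_nonneg _))
    · have hm : Monotone (hzG lam x₀ r) := monotone_of_deriv_nonneg
        (fun t => ((h.sl hx).dg t).differentiableAt) fun t => by
          rw [((h.sl hx).dg t).deriv]
          have := hzP_pos r t
          positivity
      have h5 := congrArg abs (h.fg hx x)
      rw [abs_mul, abs_mul, ← h.abs_g hx, abs_sq, abs_of_pos (hzP_pos r x)] at h5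
      rw [le_div_iff₀ h1]
      calc _ ≤ hzF lam x₀ r x ^ 2 * |hzG lam x₀ r (|x|)| :=
            mul_le_mul_of_nonneg_left ((hm h').trans (le_abs_self _)) (sq_nonneg _)
        _ ≤ |r x| := h5.trans_le (mul_le_of_le_one_right (abs_nonneg _) (h.p_le_one x))
        _ ≤ _ := le_add_of_nonneg_left (by positivity)
  refine le_trans ?_ (le_abs_self _)
  nlinarith [sq_abs (hzF lam x₀ r x), sq_nonneg (|hzF lam x₀ r x| - 1)]

/-- Polynomial bounds on `|x| ≤ R`. -/
theorem haz_pj {I : Type} {s : I → ℝ} (hs : ∀ i, 2 ≤ s i) {lam ε x₀ R : I → ℝ} {r : I → ℝ → ℝ}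
    (hH : ∀ i, Haz (lam i) (ε i) (r i)) (hx : ∀ i, 0 < x₀ i) (hR : ∀ i, ε i ≤ R i)
    (h1 : PN s lam) (h2 : PN s fun i => (lam i)⁻¹) (h3 : PN s ε) (h4 : PN s fun i => (ε i)⁻¹)
    (h5 : PJ 8 (fun j : Σ i, {x : ℝ // |x| ≤ R i} => s j.1) (fun j => r j.1) fun j => j.2.1)
    (h6 : PN (fun j : Σ i, {x : ℝ // ε i ≤ x ∧ x ≤ R i} => s j.1) fun j => (r j.1 j.2.1)⁻¹)
    (h7 : PN (fun j : Σ i, {x : ℝ // ε i ≤ x ∧ x ≤ R i} => s j.1)
      fun j => hzG (lam j.1) (x₀ j.1) (r j.1) j.2.1)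
    (h8 : PN s fun i => (hzG (lam i) (x₀ i) (r i) (ε i))⁻¹) :
    PJ 7 (fun j : Σ i, {x : ℝ // |x| ≤ R i} => s j.1) (fun j => hzS (lam j.1) (r j.1))
        (fun j => j.2.1) ∧
      PJ 6 (fun j : Σ i, {x : ℝ // |x| ≤ R i} => s j.1) (fun j => hzW (lam j.1) (r j.1))
        (fun j => j.2.1) ∧
      PJ 4 (fun j : Σ i, {x : ℝ // |x| ≤ R i} => s j.1) (fun j => hzF (lam j.1) (x₀ j.1) (r j.1))
        (fun j => j.2.1) ∧
      PJ 4 (fun j : Σ i, {x : ℝ // |x| ≤ R i} => s j.1) (fun j => hzG (lam j.1) (x₀ j.1) (r j.1))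
        (fun j => j.2.1) := by
  let J := Σ i, {x : ℝ // |x| ≤ R i}
  let N := {j : J // |j.2.1| < ε j.1}
  let N' := {j : J // ¬ |j.2.1| < ε j.1}
  have hJ : ∀ j : J, 2 ≤ s j.1 := fun j => hs _
  have hN : ∀ j : N, 2 ≤ s j.1.1 := fun j => hs _
  have hN' : ∀ j : N', 2 ≤ s j.1.1 := fun j => hs _
  let φ : N' → Σ i, {x : ℝ // ε i ≤ x ∧ x ≤ R i} := fun j => ⟨j.1.1, |j.1.2.1|, not_lt.1 j.2, j.1.2.2⟩
  have hid : ∀ k, PJ k (fun j : N => s j.1.1) (fun _ y => y) fun j => j.1.2.1 := fun k =>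
    PJ.id hN ((h3.comp fun j : N => j.1.1).of_le fun j => j.2.le.trans (le_abs_self _))
  have hne : ∀ j : N', j.1.2.1 ≠ 0 := fun j e => j.2 (e ▸ (hH _).abs0)
  have hr' := h5.reindex (Subtype.val : N' → J)
  have hri : PN (fun j : N' => s j.1.1) fun j => (r j.1.1 j.1.2.1)⁻¹ :=
    (h6.comp φ).of_le fun j => by rw [abs_inv, abs_inv, (hH _).abs_r]
  have hl' := (PN.const hN' 2).mul (h1.comp fun j : N' => j.1.1)
  have hS : PJ 7 (fun j : J => s j.1) (fun j => hzS (lam j.1) (r j.1)) (fun j => j.2.1) := by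
    refine PJ.cases hJ (fun j => |j.2.1| < ε j.1) ?_ ?_
    · exact ((PJ.const hN (h1.comp fun j : N => j.1.1).neg).mul hN (hid 7)).congr fun j =>
        (Haz.ev j.2).mono fun y hy => (hH _).S_near hy
    · have h2' := PJ.const (k := 7) (x := fun j : N' => j.1.2.1) hN' (PN.const hN' 2⁻¹)
      refine (((((PJ.deriv (k := 7) hr').sub hN' (PJ.const hN' hl')).div hN' (hr'.mono (by norm_num))
        (fun j => (hH _).r_ne (hne j)) hri).mul hN' h2').sub hN'
        ((hr'.mono (by norm_num)).mul hN' h2')).congr fun j => .of_forall fun y => ?_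
      simp only [hzS]
      ring
  refine ⟨hS, ?_, ?_, ?_⟩
  · refine (((PJ.deriv (k := 6) hS).add hJ ((hS.mono (by norm_num)).pow hJ 2)).mul hJ
      (PJ.const hJ (PN.const hJ 2⁻¹))).congr fun j => .of_forall fun y => ?_
    simp only [((hH _).dS y).deriv]
    ring
  · refine PJ.of_ode (k := 3) hJ (fun j => .of_forall fun y => ((hH _).sl (hx _)).dφ y)
      (hS.mono (by norm_num)) (PN.of_le ?_ fun j => (hH _).f_le (hx _) _)
    exact (PN.const hJ 1).add hJ ((((((PN.const hs 2).mul h1).mul h3).comp fun j : J => j.1).add hJ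
      (h5.val.of_le fun j => (abs_abs _).le)).mul (h8.comp fun j : J => j.1))
  · refine PJ.cases hJ (fun j => |j.2.1| < ε j.1) ?_ ?_
    · exact ((hid 4).mul hN (PJ.const hN ((h7.comp fun j : N => ⟨j.1.1, ε j.1.1, le_rfl, hR _⟩).mul
        (h4.comp fun j : N => j.1.1)))).congr fun j =>
        (Haz.ev j.2).mono fun y hy => (hH _).g_near (hx _) hy.le
    · exact PJ.of_ode (k := 3) hN' (fun j => (eventually_ne_nhds (hne j)).mono
        fun y hy => (hH _).dg (hx _) hy) ((PJ.const hN' hl').div hN' (hr'.mono (by norm_num))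
        (fun j => (hH _).r_ne (hne j)) hri)
        ((h7.comp φ).of_le fun j => ((hH _).abs_g (hx _) _).ge)

end Crest.Agent.R338
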