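import Crest.Agent.R338.KMc

/-! Row 338, module K: the compiled circuit simulates the verifier. -/

set_option autoImplicit false

open scoped RealInnerProductSpace
open Crest.Quantum.GateCircuit Crest.Quantum.QMA Crest.Agent.Lib.PT

namespace Crest.Agent.R338.K

variable {N n : ℕ}

/-- The wires of the verifier read off a string of the real circuit. -/
private def kenc_tau (N : ℕ) {n : ℕ} (σ : Fin n → Bool) : Fin N → Bool := fun j => bit σ (j + 1)

private lemma kenc_enc (ψ : QVec N) (σ : Fin n → Bool) :
    encC N n ψ σ = if Cl (N + 1) σ then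
      (if bit σ 0 = true then (ψ (kenc_tau N σ)).im else (ψ (kenc_tau N σ)).re) else 0 := rfl

private lemma kenc_tau_flp_succ (σ : Fin n → Bool) (t : Fin N) (h : (t : ℕ) + 1 < n) :
    kenc_tau N (flp σ (t + 1)) = Function.update (kenc_tau N σ) t (!kenc_tau N σ t) := by
  funext j
  by_cases hj : j = t
  · subst hj
    simp only [kenc_tau, Function.update_self]
    exact bit_flp_self σ h
  · rw [Function.update_of_ne hj]
    simp only [kenc_tau]
    apply bit_flp_ne
    intro h'
    exact hj (Fin.ext (by omega))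

private lemma kenc_tau_flp_zero (σ : Fin n → Bool) : kenc_tau N (flp σ 0) = kenc_tau N σ := by
  funext j
  simp only [kenc_tau]
  exact bit_flp_ne σ (by omega)

private lemma kenc_cl_flp (σ : Fin n → Bool) {i : ℕ} (hi : i ≤ N) :
    Cl (N + 1) (flp σ i) ↔ Cl (N + 1) σ := by
  rw [cl_iff, cl_iff]
  constructor
  · intro h j hj
    rw [← bit_flp_ne σ (show j ≠ i by omega)]
    exact h j hj
  · intro h j hj
    rw [bit_flp_ne σ (show j ≠ i by omega)]
    exact h j hj

private lemma kenc_enc_flp_succ (ψ : QVec N) (σ : Fin n → Bool) (t : Fin N) (h : (t : ℕ) + 1 < n) :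
    encC N n ψ (flp σ (t + 1)) = if Cl (N + 1) σ then
      (if bit σ 0 = true then (ψ (Function.update (kenc_tau N σ) t (!kenc_tau N σ t))).im
        else (ψ (Function.update (kenc_tau N σ) t (!kenc_tau N σ t))).re) else 0 := by
  rw [kenc_enc, kenc_tau_flp_succ σ t h, bit_flp_ne σ (show 0 ≠ (t : ℕ) + 1 by omega)]
  simp only [kenc_cl_flp σ (show (t : ℕ) + 1 ≤ N from t.2)]

private lemma kenc_enc_flp_zero (ψ : QVec N) (σ : Fin n → Bool) (h : 0 < n) :
    encC N n ψ (flp σ 0) = if Cl (N + 1) σ then
      (if bit σ 0 = true then (ψ (kenc_tau N σ)).re else (ψ (kenc_tau N σ)).im) else 0 := by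
  rw [kenc_enc, kenc_tau_flp_zero, bit_flp_self σ h]
  simp only [kenc_cl_flp σ (Nat.zero_le N)]
  cases bit σ 0 <;> simp

private lemma kenc_rhoC : ((Real.sqrt 2 : ℝ) : ℂ)⁻¹ = (rho : ℂ) := by
  simp [rho]

private lemma kenc_rho_eq : Real.sqrt 2 / 2 = rho := by
  have h : Real.sqrt 2 ≠ 0 := by positivity
  have h2 : Real.sqrt 2 * Real.sqrt 2 = 2 := Real.mul_self_sqrt (by norm_num)
  rw [rho]
  field_simp
  linarith

private lemma kenc_expT : Complex.exp (Real.pi / 4 * Complex.I) = (rho : ℂ) + (rho : ℂ) * Complex.I := by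
  have h : ((Real.pi : ℂ) / 4) = ((Real.pi / 4 : ℝ) : ℂ) := by push_cast; ring
  rw [h, Complex.exp_mul_I, ← Complex.ofReal_cos, ← Complex.ofReal_sin, Real.cos_pi_div_four,
    Real.sin_pi_div_four, kenc_rho_eq]

private lemma kenc_expTdg :
    Complex.exp (-(Real.pi / 4) * Complex.I) = (rho : ℂ) - (rho : ℂ) * Complex.I := by
  have h : (-((Real.pi : ℂ) / 4)) = ((-(Real.pi / 4) : ℝ) : ℂ) := by push_cast; ring
  rw [h, Complex.exp_mul_I, ← Complex.ofReal_cos, ← Complex.ofReal_sin, Real.cos_neg, Real.sin_neg,
    Real.cos_pi_div_four, Real.sin_pi_div_four, kenc_rho_eq]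
  push_cast
  ring

/-- The action of a controlled primitive, in terms of the current and the flipped string. -/
private lemma kenc_apply (p : Prim) (cs : List (Fin N)) (t : Fin N) (ψ : QVec N)
    (τ : Fin N → Bool) :
    (Gate.ctrl p cs t : Gate N 0).apply (fun _ => false) ψ τ =
      if ∀ c ∈ cs, τ c = true then
        p.mat (τ t) (τ t) * ψ τ + p.mat (τ t) (!τ t) * ψ (Function.update τ t (!τ t))
      else ψ τ := by
  simp only [Gate.apply]
  split_ifs with h
  · rw [Fintype.sum_bool]
    have h1 : Function.update τ t (τ t) = τ := Function.update_eq_self t τ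
    cases ht : τ t
    · rw [ht] at h1
      simp only [Bool.not_false, h1]
      ring
    · rw [ht] at h1
      simp only [Bool.not_true, h1]
  · rfl

private lemma kenc_ctrl_iff (cs : List (Fin N)) (σ : Fin n → Bool) :
    (∀ c ∈ (cs.map Fin.val).map (· + 1), bit σ c = true) ↔ ∀ c ∈ cs, kenc_tau N σ c = true := by
  simp [kenc_tau]

private lemma kenc_ctrl_iff' (cs : List (Fin N)) (t : Fin N) (σ : Fin n → Bool) :
    (∀ c ∈ ((t : ℕ) + 1) :: (cs.map Fin.val).map (· + 1), bit σ c = true) ↔
      kenc_tau N σ t = true ∧ ∀ c ∈ cs, kenc_tau N σ c = true := by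
  rw [List.forall_mem_cons, kenc_ctrl_iff]
  rfl

private lemma kenc_hcs {cs : List (Fin N)} {t : Fin N} (hg : t ∉ cs) :
    ∀ c ∈ (cs.map Fin.val).map (· + 1), c < N + 1 ∧ c ≠ (t : ℕ) + 1 := by
  intro c hc
  simp only [List.map_map, List.mem_map, Function.comp] at hc
  obtain ⟨a, ha, rfl⟩ := hc
  refine ⟨by have := a.2; omega, fun h => hg ?_⟩
  have : a = t := Fin.ext (by omega)
  exact this ▸ ha

private lemma kenc_hcs' (cs : List (Fin N)) (t : Fin N) :
    ∀ c ∈ ((t : ℕ) + 1) :: (cs.map Fin.val).map (· + 1), c < N + 1 ∧ c ≠ 0 := by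
  intro c hc
  rw [List.mem_cons] at hc
  rcases hc with rfl | hc
  · exact ⟨by have := t.2; omega, by omega⟩
  · simp only [List.map_map, List.mem_map, Function.comp] at hc
    obtain ⟨a, _, rfl⟩ := hc
    exact ⟨by have := a.2; omega, by omega⟩

theorem clean_encC (ψ : QVec N) : Clean (N + 1) (encC N n ψ) := by
  intro σ h
  rw [encC_apply] at h
  by_contra hc
  exact h (if_neg hc)

theorem cg_ok (g : Gate N 0) (hn : N + 3 + (rawG g).2.1.length < n) :
    ∀ h ∈ cg N (rawG g), GtOK n h := by
  cases g with
  | ctrl p cs t =>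
    simp only [rawG, List.length_map] at hn
    simp only [rawG, cg]
    split_ifs
    all_goals first
      | (apply mc_ok
         · have := t.2; omega
         · intro c hc
           simp only [List.map_map, List.mem_map, Function.comp] at hc
           obtain ⟨a, _, rfl⟩ := hc
           have := a.2; omega
         · simp only [List.length_map]; omega)
      | (apply mc_ok
         · omega
         · intro c hc
           exact (kenc_hcs' cs t c hc).1
         · simp only [List.length_cons, List.length_map]; omega)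
  | oracle q t =>
    simp only [rawG, List.length_nil] at hn
    simp only [rawG, cg, Nat.zero_le, if_true]
    apply mc_ok
    · have := t.2; omega
    · simp
    · simp only [List.map_nil, List.length_nil]; omega

private lemma kenc_sem1 (p : Prim) (k : ℕ) (cs : List (Fin N)) (t : Fin N) (hg : t ∉ cs)
    (hn : N + 3 + cs.length < n) (ψ : QVec N)
    (hk : ∀ (b : Bool) (x y : ℂ),
      (if k = 1 then rho * (sg b * x.re + y.re) else y.re) = (p.mat b b * x + p.mat b (!b) * y).re ∧
      (if k = 1 then rho * (sg b * x.im + y.im) else y.im) = (p.mat b b * x + p.mat b (!b) * y).im)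
    (hk0 : k ≠ 0) :
    run n (mc (N + 1) ((cs.map Fin.val).map (· + 1)) (t + 1) [k]) (encC N n ψ) =
      encC N n ((Gate.ctrl p cs t : Gate N 0).apply (fun _ => false) ψ) := by
  have ht := t.2
  ext σ
  rw [mc_apply _ _ (by omega) (kenc_hcs hg) (by simp only [List.length_map]; omega) _
    (clean_encC ψ)]
  rw [kenc_enc (Gate.apply _ _ _), kenc_apply]
  simp only [kenc_ctrl_iff]
  by_cases hc : ∀ c ∈ cs, kenc_tau N σ c = true
  · rw [if_pos hc, if_pos hc]
    simp only [Rs, List.foldl_cons, List.foldl_nil, Rop_apply, if_neg hk0]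
    rw [kenc_enc_flp_succ ψ σ t (by omega), kenc_enc]
    have hb : bit σ (t + 1) = kenc_tau N σ t := rfl
    rw [hb]
    obtain ⟨h1, h2⟩ := hk (kenc_tau N σ t) (ψ (kenc_tau N σ))
      (ψ (Function.update (kenc_tau N σ) t (!kenc_tau N σ t)))
    by_cases hcl : Cl (N + 1) σ
    · simp only [if_pos hcl]
      by_cases h0 : bit σ 0 = true
      · simp only [if_pos h0]
        exact h2
      · simp only [if_neg h0]
        exact h1
    · simp [if_neg hcl]
  · rw [if_neg hc, if_neg hc, kenc_enc]

private lemma kenc_sem2 (p : Prim) (k l : ℕ) (cs : List (Fin N)) (t : Fin N)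
    (hn : N + 3 + cs.length < n) (ψ : QVec N) (A : Bool → ℝ → ℝ → ℝ)
    (hA : ∀ (φ : St n) (σ : Fin n → Bool),
      Rs n 0 [k, l] φ σ = A (bit σ 0) (φ σ) (φ (flp σ 0)))
    (hA0 : ∀ b, A b 0 0 = 0)
    (hoff : ∀ b, p.mat b (!b) = 0) (hff : p.mat false false = 1)
    (htt : ∀ x : ℂ, A false x.re x.im = (p.mat true true * x).re ∧
      A true x.im x.re = (p.mat true true * x).im) :
    run n (mc (N + 1) (((t : ℕ) + 1) :: (cs.map Fin.val).map (· + 1)) 0 [k, l]) (encC N n ψ) =
      encC N n ((Gate.ctrl p cs t : Gate N 0).apply (fun _ => false) ψ) := by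
  have ht := t.2
  ext σ
  rw [mc_apply _ _ (by omega) (kenc_hcs' cs t)
    (by simp only [List.length_cons, List.length_map]; omega) _ (clean_encC ψ)]
  rw [kenc_enc (Gate.apply _ _ _), kenc_apply]
  simp only [kenc_ctrl_iff', hoff, zero_mul, add_zero]
  by_cases hc : ∀ c ∈ cs, kenc_tau N σ c = true
  · rw [if_pos hc]
    cases hb : kenc_tau N σ t
    · rw [if_neg (by simp), hff, one_mul, kenc_enc]
    · rw [if_pos ⟨rfl, hc⟩, hA, kenc_enc_flp_zero ψ σ (by omega), kenc_enc]
      obtain ⟨h1, h2⟩ := htt (ψ (kenc_tau N σ))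
      by_cases hcl : Cl (N + 1) σ
      · simp only [if_pos hcl]
        cases h0 : bit σ 0
        · simpa using h1
        · simpa using h2
      · simp only [if_neg hcl, hA0]
  · rw [if_neg hc, if_neg (fun h => hc h.2), kenc_enc]

theorem cg_sem (g : Gate N 0) (hg : IsCtrlGate g) (hn : N + 3 + (rawG g).2.1.length < n)
    (ψ : QVec N) :
    run n (cg N (rawG g)) (encC N n ψ) = encC N n (g.apply (fun _ => false) ψ) := by
  cases g with
  | oracle q t => exact absurd hg (by simp [IsCtrlGate])
  | ctrl p cs t =>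
    have hg' : t ∉ cs := hg
    have hn' : N + 3 + cs.length < n := by simpa [rawG] using hn
    have hn0 : 0 < n := by omega
    cases p with
    | x =>
      apply kenc_sem1 Prim.x 2 cs t hg' hn' ψ _ (by norm_num)
      intro b x y
      cases b <;> simp [Prim.mat]
    | h =>
      apply kenc_sem1 Prim.h 1 cs t hg' hn' ψ _ (by norm_num)
      intro b x y
      simp only [Prim.mat, kenc_rhoC]
      cases b <;> simp [sg] <;> constructor <;> ring
    | s =>
      apply kenc_sem2 Prim.s 0 2 cs t hn' ψ (fun b _ y => -(sg b * y))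
      · intro φ σ
        simp [Rs, Rop_apply, bit_flp_self σ hn0, sg_not]
      · simp
      · intro b; cases b <;> simp [Prim.mat]
      · simp [Prim.mat]
      · intro x; simp [Prim.mat, sg]
    | sdg =>
      apply kenc_sem2 Prim.sdg 2 0 cs t hn' ψ (fun b _ y => sg b * y)
      · intro φ σ
        simp [Rs, Rop_apply]
      · simp
      · intro b; cases b <;> simp [Prim.mat]
      · simp [Prim.mat]
      · intro x; simp [Prim.mat, sg]
    | t =>
      apply kenc_sem2 Prim.t 0 1 cs t hn' ψ (fun b x y => rho * (x - sg b * y))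
      · intro φ σ
        simp only [Rs, List.foldl_cons, List.foldl_nil, Rop_apply, bit_flp_self σ hn0, sg_not]
        cases bit σ 0 <;> simp [sg] <;> ring_nf <;> simp
      · simp
      · intro b; cases b <;> simp [Prim.mat]
      · simp [Prim.mat]
      · intro x
        simp only [Prim.mat, kenc_expT]
        simp [sg]
        constructor <;> ring
    | tdg =>
      apply kenc_sem2 Prim.tdg 1 0 cs t hn' ψ (fun b x y => rho * (x + sg b * y))
      · intro φ σ
        simp only [Rs, List.foldl_cons, List.foldl_nil, Rop_apply]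
        cases bit σ 0 <;> simp [sg] <;> ring_nf <;> simp
      · simp
      · intro b; cases b <;> simp [Prim.mat]
      · simp [Prim.mat]
      · intro x
        simp only [Prim.mat, kenc_expTdg]
        simp [sg]
        constructor <;> ring

private lemma kenc_len (gs : List (Gate N 0)) {g : Gate N 0} (hg : g ∈ gs) :
    (rawG g).2.1.length ≤ ((gs.map rawG).flatMap fun g => g.2.1).length := by
  induction gs with
  | nil => simp at hg
  | cons a gs ih =>
    simp only [List.map_cons, List.flatMap_cons, List.length_append]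
    rcases List.mem_cons.1 hg with rfl | h
    · omega
    · have := ih h
      omega

theorem cAll_ok (gs : List (Gate N 0)) (out : Fin N) :
    RVOK (cNd N (gs.map rawG)) (cAll N (gs.map rawG)) (out + 1) := by
  refine ⟨?_, ?_, ?_⟩
  · have := out.2
    unfold cNd
    omega
  · simp only [cAll, List.length_append, List.length_replicate]
    omega
  · intro h hh
    simp only [cAll, List.mem_append] at hh
    rcases hh with hh | hh
    · obtain ⟨r, hr, hh⟩ := List.mem_flatMap.1 hh
      obtain ⟨g, hg, rfl⟩ := List.mem_map.1 hr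
      refine cg_ok g ?_ h hh
      have := kenc_len gs hg
      unfold cNd
      omega
    · rw [List.eq_of_mem_replicate hh]
      unfold GtOK cNd
      simp only
      omega

private lemma kenc_flat (gs : List (Gate N 0)) (hg : ∀ g ∈ gs, IsCtrlGate g)
    (hn : ∀ g ∈ gs, N + 3 + (rawG g).2.1.length < n) (ψ : QVec N) :
    run n ((gs.map rawG).flatMap (cg N)) (encC N n ψ) =
      encC N n (runGates (fun _ => false) gs ψ) := by
  induction gs generalizing ψ with
  | nil => simp [runGates]
  | cons a gs ih =>
    simp only [List.map_cons, List.flatMap_cons, run_append]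
    rw [cg_sem a (hg a (by simp)) (hn a (by simp)),
      ih (fun g h => hg g (List.mem_cons_of_mem _ h)) (fun g h => hn g (List.mem_cons_of_mem _ h))]
    rfl

private lemma kenc_pad (m : ℕ) (φ : St n) (hφ : Clean (N + 1) φ) :
    run n (List.replicate m ((false, N + 1, 0, 0) : Gt)) φ = φ := by
  have h1 : gop n (false, N + 1, 0, 0) φ = φ := by
    ext σ
    rw [gop_apply]
    split_ifs with h
    · by_cases h0 : φ σ = 0
      · simp [Rop_apply, h0]
      · have := (cl_iff _ _).1 (hφ σ h0) (N + 1) le_rfl
        rw [this] at h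
        simp at h
    · rfl
  induction m with
  | zero => simp
  | succ m ih => rw [List.replicate_succ, run_cons, h1, ih]

theorem cAll_sem (gs : List (Gate N 0)) (hg : ∀ g ∈ gs, IsCtrlGate g) (ψ : QVec N) :
    run (cNd N (gs.map rawG)) (cAll N (gs.map rawG)) (encC N _ ψ) =
      encC N _ (runGates (fun _ => false) gs ψ) := by
  unfold cAll
  rw [run_append, kenc_flat gs hg, kenc_pad _ _ (clean_encC _)]
  intro g h
  have := kenc_len gs h
  unfold cNd
  omega

end Crest.Agent.R338.K
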