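import Crest.Agent.R338.KDefs

/-! Row 338, module K: reading the verifier off its code. -/

set_option autoImplicit false

open scoped RealInnerProductSpace
open Crest.Quantum.GateCircuit Crest.Quantum.QMA Crest.Agent.Lib.PT

namespace Crest.Agent.R338.K

theorem sd_natCode : SD Crest.Quantum.GateCircuit.natCode :=
  (SD.pairsFalse.comp Nat.bits reads_bits).congr fun _ => rfl

theorem sd_listCode {β : Type} [Enc β] {c : β → List Bool} (hc : SD c) :
    SD (Crest.Quantum.GateCircuit.listCode c) := by
  obtain ⟨P, hP, h⟩ := hc
  obtain ⟨c0, k0, hB⟩ := (PB.sz hP).exists_bound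
  let step : List D × List Bool → List D × List Bool := fun s =>
    if s.2.headD false = true then
      ((P s.2.tail).car :: s.1, (Dec.dec (P s.2.tail).cdr : List Bool).take s.2.length)
    else s
  have hdec : PT (Dec.dec : D → List Bool) := Dec.pt
  have hstep : PT step := by simp only [step]; fun_prop
  have h1 : PB (fun a : List Bool => sz a) := PB.sz_id
  have hF : PT (fun s : List Bool => step^[s.length] ([], s)) := by
    refine PT.iterate_inv_add (f := fun _ => step) (fun a s => s.2.length ≤ a.length)
      (fun a => c0 * sz a ^ k0 + 1) (hstep.comp PT.id.snd) (by fun_prop) (by fun_prop)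
      (by fun_prop) (by fun_prop) (fun _ => le_rfl) (fun a s hI => ?_) (fun a s hI => ?_)
    · simp only [step]
      split_ifs
      · simp only [List.length_take]; omega
      · exact hI
    · simp only [step]
      split_ifs
      · have e1 := hB s.2.tail (sz a) (by
          rw [sz_boolList, sz_boolList, List.length_tail]; omega)
        have e2 := (P s.2.tail).size_car_le
        simp only [sz_pair, sz_cons, sz_prod s, sz_boolList, List.length_take, sz_D] at e1 ⊢
        omega
      · omega
  have key : ∀ (r : List Bool) (l : List β) (acc : List D) (j : ℕ), l.length ≤ j →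
      step^[j] (acc, (l.map fun a => true :: c a).flatten ++ false :: r) =
        ((l.map enc).reverse ++ acc, false :: r) := by
    intro r l
    induction l with
    | nil => intro acc j _; exact Function.iterate_fixed (by simp [step]) j
    | cons b l ih =>
      intro acc j hj
      obtain ⟨j, rfl⟩ : ∃ i, j = i + 1 := ⟨j - 1, by simp at hj; omega⟩
      rw [Function.iterate_succ_apply]
      have e := h (b, (l.map fun a => true :: c a).flatten ++ false :: r)
      simp only [enc_pair] at e
      have e2 : step (acc, ((b :: l).map fun a => true :: c a).flatten ++ false :: r) =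
          (enc b :: acc, (l.map fun a => true :: c a).flatten ++ false :: r) := by
        simp only [step, List.map_cons, List.flatten_cons, List.cons_append, List.headD_cons,
          if_true, List.tail_cons, List.append_assoc, e, D.car_cons, D.cdr_cons, Dec.dec_enc]
        rw [List.take_of_length_le (by simp; omega)]
      rw [e2, ih (enc b :: acc) j (by simpa using hj)]
      simp
  have h0 := (Reads.self fun p : List β × List Bool =>
    Crest.Quantum.GateCircuit.listCode c p.1 ++ p.2).comp hF
  have h2 : Reads (fun p : List β × List Bool => Crest.Quantum.GateCircuit.listCode c p.1 ++ p.2)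
      (fun p => ((p.1.map enc).reverse, false :: p.2)) := h0.congr fun p => by
    have := length_le_length_flatten_map (fun a => true :: c a) (by simp) p.1
    rw [Crest.Quantum.GateCircuit.listCode, List.append_assoc, List.singleton_append,
      key _ _ _ _ (by rw [List.length_append]; omega), List.append_nil]
  refine SD.mk' ((h2.fst.comp PT.id.reverse).of_enc fun p => ?_) (h2.snd.comp PT.id.tail)
  simp only [List.reverse_reverse, enc_list, List.map_map]
  rfl

/-- the code of a raw gate -/
def rawCode (g : RG) : List Bool :=
  [true] ++ (natCode g.1 ++ (listCode natCode g.2.1 ++ natCode g.2.2))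

theorem sd_rawCode : SD rawCode :=
  (sd_natCode.prod ((sd_listCode sd_natCode).prod sd_natCode)).const_append [true]

theorem gateCode_eq {N : ℕ} (g : Gate N 0) (hg : IsCtrlGate g) : gateCode g = rawCode (rawG g) := by
  cases g with
  | oracle q t => exact hg.elim
  | ctrl g cs t =>
    have : primCode g = natCode (primIdx g) := by cases g <;> rfl
    simp [gateCode, rawCode, rawG, this, listCode, Function.comp_def]

theorem parse_vcode (V : List Bool → VCirc) (hV : ∀ x, (V x).WellFormed)
    (hpt : PT fun x => vcode (V x)) :
    PT (fun x => (V x).N) ∧ PT (fun x => (V x).w) ∧ PT (fun x => (V x).gates.map rawG) ∧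
      PT (fun x => ((V x).out : ℕ)) := by
  have e : ∀ x, natCode (V x).N ++ (natCode (V x).w ++
      (listCode rawCode ((V x).gates.map rawG) ++ natCode ((V x).out : ℕ))) = vcode (V x) := by
    intro x
    have : listCode rawCode ((V x).gates.map rawG) = listCode gateCode (V x).gates := by
      simp only [listCode, List.map_map]
      congr 2
      refine List.map_congr_left fun g hg => ?_
      simp only [Function.comp, gateCode_eq g ((hV x).2 g hg)]
    rw [this, vcode, List.append_assoc, List.append_assoc]
  have h1 := PT.split sd_natCode (hpt.congr e)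
  have h2 := PT.split sd_natCode h1.2
  have h3 := PT.split (sd_listCode sd_rawCode) h2.2
  exact ⟨h1.1, h2.1, h3.1, PT.decode sd_natCode h3.2⟩

@[fun_prop] theorem g3_pt {α : Type} [Enc α] {a c t : α → ℕ} (ha : PT a) (hc : PT c) (ht : PT t) :
    PT fun x => g3 (a x) (c x) (t x) := by
  unfold g3; fun_prop

@[fun_prop] theorem chain_pt {α : Type} [Enc α] {b : α → ℕ} {cs : α → List ℕ} (hb : PT b)
    (hcs : PT cs) : PT fun x => chain (b x) (cs x) := by
  unfold chain; fun_prop

@[fun_prop] theorem mcIn_pt {α : Type} [Enc α] {b s : α → ℕ} {cs ks : α → List ℕ} (hb : PT b)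
    (hcs : PT cs) (hs : PT s) (hks : PT ks) : PT fun x => mcIn (b x) (cs x) (s x) (ks x) := by
  unfold mcIn; fun_prop

@[fun_prop] theorem mc_pt {α : Type} [Enc α] {b s : α → ℕ} {cs ks : α → List ℕ} (hb : PT b)
    (hcs : PT cs) (hs : PT s) (hks : PT ks) : PT fun x => mc (b x) (cs x) (s x) (ks x) := by
  unfold mc; fun_prop

@[fun_prop] theorem cg_pt {α : Type} [Enc α] {N : α → ℕ} {g : α → RG} (hN : PT N) (hg : PT g) :
    PT fun x => cg (N x) (g x) := by
  unfold cg; fun_prop

theorem cAll_pt {α : Type} [Enc α] {N : α → ℕ} {gs : α → List RG} (hN : PT N) (hgs : PT gs) :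
    PT fun a => cAll (N a) (gs a) := by
  unfold cAll; fun_prop

theorem cNd_pt {α : Type} [Enc α] {N : α → ℕ} {gs : α → List RG} (hN : PT N) (hN' : PB N)
    (hgs : PT gs) : PT (fun a => cNd (N a) (gs a)) ∧ PB fun a => cNd (N a) (gs a) := by
  unfold cNd
  exact ⟨by fun_prop, by fun_prop⟩

end Crest.Agent.R338.K
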