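import Crest.Agent.R338.KBas

/-! Row 338, module K: real and complex states. -/

set_option autoImplicit false

open scoped RealInnerProductSpace
open Crest.Quantum.GateCircuit Crest.Quantum.QMA Crest.Agent.Lib.PT

namespace Crest.Agent.R338.K

variable {n : ℕ}

private lemma kr_bit_lt {m : ℕ} (σ : Fin m → Bool) {i : ℕ} (h : i < m) : bit σ i = σ ⟨i, h⟩ :=
  dif_pos h

private lemma kr_bit_ge {m : ℕ} (σ : Fin m → Bool) {i : ℕ} (h : m ≤ i) : bit σ i = false :=
  dif_neg (not_lt.2 h)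

private lemma kr_cl {m w : ℕ} {σ : Fin m → Bool} (h : Cl w σ) {i : ℕ} (hi : w ≤ i) :
    bit σ i = false := by
  by_cases h' : i < m
  · rw [kr_bit_lt σ h']; exact h _ hi
  · exact kr_bit_ge σ (not_lt.1 h')

private lemma kr_sum_pad {M : Type} [AddCommMonoid M] {w : ℕ} (hw : w ≤ n)
    (f : (Fin w → Bool) → M) :
    ∑ σ : Fin n → Bool, (if Cl w σ then f (fun j => bit σ j) else 0) = ∑ τ, f τ := by
  rw [← Finset.sum_filter]
  refine Finset.sum_nbij' (fun σ j => bit σ j) (fun τ i => bit τ i) (by simp) ?_ ?_ ?_ (by simp)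
  · intro τ _
    simp only [Finset.mem_filter, Finset.mem_univ, true_and]
    intro i hi
    exact kr_bit_ge τ hi
  · intro σ hσ
    simp only [Finset.mem_filter, Finset.mem_univ, true_and] at hσ
    funext i
    by_cases h : (i : ℕ) < w
    · rw [kr_bit_lt _ h, kr_bit_lt _ i.2]
    · rw [kr_bit_ge _ (not_lt.1 h), hσ i (not_lt.1 h)]
  · intro τ _
    funext j
    rw [kr_bit_lt _ (j.2.trans_le hw), kr_bit_lt _ j.2]

private lemma kr_sum_enc {N : ℕ} (hn : N + 1 ≤ n) (f : Bool → (Fin N → Bool) → ℝ) :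
    ∑ σ : Fin n → Bool, (if Cl (N + 1) σ then f (bit σ 0) (fun j => bit σ (j + 1)) else 0) =
      ∑ τ, (f false τ + f true τ) := by
  have h := kr_sum_pad hn (fun ρ : Fin (N + 1) → Bool => f (ρ 0) (fun j => ρ j.succ))
  refine Eq.trans h ?_
  rw [← (Fin.consEquiv (fun _ : Fin (N + 1) => Bool)).sum_comp, Fintype.sum_prod_type,
    Finset.sum_comm]
  refine Finset.sum_congr rfl fun τ _ => ?_
  simp [Fin.consEquiv, add_comm]

theorem norm_encC {N : ℕ} (hn : N + 1 ≤ n) (ψ : QVec N) :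
    ‖encC N n ψ‖ ^ 2 = ∑ σ, ‖ψ σ‖ ^ 2 := by
  have h := kr_sum_enc hn (fun b τ => (if b = true then (ψ τ).im else (ψ τ).re) ^ 2)
  rw [norm_sq_eq]
  refine Eq.trans (Finset.sum_congr rfl fun σ _ => ?_) (h.trans (Finset.sum_congr rfl fun τ _ => ?_))
  · rw [encC_apply]
    split_ifs <;> simp
  · rw [Complex.sq_norm, Complex.normSq_apply]
    simp [sq]

theorem rej_encC {N : ℕ} (hn : N + 1 ≤ n) (ψ : QVec N) (o : Fin N) :
    rej (o + 1) (encC N n ψ) =
      ‖encC N n ψ‖ ^ 2 - ∑ σ : Fin N → Bool, if σ o = true then ‖ψ σ‖ ^ 2 else 0 := by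
  have h := kr_sum_enc hn (fun b τ =>
    if τ o = false then (if b = true then (ψ τ).im else (ψ τ).re) ^ 2 else 0)
  rw [norm_encC hn, ← Finset.sum_sub_distrib, rej]
  refine Eq.trans (Finset.sum_congr rfl fun σ _ => ?_) (h.trans (Finset.sum_congr rfl fun τ _ => ?_))
  · rw [encC_apply]
    split_ifs <;> simp
  · rw [Complex.sq_norm, Complex.normSq_apply]
    cases τ o <;> simp [sq]

theorem norm_startState (V : VCirc) (h : V.w ≤ V.N) (ψ : QVec V.w) :
    ∑ σ, ‖startState V h ψ σ‖ ^ 2 = ∑ σ, ‖ψ σ‖ ^ 2 := by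
  rw [← kr_sum_pad h (fun τ => ‖ψ τ‖ ^ 2)]
  refine Finset.sum_congr rfl fun σ _ => ?_
  unfold startState
  by_cases hc : Cl V.w σ
  · rw [if_pos hc, if_pos (show ∀ i : Fin V.N, V.w ≤ (i : ℕ) → σ i = false from hc)]
    congr 3
    funext j
    rw [kr_bit_lt _ (j.2.trans_le h)]
    rfl
  · rw [if_neg hc, if_neg (show ¬ ∀ i : Fin V.N, V.w ≤ (i : ℕ) → σ i = false from hc)]
    simp

theorem clean_start (V : VCirc) (h : V.w ≤ V.N) (hn : V.N + 1 ≤ n) (ψ : QVec V.w) :
    Clean (V.w + 1) (encC V.N n (startState V h ψ)) := by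
  intro σ hσ
  rw [encC_apply] at hσ
  have h1 : Cl (V.N + 1) σ := by
    by_contra hc
    exact hσ (if_neg hc)
  rw [if_pos h1] at hσ
  have h2 : ∀ i : Fin V.N, V.w ≤ (i : ℕ) → bit σ (i + 1) = false := by
    by_contra hc
    have : startState V h ψ (fun j => bit σ (j + 1)) = 0 := if_neg hc
    rw [this] at hσ
    simp at hσ
  intro i hi
  by_cases hl : V.N + 1 ≤ (i : ℕ)
  · exact h1 i hl
  · have := h2 ⟨i - 1, by omega⟩ (by simp only; omega)
    simp only at this
    rwa [show (i : ℕ) - 1 + 1 = i by omega, kr_bit_lt _ i.2] at this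

theorem exists_start (V : VCirc) (h : V.w ≤ V.N) (hn : V.N + 1 ≤ n) (u : St n)
    (hu : Clean (V.w + 1) u) : ∃ ψ : QVec V.w, u = encC V.N n (startState V h ψ) := by
  let e : Bool → (Fin V.w → Bool) → Fin n → Bool := fun b τ i =>
    if (i : ℕ) = 0 then b else bit τ (i - 1)
  refine ⟨fun τ => ⟨u (e false τ), u (e true τ)⟩, ?_⟩
  ext σ
  by_cases hc : Cl (V.w + 1) σ
  · have h1 : Cl (V.N + 1) σ := fun i hi => hc i (by omega)
    have h2 : ∀ i : Fin V.N, V.w ≤ (i : ℕ) → bit σ (i + 1) = false := fun i hi =>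
      kr_cl hc (by omega)
    have h3 : σ = e (bit σ 0) (fun j => bit σ (j + 1)) := by
      funext i
      simp only [e]
      split_ifs with h0
      · rw [← h0, kr_bit_lt _ i.2]
      · by_cases hl : (i : ℕ) - 1 < V.w
        · rw [kr_bit_lt _ hl]
          simp only
          rw [show (i : ℕ) - 1 + 1 = i by omega, kr_bit_lt _ i.2]
        · rw [kr_bit_ge _ (not_lt.1 hl), hc i (by omega)]
    have h4 : startState V h (fun τ => (⟨u (e false τ), u (e true τ)⟩ : ℂ))
        (fun j => bit σ (j + 1)) =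
        ⟨u (e false fun j => bit σ (j + 1)), u (e true fun j => bit σ (j + 1))⟩ := if_pos h2
    rw [encC_apply, if_pos h1, h4]
    conv_lhs => rw [h3]
    cases bit σ 0 <;> simp
  · have h0 : u σ = 0 := by
      by_contra h0
      exact hc (hu σ h0)
    rw [h0]
    by_contra h1
    exact hc (clean_start V h hn _ σ (Ne.symm h1))

end Crest.Agent.R338.K
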