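import Crest.Agent.R338.KHam
import Crest.Agent.R338.KEnc
import Crest.Agent.R338.KReal
import Crest.Agent.R338.KParse

/-! Row 338, module K: the two-local `XZ` Hamiltonian problem is QMA-hard. -/

set_option autoImplicit false

open Crest.Quantum.QMA Crest.Quantum.GateCircuit Crest.Agent.Lib.PT

namespace Crest.Agent.R338

namespace K

/-- Rejection weight of the compiled circuit. -/
lemma rej_compiled (V : VCirc) (hV : V.WellFormed) (ψ : QVec V.w) :
    rej (V.out + 1) (run (cNd V.N (V.gates.map rawG)) (cAll V.N (V.gates.map rawG))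
      (encC V.N _ (startState V hV.1 ψ))) = ∑ σ, ‖ψ σ‖ ^ 2 - acceptProb V hV.1 ψ := by
  have hn : V.N + 1 ≤ cNd V.N (V.gates.map rawG) := by unfold cNd; omega
  have h1 := norm_run (cAll_ok V.gates V.out).ok (encC V.N _ (startState V hV.1 ψ))
  rw [cAll_sem V.gates hV.2] at h1 ⊢
  rw [rej_encC hn, h1, norm_encC hn, norm_startState]
  rfl

end K

open K in
theorem xz_hard (P : Promise) (h : InQMA P) :
    ∃ d : List Bool → XZ, PTFam d ∧ (∀ x, (d x).Valid) ∧ (∀ x ∈ P.yes, (d x).Yes) ∧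
      ∀ x ∈ P.no, (d x).No := by
  obtain ⟨V, hV, ⟨gen, hgen, hcode⟩, ⟨p, hp⟩, hyes, hno⟩ := h
  have hpt : PT fun x => vcode (V x) := (pt_of_polyTime hgen).congr fun x => (hcode x).symm
  obtain ⟨hN, hw, hg, ho⟩ := parse_vcode V hV hpt
  have hN' : PB fun x => (V x).N :=
    (PB.polyEval p (PB.length PT.id)).of_le fun x => le_trans (Nat.le_add_right _ _) (hp x)
  have hnd := cNd_pt hN hN' hg
  have hn : ∀ x, (V x).N + 1 ≤ cNd (V x).N ((V x).gates.map rawG) := fun x => by unfold cNd; omega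
  refine ⟨fun x => ham (cNd (V x).N ((V x).gates.map rawG)) ((V x).w + 1)
    (cAll (V x).N ((V x).gates.map rawG)) ((V x).out + 1),
    ham_pt hnd.1 hnd.2 (hw.add (PT.const 1)) (ho.add (PT.const 1)) (cAll_pt hN hg),
    fun x => ham_valid (cAll_ok _ _), fun x hx => ham_yes (cAll_ok _ _) ?_,
    fun x hx => ham_no (cAll_ok _ _) fun u hu => ?_⟩
  · obtain ⟨ψ, hψ, hacc⟩ := hyes x hx
    refine ⟨encC _ _ (startState (V x) (hV x).1 ψ), clean_start _ _ (hn x) _, ?_, ?_⟩
    · have := norm_encC (hn x) (startState (V x) (hV x).1 ψ)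
      rw [norm_startState, hψ] at this
      exact (sq_eq_sq₀ (norm_nonneg _) zero_le_one).1 (by rw [this]; norm_num)
    · rw [rej_compiled _ (hV x), hψ]; linarith
  · rcases eq_or_ne u 0 with rfl | hu0
    · rw [rej_eq, norm_zero, zero_pow two_ne_zero, mul_zero]; positivity
    · have hpos : 0 < ‖u‖ := norm_pos_iff.2 hu0
      obtain ⟨ψ, hψ⟩ := exists_start (V x) (hV x).1 (hn x) (‖u‖⁻¹ • u) (hu.smul _)
      have h1 : ∑ σ, ‖ψ σ‖ ^ 2 = 1 := by
        rw [← norm_startState (V x) (hV x).1, ← norm_encC (hn x), ← hψ, norm_smul, norm_inv,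
          norm_norm, inv_mul_cancel₀ hpos.ne', one_pow]
      have h2 := rej_compiled (V x) (hV x) ψ
      rw [← hψ, run_smul, rej_smul, h1] at h2
      have h3 := hno x hx ψ h1
      have h4 : rej ((V x).out + 1) (run _ (cAll (V x).N ((V x).gates.map rawG)) u) =
          ‖u‖ ^ 2 * (1 - acceptProb (V x) (hV x).1 ψ) := by
        rw [← h2]; field_simp
      rw [h4]
      nlinarith [sq_nonneg ‖u‖]

end Crest.Agent.R338
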