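import Crest.Agent.R338.KBas

/-! Row 338, module K: the estimates, in an abstract inner product space. -/

set_option autoImplicit false

open scoped RealInnerProductSpace
open Crest.Quantum.GateCircuit Crest.Quantum.QMA Crest.Agent.Lib.PT

namespace Crest.Agent.R338.K

variable {V : Type} [NormedAddCommGroup V] [InnerProductSpace ℝ V]

/-- The quadratic form of `3 + F + R + F R`. -/
noncomputable def kabsQ (F R : Module.End ℝ V) (d : V) : ℝ :=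
  3 * ‖d‖ ^ 2 + ⟪d, F d⟫ + ⟪d, R d⟫ + ⟪d, F (R d)⟫

theorem kabs_swap {A : Module.End ℝ V} (h : Refl A) (x y : V) : ⟪x, A y⟫ = ⟪y, A x⟫ := by
  rw [← h.symm, real_inner_comm]

theorem kabs_swap2 {F R : Module.End ℝ V} (hF : Refl F) (hR : Refl R)
    (hc : ∀ x, F (R x) = R (F x)) (x y : V) : ⟪x, F (R y)⟫ = ⟪y, F (R x)⟫ := by
  rw [← hF.symm, ← hR.symm, real_inner_comm, hc]

theorem kabsQ_eq {F R : Module.End ℝ V} (hF : Refl F) (hR : Refl R)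
    (hc : ∀ x, F (R x) = R (F x)) (x y : V) :
    kabsQ F R (y - Cop F R x) = kabsQ F R y + kabsQ F R x - 4 * ⟪y, x + F x + R x⟫ := by
  have h1 := real_inner_comm y x
  have h2 := kabs_swap hF x y
  have h3 := kabs_swap hR x y
  have h4 := kabs_swap2 hF hR hc x y
  unfold kabsQ
  rw [Cop_apply]
  simp only [← real_inner_self_eq_norm_sq, map_sub, map_add, map_smul, inner_sub_left, inner_sub_right,
    inner_add_left, inner_add_right, real_inner_smul_left, real_inner_smul_right, hF.symm, hR.symm, hF.invol,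
    hR.invol, ← hc]
  linarith

theorem kabsQ_ge {F R : Module.End ℝ V} (hF : Refl F) (hR : Refl R)
    (hc : ∀ x, F (R x) = R (F x)) (d : V) : ‖d‖ ^ 2 ≤ kabsQ F R d := by
  have h1 : 0 ≤ ⟪d + F d + R d + F (R d), d + F d + R d + F (R d)⟫ := real_inner_self_nonneg
  have h2 : 0 ≤ ⟪d, d⟫ := real_inner_self_nonneg
  unfold kabsQ
  simp only [← real_inner_self_eq_norm_sq, map_add, inner_add_left, inner_add_right, hF.symm, hR.symm, hF.invol,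
    hR.invol, ← hc] at h1 ⊢
  linarith

theorem kabs_left {F R : Module.End ℝ V} (hF : Refl F) (hR : Refl R)
    (hc : ∀ x, F (R x) = R (F x)) (a0 a1 a2 : V) :
    -⟪a1, a0⟫ + ⟪a2, a1⟫ - ⟪a2, a0⟫ - ⟪a2, F a2⟫ - ⟪a2, R a2⟫ - ⟪a2, F (R a2)⟫ =
      -⟪a1, F (a1 + F a0)⟫ - ⟪a1, F (R (a2 - R a1))⟫ - ⟪a2, F (a2 - R a1)⟫ - ⟪a2, R (a2 - R a1)⟫ -
        ⟪a2, F (a1 + F a0)⟫ - ⟪a2, F (R (a2 - R a1))⟫ := by
  have h4 := kabs_swap2 hF hR hc a1 a2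
  simp only [map_sub, map_add, inner_sub_right, inner_add_right, hF.invol, hR.invol]
  linarith

theorem kabs_right {F R : Module.End ℝ V} (hF : Refl F) (hR : Refl R)
    (hc : ∀ x, F (R x) = R (F x)) (a3 a4 a5 : V) :
    -⟪a4, a3⟫ + ⟪a5, a4⟫ - ⟪a5, a3⟫ - ⟪a3, F a3⟫ - ⟪a3, R a3⟫ - ⟪a3, F (R a3)⟫ =
      -⟪a3, a4 + F a3⟫ - ⟪a3, a5 - R a4⟫ - ⟪a3, R (a4 + F a3)⟫ + ⟪a4, a5 - R a4⟫ +
        ⟪a4, R (a4 + F a3)⟫ - ⟪a3, F (R (a4 + F a3))⟫ := by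
  have h1 := real_inner_comm a3 a4
  have h2 := real_inner_comm a3 a5
  have h3 := real_inner_comm a4 a5
  have h4 := kabs_swap2 hF hR hc a3 a4
  simp only [map_sub, map_add, inner_sub_right, inner_add_right, hF.invol, hR.invol, ← hc]
  linarith

theorem blkE_lower {F R : Module.End ℝ V} (hF : Refl F) (hR : Refl R)
    (hc : ∀ x, F (R x) = R (F x)) {J : ℝ} (hJ : 1 ≤ J) (a0 a1 a2 a3 a4 a5 : V) :
    J * (‖a1 + F a0‖ ^ 2 + ‖a2 - R a1‖ ^ 2 + ‖a3 - Cop F R a2‖ ^ 2 + ‖a4 + F a3‖ ^ 2 +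
        ‖a5 - R a4‖ ^ 2) - 1 / 8 * (‖a1‖ ^ 2 + ‖a2‖ ^ 2 + ‖a3‖ ^ 2 + ‖a4‖ ^ 2) ≤
      blkE (25 * J ^ 2) J F R a0 a1 a2 a3 a4 a5 := by
  have hQ := kabsQ_eq hF hR hc a2 a3
  have hd := kabsQ_ge hF hR hc (a3 - Cop F R a2)
  have hl := kabs_left hF hR hc a0 a1 a2
  have hr := kabs_right hF hR hc a3 a4 a5
  unfold blkE
  rw [hQ] at hd
  unfold kabsQ at hd
  generalize a1 + F a0 = e1 at *
  generalize a2 - R a1 = e2 at *
  generalize a4 + F a3 = e4 at *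
  generalize a5 - R a4 = e5 at *
  have b1 := real_inner_le_norm a1 (F e1)
  have b2 := real_inner_le_norm a1 (F (R e2))
  have b3 := real_inner_le_norm a2 (F e2)
  have b4 := real_inner_le_norm a2 (R e2)
  have b5 := real_inner_le_norm a2 (F e1)
  have b6 := real_inner_le_norm a2 (F (R e2))
  have c1 := real_inner_le_norm a3 e4
  have c2 := real_inner_le_norm a3 e5
  have c3 := real_inner_le_norm a3 (R e4)
  have c4 := (abs_le.1 (abs_real_inner_le_norm a4 e5)).1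
  have c5 := (abs_le.1 (abs_real_inner_le_norm a4 (R e4))).1
  have c6 := real_inner_le_norm a3 (F (R e4))
  simp only [hF.norm_map, hR.norm_map] at b1 b2 b3 b4 b5 b6 c3 c5 c6
  have hB : ‖a3 - Cop F R a2‖ ^ 2 - (‖a1‖ * (‖e1‖ + ‖e2‖) + ‖a2‖ * (‖e1‖ + 3 * ‖e2‖) +
      ‖a3‖ * (3 * ‖e4‖ + ‖e5‖) + ‖a4‖ * (‖e4‖ + ‖e5‖)) ≤
      3 * ‖a2‖ ^ 2 + 3 * ‖a3‖ ^ 2 - ⟪a1, a0⟫ + ⟪a2, a1⟫ - ⟪a2, a0⟫ - ⟪a4, a3⟫ + ⟪a5, a4⟫ -
        ⟪a5, a3⟫ - 4 * ⟪a3, a2 + F a2 + R a2⟫ := by linarith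
  have hB' := mul_le_mul_of_nonneg_left hB (by linarith : 0 ≤ J)
  generalize ‖e1‖ = x1 at *
  generalize ‖e2‖ = x2 at *
  generalize ‖e4‖ = x4 at *
  generalize ‖e5‖ = x5 at *
  have s1 := sq_nonneg (‖a1‖ - 4 * J * (x1 + x2))
  have s2 := sq_nonneg (‖a2‖ - 4 * J * (x1 + 3 * x2))
  have s3 := sq_nonneg (‖a3‖ - 4 * J * (3 * x4 + x5))
  have s4 := sq_nonneg (‖a4‖ - 4 * J * (x4 + x5))
  have t1 : 0 ≤ J ^ 2 * ((2 * x1 - x2) ^ 2 + x1 ^ 2) := by positivity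
  have t2 : 0 ≤ J ^ 2 * ((2 * x5 - x4) ^ 2 + x5 ^ 2) := by positivity
  have t3 : 0 ≤ J * (J - 1) * (x1 ^ 2 + x2 ^ 2 + x4 ^ 2 + x5 ^ 2) :=
    mul_nonneg (mul_nonneg (by linarith) (by linarith)) (by positivity)
  linarith

theorem blkE_zero {F R : Module.End ℝ V} (hF : Refl F) (hR : Refl R)
    (hc : ∀ x, F (R x) = R (F x)) (J1 J2 : ℝ) {a0 a1 a2 a3 a4 a5 : V} (h1 : a1 = -F a0)
    (h2 : a2 = R a1) (h3 : a3 = Cop F R a2) (h4 : a4 = -F a3) (h5 : a5 = R a4) :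
    blkE J1 J2 F R a0 a1 a2 a3 a4 a5 = 0 := by
  have hQ := kabsQ_eq hF hR hc a2 a3
  have hl := kabs_left hF hR hc a0 a1 a2
  have hr := kabs_right hF hR hc a3 a4 a5
  have e1 : a1 + F a0 = 0 := by rw [h1, neg_add_cancel]
  have e2 : a2 - R a1 = 0 := by rw [h2, sub_self]
  have e3 : a3 - Cop F R a2 = 0 := by rw [h3, sub_self]
  have e4 : a4 + F a3 = 0 := by rw [h4, neg_add_cancel]
  have e5 : a5 - R a4 = 0 := by rw [h5, sub_self]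
  unfold blkE
  rw [e3] at hQ
  unfold kabsQ at hQ
  rw [e1, e2] at hl
  rw [e4, e5] at hr
  rw [e1, e2, e4, e5]
  simp only [map_zero, inner_zero_right, norm_zero] at hQ hl hr ⊢
  have hB : 3 * ‖a2‖ ^ 2 + 3 * ‖a3‖ ^ 2 - ⟪a1, a0⟫ + ⟪a2, a1⟫ - ⟪a2, a0⟫ - ⟪a4, a3⟫ + ⟪a5, a4⟫ -
      ⟪a5, a3⟫ - 4 * ⟪a3, a2 + F a2 + R a2⟫ = 0 := by linarith
  rw [hB]
  ring

/-- The five steps multiply to the controlled gate. -/
theorem five_steps {F R : Module.End ℝ V} (hF : Refl F) (hR : Refl R)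
    (hc : ∀ x, F (R x) = R (F x)) (x : V) : R (-F (Cop F R (R (-F x)))) = Cop F R x := by
  simp only [Cop_apply, map_sub, map_add, map_smul, map_neg, hF.invol, hR.invol, ← hc]
  module

end Crest.Agent.R338.K
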