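import Crest.Agent.R338.KDefs

/-! Row 338, module K: basic facts on Pauli operators, gates and term lists. -/

set_option autoImplicit false

open scoped RealInnerProductSpace
open Crest.Quantum.GateCircuit Crest.Quantum.QMA Crest.Agent.Lib.PT

namespace Crest.Agent.R338.K

variable {n : ℕ}

lemma inner_eq (ψ φ : St n) : ⟪ψ, φ⟫ = ∑ σ, ψ σ * φ σ := by
  rw [PiLp.inner_apply]
  exact Finset.sum_congr rfl fun σ _ => by simp [mul_comm]

lemma norm_sq_eq (ψ : St n) : ‖ψ‖ ^ 2 = ∑ σ, ψ σ ^ 2 := by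
  rw [← real_inner_self_eq_norm_sq, inner_eq]
  exact Finset.sum_congr rfl fun σ _ => by ring

lemma sg_mul_self (b : Bool) : sg b * sg b = 1 := by
  cases b <;> simp [sg]

lemma sg_not (b : Bool) : sg (!b) = -sg b := by
  cases b <;> simp [sg]

lemma bit_of_lt (σ : Fin n → Bool) {i : ℕ} (h : i < n) : bit σ i = σ ⟨i, h⟩ := by
  simp [bit, h]

lemma bit_of_ge (σ : Fin n → Bool) {i : ℕ} (h : n ≤ i) : bit σ i = false := by
  simp [bit, Nat.not_lt.2 h]

@[simp] lemma bit_val (σ : Fin n → Bool) (i : Fin n) : bit σ i = σ i := by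
  simp [bit]

@[simp] lemma flp_flp (σ : Fin n → Bool) (i : ℕ) : flp (flp σ i) i = σ := by
  funext j
  by_cases h : (j : ℕ) = i <;> simp [flp, h]

lemma flp_comm (σ : Fin n → Bool) (i j : ℕ) : flp (flp σ i) j = flp (flp σ j) i := by
  funext k
  by_cases h : (k : ℕ) = i <;> by_cases h' : (k : ℕ) = j <;> simp only [flp, h, h', if_true, if_false] <;>
    split_ifs <;> simp_all

lemma bit_flp_self (σ : Fin n → Bool) {i : ℕ} (h : i < n) : bit (flp σ i) i = !bit σ i := by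
  simp [bit, h, flp]

lemma bit_flp_ne (σ : Fin n → Bool) {i j : ℕ} (h : j ≠ i) : bit (flp σ i) j = bit σ j := by
  by_cases hj : j < n <;> simp [bit, hj, flp, h]

lemma flp_eq_fl (σ : Fin n → Bool) (i : Fin n) : flp σ i = fl σ i := by
  funext j
  by_cases h : j = i
  · subst h; simp [flp, fl]
  · have : (j : ℕ) ≠ i := fun e => h (Fin.ext e)
    simp [flp, fl, h, this]

lemma cl_iff (w : ℕ) (σ : Fin n → Bool) : Cl w σ ↔ ∀ i, w ≤ i → bit σ i = false := by
  constructor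
  · intro h i hi
    by_cases hn : i < n
    · rw [bit_of_lt σ hn]; exact h ⟨i, hn⟩ hi
    · exact bit_of_ge σ (Nat.not_lt.1 hn)
  · intro h i hi
    rw [← bit_val σ i]; exact h i hi

lemma rho_sq : rho ^ 2 = 1 / 2 := by
  unfold rho
  rw [inv_pow, Real.sq_sqrt (by norm_num)]; norm_num

lemma rho_pos : 0 < rho := by
  unfold rho; positivity

lemma rho_le_one : rho ≤ 1 := by
  nlinarith [rho_sq, rho_pos]

section abstract

variable {V : Type} [NormedAddCommGroup V] [InnerProductSpace ℝ V]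

lemma Refl.inner_map {A : Module.End ℝ V} (h : Refl A) (x y : V) : ⟪A x, A y⟫ = ⟪x, y⟫ := by
  rw [h.symm, h.invol]

lemma Refl.norm_map {A : Module.End ℝ V} (h : Refl A) (x : V) : ‖A x‖ = ‖x‖ := by
  have := h.inner_map x x
  rw [real_inner_self_eq_norm_sq, real_inner_self_eq_norm_sq] at this
  exact (sq_eq_sq₀ (norm_nonneg _) (norm_nonneg _)).1 this

lemma Refl.neg {A : Module.End ℝ V} (h : Refl A) : Refl (-A) := by
  refine ⟨fun x y => ?_, fun x => ?_⟩
  · simp [h.symm]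
  · simp [h.invol]

lemma Cop_apply (F R : Module.End ℝ V) (x : V) :
    Cop F R x = (1 / 2 : ℝ) • (x + F x + R x - F (R x)) := by
  simp [Cop]

lemma refl_Cop {F R : Module.End ℝ V} (hF : Refl F) (hR : Refl R) (hc : ∀ x, F (R x) = R (F x)) :
    Refl (Cop F R) := by
  refine ⟨fun x y => ?_, fun x => ?_⟩
  · simp only [Cop_apply, inner_smul_left, inner_smul_right, inner_add_left, inner_add_right,
      inner_sub_left, inner_sub_right, hF.symm, hR.symm, hc]
    simp
  · simp only [Cop_apply, map_smul, map_add, map_sub, hc, hF.invol, hR.invol]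
    module

end abstract

lemma refl_ZL (n i : ℕ) : Refl (ZL n i) := by
  refine ⟨fun x y => ?_, fun x => ?_⟩
  · simp only [inner_eq, ZL_apply]
    exact Finset.sum_congr rfl fun σ _ => by ring
  · ext σ; simp only [ZL_apply]; rw [← mul_assoc, sg_mul_self, one_mul]

lemma refl_XL (n i : ℕ) : Refl (XL n i) := by
  refine ⟨fun x y => ?_, fun x => ?_⟩
  · simp only [inner_eq, XL_apply]
    exact Finset.sum_nbij' (fun σ => flp σ i) (fun σ => flp σ i) (by simp) (by simp) (by simp)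
      (by simp) (by simp)
  · ext σ; simp

lemma refl_Rop {s : ℕ} (k : ℕ) (h : s < n) : Refl (Rop n k s) := by
  unfold Rop
  split_ifs
  · exact refl_ZL n s
  · refine ⟨fun x y => ?_, fun x => ?_⟩
    · simp only [LinearMap.smul_apply, LinearMap.add_apply, inner_smul_left, inner_smul_right,
        inner_add_left, inner_add_right, (refl_ZL n s).symm, (refl_XL n s).symm]
      simp
    · ext σ
      have h1 := sg_mul_self (bit σ s)
      have h2 := rho_sq
      simp only [LinearMap.smul_apply, LinearMap.add_apply, PiLp.smul_apply, PiLp.add_apply,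
        ZL_apply, XL_apply, smul_eq_mul, flp_flp, bit_flp_self σ h, sg_not]
      linear_combination (rho ^ 2 * x σ) * h1 + (2 * x σ) * h2
  · exact refl_XL n s

lemma refl_gF (n : ℕ) (g : Gt) : Refl (gF n g) := by
  unfold gF Fop
  split_ifs
  · exact (refl_ZL _ _).neg
  · exact refl_ZL _ _

lemma refl_gR {g : Gt} (h : GtOK n g) : Refl (gR n g) := by
  exact refl_Rop _ h.2.1

lemma gF_gR_comm {g : Gt} (h : GtOK n g) (x : St n) : gF n g (gR n g x) = gR n g (gF n g x) := by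
  have h1 : ∀ σ : Fin n → Bool, bit (flp σ g.2.2.1) g.2.1 = bit σ g.2.1 :=
    fun σ => bit_flp_ne σ h.2.2
  unfold gF gR Fop Rop
  ext σ
  split_ifs <;>
    simp only [LinearMap.neg_apply, LinearMap.smul_apply, LinearMap.add_apply, map_neg,
      PiLp.neg_apply, PiLp.smul_apply, PiLp.add_apply, ZL_apply, XL_apply, h1, smul_eq_mul] <;>
    ring

lemma refl_gop {g : Gt} (h : GtOK n g) : Refl (gop n g) := by
  exact refl_Cop (refl_gF n g) (refl_gR h) (gF_gR_comm h)

lemma Rop_apply (k s : ℕ) (ψ : St n) (σ : Fin n → Bool) :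
    Rop n k s ψ σ = if k = 0 then sg (bit σ s) * ψ σ
      else if k = 1 then rho * (sg (bit σ s) * ψ σ + ψ (flp σ s)) else ψ (flp σ s) := by
  unfold Rop
  split_ifs <;> simp [mul_add]

lemma gop_apply (anti : Bool) (f s k : ℕ) (ψ : St n) (σ : Fin n → Bool) :
    gop n (anti, f, s, k) ψ σ = if bit σ f = !anti then Rop n k s ψ σ else ψ σ := by
  unfold gop gF gR Fop
  rw [Cop_apply]
  cases anti <;> cases hb : bit σ f <;> simp [hb, sg] <;> ring

@[simp] lemma run_nil (ψ : St n) : run n [] ψ = ψ := rfl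

@[simp] lemma run_cons (g : Gt) (gs : List Gt) (ψ : St n) :
    run n (g :: gs) ψ = run n gs (gop n g ψ) := rfl

lemma run_append (gs hs : List Gt) (ψ : St n) : run n (gs ++ hs) ψ = run n hs (run n gs ψ) := by
  simp [run, List.foldl_append]

lemma run_smul (gs : List Gt) (c : ℝ) (ψ : St n) : run n gs (c • ψ) = c • run n gs ψ := by
  induction gs generalizing ψ with
  | nil => rfl
  | cons g gs ih => rw [run_cons, run_cons, map_smul, ih]

lemma norm_run {gs : List Gt} (h : ∀ g ∈ gs, GtOK n g) (ψ : St n) : ‖run n gs ψ‖ = ‖ψ‖ := by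
  induction gs generalizing ψ with
  | nil => rfl
  | cons g gs ih =>
    rw [run_cons, ih (fun g' hg' => h g' (List.mem_cons_of_mem _ hg')),
      (refl_gop (h g List.mem_cons_self)).norm_map]

lemma norm_pauli (n k i j : ℕ) (ψ : St n) : ‖pauli n k i j ψ‖ = ‖ψ‖ := by
  unfold pauli
  split_ifs <;>
    simp [Module.End.mul_apply, (refl_ZL n _).norm_map, (refl_XL n _).norm_map]

@[simp] lemma HL_nil (ρ : ℝ) : HL n ρ [] = 0 := rfl

@[simp] lemma HL_cons (ρ : ℝ) (t : Tm) (L : List Tm) : HL n ρ (t :: L) = tmOp n ρ t + HL n ρ L := by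
  simp [HL]

@[simp] lemma HL_append (ρ : ℝ) (L M : List Tm) : HL n ρ (L ++ M) = HL n ρ L + HL n ρ M := by
  simp [HL]

lemma inner_HL_append (ρ : ℝ) (L M : List Tm) (φ ψ : St n) :
    ⟪φ, HL n ρ (L ++ M) ψ⟫ = ⟪φ, HL n ρ L ψ⟫ + ⟪φ, HL n ρ M ψ⟫ := by
  rw [HL_append, LinearMap.add_apply, inner_add_right]

lemma inner_HL_flatMap {β : Type} (ρ : ℝ) (l : List β) (f : β → List Tm) (φ ψ : St n) :
    ⟪φ, HL n ρ (l.flatMap f) ψ⟫ = (l.map fun b => ⟪φ, HL n ρ (f b) ψ⟫).sum := by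
  induction l with
  | nil => simp
  | cons b l ih => rw [List.flatMap_cons, inner_HL_append, ih, List.map_cons, List.sum_cons]

lemma HL_bound {ρ : ℝ} (hρ : |ρ| ≤ 1) {Cb : ℕ} {L : List Tm} (h : ∀ t ∈ L, TmBd Cb t)
    (φ ψ : St n) : |⟪φ, HL n ρ L ψ⟫| ≤ 2 * Cb * L.length * (‖φ‖ * ‖ψ‖) := by
  induction L with
  | nil => simp
  | cons t L ih =>
    have h1 := ih fun t' ht' => h t' (List.mem_cons_of_mem _ ht')
    obtain ⟨ha, hb⟩ := h t List.mem_cons_self
    have ha' : |(t.2.2.2.1 : ℝ)| ≤ Cb := by exact_mod_cast ha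
    have hb' : |(t.2.2.2.2 : ℝ)| ≤ Cb := by exact_mod_cast hb
    have hc : |(t.2.2.2.1 : ℝ) + t.2.2.2.2 * ρ| ≤ 2 * Cb := by
      refine (abs_add_le _ _).trans ?_
      rw [abs_mul]
      nlinarith [abs_nonneg (t.2.2.2.2 : ℝ), abs_nonneg ρ]
    have hp := abs_real_inner_le_norm φ (pauli n t.1 t.2.1 t.2.2.1 ψ)
    rw [norm_pauli] at hp
    rw [HL_cons, LinearMap.add_apply, inner_add_right]
    refine (abs_add_le _ _).trans ?_
    have h2 : |⟪φ, tmOp n ρ t ψ⟫| ≤ 2 * Cb * (‖φ‖ * ‖ψ‖) := by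
      rw [tmOp, LinearMap.smul_apply, real_inner_smul_right, abs_mul]
      exact mul_le_mul hc hp (abs_nonneg _) (by positivity)
    rw [List.length_cons]; push_cast; linarith

lemma HL_round (ρ ρ' : ℝ) {Cb : ℕ} {L : List Tm} (h : ∀ t ∈ L, TmBd Cb t) (ψ : St n) :
    |⟪ψ, HL n ρ L ψ⟫ - ⟪ψ, HL n ρ' L ψ⟫| ≤ |ρ - ρ'| * (Cb * L.length) * ‖ψ‖ ^ 2 := by
  induction L with
  | nil => simp
  | cons t L ih =>
    have h1 := ih fun t' ht' => h t' (List.mem_cons_of_mem _ ht')
    obtain ⟨-, hb⟩ := h t List.mem_cons_self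
    have hb' : |(t.2.2.2.2 : ℝ)| ≤ Cb := by exact_mod_cast hb
    have hp := abs_real_inner_le_norm ψ (pauli n t.1 t.2.1 t.2.2.1 ψ)
    rw [norm_pauli, ← sq] at hp
    have h2 : |⟪ψ, tmOp n ρ t ψ⟫ - ⟪ψ, tmOp n ρ' t ψ⟫| ≤ |ρ - ρ'| * Cb * ‖ψ‖ ^ 2 := by
      rw [tmOp, tmOp, LinearMap.smul_apply, LinearMap.smul_apply, real_inner_smul_right,
        real_inner_smul_right, ← sub_mul, abs_mul,
        show (t.2.2.2.1 : ℝ) + t.2.2.2.2 * ρ - (t.2.2.2.1 + t.2.2.2.2 * ρ') =
          (ρ - ρ') * t.2.2.2.2 by ring, abs_mul]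
      exact mul_le_mul (mul_le_mul_of_nonneg_left hb' (abs_nonneg _)) hp (abs_nonneg _)
        (by positivity)
    rw [HL_cons, HL_cons, LinearMap.add_apply, LinearMap.add_apply, inner_add_right,
      inner_add_right, add_sub_add_comm]
    refine (abs_add_le _ _).trans ?_
    rw [List.length_cons]; push_cast; linarith

lemma P0_apply (i : ℕ) (ψ : St n) (σ : Fin n → Bool) :
    P0 n i ψ σ = if bit σ i = false then ψ σ else 0 := by
  cases hb : bit σ i <;> simp [P0, hb, sg]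
  ring

lemma rej_eq (i : ℕ) (ψ : St n) : rej i ψ = ‖P0 n i ψ‖ ^ 2 := by
  rw [norm_sq_eq, rej]
  refine Finset.sum_congr rfl fun σ _ => ?_
  rw [P0_apply]; split_ifs <;> simp

lemma norm_P0_le (i : ℕ) (ψ : St n) : ‖P0 n i ψ‖ ≤ ‖ψ‖ := by
  refine (sq_le_sq₀ (norm_nonneg _) (norm_nonneg _)).1 ?_
  rw [norm_sq_eq, norm_sq_eq]
  refine Finset.sum_le_sum fun σ _ => ?_
  rw [P0_apply]; split_ifs
  · exact le_rfl
  · simpa using sq_nonneg (ψ σ)

lemma rej_smul (i : ℕ) (c : ℝ) (ψ : St n) : rej i (c • ψ) = c ^ 2 * rej i ψ := by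
  rw [rej_eq, rej_eq, map_smul, norm_smul, mul_pow, Real.norm_eq_abs, sq_abs]

lemma Clean.smul {w : ℕ} {ψ : St n} (h : Clean w ψ) (c : ℝ) : Clean w (c • ψ) := by
  intro σ hσ
  refine h σ fun e => hσ ?_
  simp [e]

lemma Clean.mono {w w' : ℕ} {ψ : St n} (h : Clean w ψ) (hw : w ≤ w') : Clean w' ψ := by
  exact fun σ hσ i hi => h σ hσ i (hw.trans hi)

lemma dirt_clean {w : ℕ} {ψ : St n} (h : Clean w ψ) : dirt w ψ = 0 := by
  refine Finset.sum_eq_zero fun a ha => Finset.sum_eq_zero fun σ _ => ?_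
  split_ifs with hb
  · by_contra hne
    have h1 : ψ σ ≠ 0 := fun e => hne (by simp [e])
    have := (cl_iff w σ).1 (h σ h1) a (Finset.mem_Ico.1 ha).1
    simp [this] at hb
  · rfl

lemma clean_split (w : ℕ) (ψ : St n) : ∃ u v : St n, ψ = u + v ∧ Clean w u ∧ ‖v‖ ^ 2 ≤ dirt w ψ := by
  refine ⟨WithLp.toLp 2 fun σ => if Cl w σ then ψ σ else 0,
    WithLp.toLp 2 fun σ => if Cl w σ then 0 else ψ σ, ?_, ?_, ?_⟩
  · ext σ; by_cases h : Cl w σ <;> simp [h]
  · intro σ hσ
    by_contra h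
    simp [h] at hσ
  · rw [norm_sq_eq, dirt, Finset.sum_comm]
    refine Finset.sum_le_sum fun σ _ => ?_
    by_cases h : Cl w σ
    · simp only [h, if_true]
      rw [zero_pow two_ne_zero]
      exact Finset.sum_nonneg fun a _ => by split_ifs <;> positivity
    · simp only [h, if_false]
      unfold Cl at h
      push Not at h
      obtain ⟨i, hi, hb⟩ := h
      have hm : (i : ℕ) ∈ Finset.Ico w n := Finset.mem_Ico.2 ⟨hi, i.2⟩
      refine le_trans ?_ (Finset.single_le_sum (f := fun a => if bit σ a = true then ψ σ ^ 2 else 0)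
        (fun a _ => by split_ifs <;> positivity) hm)
      have : bit σ i = true := by rw [bit_val]; simpa using hb
      simp [this]

lemma rr_spec {M : ℕ} (hM : 1 ≤ M) : 0 ≤ rr M ∧ rr M ≤ 1 ∧ |rho - (rr M : ℝ)| ≤ 1 / M := by
  have key : ∀ m : ℕ, ((List.range m).countP fun k => decide (2 * (k + 1) ^ 2 ≤ M ^ 2)) =
      min m (Nat.sqrt (M ^ 2 / 2)) := by
    intro m
    induction m with
    | zero => simp
    | succ m ih =>
      rw [List.range_succ, List.countP_append, ih, List.countP_singleton]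
      have : 2 * (m + 1) ^ 2 ≤ M ^ 2 ↔ m + 1 ≤ Nat.sqrt (M ^ 2 / 2) := by
        rw [Nat.le_sqrt', Nat.le_div_iff_mul_le (by norm_num), mul_comm]
      simp only [decide_eq_true_eq, this]
      split_ifs <;> omega
  set s := Nat.sqrt (M ^ 2 / 2) with hs
  have h1 : 2 * s ^ 2 ≤ M ^ 2 := by
    have := Nat.sqrt_le' (M ^ 2 / 2)
    rw [← hs] at this
    omega
  have h2 : M ^ 2 < 2 * (s + 1) ^ 2 := by
    have := Nat.lt_succ_sqrt' (M ^ 2 / 2)
    rw [Nat.succ_eq_add_one, ← hs] at this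
    omega
  have h3 : s ≤ M := by nlinarith
  have hr : rr M = (s : ℚ) / M := by rw [rr, key, min_eq_right h3]
  have hM' : (0 : ℚ) < M := by exact_mod_cast hM
  have hM'' : (0 : ℝ) < M := by exact_mod_cast hM
  refine ⟨by rw [hr]; positivity, by rw [hr, div_le_one hM']; exact_mod_cast h3, ?_⟩
  rw [hr]; push_cast
  have h1' : 2 * (s : ℝ) ^ 2 ≤ (M : ℝ) ^ 2 := by exact_mod_cast h1
  have h2' : (M : ℝ) ^ 2 < 2 * ((s : ℝ) + 1) ^ 2 := by exact_mod_cast h2
  have hp := rho_pos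
  have hq := rho_sq
  have e1 : (s : ℝ) ≤ rho * M := by
    refine (sq_le_sq₀ (by positivity) (by positivity)).1 ?_
    rw [mul_pow, hq]; linarith
  have e2 : rho * M ≤ (s : ℝ) + 1 := by
    refine (sq_le_sq₀ (by positivity) (by positivity)).1 ?_
    rw [mul_pow, hq]; linarith
  rw [show rho - (s : ℝ) / M = (rho * M - s) / M by field_simp, abs_div, abs_of_pos hM'',
    abs_of_nonneg (by linarith)]
  gcongr
  linarith

end Crest.Agent.R338.K
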