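import Crest.Agent.R338.KBas

/-! Row 338, module K: the clock penalty. -/

set_option autoImplicit false

open scoped RealInnerProductSpace
open Crest.Quantum.GateCircuit Crest.Quantum.QMA Crest.Agent.Lib.PT

namespace Crest.Agent.R338.K

variable {nd T : ℕ}

/-- The true value of clock bit `j`. -/
def clkBit (nd : ℕ) {n : ℕ} (σ : Fin n → Bool) (j : ℕ) : Bool :=
  xor (bit σ (nd + j)) (decide (j % 2 = 1))

/-- The clock penalty of a string. -/
noncomputable def clkPen (nd T : ℕ) {n : ℕ} (σ : Fin n → Bool) : ℝ :=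
  (1 + sg (clkBit nd σ 0)) / 2 + (1 - sg (clkBit nd σ (T + 1))) / 2 +
    ∑ t ∈ Finset.range (T + 1), (1 + sg (clkBit nd σ t)) * (1 - sg (clkBit nd σ (t + 1))) / 4

lemma clk_sg {n : ℕ} (σ : Fin n → Bool) (j : ℕ) :
    sg (clkBit nd σ j) = (gq j : ℝ) * sg (bit σ (nd + j)) := by
  rcases Nat.mod_two_eq_zero_or_one j with h | h <;> cases hb : bit σ (nd + j) <;>
    simp [clkBit, gq, sg, h, hb]

lemma clk_gq_succ (j : ℕ) : (gq (j + 1) : ℝ) = -gq j := by
  rcases Nat.mod_two_eq_zero_or_one j with h | h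
  · have : (j + 1) % 2 = 1 := by omega
    simp [gq, h, this]
  · have : (j + 1) % 2 = 0 := by omega
    simp [gq, h, this]

lemma clk_gq_sq (j : ℕ) : (gq j : ℝ) * gq j = 1 := by
  unfold gq; split_ifs <;> norm_num

lemma clk_wall {n : ℕ} (ρ : ℝ) (t : ℕ) (x : ℚ) (ψ : St n) (σ : Fin n → Bool) :
    HL n ρ (tWall nd t x) ψ σ =
      x * ((1 + sg (clkBit nd σ t)) * (1 - sg (clkBit nd σ (t + 1))) / 4) * ψ σ := by
  rw [clk_sg, clk_sg, clk_gq_succ]
  simp [tWall, tmOp, pauli]
  linear_combination (-(x : ℝ) / 4 * sg (bit σ (nd + t)) * sg (bit σ (nd + (t + 1))) * ψ σ) *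
    clk_gq_sq t

lemma clk_walls {n : ℕ} (ρ : ℝ) (m : ℕ) (x : ℚ) (ψ : St n) (σ : Fin n → Bool) :
    HL n ρ ((List.range m).flatMap fun t => tWall nd t x) ψ σ =
      x * (∑ t ∈ Finset.range m,
        (1 + sg (clkBit nd σ t)) * (1 - sg (clkBit nd σ (t + 1))) / 4) * ψ σ := by
  induction m with
  | zero => simp
  | succ m ih =>
    rw [List.range_succ, List.flatMap_append, HL_append, Finset.sum_range_succ]
    simp only [List.flatMap_cons, List.flatMap_nil, List.append_nil, LinearMap.add_apply,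
      PiLp.add_apply, ih, clk_wall]
    ring

lemma clk_apply {n : ℕ} (ρ : ℝ) (x : ℚ) (ψ : St n) (σ : Fin n → Bool) :
    HL n ρ (tClock nd T x) ψ σ = x * clkPen nd T σ * ψ σ := by
  rw [tClock, HL_append, LinearMap.add_apply, PiLp.add_apply, clk_walls, clkPen,
    clk_sg σ 0, clk_sg σ (T + 1)]
  have h0 : (gq 0 : ℝ) = 1 := by simp [gq]
  simp [tmOp, pauli, h0]
  ring

lemma clk_term_nonneg (a b : Bool) : 0 ≤ (1 + sg a) * (1 - sg b) / 4 := by
  cases a <;> cases b <;> norm_num [sg]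

lemma clk_pen_legal {n : ℕ} {σ : Fin n → Bool} (h : LegS nd T σ) : clkPen nd T σ = 0 := by
  obtain ⟨t, ht, h⟩ := h
  have hc : ∀ j ≤ T + 1, clkBit nd σ j = decide (j ≤ t) := by
    intro j hj
    rw [clkBit, h j hj, kap]
    simp
  rw [clkPen, hc 0 (by omega), hc (T + 1) le_rfl, Finset.sum_eq_zero]
  · have : ¬ T + 1 ≤ t := by omega
    simp [sg, this]
  · intro j hj
    rw [Finset.mem_range] at hj
    rw [hc j (by omega), hc (j + 1) (by omega)]
    by_cases h1 : j ≤ t
    · simp [sg, h1]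
    · have : ¬ j + 1 ≤ t := by omega
      simp [sg, this]

lemma clk_pen_illegal {n : ℕ} {σ : Fin n → Bool} (h : ¬ LegS nd T σ) : 1 ≤ clkPen nd T σ := by
  by_contra hlt
  push Not at hlt
  have hs : 0 ≤ ∑ t ∈ Finset.range (T + 1),
      (1 + sg (clkBit nd σ t)) * (1 - sg (clkBit nd σ (t + 1))) / 4 :=
    Finset.sum_nonneg fun t _ => clk_term_nonneg _ _
  have ha : ∀ b : Bool, 0 ≤ (1 + sg b) / 2 := fun b => by cases b <;> norm_num [sg]
  have hb : ∀ b : Bool, 0 ≤ (1 - sg b) / 2 := fun b => by cases b <;> norm_num [sg]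
  unfold clkPen at hlt
  have h0 : clkBit nd σ 0 = true := by
    by_contra h0
    rw [Bool.not_eq_true] at h0
    rw [h0] at hlt
    have := hb (clkBit nd σ (T + 1))
    norm_num [sg] at hlt this hs
    linarith
  have h1 : clkBit nd σ (T + 1) = false := by
    by_contra h1
    rw [Bool.not_eq_false] at h1
    have := ha (clkBit nd σ 0)
    rw [h1] at hlt
    norm_num [sg] at hlt this hs
    linarith
  have h2 : ∀ t ≤ T, clkBit nd σ t = false → clkBit nd σ (t + 1) = false := by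
    intro t ht h3
    by_contra h4
    rw [Bool.not_eq_false] at h4
    have h5 := Finset.single_le_sum (f := fun t =>
      (1 + sg (clkBit nd σ t)) * (1 - sg (clkBit nd σ (t + 1))) / 4)
      (fun t _ => clk_term_nonneg _ _) (Finset.mem_range.2 (Nat.lt_succ_of_le ht))
    simp only [h3, h4] at h5
    have h6 : (1 + sg false) * (1 - sg true) / 4 = 1 := by norm_num [sg]
    linarith [ha (clkBit nd σ 0), hb (clkBit nd σ (T + 1))]
  have hex : ∃ t, clkBit nd σ (t + 1) = false := ⟨T, h1⟩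
  have ht : Nat.find hex ≤ T := Nat.find_min' hex h1
  refine h ⟨Nat.find hex, ht, fun j hj => ?_⟩
  have hc : clkBit nd σ j = decide (j ≤ Nat.find hex) := by
    by_cases hjt : j ≤ Nat.find hex
    · rw [decide_eq_true hjt]
      rcases j with _ | j
      · exact h0
      · simpa using Nat.find_min hex (show j < Nat.find hex by omega)
    · rw [decide_eq_false hjt]
      have key : ∀ k, Nat.find hex + 1 + k ≤ T + 1 → clkBit nd σ (Nat.find hex + 1 + k) = false := by
        intro k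
        induction k with
        | zero => exact fun _ => Nat.find_spec hex
        | succ k ih => exact fun hk => h2 (Nat.find hex + 1 + k) (by omega) (ih (by omega))
      have := key (j - (Nat.find hex + 1)) (by omega)
      rwa [show Nat.find hex + 1 + (j - (Nat.find hex + 1)) = j by omega] at this
  rw [kap, ← hc, clkBit]
  simp

theorem clock_legal {ψ : St (nd + (T + 2))} (h : Legal nd T ψ) (ρ : ℝ) (x : ℚ) :
    ⟪ψ, HL _ ρ (tClock nd T x) ψ⟫ = 0 := by
  rw [inner_eq]
  refine Finset.sum_eq_zero fun σ _ => ?_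
  by_cases hσ : ψ σ = 0
  · rw [hσ, zero_mul]
  · rw [clk_apply, clk_pen_legal (h σ hσ)]
    ring

theorem clock_lower {φ χ : St (nd + (T + 2))} (hφ : Legal nd T φ) (hχ : Illegal nd T χ) (ρ : ℝ)
    {x : ℚ} (hx : 0 ≤ x) : (x : ℝ) * ‖χ‖ ^ 2 ≤ ⟪φ + χ, HL _ ρ (tClock nd T x) (φ + χ)⟫ := by
  have hx' : (0 : ℝ) ≤ x := by exact_mod_cast hx
  rw [inner_eq, norm_sq_eq, Finset.mul_sum]
  refine Finset.sum_le_sum fun σ _ => ?_
  rw [clk_apply, PiLp.add_apply]
  by_cases hσ : LegS nd T σ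
  · rw [clk_pen_legal hσ, hχ σ hσ]
    simp
  · have h0 : φ σ = 0 := by
      by_contra h0
      exact hσ (hφ σ h0)
    rw [h0, zero_add]
    nlinarith [mul_le_mul_of_nonneg_left (clk_pen_illegal hσ) (mul_nonneg hx' (sq_nonneg (χ σ)))]

end Crest.Agent.R338.K
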