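import Crest.Agent.R338.Defs
import Crest.Prelude.Def_QMA

/-! Row 338, module K: definitions.

* `St n`: real states of `n` qubits; `ZL`, `XL`: Pauli operators indexed by natural numbers (the
  identity when the index is out of range).
* `Tm`, `HL`, `mkXZ`: a Hamiltonian as a list of Pauli terms with coefficients `a + b ρ`
  (`ρ` stands for `1/√2`), and the `XZ` record made from such a list.
* `Gt`, `gop`, `run`: real circuits of (anti-)controlled `Z`, `H`, `X` gates.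
* `ham`: the Kempe-Kitaev-Regev Hamiltonian of such a circuit (five clock steps a gate).
* `mc`, `cg`, `encC`: compilation of the verifier circuits into real circuits. -/

set_option autoImplicit false

open scoped RealInnerProductSpace
open Crest.Quantum.GateCircuit Crest.Agent.Lib.PT

namespace Crest.Agent.R338.K

/-! ### States and Pauli operators -/

abbrev St (n : ℕ) : Type := EuclideanSpace ℝ (Fin n → Bool)

/-- Bit number `i` (false when out of range). -/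
def bit {n : ℕ} (σ : Fin n → Bool) (i : ℕ) : Bool := if h : i < n then σ ⟨i, h⟩ else false

/-- Flip bit number `i` (nothing happens when out of range). -/
def flp {n : ℕ} (σ : Fin n → Bool) (i : ℕ) : Fin n → Bool :=
  fun j => if (j : ℕ) = i then !σ j else σ j

noncomputable def ZL (n i : ℕ) : Module.End ℝ (St n) where
  toFun ψ := WithLp.toLp 2 fun σ => sg (bit σ i) * ψ σ
  map_add' ψ φ := by ext σ; simp [mul_add]
  map_smul' c ψ := by ext σ; simp [mul_left_comm]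

noncomputable def XL (n i : ℕ) : Module.End ℝ (St n) where
  toFun ψ := WithLp.toLp 2 fun σ => ψ (flp σ i)
  map_add' ψ φ := by ext σ; simp
  map_smul' c ψ := by ext σ; simp

@[simp] lemma ZL_apply (n i : ℕ) (ψ : St n) (σ : Fin n → Bool) :
    ZL n i ψ σ = sg (bit σ i) * ψ σ := rfl

@[simp] lemma XL_apply (n i : ℕ) (ψ : St n) (σ : Fin n → Bool) :
    XL n i ψ σ = ψ (flp σ i) := rfl

/-- Symmetric involutions. -/
structure Refl {V : Type} [NormedAddCommGroup V] [InnerProductSpace ℝ V] (A : Module.End ℝ V) :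
    Prop where
  symm : ∀ x y, ⟪A x, y⟫ = ⟪x, A y⟫
  invol : ∀ x, A (A x) = x

/-- All bits with index at least `w` vanish. -/
def Cl {n : ℕ} (w : ℕ) (σ : Fin n → Bool) : Prop := ∀ i : Fin n, w ≤ (i : ℕ) → σ i = false

instance {n : ℕ} (w : ℕ) (σ : Fin n → Bool) : Decidable (Cl w σ) := by unfold Cl; infer_instance

/-- States in which all qubits with index at least `w` are in state `0`. -/
def Clean {n : ℕ} (w : ℕ) (ψ : St n) : Prop := ∀ σ, ψ σ ≠ 0 → Cl w σ

/-- Projector on "qubit `i` is `0`". -/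
noncomputable def P0 (n i : ℕ) : Module.End ℝ (St n) := (1 / 2 : ℝ) • (1 + ZL n i)

/-- Weight of the strings whose bit `i` is `false`. -/
noncomputable def rej {n : ℕ} (i : ℕ) (ψ : St n) : ℝ :=
  ∑ σ : Fin n → Bool, if bit σ i = false then ψ σ ^ 2 else 0

/-- Expected number of ones among the qubits with index at least `w`. -/
noncomputable def dirt {n : ℕ} (w : ℕ) (ψ : St n) : ℝ :=
  ∑ a ∈ Finset.Ico w n, ∑ σ : Fin n → Bool, if bit σ a = true then ψ σ ^ 2 else 0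

/-! ### Hamiltonians as lists of terms -/

/-- `(k, i, j, a, b)`: the Pauli operator of kind `k` on qubits `i`, `j`, coefficient `a + b ρ`. -/
abbrev Tm : Type := ℕ × ℕ × ℕ × ℚ × ℚ

/-- Kinds: `0` identity, `1` `Z_i Z_j`, `2` `-X_i X_j`, `3` `Z_i X_j`, `4` `Z_i`, `5` `X_i`. -/
noncomputable def pauli (n k i j : ℕ) : Module.End ℝ (St n) :=
  if k = 0 then 1 else if k = 1 then ZL n i * ZL n j else if k = 2 then -(XL n i * XL n j)
  else if k = 3 then ZL n i * XL n j else if k = 4 then ZL n i else XL n i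

noncomputable def tmOp (n : ℕ) (ρ : ℝ) (t : Tm) : Module.End ℝ (St n) :=
  ((t.2.2.2.1 : ℝ) + (t.2.2.2.2 : ℝ) * ρ) • pauli n t.1 t.2.1 t.2.2.1

noncomputable def HL (n : ℕ) (ρ : ℝ) (L : List Tm) : Module.End ℝ (St n) :=
  (L.map (tmOp n ρ)).sum

/-- The coefficients are at most `Cb`. -/
def TmBd (Cb : ℕ) (t : Tm) : Prop := |t.2.2.2.1| ≤ Cb ∧ |t.2.2.2.2| ≤ Cb

/-- The sign and support constraints. -/
def TmOK (n nd : ℕ) (t : Tm) : Prop :=
  t.1 ≤ 5 ∧ t.2.1 < n ∧ t.2.2.1 < n ∧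
    ((t.1 = 1 ∨ t.1 = 2) → t.2.1 ≠ t.2.2.1 ∧ 0 ≤ t.2.2.2.1 ∧ 0 ≤ t.2.2.2.2) ∧
    (t.1 = 3 → t.2.1 < nd ∧ nd ≤ t.2.2.1)

def cf (r : ℚ) (t : Tm) : ℚ := t.2.2.2.1 + t.2.2.2.2 * r

def acc2 (r : ℚ) (L : List Tm) (k i j : ℕ) : ℚ :=
  ((L.filter fun t => decide (t.1 = k ∧ t.2.1 = i ∧ t.2.2.1 = j)).map (cf r)).sum

def acc1 (r : ℚ) (L : List Tm) (k i : ℕ) : ℚ :=
  ((L.filter fun t => decide (t.1 = k ∧ t.2.1 = i)).map (cf r)).sum

def acc0 (r : ℚ) (L : List Tm) : ℚ := ((L.filter fun t => decide (t.1 = 0)).map (cf r)).sum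

def mkXZ (n nd Cb : ℕ) (r : ℚ) (L : List Tm) (lo hi : ℚ) : XZ where
  n := n
  nd := nd
  B := n + 2 * Cb * (L.length + 1)
  zz := acc2 r L 1
  xx := acc2 r L 2
  zx := acc2 r L 3
  az := acc1 r L 4
  ax := acc1 r L 5
  lo := lo - acc0 r L
  hi := hi - acc0 r L

/-- `1/√2`. -/
noncomputable def rho : ℝ := (Real.sqrt 2)⁻¹

/-- A rational within `1/M` of `1/√2`. -/
def rr (M : ℕ) : ℚ := (((List.range M).countP fun k => decide (2 * (k + 1) ^ 2 ≤ M ^ 2) : ℕ) : ℚ) / M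

/-! ### Real circuits -/

/-- `(anti, f, s, k)`: the reflection `Z` (`k = 0`), `H` (`k = 1`) or `X` (otherwise) on qubit `s`,
controlled by qubit `f` being `1` (`anti = false`) or `0` (`anti = true`). -/
abbrev Gt : Type := Bool × ℕ × ℕ × ℕ

noncomputable def Rop (n k s : ℕ) : Module.End ℝ (St n) :=
  if k = 0 then ZL n s else if k = 1 then rho • (ZL n s + XL n s) else XL n s

noncomputable def Fop (n : ℕ) (anti : Bool) (f : ℕ) : Module.End ℝ (St n) :=
  if anti = true then -ZL n f else ZL n f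

/-- `R` controlled by `F = -1`. -/
noncomputable def Cop {V : Type} [AddCommGroup V] [Module ℝ V] (F R : Module.End ℝ V) :
    Module.End ℝ V := (1 / 2 : ℝ) • (1 + F + R - F * R)

noncomputable def gF (n : ℕ) (g : Gt) : Module.End ℝ (St n) := Fop n g.1 g.2.1
noncomputable def gR (n : ℕ) (g : Gt) : Module.End ℝ (St n) := Rop n g.2.2.2 g.2.2.1
noncomputable def gop (n : ℕ) (g : Gt) : Module.End ℝ (St n) := Cop (gF n g) (gR n g)

noncomputable def run (n : ℕ) (gs : List Gt) (ψ : St n) : St n :=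
  gs.foldl (fun φ g => gop n g φ) ψ

def GtOK (n : ℕ) (g : Gt) : Prop := g.2.1 < n ∧ g.2.2.1 < n ∧ g.2.1 ≠ g.2.2.1

/-- Well-formed real verifiers. -/
structure RVOK (nd : ℕ) (gs : List Gt) (out : ℕ) : Prop where
  out_lt : out < nd
  odd : gs.length % 2 = 1
  ok : ∀ g ∈ gs, GtOK nd g

/-! ### The clock -/

/-- Stored value of clock bit `j` at time `t` (odd bits are stored negated). -/
def kap (t j : ℕ) : Bool := xor (decide (j ≤ t)) (decide (j % 2 = 1))

/-- Data string `δ`, clock at time `t`. -/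
def join {nd : ℕ} (n : ℕ) (δ : Fin nd → Bool) (t : ℕ) : Fin n → Bool :=
  fun i => if (i : ℕ) < nd then bit δ i else kap t (i - nd)

/-- The data state at time `t`. -/
noncomputable def sl (nd n t : ℕ) : St n →ₗ[ℝ] St nd where
  toFun ψ := WithLp.toLp 2 fun δ => ψ (join n δ t)
  map_add' ψ φ := by ext σ; simp
  map_smul' c ψ := by ext σ; simp

@[simp] lemma sl_apply (nd n t : ℕ) (ψ : St n) (δ : Fin nd → Bool) :
    sl nd n t ψ δ = ψ (join n δ t) := rfl

/-- The clock part of the string shows a time `t ≤ T`. -/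
def LegS (nd T : ℕ) {n : ℕ} (σ : Fin n → Bool) : Prop :=
  ∃ t ≤ T, ∀ j ≤ T + 1, bit σ (nd + j) = kap t j

def Legal (nd T : ℕ) {n : ℕ} (ψ : St n) : Prop := ∀ σ, ψ σ ≠ 0 → LegS nd T σ

def Illegal (nd T : ℕ) {n : ℕ} (ψ : St n) : Prop := ∀ σ, LegS nd T σ → ψ σ = 0

/-! ### The Hamiltonian -/

/-- `(-1)^j`. -/
def gq (j : ℕ) : ℚ := if j % 2 = 0 then 1 else -1

/-- `x` times the projector on time `t` (on legal states). -/
def tProj (nd t : ℕ) (x : ℚ) : List Tm :=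
  [(4, nd + t, 0, -(gq t * x / 2), 0), (4, nd + (t + 1), 0, -(gq t * x / 2), 0)]

/-- `x F X_t`. -/
def tFX (nd : ℕ) (g : Gt) (t : ℕ) (x : ℚ) : List Tm :=
  [(3, g.2.1, nd + t, if g.1 = true then -x else x, 0)]

/-- `-x R X_t`, for `0 ≤ x`. -/
def tRX (nd : ℕ) (g : Gt) (t : ℕ) (x : ℚ) : List Tm :=
  [(3, g.2.2.1, nd + t, if g.2.2.2 = 0 then -x else 0, if g.2.2.2 = 1 then -x else 0),
    (2, g.2.2.1, nd + t, if 2 ≤ g.2.2.2 then x else 0, if g.2.2.2 = 1 then x else 0)]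

/-- `x X_t`. -/
def tX (nd t : ℕ) (x : ℚ) : List Tm := [(5, nd + t, 0, x, 0)]

/-- `-x X_t X_{t+1}`, for `0 ≤ x`. -/
def tXX (nd t : ℕ) (x : ℚ) : List Tm := [(2, nd + t, nd + (t + 1), x, 0)]

/-- The terms of the five steps `-F, R, C, -F, R` of the gate `g` that start at time `τ`. -/
def tBlock (nd : ℕ) (J1 J2 : ℚ) (g : Gt) (τ : ℕ) : List Tm :=
  tProj nd τ J1 ++ tProj nd (τ + 1) (2 * J1) ++ tProj nd (τ + 2) (J1 + 3 * J2) ++
    tProj nd (τ + 3) (J1 + 3 * J2) ++ tProj nd (τ + 4) (2 * J1) ++ tProj nd (τ + 5) J1 ++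
    tFX nd g (τ + 1) J1 ++ tRX nd g (τ + 2) J1 ++ tFX nd g (τ + 4) J1 ++ tRX nd g (τ + 5) J1 ++
    tX nd (τ + 1) (-(J2 / 2)) ++ tX nd (τ + 2) (J2 / 2) ++ tXX nd (τ + 1) (J2 / 2) ++
    tX nd (τ + 4) (-(J2 / 2)) ++ tX nd (τ + 5) (J2 / 2) ++ tXX nd (τ + 4) (J2 / 2) ++
    tX nd (τ + 3) (-(2 * J2)) ++ tFX nd g (τ + 3) (-(2 * J2)) ++ tRX nd g (τ + 3) (2 * J2)

/-- The energy of one block on legal states. -/
noncomputable def blkE {V : Type} [NormedAddCommGroup V] [InnerProductSpace ℝ V] (J1 J2 : ℝ)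
    (F R : Module.End ℝ V) (a0 a1 a2 a3 a4 a5 : V) : ℝ :=
  J1 * (‖a1 + F a0‖ ^ 2 + ‖a2 - R a1‖ ^ 2 + ‖a4 + F a3‖ ^ 2 + ‖a5 - R a4‖ ^ 2) +
    J2 * (3 * ‖a2‖ ^ 2 + 3 * ‖a3‖ ^ 2 - ⟪a1, a0⟫ + ⟪a2, a1⟫ - ⟪a2, a0⟫ - ⟪a4, a3⟫ + ⟪a5, a4⟫ -
      ⟪a5, a3⟫ - 4 * ⟪a3, a2 + F a2 + R a2⟫)

/-- `x (1 - Z_a)(1 - Z_{c_1})/4`: qubit `a` is `1` at time `0`. -/
def tIn1 (nd a : ℕ) (x : ℚ) : List Tm :=
  [(0, 0, 0, x / 4, 0), (4, a, 0, -(x / 4), 0), (4, nd + 1, 0, -(x / 4), 0), (1, a, nd + 1, x / 4, 0)]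

def tIn (nd w : ℕ) (x : ℚ) : List Tm := (List.range' w (nd - w)).flatMap fun a => tIn1 nd a x

/-- `x (1 + Z_out)(1 + Z_{c_T})/4`: the output qubit is `0` at time `T` (`T` odd). -/
def tOut (nd out T : ℕ) (x : ℚ) : List Tm :=
  [(0, 0, 0, x / 4, 0), (4, out, 0, x / 4, 0), (4, nd + T, 0, x / 4, 0), (1, out, nd + T, x / 4, 0)]

/-- `x (1 - n_t) n_{t+1}`. -/
def tWall (nd t : ℕ) (x : ℚ) : List Tm :=
  [(0, 0, 0, x / 4, 0), (4, nd + t, 0, gq t * x / 4, 0), (4, nd + (t + 1), 0, gq t * x / 4, 0),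
    (1, nd + t, nd + (t + 1), x / 4, 0)]

/-- `x ((1 - n_0) + n_{T+1} + ∑ (1 - n_t) n_{t+1})`. -/
def tClock (nd T : ℕ) (x : ℚ) : List Tm :=
  [(0, 0, 0, x / 2, 0), (4, nd + 0, 0, x / 2, 0), (0, 0, 0, x / 2, 0),
    (4, nd + (T + 1), 0, -(gq (T + 1) * x / 2), 0)] ++
    (List.range (T + 1)).flatMap fun t => tWall nd t x

def cL (G : ℕ) : ℕ := 5 * G + 1
def cJ2 (G : ℕ) : ℕ := 180 * cL G ^ 2
def cJ1 (G : ℕ) : ℕ := 25 * cJ2 G ^ 2

/-- Propagation, input and output terms. -/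
def tMain (nd w : ℕ) (gs : List Gt) (out : ℕ) : List Tm :=
  ((gs.zipIdx 0).flatMap fun p => tBlock nd (cJ1 gs.length) (cJ2 gs.length) p.1 (5 * p.2)) ++
    tIn nd w (cJ2 gs.length) ++ tOut nd out (5 * gs.length) (12 * cL gs.length : ℕ)

/-- Bound for the norm of the main part. -/
def cK (nd w : ℕ) (gs : List Gt) (out : ℕ) : ℕ := 2 * cJ1 gs.length * (tMain nd w gs out).length

def cJc (K : ℕ) : ℕ := 4 * K ^ 2 + K + 6

def tAll (nd w : ℕ) (gs : List Gt) (out : ℕ) : List Tm :=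
  tMain nd w gs out ++ tClock nd (5 * gs.length) (cJc (cK nd w gs out) : ℕ)

def ham (nd w : ℕ) (gs : List Gt) (out : ℕ) : XZ :=
  mkXZ (nd + (5 * gs.length + 2)) nd (cJc (cK nd w gs out))
    (rr (4 * cJc (cK nd w gs out) * (tAll nd w gs out).length)) (tAll nd w gs out) (17 / 4) (21 / 4)

/-- The operator of step `t → t + 1`. -/
noncomputable def stepOp (nd : ℕ) (gs : List Gt) (t : ℕ) : Module.End ℝ (St nd) :=
  if t % 5 = 0 ∨ t % 5 = 3 then -gF nd (gs.getD (t / 5) (false, 0, 0, 0))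
  else if t % 5 = 2 then gop nd (gs.getD (t / 5) (false, 0, 0, 0))
  else gR nd (gs.getD (t / 5) (false, 0, 0, 0))

/-- The state after `t` steps. -/
def pre {V : Type} [AddCommGroup V] [Module ℝ V] (U : ℕ → Module.End ℝ V) (x : V) : ℕ → V
  | 0 => x
  | t + 1 => U t (pre U x t)

/-! ### Compilation -/

/-- `t := a ∧ c` for a clean `t`, and back. -/
def g3 (a c t : ℕ) : List Gt := [(false, a, t, 1), (false, c, t, 0), (false, a, t, 1)]

/-- Qubit `b + i + 1` gets the conjunction of qubit `b + i` and control number `i`. -/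
def chain (b : ℕ) (cs : List ℕ) : List Gt := (cs.zipIdx b).flatMap fun p => g3 p.2 p.1 (p.2 + 1)

/-- The reflections `ks` on qubit `s`, controlled by qubit `b` and the qubits `cs`. -/
def mcIn (b : ℕ) (cs : List ℕ) (s : ℕ) (ks : List ℕ) : List Gt :=
  chain b cs ++ ks.map (fun k => (false, b + cs.length, s, k)) ++ (chain b cs).reverse

/-- The reflections `ks` on qubit `s`, controlled by the qubits `cs`; qubits from `z` on are clean. -/
def mc (z : ℕ) (cs : List ℕ) (s : ℕ) (ks : List ℕ) : List Gt :=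
  (true, z, z + 1, 2) :: (mcIn (z + 1) cs s ks ++ [(true, z, z + 1, 2)])

/-- The reflections `ks` on qubit `s`, first to last. -/
noncomputable def Rs (n s : ℕ) (ks : List ℕ) (ψ : St n) : St n :=
  ks.foldl (fun φ k => Rop n k s φ) ψ

/-- Raw gates: number of the primitive, controls, target. -/
abbrev RG : Type := ℕ × List ℕ × ℕ

def primIdx : Prim → ℕ
  | Prim.x => 0 | Prim.h => 1 | Prim.s => 2 | Prim.sdg => 3 | Prim.t => 4 | Prim.tdg => 5

def rawG {N : ℕ} : Gate N 0 → RG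
  | Gate.ctrl g cs t => (primIdx g, cs.map Fin.val, t)
  | Gate.oracle _ t => (0, [], t)

/-- Compilation of one gate. Qubit `0` separates real and imaginary parts, wire `j` is qubit
`j + 1`, qubits from `N + 1` on are ancillas. -/
def cg (N : ℕ) (g : RG) : List Gt :=
  if g.1 ≤ 1 then mc (N + 1) (g.2.1.map (· + 1)) (g.2.2 + 1) [if g.1 = 0 then 2 else 1]
  else mc (N + 1) ((g.2.2 + 1) :: g.2.1.map (· + 1)) 0
    (if g.1 = 2 then [0, 2] else if g.1 = 3 then [2, 0] else if g.1 = 4 then [0, 1] else [1, 0])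

/-- The compiled circuit, padded to odd length. -/
def cAll (N : ℕ) (gs : List RG) : List Gt :=
  gs.flatMap (cg N) ++ List.replicate ((gs.flatMap (cg N)).length + 1) (false, N + 1, 0, 0)

/-- Number of qubits of the compiled circuit. -/
def cNd (N : ℕ) (gs : List RG) : ℕ := N + 4 + (gs.flatMap fun g => g.2.1).length

/-- Real form of a complex state. -/
noncomputable def encC (N n : ℕ) (ψ : QVec N) : St n :=
  WithLp.toLp 2 fun σ => if Cl (N + 1) σ then
    (if bit σ 0 = true then (ψ fun j => bit σ (j + 1)).im else (ψ fun j => bit σ (j + 1)).re) else 0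

lemma encC_apply (N n : ℕ) (ψ : QVec N) (σ : Fin n → Bool) :
    encC N n ψ σ = if Cl (N + 1) σ then
      (if bit σ 0 = true then (ψ fun j => bit σ (j + 1)).im else (ψ fun j => bit σ (j + 1)).re)
      else 0 := rfl

end Crest.Agent.R338.K
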