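import Crest.Agent.R338.KSl

/-! Row 338, module K: the energy of legal states. -/

set_option autoImplicit false

open scoped RealInnerProductSpace
open Crest.Quantum.GateCircuit Crest.Quantum.QMA Crest.Agent.Lib.PT

namespace Crest.Agent.R338.K

variable {nd T : ℕ} {ψ : St (nd + (T + 2))}

private lemma ken_two {a : ℕ → St nd} {A : Module.End ℝ (St nd)}
    (hA : ∀ x y, ⟪A x, y⟫ = ⟪x, A y⟫) {j k : ℕ} (hjk : j < k) (hk : k ≤ T) :
    ∑ s ∈ Finset.range (T + 1), ⟪a s, A (if s = k then a j else if s = j then a k else 0)⟫ =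
      2 * ⟪a k, A (a j)⟫ := by
  rw [Finset.sum_eq_add k j hjk.ne' (fun s _ hs => by simp [hs.1, hs.2])
    (fun hs => absurd (Finset.mem_range.2 (by omega)) hs)
    (fun hs => absurd (Finset.mem_range.2 (by omega)) hs), if_pos rfl, if_neg hjk.ne, if_pos rfl,
    ← hA (a j), real_inner_comm (a k)]
  ring

private lemma ken_X (h : Legal nd T ψ) {A : Module.End ℝ (St nd)}
    {A' : Module.End ℝ (St (nd + (T + 2)))} (hA : ∀ x y, ⟪A x, y⟫ = ⟪x, A y⟫)
    (hA' : ∀ s φ, sl nd _ s (A' φ) = A (sl nd _ s φ)) {t : ℕ} (ht : t + 1 ≤ T) :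
    ⟪ψ, A' (XL _ (nd + (t + 1)) ψ)⟫ = 2 * ⟪sl nd _ (t + 1) ψ, A (sl nd _ t ψ)⟫ := by
  rw [inner_legal h, ← ken_two (a := fun s => sl nd _ s ψ) hA t.lt_succ_self ht]
  refine Finset.sum_congr rfl fun s hs => ?_
  rw [hA', sl_XL_clock h (Nat.lt_succ_iff.1 (Finset.mem_range.1 hs)) ht]

private lemma ken_ZX (h : Legal nd T ψ) {i : ℕ} (hi : i < nd) {t : ℕ} (ht : t + 1 ≤ T) :
    ⟪ψ, ZL _ i (XL _ (nd + (t + 1)) ψ)⟫ = 2 * ⟪sl nd _ (t + 1) ψ, ZL nd i (sl nd _ t ψ)⟫ :=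
  ken_X h (refl_ZL nd i).symm (fun s φ => sl_ZL_data s hi φ) ht

private lemma ken_XX (h : Legal nd T ψ) {i : ℕ} (hi : i < nd) {t : ℕ} (ht : t + 1 ≤ T) :
    ⟪ψ, XL _ i (XL _ (nd + (t + 1)) ψ)⟫ = 2 * ⟪sl nd _ (t + 1) ψ, XL nd i (sl nd _ t ψ)⟫ :=
  ken_X h (refl_XL nd i).symm (fun s φ => sl_XL_data s hi φ) ht

private lemma ken_sel (h : Legal nd T ψ) {a j : ℕ} (ha : a < nd) (hj : j ≤ T + 1) (e : ℝ) {t : ℕ}
    (ht : t ≤ T) (h1 : e * sg (kap t j) = 1) (h2 : ∀ s ≤ T, s ≠ t → e * sg (kap s j) = -1)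
    (he : e * e = 1) :
    ⟪ψ, ψ⟫ + e * ⟪ψ, ZL _ a ψ⟫ + e * ⟪ψ, ZL _ (nd + j) ψ⟫ + ⟪ψ, ZL _ a (ZL _ (nd + j) ψ)⟫ =
      2 * ∑ σ, (1 + e * sg (bit σ a)) * sl nd _ t ψ σ ^ 2 := by
  simp only [inner_legal h, Finset.mul_sum, ← Finset.sum_add_distrib, sl_ZL_data _ ha,
    sl_ZL_clock _ hj, map_smul, inner_smul_right]
  rw [Finset.sum_eq_single_of_mem t (Finset.mem_range.2 (by omega))]
  · have h3 : sg (kap t j) = e := by linear_combination e * h1 - sg (kap t j) * he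
    simp only [inner_eq, h3, ZL_apply, Finset.mul_sum, ← Finset.sum_add_distrib]
    refine Finset.sum_congr rfl fun σ _ => ?_
    linear_combination (sl nd _ t ψ σ) ^ 2 * he
  · intro s hs hst
    have h4 := h2 s (Nat.lt_succ_iff.1 (Finset.mem_range.1 hs)) hst
    have h3 : sg (kap s j) = -e := by linear_combination e * h4 - sg (kap s j) * he
    rw [h3]
    linear_combination (-⟪sl nd _ s ψ, sl nd _ s ψ⟫) * he

private lemma ken_list (f : ℕ → ℝ) (n : ℕ) :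
    ((List.range n).map f).sum = ∑ i ∈ Finset.range n, f i := rfl

theorem en_proj (h : Legal nd T ψ) (ρ : ℝ) {t : ℕ} (ht : t ≤ T) (x : ℚ) :
    ⟪ψ, HL _ ρ (tProj nd t x) ψ⟫ = x * ‖sl nd _ t ψ‖ ^ 2 := by
  simp only [tProj, HL_cons, HL_nil, tmOp, pauli, add_zero, LinearMap.add_apply,
    LinearMap.smul_apply, inner_add_right, inner_smul_right, Rat.cast_zero, zero_mul]
  norm_num
  simp only [inner_legal h, sl_ZL_clock _ (by omega : t ≤ T + 1), sl_ZL_clock _ (by omega : t + 1 ≤ T + 1),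
    inner_smul_right, Finset.mul_sum, ← Finset.sum_neg_distrib, ← Finset.sum_add_distrib,
    real_inner_self_eq_norm_sq]
  rw [Finset.sum_eq_single_of_mem t (Finset.mem_range.2 (by omega))]
  · rcases Nat.mod_two_eq_zero_or_one t with h0 | h0
    · have h1 : (t + 1) % 2 = 1 := by omega
      simp [kap, gq, sg, h0, h1]; ring
    · have h1 : (t + 1) % 2 = 0 := by omega
      simp [kap, gq, sg, h0, h1]; ring
  · intro s _ hst
    have h2 : t + 1 ≤ s ↔ t ≤ s := by omega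
    rcases Nat.mod_two_eq_zero_or_one t with h0 | h0
    · have h1 : (t + 1) % 2 = 1 := by omega
      by_cases h3 : t ≤ s <;> simp [kap, gq, sg, h0, h1, h2, h3]
    · have h1 : (t + 1) % 2 = 0 := by omega
      by_cases h3 : t ≤ s <;> simp [kap, gq, sg, h0, h1, h2, h3]

theorem en_FX (h : Legal nd T ψ) (ρ : ℝ) {g : Gt} (hg : GtOK nd g) {t : ℕ} (ht : t + 1 ≤ T)
    (x : ℚ) :
    ⟪ψ, HL _ ρ (tFX nd g (t + 1) x) ψ⟫ = 2 * x * ⟪sl nd _ (t + 1) ψ, gF nd g (sl nd _ t ψ)⟫ := by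
  simp only [tFX, HL_cons, HL_nil, tmOp, pauli, add_zero, LinearMap.smul_apply, inner_smul_right,
    Rat.cast_zero, zero_mul, gF, Fop]
  norm_num
  rw [ken_ZX h hg.1 ht]
  split_ifs
  · simp only [LinearMap.neg_apply, inner_neg_right]; push_cast; ring
  · ring

theorem en_RX (h : Legal nd T ψ) {g : Gt} (hg : GtOK nd g) {t : ℕ} (ht : t + 1 ≤ T) (x : ℚ) :
    ⟪ψ, HL _ rho (tRX nd g (t + 1) x) ψ⟫ =
      -(2 * x * ⟪sl nd _ (t + 1) ψ, gR nd g (sl nd _ t ψ)⟫) := by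
  simp only [tRX, HL_cons, HL_nil, tmOp, pauli, add_zero, LinearMap.add_apply, LinearMap.smul_apply,
    inner_add_right, inner_smul_right, gR, Rop]
  norm_num
  rw [ken_ZX h hg.2.1 ht, ken_XX h hg.2.1 ht]
  generalize g.2.2.2 = k
  rcases k with _ | _ | k
  · simp; ring
  · simp [inner_add_right, inner_smul_right]; ring
  · simp; ring

theorem en_X (h : Legal nd T ψ) (ρ : ℝ) {t : ℕ} (ht : t + 1 ≤ T) (x : ℚ) :
    ⟪ψ, HL _ ρ (tX nd (t + 1) x) ψ⟫ = 2 * x * ⟪sl nd _ (t + 1) ψ, sl nd _ t ψ⟫ := by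
  simp only [tX, HL_cons, HL_nil, tmOp, pauli, add_zero, LinearMap.smul_apply, inner_smul_right,
    Rat.cast_zero, zero_mul]
  norm_num
  have := ken_X h (A := 1) (A' := 1) (fun _ _ => rfl) (fun _ _ => rfl) ht
  simp only [Module.End.one_apply] at this
  rw [this]; ring

theorem en_XX (h : Legal nd T ψ) (ρ : ℝ) {t : ℕ} (ht : t + 2 ≤ T) (x : ℚ) :
    ⟪ψ, HL _ ρ (tXX nd (t + 1) x) ψ⟫ = -(2 * x * ⟪sl nd _ (t + 2) ψ, sl nd _ t ψ⟫) := by
  simp only [tXX, HL_cons, HL_nil, tmOp, pauli, add_zero, LinearMap.smul_apply, inner_smul_right,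
    Rat.cast_zero, zero_mul]
  norm_num
  have := ken_two (T := T) (a := fun s => sl nd _ s ψ) (A := 1) (fun _ _ => rfl)
    (by omega : t < t + 2) ht
  simp only [Module.End.one_apply] at this
  rw [inner_legal h, Finset.sum_congr rfl fun s hs => by
    rw [sl_XX_clock h (Nat.lt_succ_iff.1 (Finset.mem_range.1 hs)) ht], this]
  ring

theorem en_block (h : Legal nd T ψ) {g : Gt} (hg : GtOK nd g) {τ : ℕ} (hτ : τ + 5 ≤ T)
    (J1 J2 : ℚ) :
    ⟪ψ, HL _ rho (tBlock nd J1 J2 g τ) ψ⟫ =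
      blkE J1 J2 (gF nd g) (gR nd g) (sl nd _ τ ψ) (sl nd _ (τ + 1) ψ) (sl nd _ (τ + 2) ψ)
        (sl nd _ (τ + 3) ψ) (sl nd _ (τ + 4) ψ) (sl nd _ (τ + 5) ψ) := by
  simp only [tBlock, inner_HL_append]
  rw [en_proj h _ (by omega : τ ≤ T), en_proj h _ (by omega : τ + 1 ≤ T),
    en_proj h _ (by omega : τ + 2 ≤ T), en_proj h _ (by omega : τ + 3 ≤ T),
    en_proj h _ (by omega : τ + 4 ≤ T), en_proj h _ (by omega : τ + 5 ≤ T),
    en_FX h _ hg (by omega : τ + 1 ≤ T), en_RX h hg (by omega : τ + 1 + 1 ≤ T),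
    en_FX h _ hg (by omega : τ + 3 + 1 ≤ T), en_RX h hg (by omega : τ + 4 + 1 ≤ T),
    en_X h _ (by omega : τ + 1 ≤ T), en_X h _ (by omega : τ + 1 + 1 ≤ T),
    en_XX h _ (by omega : τ + 2 ≤ T), en_X h _ (by omega : τ + 3 + 1 ≤ T),
    en_X h _ (by omega : τ + 4 + 1 ≤ T), en_XX h _ (by omega : τ + 3 + 2 ≤ T),
    en_X h _ (by omega : τ + 2 + 1 ≤ T), en_FX h _ hg (by omega : τ + 2 + 1 ≤ T),
    en_RX h hg (by omega : τ + 2 + 1 ≤ T)]
  simp only [blkE, norm_add_sq_real, norm_sub_sq_real, (refl_gF nd g).norm_map,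
    (refl_gR hg).norm_map, inner_add_right, add_assoc τ, Nat.reduceAdd]
  push_cast
  ring

theorem en_in (h : Legal nd T ψ) (ρ : ℝ) (w : ℕ) (x : ℚ) :
    ⟪ψ, HL _ ρ (tIn nd w x) ψ⟫ = x * dirt w (sl nd _ 0 ψ) := by
  rw [tIn, inner_HL_flatMap, dirt, Finset.mul_sum, Finset.sum_Ico_eq_sum_range,
    List.range'_eq_map_range, List.map_map, ken_list]
  refine Finset.sum_congr rfl fun k hk => ?_
  have ha : w + k < nd := by have := Finset.mem_range.1 hk; omega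
  have := ken_sel h ha (by omega : 1 ≤ T + 1) (-1) (Nat.zero_le T) (by simp [kap, sg])
    (fun s hs hne => by
      have : 1 ≤ s := by omega
      simp [kap, sg, this]) (by norm_num)
  simp only [Function.comp, tIn1, HL_cons, HL_nil, tmOp, pauli, add_zero, LinearMap.add_apply,
    LinearMap.smul_apply, inner_add_right, inner_smul_right, Rat.cast_zero, zero_mul]
  norm_num
  have e : (∑ σ, if bit σ (w + k) = true then sl nd _ 0 ψ σ ^ 2 else 0) =
      1 / 2 * ∑ σ, (1 + -1 * sg (bit σ (w + k))) * sl nd _ 0 ψ σ ^ 2 := by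
    rw [Finset.mul_sum]
    refine Finset.sum_congr rfl fun σ _ => ?_
    cases bit σ (w + k) <;> simp [sg]; ring
  simp only [sl_apply] at e this
  rw [e]
  rw [real_inner_self_eq_norm_sq] at this
  linear_combination (x / 4 : ℝ) * this

theorem en_out (h : Legal nd T ψ) (ρ : ℝ) {out : ℕ} (ho : out < nd) (hT : T % 2 = 1) (x : ℚ) :
    ⟪ψ, HL _ ρ (tOut nd out T x) ψ⟫ = x * rej out (sl nd _ T ψ) := by
  have := ken_sel h ho (by omega : T ≤ T + 1) 1 le_rfl (by simp [kap, sg, hT])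
    (fun s hs hne => by
      have : ¬ T ≤ s := by omega
      simp [kap, sg, hT, this]) (by norm_num)
  simp only [tOut, HL_cons, HL_nil, tmOp, pauli, add_zero, LinearMap.add_apply,
    LinearMap.smul_apply, inner_add_right, inner_smul_right, Rat.cast_zero, zero_mul]
  norm_num
  have e : rej out (sl nd _ T ψ) = 1 / 2 * ∑ σ, (1 + 1 * sg (bit σ out)) * sl nd _ T ψ σ ^ 2 := by
    rw [rej, Finset.mul_sum]
    refine Finset.sum_congr rfl fun σ _ => ?_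
    cases bit σ out <;> simp [sg]; ring
  rw [e]
  rw [real_inner_self_eq_norm_sq] at this
  linear_combination (x / 4 : ℝ) * this

end Crest.Agent.R338.K
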