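import Crest.Agent.R338.KBas

/-! Row 338, module K: history and projection estimates. -/

set_option autoImplicit false

open scoped RealInnerProductSpace
open Crest.Quantum.GateCircuit Crest.Quantum.QMA Crest.Agent.Lib.PT

namespace Crest.Agent.R338.K

variable {V : Type} [NormedAddCommGroup V] [InnerProductSpace ℝ V]

theorem hist_lower (U : ℕ → Module.End ℝ V) (T : ℕ) (hU : ∀ t < T, ∀ x, ‖U t x‖ = ‖x‖)
    (Pr : Module.End ℝ V) (hPr : ∀ x, ‖Pr x‖ ≤ ‖x‖) (a : ℕ → V) (u v : V) (h0 : a 0 = u + v)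
    (hs : 2 / 3 * ‖u‖ ^ 2 ≤ ‖Pr (pre U u T)‖ ^ 2) :
    6 * ∑ t ∈ Finset.range (T + 1), ‖a t‖ ^ 2 ≤ 12 * (T + 1) * ‖Pr (a T)‖ ^ 2 +
      180 * (T + 1) ^ 2 * (‖v‖ ^ 2 + ∑ t ∈ Finset.range T, ‖a (t + 1) - U t (a t)‖ ^ 2) := by
  set e : ℕ → ℝ := fun t => ‖a (t + 1) - U t (a t)‖ with he
  have key : ∀ t ≤ T, ‖pre U u t‖ = ‖u‖ ∧
      ‖a t - pre U u t‖ ≤ ‖v‖ + ∑ s ∈ Finset.range t, e s := fun t => by
    induction t with
    | zero => intro _; simp [pre, h0]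
    | succ t ih =>
      intro ht
      obtain ⟨h1, h2⟩ := ih (by omega)
      refine ⟨(hU t ht _).trans h1, ?_⟩
      have e1 : a (t + 1) - pre U u (t + 1) = a (t + 1) - U t (a t) + U t (a t - pre U u t) := by
        rw [map_sub, pre]
        abel
      rw [e1, Finset.sum_range_succ]
      refine (norm_add_le _ _).trans ?_
      rw [hU t ht]
      linarith
  set y := ‖v‖ + ∑ s ∈ Finset.range T, e s with hy
  have hy2 : y ^ 2 ≤ (T + 1) * (‖v‖ ^ 2 + ∑ t ∈ Finset.range T, e t ^ 2) := by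
    have := sq_sum_le_card_mul_sum_sq (s := Finset.range (T + 1))
      (f := fun t => Nat.casesOn (motive := fun _ => ℝ) t ‖v‖ e)
    simp only [Finset.sum_range_succ', Finset.card_range, Nat.cast_add, Nat.cast_one] at this
    rw [add_comm (‖v‖ ^ 2), hy, add_comm ‖v‖]
    exact this
  have hd : ∀ t ≤ T, ‖a t - pre U u t‖ ≤ y := fun t ht => (key t ht).2.trans <|
    add_le_add_right (Finset.sum_le_sum_of_subset_of_nonneg (Finset.range_mono ht)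
      fun _ _ _ => norm_nonneg _) _
  have hy0 : 0 ≤ y := (norm_nonneg _).trans (hd 0 T.zero_le)
  have hp : ‖Pr (pre U u T)‖ ≤ ‖Pr (a T)‖ + y := by
    have e1 : Pr (pre U u T) = Pr (a T) - Pr (a T - pre U u T) := by
      rw [map_sub, sub_sub_cancel]
    rw [e1]
    exact (norm_sub_le _ _).trans (add_le_add_right ((hPr _).trans (hd T le_rfl)) _)
  have hp2 := pow_le_pow_left₀ (norm_nonneg _) hp 2
  have ha : ∀ t ∈ Finset.range (T + 1), ‖a t‖ ^ 2 ≤ 2 * ‖Pr (a T)‖ ^ 2 + 30 * y ^ 2 := fun t ht => by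
    have ht' := Nat.lt_succ_iff.1 (Finset.mem_range.1 ht)
    have h1 : ‖a t‖ ≤ ‖u‖ + y := by
      rw [← (key t ht').1]
      linarith [norm_sub_norm_le (a t) (pre U u t), hd t ht']
    have h2 := pow_le_pow_left₀ (norm_nonneg _) h1 2
    nlinarith [sq_nonneg (‖u‖ - 10 * y), sq_nonneg (‖Pr (a T)‖ - 9 * y)]
  have h3 := Finset.sum_le_card_nsmul _ _ _ ha
  rw [Finset.card_range, nsmul_eq_mul, Nat.cast_add, Nat.cast_one] at h3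
  have h4 := mul_le_mul_of_nonneg_left hy2 (show (0 : ℝ) ≤ T + 1 by positivity)
  nlinarith

theorem proj_lower (H1 H2 : Module.End ℝ V) {K : ℝ} (hK : 0 ≤ K)
    (hb : ∀ x y, |⟪x, H1 y⟫| ≤ K * (‖x‖ * ‖y‖)) (φ χ : V)
    (ho : ‖φ + χ‖ ^ 2 = ‖φ‖ ^ 2 + ‖χ‖ ^ 2) (h1 : (6 - 1 / 8) * ‖φ‖ ^ 2 ≤ ⟪φ, H1 φ⟫)
    (h2 : (4 * K ^ 2 + K + 6) * ‖χ‖ ^ 2 ≤ ⟪φ + χ, H2 (φ + χ)⟫) :
    11 / 2 * ‖φ + χ‖ ^ 2 ≤ ⟪φ + χ, H1 (φ + χ)⟫ + ⟪φ + χ, H2 (φ + χ)⟫ := by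
  have e : ⟪φ + χ, H1 (φ + χ)⟫ = ⟪φ, H1 φ⟫ + ⟪φ, H1 χ⟫ + (⟪χ, H1 φ⟫ + ⟪χ, H1 χ⟫) := by
    rw [map_add, inner_add_left, inner_add_right, inner_add_right]
  have b1 := (abs_le.1 (hb φ χ)).1
  have b2 := (abs_le.1 (hb χ φ)).1
  have b3 := (abs_le.1 (hb χ χ)).1
  rw [e, ho]
  nlinarith [sq_nonneg (‖φ‖ / 2 - 2 * K * ‖χ‖), sq_nonneg ‖φ‖, sq_nonneg ‖χ‖]

end Crest.Agent.R338.K
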