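import Crest.Agent.R338.KTerm

/-! Row 338, module K: the term list is admissible and computable. -/

set_option autoImplicit false

open scoped RealInnerProductSpace
open Crest.Quantum.GateCircuit Crest.Quantum.QMA Crest.Agent.Lib.PT

namespace Crest.Agent.R338.K

variable {nd w out : ℕ} {gs : List Gt}

/-! ### signs and supports -/

lemma kok_tProj {n nd t : ℕ} (x : ℚ) (h : nd + (t + 1) < n) : ∀ u ∈ tProj nd t x, TmOK n nd u := by
  simp only [tProj, List.mem_cons, List.not_mem_nil, or_false, forall_eq_or_imp, forall_eq, TmOK]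
  omega

lemma kok_tFX {n nd t : ℕ} {g : Gt} (x : ℚ) (hg : GtOK nd g) (h : nd + t < n) :
    ∀ u ∈ tFX nd g t x, TmOK n nd u := by
  obtain ⟨h1, h2, h3⟩ := hg
  simp only [tFX, List.mem_cons, List.not_mem_nil, or_false, forall_eq, TmOK]
  omega

lemma kok_tRX {n nd t : ℕ} {g : Gt} {x : ℚ} (hx : 0 ≤ x) (hg : GtOK nd g) (h : nd + t < n) :
    ∀ u ∈ tRX nd g t x, TmOK n nd u := by
  obtain ⟨h1, h2, h3⟩ := hg
  simp only [tRX, List.mem_cons, List.not_mem_nil, or_false, forall_eq_or_imp, forall_eq, TmOK]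
  refine ⟨by omega, by omega, by omega, by omega, fun _ => ⟨by omega, ?_, ?_⟩, by omega⟩ <;>
    split_ifs <;> first | exact hx | exact le_rfl

lemma kok_tX {n nd t : ℕ} (x : ℚ) (h : nd + t < n) : ∀ u ∈ tX nd t x, TmOK n nd u := by
  simp only [tX, List.mem_cons, List.not_mem_nil, or_false, forall_eq, TmOK]
  omega

lemma kok_tXX {n nd t : ℕ} {x : ℚ} (hx : 0 ≤ x) (h : nd + (t + 1) < n) :
    ∀ u ∈ tXX nd t x, TmOK n nd u := by
  simp only [tXX, List.mem_cons, List.not_mem_nil, or_false, forall_eq, TmOK]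
  exact ⟨by omega, by omega, by omega, fun _ => ⟨by omega, hx, le_rfl⟩, by omega⟩

lemma kok_tBlock {n nd τ : ℕ} {g : Gt} {J1 J2 : ℚ} (h1 : 0 ≤ J1) (h2 : 0 ≤ J2) (hg : GtOK nd g)
    (h : nd + (τ + 6) < n) : ∀ u ∈ tBlock nd J1 J2 g τ, TmOK n nd u := by
  simp only [tBlock, List.forall_mem_append]
  refine ⟨⟨⟨⟨⟨⟨⟨⟨⟨⟨⟨⟨⟨⟨⟨⟨⟨⟨?_, ?_⟩, ?_⟩, ?_⟩, ?_⟩, ?_⟩, ?_⟩, ?_⟩, ?_⟩, ?_⟩, ?_⟩, ?_⟩, ?_⟩, ?_⟩, ?_⟩,
    ?_⟩, ?_⟩, ?_⟩, ?_⟩ <;>
  first
    | exact kok_tProj _ (by omega)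
    | exact kok_tFX _ hg (by omega)
    | exact kok_tRX (by positivity) hg (by omega)
    | exact kok_tX _ (by omega)
    | exact kok_tXX (by positivity) (by omega)

lemma kok_tIn1 {n nd a : ℕ} {x : ℚ} (hx : 0 ≤ x) (ha : a < nd) (h : nd + 1 < n) :
    ∀ u ∈ tIn1 nd a x, TmOK n nd u := by
  simp only [tIn1, List.mem_cons, List.not_mem_nil, or_false, forall_eq_or_imp, forall_eq, TmOK]
  exact ⟨by omega, by omega, by omega, by omega, by omega, by omega,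
    fun _ => ⟨by omega, by positivity, le_rfl⟩, by omega⟩

lemma kok_tIn {n nd w : ℕ} {x : ℚ} (hx : 0 ≤ x) (h : nd + 1 < n) :
    ∀ u ∈ tIn nd w x, TmOK n nd u := by
  intro u hu
  obtain ⟨a, ha, hu⟩ := List.mem_flatMap.1 hu
  rw [List.mem_range'_1] at ha
  exact kok_tIn1 hx (by omega) h u hu

lemma kok_tOut {n nd out T : ℕ} {x : ℚ} (hx : 0 ≤ x) (ha : out < nd) (h : nd + T < n) :
    ∀ u ∈ tOut nd out T x, TmOK n nd u := by
  simp only [tOut, List.mem_cons, List.not_mem_nil, or_false, forall_eq_or_imp, forall_eq, TmOK]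
  exact ⟨by omega, by omega, by omega, by omega, by omega, by omega,
    fun _ => ⟨by omega, by positivity, le_rfl⟩, by omega⟩

lemma kok_tWall {n nd t : ℕ} {x : ℚ} (hx : 0 ≤ x) (h : nd + (t + 1) < n) :
    ∀ u ∈ tWall nd t x, TmOK n nd u := by
  simp only [tWall, List.mem_cons, List.not_mem_nil, or_false, forall_eq_or_imp, forall_eq, TmOK]
  exact ⟨by omega, by omega, by omega, by omega, by omega, by omega,
    fun _ => ⟨by omega, by positivity, le_rfl⟩, by omega⟩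

lemma kok_tClock {n nd T : ℕ} {x : ℚ} (hx : 0 ≤ x) (h : nd + (T + 1) < n) :
    ∀ u ∈ tClock nd T x, TmOK n nd u := by
  simp only [tClock, List.forall_mem_append]
  constructor
  · simp only [List.mem_cons, List.not_mem_nil, or_false, forall_eq_or_imp, forall_eq, TmOK]
    omega
  · intro u hu
    obtain ⟨t, ht, hu⟩ := List.mem_flatMap.1 hu
    rw [List.mem_range] at ht
    exact kok_tWall hx (by omega) u hu

/-! ### bounds -/

lemma kok_gq (j : ℕ) : gq j = 1 ∨ gq j = -1 := by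
  unfold gq
  split_ifs <;> simp

lemma kbd_tProj {C nd t : ℕ} {x : ℚ} (h0 : 0 ≤ x) (h : x ≤ 2 * C) :
    ∀ u ∈ tProj nd t x, TmBd C u := by
  have hC : (0 : ℚ) ≤ C := Nat.cast_nonneg C
  simp only [tProj, List.mem_cons, List.not_mem_nil, or_false, forall_eq_or_imp, forall_eq, TmBd,
    abs_le]
  rcases kok_gq t with e | e <;> rw [e] <;> refine ⟨⟨⟨?_, ?_⟩, ?_, ?_⟩, ⟨?_, ?_⟩, ?_, ?_⟩ <;> linarith

lemma kbd_tFX {C nd t : ℕ} {g : Gt} {x : ℚ} (h0 : -(C : ℚ) ≤ x) (h : x ≤ C) :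
    ∀ u ∈ tFX nd g t x, TmBd C u := by
  have hC : (0 : ℚ) ≤ C := Nat.cast_nonneg C
  simp only [tFX, List.mem_cons, List.not_mem_nil, or_false, forall_eq, TmBd, abs_le]
  split_ifs <;> refine ⟨⟨?_, ?_⟩, ?_, ?_⟩ <;> linarith

lemma kbd_tRX {C nd t : ℕ} {g : Gt} {x : ℚ} (h0 : 0 ≤ x) (h : x ≤ C) :
    ∀ u ∈ tRX nd g t x, TmBd C u := by
  have hC : (0 : ℚ) ≤ C := Nat.cast_nonneg C
  simp only [tRX, List.mem_cons, List.not_mem_nil, or_false, forall_eq_or_imp, forall_eq, TmBd,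
    abs_le]
  split_ifs <;> refine ⟨⟨⟨?_, ?_⟩, ?_, ?_⟩, ⟨?_, ?_⟩, ?_, ?_⟩ <;> linarith

lemma kbd_tX {C nd t : ℕ} {x : ℚ} (h0 : -(C : ℚ) ≤ x) (h : x ≤ C) :
    ∀ u ∈ tX nd t x, TmBd C u := by
  have hC : (0 : ℚ) ≤ C := Nat.cast_nonneg C
  simp only [tX, List.mem_cons, List.not_mem_nil, or_false, forall_eq, TmBd, abs_le]
  refine ⟨⟨?_, ?_⟩, ?_, ?_⟩ <;> linarith

lemma kbd_tXX {C nd t : ℕ} {x : ℚ} (h0 : 0 ≤ x) (h : x ≤ C) :
    ∀ u ∈ tXX nd t x, TmBd C u := by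
  have hC : (0 : ℚ) ≤ C := Nat.cast_nonneg C
  simp only [tXX, List.mem_cons, List.not_mem_nil, or_false, forall_eq, TmBd, abs_le]
  refine ⟨⟨?_, ?_⟩, ?_, ?_⟩ <;> linarith

lemma kbd_tBlock {C nd τ : ℕ} {g : Gt} {J2 : ℚ} (h2 : 0 ≤ J2) (h : 3 * J2 ≤ C) :
    ∀ u ∈ tBlock nd C J2 g τ, TmBd C u := by
  simp only [tBlock, List.forall_mem_append]
  refine ⟨⟨⟨⟨⟨⟨⟨⟨⟨⟨⟨⟨⟨⟨⟨⟨⟨⟨?_, ?_⟩, ?_⟩, ?_⟩, ?_⟩, ?_⟩, ?_⟩, ?_⟩, ?_⟩, ?_⟩, ?_⟩, ?_⟩, ?_⟩, ?_⟩, ?_⟩,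
    ?_⟩, ?_⟩, ?_⟩, ?_⟩ <;>
  first
    | exact kbd_tProj (by linarith) (by linarith)
    | exact kbd_tFX (by linarith) (by linarith)
    | exact kbd_tRX (by linarith) (by linarith)
    | exact kbd_tX (by linarith) (by linarith)
    | exact kbd_tXX (by linarith) (by linarith)

lemma kbd_tIn {C nd w : ℕ} {x : ℚ} (h0 : 0 ≤ x) (h : x ≤ 4 * C) :
    ∀ u ∈ tIn nd w x, TmBd C u := by
  have hC : (0 : ℚ) ≤ C := Nat.cast_nonneg C
  intro u hu0
  obtain ⟨a, -, hu⟩ := List.mem_flatMap.1 hu0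
  clear hu0
  revert u
  simp only [tIn1, List.mem_cons, List.not_mem_nil, or_false, forall_eq_or_imp, forall_eq, TmBd,
    abs_le]
  refine ⟨⟨⟨?_, ?_⟩, ?_, ?_⟩, ⟨⟨?_, ?_⟩, ?_, ?_⟩, ⟨⟨?_, ?_⟩, ?_, ?_⟩, ⟨?_, ?_⟩, ?_, ?_⟩ <;> linarith

lemma kbd_tOut {C nd out T : ℕ} {x : ℚ} (h0 : 0 ≤ x) (h : x ≤ 4 * C) :
    ∀ u ∈ tOut nd out T x, TmBd C u := by
  have hC : (0 : ℚ) ≤ C := Nat.cast_nonneg C
  simp only [tOut, List.mem_cons, List.not_mem_nil, or_false, forall_eq_or_imp, forall_eq, TmBd,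
    abs_le]
  refine ⟨⟨⟨?_, ?_⟩, ?_, ?_⟩, ⟨⟨?_, ?_⟩, ?_, ?_⟩, ⟨⟨?_, ?_⟩, ?_, ?_⟩, ⟨?_, ?_⟩, ?_, ?_⟩ <;> linarith

lemma kbd_tClock {C nd T : ℕ} : ∀ u ∈ tClock nd T C, TmBd C u := by
  have hC : (0 : ℚ) ≤ C := Nat.cast_nonneg C
  simp only [tClock, List.forall_mem_append]
  constructor
  · simp only [List.mem_cons, List.not_mem_nil, or_false, forall_eq_or_imp, forall_eq, TmBd,
      abs_le]
    rcases kok_gq (T + 1) with e | e <;> rw [e] <;>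
      refine ⟨⟨⟨?_, ?_⟩, ?_, ?_⟩, ⟨⟨?_, ?_⟩, ?_, ?_⟩, ⟨⟨?_, ?_⟩, ?_, ?_⟩, ⟨?_, ?_⟩, ?_, ?_⟩ <;>
      linarith
  · intro u hu0
    obtain ⟨t, -, hu⟩ := List.mem_flatMap.1 hu0
    clear hu0
    revert u
    simp only [tWall, List.mem_cons, List.not_mem_nil, or_false, forall_eq_or_imp, forall_eq, TmBd,
      abs_le]
    rcases kok_gq t with e | e <;> rw [e] <;>
      refine ⟨⟨⟨?_, ?_⟩, ?_, ?_⟩, ⟨⟨?_, ?_⟩, ?_, ?_⟩, ⟨⟨?_, ?_⟩, ?_, ?_⟩, ⟨?_, ?_⟩, ?_, ?_⟩ <;>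
      linarith

lemma kbd_mono {C D : ℕ} (h : C ≤ D) {t : Tm} (ht : TmBd C t) : TmBd D t :=
  ⟨ht.1.trans (Nat.cast_le.2 h), ht.2.trans (Nat.cast_le.2 h)⟩

lemma kok_cL_le (G : ℕ) : cL G ≤ cJ2 G := by
  have : 1 ≤ cL G := by unfold cL; omega
  unfold cJ2
  nlinarith

lemma kok_cJ2_le (G : ℕ) : 3 * cJ2 G ≤ cJ1 G := by
  unfold cJ1
  nlinarith [Nat.le_self_pow two_ne_zero (cJ2 G)]

lemma kok_tMain_length (nd w : ℕ) (gs : List Gt) (out : ℕ) : 4 ≤ (tMain nd w gs out).length := by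
  simp only [tMain, tOut, List.length_append, List.length_cons, List.length_nil]
  omega

lemma kok_cJ1_le (nd w : ℕ) (gs : List Gt) (out : ℕ) : cJ1 gs.length ≤ cJc (cK nd w gs out) := by
  have h1 := kok_tMain_length nd w gs out
  have h2 : cJ1 gs.length ≤ cK nd w gs out := by
    unfold cK
    nlinarith
  unfold cJc
  omega

/-! ### polynomial time -/

section pt

variable {α : Type} [Enc α]

@[fun_prop] lemma kpt_gq {j : α → ℕ} (hj : PT j) : PT fun a => gq (j a) := by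
  unfold gq; fun_prop

@[fun_prop] lemma kpt_tProj {nd t : α → ℕ} {x : α → ℚ} (h1 : PT nd) (h2 : PT t) (h3 : PT x) :
    PT fun a => tProj (nd a) (t a) (x a) := by
  unfold tProj; fun_prop

@[fun_prop] lemma kpt_tFX {nd t : α → ℕ} {g : α → Gt} {x : α → ℚ} (h1 : PT nd) (hg : PT g)
    (h2 : PT t) (h3 : PT x) : PT fun a => tFX (nd a) (g a) (t a) (x a) := by
  unfold tFX; fun_prop

@[fun_prop] lemma kpt_tRX {nd t : α → ℕ} {g : α → Gt} {x : α → ℚ} (h1 : PT nd) (hg : PT g)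
    (h2 : PT t) (h3 : PT x) : PT fun a => tRX (nd a) (g a) (t a) (x a) := by
  unfold tRX; fun_prop

@[fun_prop] lemma kpt_tX {nd t : α → ℕ} {x : α → ℚ} (h1 : PT nd) (h2 : PT t) (h3 : PT x) :
    PT fun a => tX (nd a) (t a) (x a) := by
  unfold tX; fun_prop

@[fun_prop] lemma kpt_tXX {nd t : α → ℕ} {x : α → ℚ} (h1 : PT nd) (h2 : PT t) (h3 : PT x) :
    PT fun a => tXX (nd a) (t a) (x a) := by
  unfold tXX; fun_prop

@[fun_prop] lemma kpt_tBlock {nd t : α → ℕ} {g : α → Gt} {x y : α → ℚ} (h1 : PT nd) (h3 : PT x)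
    (h4 : PT y) (hg : PT g) (h2 : PT t) : PT fun a => tBlock (nd a) (x a) (y a) (g a) (t a) := by
  unfold tBlock; fun_prop

@[fun_prop] lemma kpt_tIn1 {nd t : α → ℕ} {x : α → ℚ} (h1 : PT nd) (h2 : PT t) (h3 : PT x) :
    PT fun a => tIn1 (nd a) (t a) (x a) := by
  unfold tIn1; fun_prop

@[fun_prop] lemma kpt_tIn {nd t : α → ℕ} {x : α → ℚ} (h1 : PT nd) (h1' : PB nd) (h2 : PT t)
    (h3 : PT x) : PT fun a => tIn (nd a) (t a) (x a) := by
  unfold tIn; fun_prop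

@[fun_prop] lemma kpt_tOut {nd o t : α → ℕ} {x : α → ℚ} (h1 : PT nd) (h0 : PT o) (h2 : PT t)
    (h3 : PT x) : PT fun a => tOut (nd a) (o a) (t a) (x a) := by
  unfold tOut; fun_prop

@[fun_prop] lemma kpt_tWall {nd t : α → ℕ} {x : α → ℚ} (h1 : PT nd) (h2 : PT t) (h3 : PT x) :
    PT fun a => tWall (nd a) (t a) (x a) := by
  unfold tWall; fun_prop

@[fun_prop] lemma kpt_tClock {nd t : α → ℕ} {x : α → ℚ} (h1 : PT nd) (h2 : PT t) (h2' : PB t)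
    (h3 : PT x) : PT fun a => tClock (nd a) (t a) (x a) := by
  unfold tClock; fun_prop

@[fun_prop] lemma kpt_cL {G : α → ℕ} (h : PT G) : PT fun a => cL (G a) := by
  unfold cL; fun_prop

@[fun_prop] lemma kpb_cL {G : α → ℕ} (h : PB G) : PB fun a => cL (G a) := by
  unfold cL; fun_prop

@[fun_prop] lemma kpt_cJ2 {G : α → ℕ} (h : PT G) : PT fun a => cJ2 (G a) := by
  unfold cJ2; fun_prop

@[fun_prop] lemma kpb_cJ2 {G : α → ℕ} (h : PB G) : PB fun a => cJ2 (G a) := by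
  unfold cJ2; fun_prop

@[fun_prop] lemma kpt_cJ1 {G : α → ℕ} (h : PT G) : PT fun a => cJ1 (G a) := by
  unfold cJ1; fun_prop

@[fun_prop] lemma kpb_cJ1 {G : α → ℕ} (h : PB G) : PB fun a => cJ1 (G a) := by
  unfold cJ1; fun_prop

@[fun_prop] lemma kpt_cJc {G : α → ℕ} (h : PT G) : PT fun a => cJc (G a) := by
  unfold cJc; fun_prop

@[fun_prop] lemma kpb_cJc {G : α → ℕ} (h : PB G) : PB fun a => cJc (G a) := by
  unfold cJc; fun_prop

lemma kpt_tMain {nd w out : α → ℕ} {gs : α → List Gt} (hnd : PT nd)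
    (hnd' : PB nd) (hw : PT w) (hout : PT out) (hgs : PT gs) :
    PT fun a => tMain (nd a) (w a) (gs a) (out a) := by
  unfold tMain; fun_prop

end pt

theorem tAll_ok (h : RVOK nd gs out) :
    ∀ t ∈ tAll nd w gs out, TmOK (nd + (5 * gs.length + 2)) nd t := by
  simp only [tAll, tMain, List.forall_mem_append]
  refine ⟨⟨⟨fun u hu => ?_, kok_tIn (Nat.cast_nonneg _) (by omega)⟩,
    kok_tOut (Nat.cast_nonneg _) h.out_lt (by omega)⟩, kok_tClock (Nat.cast_nonneg _) (by omega)⟩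
  obtain ⟨p, hp, hu⟩ := List.mem_flatMap.1 hu
  have h1 := List.fst_mem_of_mem_zipIdx hp
  have h2 := List.snd_lt_add_of_mem_zipIdx hp
  exact kok_tBlock (Nat.cast_nonneg _) (Nat.cast_nonneg _) (h.ok _ h1) (by omega) u hu

theorem tMain_bd (nd w : ℕ) (gs : List Gt) (out : ℕ) :
    ∀ t ∈ tMain nd w gs out, TmBd (cJ1 gs.length) t := by
  have h1 : 3 * (cJ2 gs.length : ℚ) ≤ cJ1 gs.length := by exact_mod_cast kok_cJ2_le gs.length
  have h2 : (cL gs.length : ℚ) ≤ cJ2 gs.length := by exact_mod_cast kok_cL_le gs.length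
  have h3 : (0 : ℚ) ≤ cJ2 gs.length := Nat.cast_nonneg _
  simp only [tMain, List.forall_mem_append]
  refine ⟨⟨fun u hu => ?_, kbd_tIn h3 (by linarith)⟩,
    kbd_tOut (Nat.cast_nonneg _) (by push_cast; linarith)⟩
  obtain ⟨p, -, hu⟩ := List.mem_flatMap.1 hu
  exact kbd_tBlock h3 h1 u hu

theorem tAll_bd (nd w : ℕ) (gs : List Gt) (out : ℕ) :
    ∀ t ∈ tAll nd w gs out, TmBd (cJc (cK nd w gs out)) t := by
  simp only [tAll, List.forall_mem_append]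
  exact ⟨fun u hu => kbd_mono (kok_cJ1_le nd w gs out) (tMain_bd nd w gs out u hu), kbd_tClock⟩

theorem tAll_length_pos (nd w : ℕ) (gs : List Gt) (out : ℕ) : 1 ≤ (tAll nd w gs out).length := by
  have := kok_tMain_length nd w gs out
  rw [tAll, List.length_append]
  omega

theorem ham_valid (h : RVOK nd gs out) : (ham nd w gs out).Valid := by
  have h6 : 6 ≤ cJc (cK nd w gs out) := by unfold cJc; omega
  have h6' : (6 : ℚ) ≤ cJc (cK nd w gs out) := by exact_mod_cast h6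
  have hl := tAll_length_pos nd w gs out
  have hr := rr_spec (M := 4 * cJc (cK nd w gs out) * (tAll nd w gs out).length) (by nlinarith)
  refine mkXZ_valid (by omega) hr.1 hr.2.1 (tAll_ok h) (tAll_bd nd w gs out) ?_ ?_ (by norm_num)
  · rw [abs_of_pos (by norm_num)]; linarith
  · rw [abs_of_pos (by norm_num)]; linarith

theorem ham_pt {α : Type} [Enc α] {nd w out : α → ℕ} {gs : α → List Gt} (hnd : PT nd)
    (hnd' : PB nd) (hw : PT w) (hout : PT out) (hgs : PT gs) :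
    PTFam fun a => ham (nd a) (w a) (gs a) (out a) := by
  have h1 := kpt_tMain hnd hnd' hw hout hgs
  have h2 : PT fun a => cK (nd a) (w a) (gs a) (out a) := by unfold cK; fun_prop
  have h2' : PB fun a => cK (nd a) (w a) (gs a) (out a) := by
    unfold cK
    exact ((PB.const 2).mul (kpb_cJ1 (PB.length hgs))).mul (PB.length h1)
  have h3 := kpt_cJc h2
  have h3' := kpb_cJc h2'
  have h4 : PT fun a => tAll (nd a) (w a) (gs a) (out a) := by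
    unfold tAll
    exact h1.append (kpt_tClock hnd (by fun_prop) (by fun_prop) (by fun_prop))
  unfold ham
  exact mkXZ_pt _ _ (by fun_prop) (by fun_prop) hnd h3 h3'
    (rr_pt (((PT.const 4).mul h3).mul h4.length) (((PB.const 4).mul h3').mul (PB.length h4))) h4

end Crest.Agent.R338.K
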