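import Crest.Agent.R338.KAbs
import Crest.Agent.R338.KHist
import Crest.Agent.R338.KClk
import Crest.Agent.R338.KEn
import Crest.Agent.R338.KOk

/-! Row 338, module K: completeness and soundness of the Hamiltonian. -/

set_option autoImplicit false

open scoped RealInnerProductSpace
open Crest.Quantum.GateCircuit Crest.Quantum.QMA Crest.Agent.Lib.PT

namespace Crest.Agent.R338.K

variable {nd w out : ℕ} {gs : List Gt}

lemma sum_zipIdx {β : Type} (d : β) (l : List β) (f : β × ℕ → ℝ) (k : ℕ) :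
    ((l.zipIdx k).map f).sum = ∑ i ∈ Finset.range l.length, f (l.getD i d, k + i) := by
  induction l generalizing k with
  | nil => simp
  | cons b l ih =>
    rw [List.zipIdx_cons, List.map_cons, List.sum_cons, ih, List.length_cons,
      Finset.sum_range_succ', add_comm]
    simp [add_assoc, add_comm 1]

lemma sum_five (G : ℕ) (f : ℕ → ℝ) :
    ∑ t ∈ Finset.range (5 * G), f t = ∑ i ∈ Finset.range G,
      (f (5 * i) + f (5 * i + 1) + f (5 * i + 2) + f (5 * i + 3) + f (5 * i + 4)) := by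
  induction G with
  | zero => simp
  | succ G ih =>
    rw [show 5 * (G + 1) = 5 * G + 1 + 1 + 1 + 1 + 1 by ring]
    simp only [Finset.sum_range_succ, ih]
    ring

/-- Gate number `i`. -/
abbrev gi (gs : List Gt) (i : ℕ) : Gt := gs.getD i (false, 0, 0, 0)

lemma gi_ok (h : RVOK nd gs out) {i : ℕ} (hi : i < gs.length) : GtOK nd (gi gs i) := by
  refine h.ok _ ?_
  rw [gi, List.getD_eq_getElem _ _ hi]
  exact List.getElem_mem hi

lemma step0 (i : ℕ) : stepOp nd gs (5 * i) = -gF nd (gi gs i) := by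
  have h1 : 5 * i % 5 = 0 := by omega
  have h2 : 5 * i / 5 = i := by omega
  simp only [stepOp, h1, h2, true_or, if_true]

lemma step1 (i : ℕ) : stepOp nd gs (5 * i + 1) = gR nd (gi gs i) := by
  have h1 : (5 * i + 1) % 5 = 1 := by omega
  have h2 : (5 * i + 1) / 5 = i := by omega
  simp only [stepOp, h1, h2]; norm_num

lemma step2 (i : ℕ) : stepOp nd gs (5 * i + 2) = gop nd (gi gs i) := by
  have h1 : (5 * i + 2) % 5 = 2 := by omega
  have h2 : (5 * i + 2) / 5 = i := by omega
  simp only [stepOp, h1, h2]; norm_num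

lemma step3 (i : ℕ) : stepOp nd gs (5 * i + 3) = -gF nd (gi gs i) := by
  have h1 : (5 * i + 3) % 5 = 3 := by omega
  have h2 : (5 * i + 3) / 5 = i := by omega
  simp only [stepOp, h1, h2]; norm_num

lemma step4 (i : ℕ) : stepOp nd gs (5 * i + 4) = gR nd (gi gs i) := by
  have h1 : (5 * i + 4) % 5 = 4 := by omega
  have h2 : (5 * i + 4) / 5 = i := by omega
  simp only [stepOp, h1, h2]; norm_num

lemma norm_step (h : RVOK nd gs out) {t : ℕ} (ht : t < 5 * gs.length) (x : St nd) :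
    ‖stepOp nd gs t x‖ = ‖x‖ := by
  have hg := gi_ok h (i := t / 5) (by omega)
  unfold stepOp
  split_ifs
  · exact (refl_gF _ _).neg.norm_map x
  · exact (refl_gop hg).norm_map x
  · exact (refl_gR hg).norm_map x

lemma norm_pre (h : RVOK nd gs out) (x : St nd) {t : ℕ} (ht : t ≤ 5 * gs.length) :
    ‖pre (stepOp nd gs) x t‖ = ‖x‖ := by
  induction t with
  | zero => rfl
  | succ t ih => rw [pre, norm_step h (by omega), ih (by omega)]

lemma pre_five (h : RVOK nd gs out) (x : St nd) {i : ℕ} (hi : i ≤ gs.length) :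
    pre (stepOp nd gs) x (5 * i) = run nd (gs.take i) x := by
  induction i with
  | zero => rfl
  | succ i ih =>
    have hi' : i < gs.length := hi
    have hg := gi_ok h hi'
    rw [show 5 * (i + 1) = 5 * i + 4 + 1 by ring, pre, show 5 * i + 4 = 5 * i + 3 + 1 by ring, pre,
      show 5 * i + 3 = 5 * i + 2 + 1 by ring, pre, show 5 * i + 2 = 5 * i + 1 + 1 by ring, pre, pre,
      ih hi'.le, List.take_add_one, run_append, List.getElem?_eq_getElem hi']
    rw [step0, step1, show 5 * i + 1 + 1 = 5 * i + 2 by ring, step2,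
      show 5 * i + 2 + 1 = 5 * i + 3 by ring, step3, show 5 * i + 3 + 1 = 5 * i + 4 by ring, step4]
    have := five_steps (refl_gF nd (gi gs i)) (refl_gR hg) (gF_gR_comm hg) (run nd (gs.take i) x)
    simp only [LinearMap.neg_apply, Option.toList_some, run_cons, run_nil]
    rw [← List.getD_eq_getElem _ (false, 0, 0, 0) hi']
    exact this

lemma pre_all (h : RVOK nd gs out) (x : St nd) :
    pre (stepOp nd gs) x (5 * gs.length) = run nd gs x := by
  rw [pre_five h x le_rfl, List.take_length]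

lemma en_main (h : RVOK nd gs out) {ψ : St (nd + (5 * gs.length + 2))}
    (hψ : Legal nd (5 * gs.length) ψ) :
    ⟪ψ, HL _ rho (tMain nd w gs out) ψ⟫ =
      ∑ i ∈ Finset.range gs.length, blkE (cJ1 gs.length) (cJ2 gs.length) (gF nd (gi gs i))
        (gR nd (gi gs i)) (sl nd _ (5 * i) ψ) (sl nd _ (5 * i + 1) ψ) (sl nd _ (5 * i + 2) ψ)
        (sl nd _ (5 * i + 3) ψ) (sl nd _ (5 * i + 4) ψ) (sl nd _ (5 * i + 5) ψ) +
      cJ2 gs.length * dirt w (sl nd _ 0 ψ) +
      12 * cL gs.length * rej out (sl nd _ (5 * gs.length) ψ) := by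
  have ho := h.odd
  rw [tMain, inner_HL_append, inner_HL_append, inner_HL_flatMap, en_in hψ,
    en_out hψ _ h.out_lt (by omega), sum_zipIdx (false, 0, 0, 0)]
  push_cast
  congr 2
  refine Finset.sum_congr rfl fun i hi => ?_
  have hi' := Finset.mem_range.1 hi
  simp only [zero_add]
  rw [en_block hψ (gi_ok h hi') (by omega)]
  push_cast
  rfl

lemma round_all (h : RVOK nd gs out) (ψ : St (nd + (5 * gs.length + 2))) :
    |⟪ψ, HL _ rho (tAll nd w gs out) ψ⟫ -
      ⟪ψ, HL _ (rr (4 * cJc (cK nd w gs out) * (tAll nd w gs out).length) : ℚ)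
        (tAll nd w gs out) ψ⟫| ≤ 1 / 4 * ‖ψ‖ ^ 2 := by
  have hl := tAll_length_pos nd w gs out
  have hc : 1 ≤ cJc (cK nd w gs out) := by unfold cJc; omega
  have hM : 1 ≤ 4 * cJc (cK nd w gs out) * (tAll nd w gs out).length :=
    Nat.mul_pos (by omega) hl
  refine (HL_round _ _ (tAll_bd nd w gs out) ψ).trans ?_
  have h1 := (rr_spec hM).2.2
  have hl' : (0 : ℝ) < (tAll nd w gs out).length := by exact_mod_cast hl
  have hc' : (0 : ℝ) < cJc (cK nd w gs out) := by exact_mod_cast hc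
  refine mul_le_mul_of_nonneg_right ?_ (sq_nonneg _)
  refine (mul_le_mul_of_nonneg_right h1 (by positivity)).trans (le_of_eq ?_)
  push_cast
  field_simp

theorem ham_yes (h : RVOK nd gs out)
    (hy : ∃ u : St nd, Clean w u ∧ ‖u‖ = 1 ∧ rej out (run nd gs u) ≤ 1 / 3) :
    (ham nd w gs out).Yes := by
  obtain ⟨u, hu, hu1, hrej⟩ := hy
  have hL : (0 : ℝ) < cL gs.length := by unfold cL; positivity
  set c : ℝ := (Real.sqrt (cL gs.length))⁻¹ with hc
  have hc2 : c ^ 2 = (cL gs.length : ℝ)⁻¹ := by rw [hc, inv_pow, Real.sq_sqrt hL.le]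
  obtain ⟨ψ, hψ, ha⟩ := exists_legal (T := 5 * gs.length) (pre (stepOp nd gs) (c • u))
  have hn : ‖ψ‖ ^ 2 = 1 := by
    rw [norm_legal hψ, Finset.sum_congr rfl (g := fun _ => (cL gs.length : ℝ)⁻¹)]
    · rw [Finset.sum_const, Finset.card_range, nsmul_eq_mul]
      exact mul_inv_cancel₀ hL.ne'
    · intro t ht
      have ht' : t ≤ 5 * gs.length := Nat.lt_succ_iff.1 (Finset.mem_range.1 ht)
      rw [ha t ht', norm_pre h _ ht', norm_smul, hu1, mul_one, Real.norm_eq_abs, sq_abs, hc2]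
  refine mkXZ_yes (tAll_ok h) ⟨ψ, (sq_eq_sq₀ (norm_nonneg _) zero_le_one).1 (by rw [hn]; norm_num), ?_⟩
  have h1 := (abs_le.1 (round_all (w := w) h ψ)).1
  have h2 : ⟪ψ, HL _ rho (tAll nd w gs out) ψ⟫ ≤ 4 := by
    rw [tAll, inner_HL_append, clock_legal hψ, en_main h hψ, Finset.sum_eq_zero, ha 0 (by omega),
      ha _ le_rfl, pre_all h, run_smul, rej_smul, hc2, show pre (stepOp nd gs) (c • u) 0 = c • u from rfl,
      dirt_clean (hu.smul c)]
    · have : 12 * (cL gs.length : ℝ) * ((cL gs.length : ℝ)⁻¹ * rej out (run nd gs u)) =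
          12 * rej out (run nd gs u) := by field_simp
      rw [this]; linarith
    · intro i hi
      have hi' := Finset.mem_range.1 hi
      have hg := gi_ok h hi'
      refine blkE_zero (refl_gF _ _) (refl_gR hg) (gF_gR_comm hg) _ _ ?_ ?_ ?_ ?_ ?_
      · rw [ha _ (by omega), ha _ (by omega), pre, step0]; rfl
      · rw [ha (5 * i + 2) (by omega), ha _ (by omega), pre, step1]
      · rw [ha (5 * i + 3) (by omega), ha _ (by omega), pre, step2]; rfl
      · rw [ha (5 * i + 4) (by omega), ha _ (by omega), pre, step3]; rfl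
      · rw [ha (5 * i + 5) (by omega), ha _ (by omega), pre, step4]
  rw [hn] at h1
  push_cast
  linarith

lemma main_lower (h : RVOK nd gs out)
    (hn : ∀ u : St nd, Clean w u → 2 / 3 * ‖u‖ ^ 2 ≤ rej out (run nd gs u))
    {φ : St (nd + (5 * gs.length + 2))} (hφ : Legal nd (5 * gs.length) φ) :
    (6 - 1 / 8) * ‖φ‖ ^ 2 ≤ ⟪φ, HL _ rho (tMain nd w gs out) φ⟫ := by
  set a : ℕ → St nd := fun t => sl nd _ t φ with ha
  obtain ⟨u, v, huv, hu, hv⟩ := clean_split w (a 0)
  have hs := hn u hu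
  rw [← pre_all h, rej_eq] at hs
  have h1 := hist_lower (stepOp nd gs) (5 * gs.length) (fun t ht => norm_step h ht) (P0 nd out)
    (norm_P0_le out) a u v huv hs
  have hL : (cL gs.length : ℝ) = ((5 * gs.length : ℕ) : ℝ) + 1 := by unfold cL; push_cast; ring
  have hJ2 : (cJ2 gs.length : ℝ) = 180 * (cL gs.length : ℝ) ^ 2 := by unfold cJ2; push_cast; ring
  have hJ1 : (cJ1 gs.length : ℝ) = 25 * (cJ2 gs.length : ℝ) ^ 2 := by unfold cJ1; push_cast; ring
  have hL1 : (1 : ℝ) ≤ cL gs.length := by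
    have : 1 ≤ cL gs.length := by unfold cL; omega
    exact_mod_cast this
  have hJ : (1 : ℝ) ≤ cJ2 gs.length := by rw [hJ2]; nlinarith
  rw [← hL, ← hJ2, ← rej_eq] at h1
  have h2 : (cJ2 gs.length : ℝ) * ∑ t ∈ Finset.range (5 * gs.length),
        ‖a (t + 1) - stepOp nd gs t (a t)‖ ^ 2 -
      1 / 8 * ∑ t ∈ Finset.range (5 * gs.length), ‖a t‖ ^ 2 ≤
      ∑ i ∈ Finset.range gs.length, blkE (cJ1 gs.length) (cJ2 gs.length) (gF nd (gi gs i))
        (gR nd (gi gs i)) (a (5 * i)) (a (5 * i + 1)) (a (5 * i + 2))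
        (a (5 * i + 3)) (a (5 * i + 4)) (a (5 * i + 5)) := by
    rw [sum_five, sum_five, Finset.mul_sum, Finset.mul_sum, ← Finset.sum_sub_distrib]
    refine Finset.sum_le_sum fun i hi => ?_
    have hg := gi_ok h (Finset.mem_range.1 hi)
    have := blkE_lower (refl_gF _ _) (refl_gR hg) (gF_gR_comm hg) hJ (a (5 * i)) (a (5 * i + 1))
      (a (5 * i + 2)) (a (5 * i + 3)) (a (5 * i + 4)) (a (5 * i + 5))
    rw [hJ1]
    refine le_trans ?_ this
    rw [step0, step1, step2, step3, step4]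
    simp only [LinearMap.neg_apply, sub_neg_eq_add, add_assoc, Nat.reduceAdd, gop]
    nlinarith [sq_nonneg ‖a (5 * i)‖]
  have h3 : ∑ t ∈ Finset.range (5 * gs.length), ‖a t‖ ^ 2 ≤
      ∑ t ∈ Finset.range (5 * gs.length + 1), ‖a t‖ ^ 2 := by
    rw [Finset.sum_range_succ]; nlinarith [sq_nonneg ‖a (5 * gs.length)‖]
  have h4 : (cJ2 gs.length : ℝ) * ‖v‖ ^ 2 ≤ cJ2 gs.length * dirt w (a 0) :=
    mul_le_mul_of_nonneg_left hv (by linarith)
  rw [en_main h hφ, norm_legal hφ]
  simp only [ha] at h1 h2 h3 h4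
  linarith

theorem ham_no (h : RVOK nd gs out)
    (hn : ∀ u : St nd, Clean w u → 2 / 3 * ‖u‖ ^ 2 ≤ rej out (run nd gs u)) :
    (ham nd w gs out).No := by
  refine mkXZ_no (tAll_ok h) fun ψ => ?_
  have h1 := (abs_le.1 (round_all (w := w) h ψ)).2
  obtain ⟨φ, χ, rfl, hφ, hχ, ho⟩ := legal_split ψ
  have hρ : |rho| ≤ 1 := by rw [abs_of_pos rho_pos]; exact rho_le_one
  have h2 := proj_lower (HL _ rho (tMain nd w gs out))
    (HL _ rho (tClock nd (5 * gs.length) (cJc (cK nd w gs out) : ℕ))) (K := cK nd w gs out)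
    (by positivity)
    (fun x y => (HL_bound hρ (tMain_bd nd w gs out) x y).trans (le_of_eq (by
      unfold cK; push_cast; ring)))
    φ χ ho (main_lower h hn hφ)
    (le_trans (le_of_eq (by unfold cJc; push_cast; ring)) (clock_lower hφ hχ rho (by positivity)))
  rw [← inner_HL_append, ← tAll] at h2
  push_cast
  linarith

end Crest.Agent.R338.K
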