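import Crest.Agent.R338.KBas

/-! Row 338, module K: multi-controlled reflections. -/

set_option autoImplicit false

open scoped RealInnerProductSpace
open Crest.Quantum.GateCircuit Crest.Quantum.QMA Crest.Agent.Lib.PT

namespace Crest.Agent.R338.K

variable {n : ℕ}

private lemma Rop_local (k s : ℕ) :
    ∃ α β : Bool → ℝ, ∀ (ψ : St n) (σ : Fin n → Bool),
      Rop n k s ψ σ = α (bit σ s) * ψ σ + β (bit σ s) * ψ (flp σ s) := by
  by_cases h0 : k = 0
  · exact ⟨sg, fun _ => 0, fun ψ σ => by rw [Rop_apply, if_pos h0]; ring⟩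
  by_cases h1 : k = 1
  · exact ⟨fun b => rho * sg b, fun _ => rho, fun ψ σ => by
      rw [Rop_apply, if_neg h0, if_pos h1]; ring⟩
  · exact ⟨fun _ => 0, fun _ => 1, fun ψ σ => by rw [Rop_apply, if_neg h0, if_neg h1]; ring⟩

private lemma Rs_cons (s k : ℕ) (ks : List ℕ) (ψ : St n) :
    Rs n s (k :: ks) ψ = Rs n s ks (Rop n k s ψ) := rfl

/-- A product of reflections on qubit `s` only looks at qubit `s`. -/
theorem Rs_local {s : ℕ} (hs : s < n) (ks : List ℕ) :
    ∃ α β : Bool → ℝ, ∀ (ψ : St n) (σ : Fin n → Bool),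
      Rs n s ks ψ σ = α (bit σ s) * ψ σ + β (bit σ s) * ψ (flp σ s) := by
  induction ks with
  | nil => exact ⟨fun _ => 1, fun _ => 0, fun ψ σ => by simp [Rs]⟩
  | cons k ks ih =>
    obtain ⟨α, β, h⟩ := ih
    obtain ⟨a, b, h'⟩ := Rop_local (n := n) k s
    refine ⟨fun x => α x * a x + β x * b (!x), fun x => α x * b x + β x * a (!x), fun ψ σ => ?_⟩
    rw [Rs_cons, h, h', h', bit_flp_self σ hs, flp_flp]
    ring

theorem g3_apply {a c t : ℕ} (hat : a ≠ t) (hct : c ≠ t) (ht : t < n) (ψ : St n)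
    (σ : Fin n → Bool) :
    run n (g3 a c t) ψ σ =
      if bit σ a = true then (if bit σ c = true then ψ (flp σ t) else ψ σ)
      else if bit σ c = true then sg (bit σ t) * ψ σ else ψ σ := by
  have hr : rho * rho = 1 / 2 := by rw [← sq, rho_sq]
  simp only [g3, run_cons, run_nil, gop_apply, Rop_apply, bit_flp_ne _ hat, bit_flp_ne _ hct,
    bit_flp_self _ ht, flp_flp, Bool.not_false, one_ne_zero, if_false, if_true]
  cases bit σ a <;> cases bit σ c <;> cases bit σ t <;> simp [sg]
  · linear_combination (2 * ψ σ) * hr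
  · linear_combination (2 * ψ σ) * hr
  · linear_combination (2 * ψ (flp σ t)) * hr
  · linear_combination (2 * ψ (flp σ t)) * hr

theorem core_apply {a s : ℕ} (has : a ≠ s) (hs : s < n) (ks : List ℕ) (ψ : St n)
    (σ : Fin n → Bool) :
    run n (ks.map fun k => ((false, a, s, k) : Gt)) ψ σ =
      if bit σ a = true then Rs n s ks ψ σ else ψ σ := by
  induction ks generalizing ψ with
  | nil => simp [Rs]
  | cons k ks ih =>
    obtain ⟨α, β, h⟩ := Rs_local hs ks
    rw [List.map_cons, run_cons, ih, Rs_cons, h, h, gop_apply, gop_apply, bit_flp_ne _ has]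
    cases bit σ a <;> simp

private lemma clean_zero {w i : ℕ} {ψ : St n} (hψ : Clean w ψ) (hi : w ≤ i) {σ : Fin n → Bool}
    (h : bit σ i = true) : ψ σ = 0 := by
  by_contra h0
  rw [(cl_iff w σ).1 (hψ σ h0) i hi] at h
  exact Bool.false_ne_true h

private lemma Rs_zero {w i s : ℕ} (hs : s < n) (ks : List ℕ) {ψ : St n} (hψ : Clean w ψ)
    (hi : w ≤ i) (his : i ≠ s) {σ : Fin n → Bool} (h : bit σ i = true) : Rs n s ks ψ σ = 0 := by
  obtain ⟨α, β, h'⟩ := Rs_local hs ks
  rw [h', clean_zero hψ hi h, clean_zero hψ hi (by rw [bit_flp_ne _ his, h])]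
  ring

private lemma clean_cond {w t : ℕ} {ψ φ : St n} (hψ : Clean w ψ) (hw : w ≤ t + 1)
    {p : (Fin n → Bool) → Prop} [DecidablePred p]
    (hφ : ∀ σ, φ σ = if p σ then ψ (flp σ t) else ψ σ) : Clean (t + 1) φ := by
  intro σ hσ
  rw [cl_iff]
  intro i hi
  rw [hφ] at hσ
  split_ifs at hσ
  · rw [← bit_flp_ne σ (show i ≠ t by omega)]
    exact (cl_iff _ _).1 (hψ _ hσ) i (by omega)
  · exact (cl_iff _ _).1 (hψ _ hσ) i (by omega)

private lemma Rs_cond {s t : ℕ} (hs : s < n) (hst : s ≠ t) (ks : List ℕ) {ψ φ : St n}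
    {p : (Fin n → Bool) → Prop} [DecidablePred p] (hp : ∀ σ, p (flp σ s) ↔ p σ)
    (hφ : ∀ σ, φ σ = if p σ then ψ (flp σ t) else ψ σ) (σ : Fin n → Bool) :
    Rs n s ks φ σ = if p σ then Rs n s ks ψ (flp σ t) else Rs n s ks ψ σ := by
  obtain ⟨α, β, h⟩ := Rs_local hs ks
  rw [h, h, h, hφ, hφ, bit_flp_ne _ hst, flp_comm σ t s]
  by_cases hσ : p σ
  · rw [if_pos hσ, if_pos hσ, if_pos ((hp σ).2 hσ)]
  · rw [if_neg hσ, if_neg hσ, if_neg (fun h => hσ ((hp σ).1 h))]

private lemma chain_cons (b c : ℕ) (cs : List ℕ) :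
    chain b (c :: cs) = g3 b c (b + 1) ++ chain (b + 1) cs := by
  simp [chain, List.zipIdx_cons]

private lemma mcIn_cons (b c : ℕ) (cs : List ℕ) (s : ℕ) (ks : List ℕ) :
    mcIn b (c :: cs) s ks = g3 b c (b + 1) ++ (mcIn (b + 1) cs s ks ++ g3 b c (b + 1)) := by
  have e : b + (cs.length + 1) = b + 1 + cs.length := by omega
  have e2 : (g3 b c (b + 1)).reverse = g3 b c (b + 1) := rfl
  simp only [mcIn, chain_cons, List.reverse_append, List.length_cons, e, e2, List.append_assoc]

theorem mcIn_apply {s : ℕ} (ks : List ℕ) (cs : List ℕ) (b : ℕ) (hs : s < b)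
    (hcs : ∀ c ∈ cs, c < b ∧ c ≠ s) (hn : b + cs.length < n) (ψ : St n) (hψ : Clean (b + 1) ψ)
    (σ : Fin n → Bool) :
    run n (mcIn b cs s ks) ψ σ =
      if bit σ b = true ∧ ∀ c ∈ cs, bit σ c = true then Rs n s ks ψ σ else ψ σ := by
  induction cs generalizing b ψ σ with
  | nil =>
    have e : mcIn b [] s ks = ks.map fun k => ((false, b, s, k) : Gt) := by simp [mcIn, chain]
    rw [e, core_apply (by omega) (by simp at hn; omega)]
    simp
  | cons c cs ih =>
    rw [List.length_cons] at hn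
    have hc := hcs c List.mem_cons_self
    have hsn : s < n := by omega
    have hbt : b ≠ b + 1 := by omega
    have hct : c ≠ b + 1 := by omega
    have htn : b + 1 < n := by omega
    have h1 : ∀ σ, run n (g3 b c (b + 1)) ψ σ =
        if bit σ b = true ∧ bit σ c = true then ψ (flp σ (b + 1)) else ψ σ := fun σ => by
      rw [g3_apply hbt hct htn]
      cases hb1 : bit σ (b + 1)
      · cases bit σ b <;> cases bit σ c <;> simp [sg]
      · cases bit σ b <;> cases bit σ c <;> simp [clean_zero hψ le_rfl hb1]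
    have h2 := Rs_cond hsn (show s ≠ b + 1 by omega) ks (fun σ => by
      rw [bit_flp_ne _ (show b ≠ s by omega), bit_flp_ne _ hc.2]) h1
    have h3 := fun σ => ih (b + 1) (by omega)
      (fun c' h' => ⟨by have := (hcs c' (List.mem_cons_of_mem _ h')).1; omega,
        (hcs c' (List.mem_cons_of_mem _ h')).2⟩) (by omega) _ (clean_cond hψ (by omega) h1) σ
    have h4 : (∀ c' ∈ cs, bit (flp σ (b + 1)) c' = true) ↔ ∀ c' ∈ cs, bit σ c' = true :=
      forall₂_congr fun c' h' => by
        rw [bit_flp_ne _ (by have := (hcs c' (List.mem_cons_of_mem _ h')).1; omega)]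
    rw [mcIn_cons, run_append, run_append, g3_apply hbt hct htn]
    simp only [h3, h2, h1, h4, bit_flp_ne _ hbt, bit_flp_ne _ hct, bit_flp_self _ htn, flp_flp,
      List.forall_mem_cons]
    cases hb1 : bit σ (b + 1)
    · cases bit σ b <;> cases bit σ c <;> simp [sg]
    · cases bit σ b <;> cases bit σ c <;>
        simp [clean_zero hψ le_rfl hb1, Rs_zero hsn ks hψ le_rfl (by omega) hb1]

theorem mc_apply {s z : ℕ} (ks : List ℕ) (cs : List ℕ) (hs : s < z)
    (hcs : ∀ c ∈ cs, c < z ∧ c ≠ s) (hn : z + 1 + cs.length < n) (ψ : St n) (hψ : Clean z ψ)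
    (σ : Fin n → Bool) :
    run n (mc z cs s ks) ψ σ = if ∀ c ∈ cs, bit σ c = true then Rs n s ks ψ σ else ψ σ := by
  have hsn : s < n := by omega
  have hbt : z ≠ z + 1 := by omega
  have htn : z + 1 < n := by omega
  have h0 : ∀ (φ : St n) σ, gop n (true, z, z + 1, 2) φ σ =
      if bit σ z = false then φ (flp σ (z + 1)) else φ σ := fun φ σ => by
    rw [gop_apply, Rop_apply]
    simp
  have h1 := h0 ψ
  have h2 := Rs_cond hsn (show s ≠ z + 1 by omega) ks (fun σ => by
    rw [bit_flp_ne _ (show z ≠ s by omega)]) h1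
  have h3 := fun σ => mcIn_apply ks cs (z + 1) (show s < z + 1 by omega)
    (fun c h => ⟨by have := (hcs c h).1; omega, (hcs c h).2⟩) hn _ (clean_cond hψ (by omega) h1) σ
  have h4 : (∀ c ∈ cs, bit (flp σ (z + 1)) c = true) ↔ ∀ c ∈ cs, bit σ c = true :=
    forall₂_congr fun c h => by rw [bit_flp_ne _ (by have := (hcs c h).1; omega)]
  rw [mc, run_cons, run_append, run_cons, run_nil, h0]
  simp only [h3, h2, h1, h4, bit_flp_ne _ hbt, bit_flp_self _ htn, flp_flp]
  cases hz : bit σ z
  · cases hb1 : bit σ (z + 1)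
    · simp
    · simp [clean_zero hψ (Nat.le_succ z) hb1, Rs_zero hsn ks hψ (Nat.le_succ z) (by omega) hb1]
  · simp [clean_zero hψ le_rfl hz, Rs_zero hsn ks hψ le_rfl (by omega) hz]

private lemma chain_ok (cs : List ℕ) (b : ℕ) (hcs : ∀ c ∈ cs, c ≤ b) (hn : b + cs.length < n) :
    ∀ g ∈ chain b cs, GtOK n g := by
  induction cs generalizing b with
  | nil => simp [chain]
  | cons c cs ih =>
    rw [List.length_cons] at hn
    have hc := hcs c List.mem_cons_self
    rw [chain_cons]
    intro g hg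
    rcases List.mem_append.1 hg with hg | hg
    · simp only [g3, List.mem_cons, List.not_mem_nil, or_false] at hg
      rcases hg with rfl | rfl | rfl <;> simp only [GtOK] <;> omega
    · exact ih (b + 1) (fun c' h' => by have := hcs c' (List.mem_cons_of_mem _ h'); omega)
        (by omega) g hg

theorem mc_ok {s z : ℕ} (ks : List ℕ) (cs : List ℕ) (hs : s < z) (hcs : ∀ c ∈ cs, c < z)
    (hn : z + 1 + cs.length < n) : ∀ g ∈ mc z cs s ks, GtOK n g := by
  have h1 := chain_ok (n := n) cs (z + 1) (fun c h => by have := hcs c h; omega) hn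
  intro g hg
  simp only [mc, mcIn, List.mem_cons, List.mem_append, List.mem_map, List.mem_reverse,
    List.not_mem_nil, or_false] at hg
  rcases hg with rfl | ((hg | ⟨k, -, rfl⟩) | hg) | rfl
  · simp only [GtOK]; omega
  · exact h1 g hg
  · simp only [GtOK]; omega
  · exact h1 g hg
  · simp only [GtOK]; omega

end Crest.Agent.R338.K
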