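import Crest.Agent.R338.KBas

/-! Row 338, module K: legal clock states and time slices. -/

set_option autoImplicit false

open scoped RealInnerProductSpace
open Crest.Quantum.GateCircuit Crest.Quantum.QMA Crest.Agent.Lib.PT

namespace Crest.Agent.R338.K

variable {nd T : ℕ}

private lemma ksl_ext {n : ℕ} {σ σ' : Fin n → Bool} (h : ∀ i < n, bit σ i = bit σ' i) : σ = σ' := by
  funext i
  have := h i i.2
  simpa using this

private lemma ksl_bit_data (δ : Fin nd → Bool) (t : ℕ) {i : ℕ} (hi : i < nd) :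
    bit (join (nd + (T + 2)) δ t) i = bit δ i := by
  rw [bit_of_lt _ (show i < nd + (T + 2) by omega)]
  simp [join, hi]

private lemma ksl_bit_clock (δ : Fin nd → Bool) (t : ℕ) {j : ℕ} (hj : j ≤ T + 1) :
    bit (join (nd + (T + 2)) δ t) (nd + j) = kap t j := by
  rw [bit_of_lt _ (show nd + j < nd + (T + 2) by omega)]
  simp [join]

private lemma ksl_kap_eq {t t' j : ℕ} : kap t j = kap t' j ↔ (j ≤ t ↔ j ≤ t') := by
  unfold kap
  by_cases h1 : j ≤ t <;> by_cases h2 : j ≤ t' <;> by_cases h3 : j % 2 = 1 <;> simp [h1, h2, h3]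

private lemma ksl_kap_not {t t' j : ℕ} : (!kap t j) = kap t' j ↔ ¬ (j ≤ t ↔ j ≤ t') := by
  unfold kap
  by_cases h1 : j ≤ t <;> by_cases h2 : j ≤ t' <;> by_cases h3 : j % 2 = 1 <;> simp [h1, h2, h3]

private lemma ksl_kap_inj {t t' : ℕ} (ht : t ≤ T) (ht' : t' ≤ T)
    (h : ∀ j ≤ T + 1, kap t j = kap t' j) : t = t' := by
  have h1 := ksl_kap_eq.1 (h t (by omega))
  have h2 := ksl_kap_eq.1 (h t' (by omega))
  omega

/-- the data part of a string -/
private def ksl_res (nd : ℕ) {n : ℕ} (σ : Fin n → Bool) : Fin nd → Bool := fun i => bit σ i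

private lemma ksl_res_join (δ : Fin nd → Bool) (t : ℕ) :
    ksl_res nd (join (nd + (T + 2)) δ t) = δ := by
  funext i
  simp only [ksl_res]
  rw [ksl_bit_data δ t i.2, bit_val]

private lemma ksl_eq_join {σ : Fin (nd + (T + 2)) → Bool} {δ : Fin nd → Bool} {t : ℕ}
    (h1 : ∀ i < nd, bit σ i = bit δ i) (h2 : ∀ j ≤ T + 1, bit σ (nd + j) = kap t j) :
    σ = join (nd + (T + 2)) δ t := by
  refine ksl_ext fun i hi => ?_
  by_cases hin : i < nd
  · rw [ksl_bit_data δ t hin, h1 i hin]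
  · obtain ⟨j, rfl⟩ := Nat.exists_eq_add_of_le (not_lt.1 hin)
    rw [ksl_bit_clock δ t (by omega), h2 j (by omega)]

private lemma ksl_bit_res {n : ℕ} (σ : Fin n → Bool) {i : ℕ} (hi : i < nd) :
    bit (ksl_res nd σ) i = bit σ i := by
  rw [bit_of_lt _ hi]
  rfl

private lemma ksl_zero {ψ : St (nd + (T + 2))} (h : Legal nd T ψ) {σ : Fin (nd + (T + 2)) → Bool}
    (hσ : ¬ LegS nd T σ) : ψ σ = 0 := by
  by_contra h0
  exact hσ (h σ h0)

theorem inner_legal {ψ : St (nd + (T + 2))} (h : Legal nd T ψ) (φ : St (nd + (T + 2))) :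
    ⟪ψ, φ⟫ = ∑ t ∈ Finset.range (T + 1), ⟪sl nd _ t ψ, sl nd _ t φ⟫ := by
  classical
  rw [inner_eq]
  simp only [inner_eq, sl_apply]
  rw [← Finset.sum_product']
  symm
  refine Finset.sum_of_injOn (fun p : ℕ × (Fin nd → Bool) => join (nd + (T + 2)) p.2 p.1) ?_
    (fun _ _ => Finset.mem_coe.2 (Finset.mem_univ _)) ?_ (fun _ _ => rfl)
  · rintro ⟨t, δ⟩ hp ⟨t', δ'⟩ hp' e
    simp only [Finset.coe_product, Set.mem_prod, Finset.mem_coe, Finset.mem_range] at hp hp'
    simp only at e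
    have e1 : δ = δ' := by
      rw [← ksl_res_join (T := T) δ t, e, ksl_res_join]
    have e2 : t = t' := by
      refine ksl_kap_inj (T := T) (by omega) (by omega) fun j hj => ?_
      rw [← ksl_bit_clock δ t hj, e, ksl_bit_clock δ' t' hj]
    rw [e1, e2]
  · intro σ _ hσ
    rw [ksl_zero h, zero_mul]
    rintro ⟨t, ht, hb⟩
    refine hσ ⟨(t, ksl_res nd σ), ?_, ?_⟩
    · simp only [Finset.coe_product, Set.mem_prod, Finset.mem_coe, Finset.mem_range, Finset.mem_univ,
        and_true]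
      omega
    · exact (ksl_eq_join (fun i hi => (ksl_bit_res σ hi).symm) hb).symm

theorem norm_legal {ψ : St (nd + (T + 2))} (h : Legal nd T ψ) :
    ‖ψ‖ ^ 2 = ∑ t ∈ Finset.range (T + 1), ‖sl nd _ t ψ‖ ^ 2 := by
  rw [← real_inner_self_eq_norm_sq, inner_legal h]
  simp only [real_inner_self_eq_norm_sq]

theorem sl_ZL_data (t : ℕ) {i : ℕ} (hi : i < nd) (φ : St (nd + (T + 2))) :
    sl nd _ t (ZL _ i φ) = ZL nd i (sl nd _ t φ) := by
  ext δ
  simp only [sl_apply, ZL_apply, ksl_bit_data δ t hi]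

theorem sl_XL_data (t : ℕ) {i : ℕ} (hi : i < nd) (φ : St (nd + (T + 2))) :
    sl nd _ t (XL _ i φ) = XL nd i (sl nd _ t φ) := by
  ext δ
  simp only [sl_apply, XL_apply]
  refine congrArg φ.ofLp (ksl_eq_join (fun k hk => ?_) (fun j hj => ?_))
  · by_cases hki : k = i
    · subst hki
      rw [bit_flp_self _ (by omega), bit_flp_self _ hk, ksl_bit_data δ t hk]
    · rw [bit_flp_ne _ hki, bit_flp_ne _ hki, ksl_bit_data δ t hk]
  · rw [bit_flp_ne _ (by omega), ksl_bit_clock δ t hj]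

theorem sl_ZL_clock (t : ℕ) {j : ℕ} (hj : j ≤ T + 1) (φ : St (nd + (T + 2))) :
    sl nd _ t (ZL _ (nd + j) φ) = sg (kap t j) • sl nd _ t φ := by
  ext δ
  simp only [sl_apply, ZL_apply, ksl_bit_clock δ t hj, PiLp.smul_apply, smul_eq_mul]

theorem sl_XL_clock {ψ : St (nd + (T + 2))} (h : Legal nd T ψ) {t j : ℕ} (ht : t ≤ T)
    (hj : j + 1 ≤ T) :
    sl nd _ t (XL _ (nd + (j + 1)) ψ) =
      if t = j + 1 then sl nd _ j ψ else if t = j then sl nd _ (j + 1) ψ else 0 := by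
  have hb : ∀ (δ : Fin nd → Bool) (k : ℕ), k ≤ T + 1 →
      bit (flp (join (nd + (T + 2)) δ t) (nd + (j + 1))) (nd + k) =
        if k = j + 1 then !kap t k else kap t k := by
    intro δ k hk
    split_ifs with hkj
    · subst hkj
      rw [bit_flp_self _ (by omega), ksl_bit_clock δ t hk]
    · rw [bit_flp_ne _ (by omega), ksl_bit_clock δ t hk]
  have hd : ∀ (δ : Fin nd → Bool), ∀ i < nd,
      bit (flp (join (nd + (T + 2)) δ t) (nd + (j + 1))) i = bit δ i := by
    intro δ i hi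
    rw [bit_flp_ne _ (by omega), ksl_bit_data δ t hi]
  ext δ
  simp only [sl_apply, XL_apply]
  split_ifs with h1 h2
  · rw [sl_apply]
    refine congrArg ψ.ofLp (ksl_eq_join (hd δ) fun k hk => ?_)
    rw [hb δ k hk]
    split_ifs
    · rw [ksl_kap_not]; omega
    · rw [ksl_kap_eq]; omega
  · rw [sl_apply]
    refine congrArg ψ.ofLp (ksl_eq_join (hd δ) fun k hk => ?_)
    rw [hb δ k hk]
    split_ifs
    · rw [ksl_kap_not]; omega
    · rw [ksl_kap_eq]; omega
  · rw [ksl_zero h]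
    · rfl
    rintro ⟨s, hs, hk⟩
    have a0 := hk j (by omega)
    have a1 := hk (j + 1) (by omega)
    have a2 := hk (j + 2) (by omega)
    rw [hb δ _ (by omega), if_neg (by omega), ksl_kap_eq] at a0 a2
    rw [hb δ _ (by omega), if_pos rfl, ksl_kap_not] at a1
    omega

theorem sl_XX_clock {ψ : St (nd + (T + 2))} (h : Legal nd T ψ) {t j : ℕ} (ht : t ≤ T)
    (hj : j + 2 ≤ T) :
    sl nd _ t (XL _ (nd + (j + 1)) (XL _ (nd + (j + 1 + 1)) ψ)) =
      if t = j + 2 then sl nd _ j ψ else if t = j then sl nd _ (j + 2) ψ else 0 := by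
  have hb : ∀ (δ : Fin nd → Bool) (k : ℕ), k ≤ T + 1 →
      bit (flp (flp (join (nd + (T + 2)) δ t) (nd + (j + 1))) (nd + (j + 1 + 1))) (nd + k) =
        if k = j + 1 ∨ k = j + 2 then !kap t k else kap t k := by
    intro δ k hk
    split_ifs with hkj
    · rcases hkj with hkj | hkj
      · subst hkj
        rw [bit_flp_ne _ (by omega), bit_flp_self _ (by omega), ksl_bit_clock δ t hk]
      · subst hkj
        rw [bit_flp_self _ (by omega), bit_flp_ne _ (by omega), ksl_bit_clock δ t hk]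
    · rw [bit_flp_ne _ (by omega), bit_flp_ne _ (by omega), ksl_bit_clock δ t hk]
  have hd : ∀ (δ : Fin nd → Bool), ∀ i < nd,
      bit (flp (flp (join (nd + (T + 2)) δ t) (nd + (j + 1))) (nd + (j + 1 + 1))) i = bit δ i := by
    intro δ i hi
    rw [bit_flp_ne _ (by omega), bit_flp_ne _ (by omega), ksl_bit_data δ t hi]
  ext δ
  simp only [sl_apply, XL_apply]
  split_ifs with h1 h2
  · rw [sl_apply]
    refine congrArg ψ.ofLp (ksl_eq_join (hd δ) fun k hk => ?_)
    rw [hb δ k hk]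
    split_ifs
    · rw [ksl_kap_not]; omega
    · rw [ksl_kap_eq]; omega
  · rw [sl_apply]
    refine congrArg ψ.ofLp (ksl_eq_join (hd δ) fun k hk => ?_)
    rw [hb δ k hk]
    split_ifs
    · rw [ksl_kap_not]; omega
    · rw [ksl_kap_eq]; omega
  · rw [ksl_zero h]
    · rfl
    rintro ⟨s, hs, hk⟩
    have a0 := hk j (by omega)
    have a1 := hk (j + 1) (by omega)
    have a2 := hk (j + 2) (by omega)
    have a3 := hk (j + 3) (by omega)
    rw [hb δ _ (by omega), if_neg (by omega), ksl_kap_eq] at a0 a3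
    rw [hb δ _ (by omega), if_pos (by omega), ksl_kap_not] at a1 a2
    omega

theorem exists_legal (a : ℕ → St nd) :
    ∃ ψ : St (nd + (T + 2)), Legal nd T ψ ∧ ∀ t ≤ T, sl nd _ t ψ = a t := by
  classical
  refine ⟨WithLp.toLp 2 fun σ => ∑ t ∈ Finset.range (T + 1),
    if (∀ j ≤ T + 1, bit σ (nd + j) = kap t j) then a t (ksl_res nd σ) else 0, ?_, ?_⟩
  · intro σ hσ
    simp only at hσ
    obtain ⟨t, ht, h0⟩ := Finset.exists_ne_zero_of_sum_ne_zero hσ
    refine ⟨t, by have := Finset.mem_range.1 ht; omega, ?_⟩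
    by_contra hc
    exact h0 (if_neg hc)
  · intro t ht
    ext δ
    simp only [sl_apply]
    rw [Finset.sum_eq_single t]
    · rw [if_pos (fun j hj => ksl_bit_clock δ t hj), ksl_res_join]
    · intro s hs hst
      rw [if_neg]
      intro hc
      refine hst (ksl_kap_inj (T := T) (by have := Finset.mem_range.1 hs; omega) ht fun j hj => ?_)
      rw [← hc j hj, ksl_bit_clock δ t hj]
    · intro hc
      exact absurd (Finset.mem_range.2 (by omega)) hc

theorem legal_split (ψ : St (nd + (T + 2))) :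
    ∃ φ χ : St (nd + (T + 2)), ψ = φ + χ ∧ Legal nd T φ ∧ Illegal nd T χ ∧
      ‖φ + χ‖ ^ 2 = ‖φ‖ ^ 2 + ‖χ‖ ^ 2 := by
  classical
  refine ⟨WithLp.toLp 2 fun σ => if LegS nd T σ then ψ σ else 0,
    WithLp.toLp 2 fun σ => if LegS nd T σ then 0 else ψ σ, ?_, ?_, ?_, ?_⟩
  · ext σ
    by_cases hσ : LegS nd T σ <;> simp [hσ]
  · intro σ hσ
    by_contra hc
    exact hσ (if_neg hc)
  · intro σ hσ
    exact if_pos hσ
  · simp only [norm_sq_eq, ← Finset.sum_add_distrib]
    refine Finset.sum_congr rfl fun σ _ => ?_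
    by_cases hσ : LegS nd T σ <;> simp [hσ]

end Crest.Agent.R338.K
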