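import Crest.Agent.R338.KBas

/-! Row 338, module K: the `XZ` record of a list of terms. -/

set_option autoImplicit false

open scoped RealInnerProductSpace
open Crest.Quantum.GateCircuit Crest.Quantum.QMA Crest.Agent.Lib.PT

namespace Crest.Agent.R338.K

lemma kterm_cons (r : ℚ) (P : Tm → Prop) [DecidablePred P] (t : Tm) (L : List Tm) :
    (((t :: L).filter fun t => decide (P t)).map (cf r)).sum =
      (if P t then cf r t else 0) + ((L.filter fun t => decide (P t)).map (cf r)).sum := by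
  by_cases h : P t <;> simp [h]

lemma kterm_abs {Cb : ℕ} {r : ℚ} {L : List Tm} (hr0 : 0 ≤ r) (hr1 : r ≤ 1) (hbd : ∀ t ∈ L, TmBd Cb t)
    (P : Tm → Prop) [DecidablePred P] :
    |((L.filter fun t => decide (P t)).map (cf r)).sum| ≤ 2 * Cb * L.length := by
  induction L with
  | nil => simp
  | cons t L ih =>
    have h1 := ih fun t ht => hbd t (List.mem_cons_of_mem _ ht)
    obtain ⟨h2, h3⟩ := hbd t List.mem_cons_self
    have h4 : |t.2.2.2.2 * r| ≤ Cb := by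
      rw [abs_mul, abs_of_nonneg hr0]
      exact (mul_le_of_le_one_right (abs_nonneg _) hr1).trans h3
    have h5 : |if P t then cf r t else 0| ≤ 2 * Cb := by
      split_ifs
      · exact (abs_add_le _ _).trans (by linarith)
      · rw [abs_zero]; positivity
    rw [kterm_cons, List.length_cons]
    refine (abs_add_le _ _).trans ?_
    push_cast
    linarith

lemma kterm_nonneg {r : ℚ} {L : List Tm} (hr0 : 0 ≤ r) (P : Tm → Prop) [DecidablePred P]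
    (h : ∀ t ∈ L, P t → 0 ≤ t.2.2.2.1 ∧ 0 ≤ t.2.2.2.2) :
    0 ≤ ((L.filter fun t => decide (P t)).map (cf r)).sum :=
  List.sum_nonneg fun x hx => by
    obtain ⟨t, ht, rfl⟩ := List.mem_map.1 hx
    obtain ⟨h1, h2⟩ := List.mem_filter.1 ht
    obtain ⟨h3, h4⟩ := h t h1 (of_decide_eq_true h2)
    exact add_nonneg h3 (mul_nonneg h4 hr0)

lemma kterm_zero {r : ℚ} {L : List Tm} (P : Tm → Prop) [DecidablePred P] (h : ∀ t ∈ L, ¬ P t) :
    ((L.filter fun t => decide (P t)).map (cf r)).sum = 0 := by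
  rw [List.filter_eq_nil_iff.2 fun t ht h' => h t ht (of_decide_eq_true h')]
  rfl

lemma kterm_pt {n nd : ℕ} {r : ℚ} {L : List Tm} (hok : ∀ t ∈ L, TmOK n nd t) (ψ : St n)
    (σ : Fin n → Bool) :
    ∑ i : Fin n, ∑ j : Fin n, ((acc2 r L 1 i j : ℝ) * (sg (σ i) * sg (σ j)) * ψ σ -
        (acc2 r L 2 i j : ℝ) * ψ (fl (fl σ i) j) + (acc2 r L 3 i j : ℝ) * sg (σ i) * ψ (fl σ j)) +
      ∑ i : Fin n, ((acc1 r L 4 i : ℝ) * sg (σ i) * ψ σ + (acc1 r L 5 i : ℝ) * ψ (fl σ i)) =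
      HL n r L ψ σ - (acc0 r L : ℝ) * ψ σ := by
  induction L with
  | nil => simp [acc2, acc1, acc0]
  | cons t L ih =>
    have h1 := ih fun t ht => hok t (List.mem_cons_of_mem _ ht)
    obtain ⟨k, i, j, a, b⟩ := t
    obtain ⟨hk, hi, hj, -⟩ := hok _ List.mem_cons_self
    simp only at hk hi hj
    lift i to Fin n using hi
    lift j to Fin n using hj
    simp only [acc2, acc1, acc0, Finset.sum_add_distrib, Finset.sum_sub_distrib] at h1
    simp only [acc2, acc1, acc0, kterm_cons, Rat.cast_add, add_mul, Finset.sum_add_distrib,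
      Finset.sum_sub_distrib, HL_cons, LinearMap.add_apply, PiLp.add_apply]
    interval_cases k <;>
      simp [tmOp, pauli, cf, Fin.val_inj, ite_and, apply_ite (Rat.cast : ℚ → ℝ), flp_eq_fl] at h1 ⊢ <;>
      linarith

theorem mkXZ_valid {n nd Cb : ℕ} {r : ℚ} {L : List Tm} {lo hi : ℚ} (hn : 1 ≤ n) (hr0 : 0 ≤ r)
    (hr1 : r ≤ 1) (hok : ∀ t ∈ L, TmOK n nd t) (hbd : ∀ t ∈ L, TmBd Cb t) (hlo : |lo| ≤ Cb)
    (hhi : |hi| ≤ Cb) (hgap : lo + 1 ≤ hi) : (mkXZ n nd Cb r L lo hi).Valid := by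
  have hn' : (1 : ℚ) ≤ n := Nat.one_le_cast.2 hn
  have hC : (0 : ℚ) ≤ Cb := Nat.cast_nonneg _
  have hB : ((n + 2 * Cb * (L.length + 1) : ℕ) : ℚ) = n + 2 * Cb * L.length + 2 * Cb := by
    push_cast; ring
  have h0 : ∀ (P : Tm → Prop) [DecidablePred P], |((L.filter fun t => decide (P t)).map (cf r)).sum| ≤
      ((n + 2 * Cb * (L.length + 1) : ℕ) : ℚ) := fun P _ => by
    have := kterm_abs hr0 hr1 hbd P
    linarith
  have h1 : ∀ x : ℚ, |x| ≤ Cb → |x - acc0 r L| ≤ ((n + 2 * Cb * (L.length + 1) : ℕ) : ℚ) := fun x hx => by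
    have h2 : |acc0 r L| ≤ _ := kterm_abs hr0 hr1 hbd _
    have := abs_sub x (acc0 r L)
    linarith
  refine ⟨hn, Nat.le_add_right _ _, fun i j => ⟨?_, (le_abs_self _).trans (h0 _)⟩,
    fun i j => ⟨?_, (le_abs_self _).trans (h0 _)⟩, fun i j => h0 _, fun i => ?_, fun i => ?_,
    fun i j h => ?_, fun i => h0 _, fun i => h0 _, h1 _ hlo, h1 _ hhi, ?_⟩
  · exact kterm_nonneg hr0 _ fun t ht h => ((hok t ht).2.2.2.1 (Or.inl h.1)).2
  · exact kterm_nonneg hr0 _ fun t ht h => ((hok t ht).2.2.2.1 (Or.inr h.1)).2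
  · exact kterm_zero _ fun t ht h => ((hok t ht).2.2.2.1 (Or.inl h.1)).1 (h.2.1.trans h.2.2.symm)
  · exact kterm_zero _ fun t ht h => ((hok t ht).2.2.2.1 (Or.inr h.1)).1 (h.2.1.trans h.2.2.symm)
  · by_contra h'
    exact h (kterm_zero _ fun t ht h => h' (h.2.1 ▸ h.2.2 ▸ (hok t ht).2.2.2.2 h.1))
  · have h2 : (1 : ℚ) / ((n + 2 * Cb * (L.length + 1) : ℕ) : ℚ) ≤ 1 :=
      (div_le_one (Nat.cast_pos.2 (by omega))).2 (Nat.one_le_cast.2 (by omega))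
    show lo - acc0 r L + 1 / ((n + 2 * Cb * (L.length + 1) : ℕ) : ℚ) ≤ hi - acc0 r L
    linarith

theorem mkXZ_Q {n nd Cb : ℕ} {r : ℚ} {L : List Tm} {lo hi : ℚ} (hok : ∀ t ∈ L, TmOK n nd t)
    (ψ : St n) :
    (mkXZ n nd Cb r L lo hi).Q (fun σ => ψ σ) = ⟪ψ, HL n r L ψ⟫ - (acc0 r L : ℝ) * ‖ψ‖ ^ 2 := by
  rw [inner_eq, norm_sq_eq, Finset.mul_sum, ← Finset.sum_sub_distrib]
  refine Finset.sum_congr rfl fun σ _ => (congrArg (ψ σ * ·) (kterm_pt hok ψ σ)).trans ?_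
  ring

theorem mkXZ_yes {n nd Cb : ℕ} {r : ℚ} {L : List Tm} {lo hi : ℚ} (hok : ∀ t ∈ L, TmOK n nd t)
    (h : ∃ ψ : St n, ‖ψ‖ = 1 ∧ ⟪ψ, HL n r L ψ⟫ ≤ lo) : (mkXZ n nd Cb r L lo hi).Yes := by
  obtain ⟨ψ, h1, h2⟩ := h
  refine ⟨fun σ => ψ σ, (norm_sq_eq ψ).symm.trans (by rw [h1, one_pow]), ?_⟩
  rw [mkXZ_Q hok, h1, one_pow, mul_one]
  show _ ≤ ((lo - acc0 r L : ℚ) : ℝ)
  push_cast
  linarith

theorem mkXZ_no {n nd Cb : ℕ} {r : ℚ} {L : List Tm} {lo hi : ℚ} (hok : ∀ t ∈ L, TmOK n nd t)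
    (h : ∀ ψ : St n, (hi : ℝ) * ‖ψ‖ ^ 2 ≤ ⟪ψ, HL n r L ψ⟫) : (mkXZ n nd Cb r L lo hi).No := by
  intro f
  have h1 := mkXZ_Q (Cb := Cb) (r := r) (lo := lo) (hi := hi) hok (WithLp.toLp 2 f)
  have h2 := norm_sq_eq (WithLp.toLp 2 f : St n)
  refine le_of_le_of_eq ?_ h1.symm
  refine le_of_eq_of_le (congrArg (((hi - acc0 r L : ℚ) : ℝ) * ·) h2.symm) ?_
  push_cast
  linarith [h (WithLp.toLp 2 f)]

theorem mkXZ_pt {α : Type} [Enc α] {n nd Cb : α → ℕ} {r : α → ℚ} {L : α → List Tm} (lo hi : ℚ)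
    (hn : PT n) (hn' : PB n) (hnd : PT nd) (hC : PT Cb) (hC' : PB Cb) (hr : PT r) (hL : PT L) :
    PTFam fun a => mkXZ (n a) (nd a) (Cb a) (r a) (L a) lo hi := by
  constructor <;> simp only [mkXZ, acc2, acc1, acc0] <;> (try unfold cf) <;> fun_prop

theorem rr_pt {α : Type} [Enc α] {M : α → ℕ} (hM : PT M) (hM' : PB M) : PT fun a => rr (M a) := by
  unfold rr
  fun_prop

end Crest.Agent.R338.K
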