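import Crest.Agent.R338.MRed1

/-! Row 338, module M: reduction to smooth fermionic waves and to real parts. -/

set_option autoImplicit false

open MeasureTheory Crest.MathPhysics.ElectronicCoulomb Function

namespace Crest.Agent.R338

variable {N : ℕ}

theorem unitNucleiPotential_eq {K : ℕ} (R : Fin K → Pos3) (x : Config N) :
    unitNucleiPotential R x = Wrep (toX N x) - Vatt R (toX N x) := by
  simp only [unitNucleiPotential, Wrep, Vatt, Vn, toX_apply, Finset.sum_neg_distrib]
  ring

theorem c1c_cw {u w : XN N → ℝ} (hu : C1 u) (hw : C1 w) : C1c (cw u w) := by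
  have e : cw u w = fun x => ((u (toX N x) : ℝ) : ℂ) + ((w (toX N x) : ℝ) : ℂ) * Complex.I := by
    funext x
    apply Complex.ext <;> simp [cw]
  rw [e]
  refine ⟨(Complex.ofRealCLM.contDiff.comp (hu.1.comp (toX N).contDiff)).add
    ((Complex.ofRealCLM.contDiff.comp (hw.1.comp (toX N).contDiff)).mul contDiff_const), ?_⟩
  exact ((hu.2.comp_homeomorph (toX N).toHomeomorph).comp_left (g := fun r : ℝ => (r : ℂ))
    (by simp)).add ((hw.2.comp_homeomorph (toX N).toHomeomorph).comp_left
      (g := fun r : ℝ => (r : ℂ) * Complex.I) (by simp))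

theorem C1c.exists_cw {g : Config N → ℂ} (h : C1c g) :
    C1 (fun y => (g ((toX N).symm y)).re) ∧ C1 (fun y => (g ((toX N).symm y)).im) ∧
      g = cw (fun y => (g ((toX N).symm y)).re) fun y => (g ((toX N).symm y)).im := by
  refine ⟨⟨Complex.reCLM.contDiff.comp (h.1.comp (toX N).symm.contDiff),
    (h.2.comp_homeomorph (toX N).symm.toHomeomorph).comp_left (g := Complex.re) rfl⟩,
    ⟨Complex.imCLM.contDiff.comp (h.1.comp (toX N).symm.contDiff),
    (h.2.comp_homeomorph (toX N).symm.toHomeomorph).comp_left (g := Complex.im) rfl⟩, ?_⟩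
  funext x
  simp [cw]

theorem kin_cw {u w : XN N → ℝ} (hu : C1 u) (hw : C1 w) : kin (cw u w) = kinR u + kinR w := by
  have key : ∀ (k : Fin N × Fin 3) (x : Config N),
      ‖fderiv ℝ (cw u w) x (EuclideanSpace.single k 1)‖ ^ 2 =
        dX u k.1 k.2 (toX N x) ^ 2 + dX w k.1 k.2 (toX N x) ^ 2 := by
    intro k x
    have e : cw u w = fun x => ((u (toX N x) : ℝ) : ℂ) + ((w (toX N x) : ℝ) : ℂ) * Complex.I := by
      funext x
      apply Complex.ext <;> simp [cw]
    have h1 := Complex.ofRealCLM.hasFDerivAt.comp x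
      (((hu.1.differentiable (by norm_num)) (toX N x)).hasFDerivAt.comp x (toX N).hasFDerivAt)
    have h2 := Complex.ofRealCLM.hasFDerivAt.comp x
      (((hw.1.differentiable (by norm_num)) (toX N x)).hasFDerivAt.comp x (toX N).hasFDerivAt)
    have h3 : HasFDerivAt (cw u w) _ x :=
      (h1.add (h2.mul_const Complex.I)).congr_of_eventuallyEq
        (Filter.Eventually.of_forall fun y => congrFun e y)
    have h4 : toX N (EuclideanSpace.single k 1) = Pi.single k.1 (EuclideanSpace.single k.2 1) := by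
      funext i
      ext c
      by_cases hi : i = k.1
      · subst hi
        simp [toX_apply, elPos, Prod.ext_iff]
      · simp [toX_apply, elPos, Prod.ext_iff, hi]
    rw [h3.fderiv, Complex.sq_norm, Complex.normSq_apply]
    simp [h4, dX, sq]
  simp only [kin, kinR, key]
  rw [← mul_add, ← Finset.sum_add_distrib, Fintype.sum_prod_type]
  congr 1
  refine Finset.sum_congr rfl fun i _ => ?_
  rw [← Finset.sum_add_distrib]
  refine Finset.sum_congr rfl fun k _ => ?_
  rw [integral_toX (fun y => dX u i k y ^ 2 + dX w i k y ^ 2),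
    integral_add (hu.dX i k).sq.integrable (hw.dX i k).sq.integrable]

theorem norm_sq_cw (u w : XN N → ℝ) (x : Config N) :
    ‖cw u w x‖ ^ 2 = u (toX N x) ^ 2 + w (toX N x) ^ 2 := by
  rw [Complex.sq_norm, Complex.normSq_apply]
  simp [cw, sq]

theorem integral_cw {u w W : XN N → ℝ} (hu : Integrable fun x => W x * u x ^ 2)
    (hw : Integrable fun x => W x * w x ^ 2) :
    Integrable (fun x => W (toX N x) * ‖cw u w x‖ ^ 2) ∧
      ∫ x, W (toX N x) * ‖cw u w x‖ ^ 2 = (∫ x, W x * u x ^ 2) + ∫ x, W x * w x ^ 2 := by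
  simp only [norm_sq_cw, mul_add]
  refine ⟨(integrable_toX (fun y => W y * u y ^ 2 + W y * w y ^ 2)).2 (hu.add hw), ?_⟩
  rw [integral_toX (fun y => W y * u y ^ 2 + W y * w y ^ 2), integral_add hu hw]

theorem IsFermionic.antiR {g : Wave N} (h : IsFermionic g) :
    AntiR (fun s y => (g s ((toX N).symm y)).re) ∧ AntiR fun s y => (g s ((toX N).symm y)).im := by
  have key : ∀ (σ : Equiv.Perm (Fin N)) (s : Spin N) (x : XN N),
      g (fun i => s (σ i)) ((toX N).symm fun i => x (σ i)) =
        ((Equiv.Perm.sign σ : ℤ) : ℂ) * g s ((toX N).symm x) :=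
    fun σ s x => h.2 σ s ((toX N).symm x)
  constructor <;> intro σ s x <;> simp only [key] <;> simp

theorem fermionic_cw {u w : Spin N → XN N → ℝ} (hu : ∀ s, C1 (u s)) (hw : ∀ s, C1 (w s))
    (ha : AntiR u) (ha' : AntiR w) : IsFermionic fun s => cw (u s) (w s) := by
  refine ⟨fun s => ?_, fun σ s x => ?_⟩
  · have h := c1c_cw (hu s) (hw s)
    exact h.1.continuous.memLp_of_hasCompactSupport h.2
  · simp only [cw, toX_perm, ha σ s, ha' σ s]
    apply Complex.ext <;> simp

theorem normSq_c1c {g : Wave N} (h : ∀ s, C1c (g s)) :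
    normSq g = ENNReal.ofReal (∑ s, ∫ x, ‖g s x‖ ^ 2) := by
  rw [normSq, ENNReal.ofReal_sum_of_nonneg (fun s _ => integral_nonneg fun x => by positivity)]
  exact Finset.sum_congr rfl fun s _ =>
    fa_lint_eq ((h s).1.continuous.memLp_of_hasCompactSupport (h s).2)

theorem kinetic_c1c {g : Wave N} (h : ∀ s, C1c (g s)) :
    kinetic g < ⊤ ∧ (kinetic g).toReal = ∑ s, kin (g s) := by
  have h0 : ∀ s, 0 ≤ kin (g s) := fun s => mul_nonneg (by norm_num)
    (Finset.sum_nonneg fun k _ => integral_nonneg fun x => by positivity)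
  have e : kinetic g = ENNReal.ofReal (∑ s, kin (g s)) := by
    rw [kinetic, ENNReal.ofReal_sum_of_nonneg (fun s _ => h0 s)]
    exact Finset.sum_congr rfl fun s _ => kineticOne_eq (h s).1 (h s).2
  rw [e]
  exact ⟨ENNReal.ofReal_lt_top, ENNReal.toReal_ofReal (Finset.sum_nonneg fun s _ => h0 s)⟩

/-- Lower bounds from real waves.  `max (min (Wrep - Vatt) L) (-L) ≥ min Wrep L - Vatt`. -/
theorem infEnergyGE_of_real {K : ℕ} (R : Fin K → Pos3) {b C : ℝ}
    (h : ∀ L : ℝ, 0 < L → ∀ u : Spin N → XN N → ℝ, (∀ s, C1 (u s)) → AntiR u →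
      (b - C / L) * ∑ s, ∫ x, u s x ^ 2 ≤
        ∑ s, (kinR (u s) + ∫ x, (min (Wrep x) L - Vatt R x) * u s x ^ 2)) :
    InfEnergyGE (unitNucleiPotential (n := N) R) b := by
  have hmX : Measurable fun y : XN N => Wrep y - Vatt R y := measurable_Wrep.sub (measurable_Vatt R)
  have e : unitNucleiPotential (n := N) R = fun x => Wrep (toX N x) - Vatt R (toX N x) :=
    funext (unitNucleiPotential_eq R)
  rw [e]
  refine red_trunc (C := C) (hmX.comp (toX N).continuous.measurable) fun L hL => ?_
  set W : XN N → ℝ := fun y => max (min (Wrep y - Vatt R y) L) (-L) with hW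
  have hWm : Measurable W := (hmX.min measurable_const).max measurable_const
  have hWb : ∀ y, |W y| ≤ L := fun y =>
    abs_le.2 ⟨le_max_right _ _, max_le (min_le_right _ _) (by linarith)⟩
  refine red_bounded (W := fun x => W (toX N x)) (hWm.comp (toX N).continuous.measurable)
    (fun x => hWb _) fun g hg hf => ?_
  have hint : ∀ {u : XN N → ℝ}, C1 u → Integrable fun x => W x * u x ^ 2 := fun hu =>
    hu.cc.sq.integrable.bdd_mul hWm.aestronglyMeasurable (Filter.Eventually.of_forall hWb)
  have hle : ∀ {u : XN N → ℝ}, C1 u →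
      ∫ x, (min (Wrep x) L - Vatt R x) * u x ^ 2 ≤ ∫ x, W x * u x ^ 2 := by
    intro u hu
    have h1 : Integrable fun x => min (Wrep x) L * u x ^ 2 :=
      hu.cc.sq.integrable.bdd_mul (c := L)
        (measurable_Wrep.min measurable_const).aestronglyMeasurable
        (Filter.Eventually.of_forall fun x => abs_le.2
          ⟨le_min (by linarith [Wrep_nonneg x]) (by linarith), min_le_right _ _⟩)
    refine integral_mono ?_ (hint hu) fun x => ?_
    · simp only [sub_mul]
      exact h1.sub (hu.cc.sq.integrable_Vatt R)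
    · refine mul_le_mul_of_nonneg_right (le_max_of_le_left (le_min ?_ ?_)) (sq_nonneg _)
      · linarith [min_le_left (Wrep x) L]
      · linarith [min_le_right (Wrep x) L, Vatt_nonneg R x]
  set u : Spin N → XN N → ℝ := fun s y => (g s ((toX N).symm y)).re with hu
  set w : Spin N → XN N → ℝ := fun s y => (g s ((toX N).symm y)).im with hw
  have hu1 : ∀ s, C1 (u s) := fun s => (hg s).exists_cw.1
  have hw1 : ∀ s, C1 (w s) := fun s => (hg s).exists_cw.2.1
  have hgs : ∀ s, g s = cw (u s) (w s) := fun s => (hg s).exists_cw.2.2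
  have h1 := h L hL u hu1 (IsFermionic.antiR hf).1
  have h2 := h L hL w hw1 (IsFermionic.antiR hf).2
  have h3 : ∀ s, ∫ x, ‖g s x‖ ^ 2 = (∫ x, u s x ^ 2) + ∫ x, w s x ^ 2 := by
    intro s
    have := (integral_cw (u := u s) (w := w s) (W := fun _ => 1)
      (by simpa using (hu1 s).cc.sq.integrable) (by simpa using (hw1 s).cc.sq.integrable)).2
    rw [hgs s]
    simpa using this
  have h4 : ∀ s, (kinR (u s) + ∫ x, (min (Wrep x) L - Vatt R x) * u s x ^ 2) +
      (kinR (w s) + ∫ x, (min (Wrep x) L - Vatt R x) * w s x ^ 2) ≤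
      kin (g s) + ∫ x, W (toX N x) * ‖g s x‖ ^ 2 := by
    intro s
    rw [hgs s, kin_cw (hu1 s) (hw1 s), (integral_cw (hint (hu1 s)) (hint (hw1 s))).2]
    linarith [hle (hu1 s), hle (hw1 s)]
  simp only [h3]
  rw [Finset.sum_add_distrib, mul_add]
  refine (add_le_add h1 h2).trans ?_
  rw [← Finset.sum_add_distrib]
  exact Finset.sum_le_sum fun s _ => h4 s

/-- Upper bounds from real waves. -/
theorem infEnergyLE_of_real {K : ℕ} (R : Fin K → Pos3) {b : ℝ} {u w : Spin N → XN N → ℝ}
    (hu : ∀ s, C1 (u s)) (hw : ∀ s, C1 (w s)) (ha : AntiR u) (ha' : AntiR w)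
    (h1 : ∑ s, ((∫ x, u s x ^ 2) + ∫ x, w s x ^ 2) = 1)
    (h : ∑ s, ((kinR (u s) + ∫ x, (Wrep x - Vatt R x) * u s x ^ 2) +
      (kinR (w s) + ∫ x, (Wrep x - Vatt R x) * w s x ^ 2)) ≤ b) :
    InfEnergyLE (unitNucleiPotential (n := N) R) b := by
  have hc : ∀ s, C1c (cw (u s) (w s)) := fun s => c1c_cw (hu s) (hw s)
  have hint : ∀ {u : XN N → ℝ}, C1 u → Integrable fun x => (Wrep x - Vatt R x) * u x ^ 2 := by
    intro u hu
    simp only [sub_mul]
    exact hu.cc.sq.integrable_Wrep.sub (hu.cc.sq.integrable_Vatt R)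
  have hI := fun s => integral_cw (W := fun x => Wrep x - Vatt R x) (hint (hu s)) (hint (hw s))
  have hk := kinetic_c1c (g := fun s => cw (u s) (w s)) hc
  intro ε hε
  refine ⟨fun s => cw (u s) (w s), ⟨fermionic_cw hu hw ha ha', hk.1, fun s => ?_⟩, ?_, ?_⟩
  · simp only [unitNucleiPotential_eq]
    exact (hI s).1
  · rw [normSq_c1c (g := fun s => cw (u s) (w s)) hc, ← ENNReal.ofReal_one, ← h1]
    congr 1
    refine Finset.sum_congr rfl fun s _ => ?_
    simpa using (integral_cw (u := u s) (w := w s) (W := fun _ => 1)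
      (by simpa using (hu s).cc.sq.integrable) (by simpa using (hw s).cc.sq.integrable)).2
  · rw [energy, hk.2, potentialEnergy, ← Finset.sum_add_distrib]
    refine le_trans (le_of_eq ?_) (h.trans (by linarith))
    refine Finset.sum_congr rfl fun s _ => ?_
    simp only [unitNucleiPotential_eq]
    rw [kin_cw (hu s) (hw s), (hI s).2]
    ring

end Crest.Agent.R338
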