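import Crest.Agent.R338.MSlice

/-! Row 338, module M: change of units. -/

set_option autoImplicit false

open MeasureTheory Crest.MathPhysics.ElectronicCoulomb

namespace Crest.Agent.R338

variable {ι : Type} [Fintype ι] [DecidableEq ι] {χ : ι → Pos3 → ℝ} {core : ι → Prop}
  [DecidablePred core] {K : ℕ} {R : Fin K → Pos3} {v : Pos3 → ℝ} {E lam η M η' : ℝ}
  {w : ι → ι → ι → ι → ℝ} {vm : ι → ι → ℝ}

/-- The unitary dilation. -/
noncomputable def mscS (q : ℝ) (u : Pos3 → ℝ) (x : Pos3) : ℝ := (√q)⁻¹ ^ 3 * u (q⁻¹ • x)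

theorem msc_int {q : ℝ} (hq : 0 < q) (f : Pos3 → ℝ) :
    ∫ x, f (q⁻¹ • x) = q ^ 3 * ∫ x, f x := by
  rw [Measure.integral_comp_inv_smul_of_nonneg volume f hq.le]
  simp

theorem msc_c {q : ℝ} (hq : 0 < q) : (√q)⁻¹ ^ 3 * (√q)⁻¹ ^ 3 = (q ^ 3)⁻¹ := by
  rw [← mul_pow, ← mul_inv, Real.mul_self_sqrt hq.le, inv_pow]

theorem msc_int' {q : ℝ} (hq : 0 < q) (t : ℝ) (f g : Pos3 → ℝ)
    (h : ∀ x, g x = t * ((q ^ 3)⁻¹ * f (q⁻¹ • x))) : ∫ x, g x = t * ∫ x, f x := by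
  simp_rw [h]
  rw [integral_const_mul, integral_const_mul, msc_int hq f, ← mul_assoc (q ^ 3)⁻¹,
    inv_mul_cancel₀ (by positivity), one_mul]

theorem msc_mul {q : ℝ} (hq : 0 < q) (u u' : Pos3 → ℝ) (x : Pos3) :
    mscS q u x * mscS q u' x = (q ^ 3)⁻¹ * (u (q⁻¹ • x) * u' (q⁻¹ • x)) := by
  unfold mscS
  rw [← msc_c hq]; ring

theorem msc_pair {q : ℝ} (hq : 0 < q) (u u' : Pos3 → ℝ) :
    ∫ x, mscS q u x * mscS q u' x = ∫ x, u x * u' x := by
  rw [msc_int' hq 1 (fun x => u x * u' x) _ (fun x => by rw [msc_mul hq, one_mul]), one_mul]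

theorem msc_pd {q : ℝ} {u : Pos3 → ℝ} (hu : ContDiff ℝ 1 u) (k : Fin 3) (x : Pos3) :
    pd k (mscS q u) x = q⁻¹ * mscS q (pd k u) x := by
  have h1 : HasFDerivAt u (fderiv ℝ u (q⁻¹ • x)) (q⁻¹ • x) :=
    ((hu.differentiable one_ne_zero) _).hasFDerivAt
  have h2 : HasFDerivAt (fun x : Pos3 => q⁻¹ • x) (q⁻¹ • ContinuousLinearMap.id ℝ Pos3) x :=
    (hasFDerivAt_id x).const_smul q⁻¹
  have h3 := (HasFDerivAt.comp x (g := u) h1 h2).const_mul ((√q)⁻¹ ^ 3)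
  have h4 : fderiv ℝ (mscS q u) x = _ := h3.fderiv
  unfold pd
  rw [h4]
  simp only [mscS, ContinuousLinearMap.smul_apply, ContinuousLinearMap.comp_apply,
    ContinuousLinearMap.id_apply, map_smul, smul_eq_mul]
  ring

theorem msc_qf {q : ℝ} (hq : 0 < q) {u u' : Pos3 → ℝ} (hu : ContDiff ℝ 1 u)
    (hu' : ContDiff ℝ 1 u') (V W : Pos3 → ℝ) (hW : ∀ x, W x = V (q⁻¹ • x) / q ^ 2) :
    qf W (mscS q u) (mscS q u') = qf V u u' / q ^ 2 := by
  unfold qf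
  have h1 : ∀ k, ∫ x, pd k (mscS q u) x * pd k (mscS q u') x =
      (q ^ 2)⁻¹ * ∫ x, pd k u x * pd k u' x := fun k =>
    msc_int' hq _ (fun x => pd k u x * pd k u' x) _ fun x => by
      rw [msc_pd hu, msc_pd hu', ← msc_mul hq]; ring
  have h2 : ∫ x, W x * (mscS q u x * mscS q u' x) =
      (q ^ 2)⁻¹ * ∫ x, V x * (u x * u' x) :=
    msc_int' hq _ (fun x => V x * (u x * u' x)) _ fun x => by
      rw [msc_mul hq, hW]; ring
  simp_rw [h1, h2]
  rw [← Finset.mul_sum]; ring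

theorem msc_norm {q : ℝ} (hq : 0 < q) (x y : Pos3) :
    ‖x - y‖ = q * ‖q⁻¹ • x - q⁻¹ • y‖ := by
  rw [← smul_sub, norm_smul, norm_inv, Real.norm_of_nonneg hq.le, ← mul_assoc,
    mul_inv_cancel₀ hq.ne', one_mul]

theorem msc_Vn {q : ℝ} (hq : 0 < q) (R : Fin K → Pos3) (x : Pos3) :
    Vn (fun α => q • R α) x = Vn R (q⁻¹ • x) / q := by
  unfold Vn
  rw [Finset.sum_div]
  refine Finset.sum_congr rfl fun α _ => ?_
  rw [msc_norm hq x, inv_smul_smul₀ hq.ne', div_div, mul_comm]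

theorem msc_c1 {q : ℝ} {u : Pos3 → ℝ} (hu : ContDiff ℝ 1 u) (c : ℝ) :
    ContDiff ℝ 1 fun x : Pos3 => c * u (q • x) :=
  contDiff_const.mul (hu.comp (contDiff_id.const_smul q))

theorem msc_cs {q : ℝ} (hq : q ≠ 0) {u : Pos3 → ℝ} (hu : HasCompactSupport u) (c : ℝ) :
    HasCompactSupport fun x : Pos3 => c * u (q • x) :=
  HasCompactSupport.mul_left (f := fun _ : Pos3 => c) (hu.comp_smul hq)

theorem msc_coul {q : ℝ} (hq : 0 < q) (χ : ι → Pos3 → ℝ) (a a' b b' : ι) :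
    coul (fun a => mscS q (χ a)) a a' b b' = coul χ a a' b b' / q := by
  unfold coul
  rw [div_eq_inv_mul]
  refine msc_int' hq _ (fun x => ∫ y, χ a x * χ a' x * (χ b y * χ b' y) / ‖x - y‖) _ fun x => ?_
  rw [← mul_assoc]
  refine msc_int' hq _
    (fun y => χ a (q⁻¹ • x) * χ a' (q⁻¹ • x) * (χ b y * χ b' y) / ‖q⁻¹ • x - y‖) _ fun y => ?_
  rw [msc_mul hq, msc_mul hq, msc_norm hq x y]
  simp only [div_eq_mul_inv, mul_inv]
  ring

/-- Change of variables `x = q • y`: `Measure.integral_comp_smul` / `integral_comp_inv_smul`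
(`∫ f (q⁻¹ • x) = q ^ 3 * ∫ f`); for `OB.lb` apply the hypothesis to `y ↦ (√q) ^ 3 * u (q • y)`. -/
theorem Full.scale' {q : ℝ} (hq : 0 < q) (h : Full χ core q R v E lam η M η' w vm) :
    Full (fun a x => (√q)⁻¹ ^ 3 * χ a (q⁻¹ • x)) core 1 (fun α => q • R α)
      (fun x => v (q⁻¹ • x) / q) (E / q ^ 2) (lam / q ^ 2) (η / q ^ 2) (M / q) (η' / q)
      (fun a a' b b' => w a a' b b' / q) (fun a a' => vm a a' / q) := by
  have hq2 : 0 < q ^ 2 := by positivity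
  have hW : ∀ x : Pos3, 1 * (Vn (fun α => q • R α) x + v (q⁻¹ • x) / q) =
      q * (Vn R (q⁻¹ • x) + v (q⁻¹ • x)) / q ^ 2 := fun x => by
    rw [msc_Vn hq]; field_simp
  change Full (fun a => mscS q (χ a)) core 1 _ _ _ _ _ _ _ _ _
  refine ⟨⟨fun a => msc_c1 (h.ob.c1 a) _, fun a => msc_cs (inv_ne_zero hq.ne') (h.ob.cs a) _,
    fun a b => ?_, fun u hu hs => ?_, fun a b => ?_⟩, div_pos h.lam_pos hq2, ?_, fun x => ?_,
    fun y => ?_, fun a a' b b' => ?_, fun a a' => ?_⟩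
  · rw [msc_pair hq, h.ob.on]
  · have hs0 : 0 < √q := Real.sqrt_pos.2 hq
    obtain ⟨u0, hu0, hs0, rfl⟩ : ∃ u0 : Pos3 → ℝ, ContDiff ℝ 1 u0 ∧ HasCompactSupport u0 ∧
        u = mscS q u0 := by
      refine ⟨fun y => (√q) ^ 3 * u (q • y), msc_c1 hu _, msc_cs hq.ne' hs _, ?_⟩
      funext x
      simp only [mscS]
      rw [smul_inv_smul₀ hq.ne']
      field_simp
    have h1 := h.ob.lb u0 hu0 hs0
    rw [msc_qf hq hu0 hu0 (fun x => q * (Vn R x + v x)) _ hW, le_div_iff₀ hq2]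
    simp_rw [sq (mscS q u0 _), msc_pair hq]
    simp_rw [sq (u0 _)] at h1
    refine le_of_eq_of_le ?_ h1
    rw [add_mul, Finset.sum_mul]
    congr 1
    · refine Finset.sum_congr rfl fun a _ => ?_
      split_ifs <;> field_simp <;> ring
    · field_simp
  · rw [msc_qf hq (h.ob.c1 a) (h.ob.c1 b) (fun x => q * (Vn R x + v x)) _ hW, le_div_iff₀ hq2]
    refine le_of_eq_of_le ?_ (h.ob.ub a b)
    rw [← abs_of_pos hq2, ← abs_mul, abs_of_pos hq2]
    congr 1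
    split_ifs <;> field_simp <;> ring
  · exact (h.v_cont.comp (continuous_const_smul _)).div_const _
  · rw [abs_div, abs_of_pos hq]
    exact div_le_div_of_nonneg_right (h.v_bd _) hq.le
  · rw [msc_int' hq (q ^ 2)⁻¹ (fun x => (∑ a, χ a x ^ 2) / ‖x - q⁻¹ • y‖ ^ 2) _ fun x => ?_]
    · rw [div_pow, div_eq_inv_mul (M ^ 2)]
      exact mul_le_mul_of_nonneg_left (h.k2 _) (by positivity)
    · simp_rw [sq (mscS q _ _), msc_mul hq, ← sq]
      rw [← Finset.mul_sum, msc_norm hq x y]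
      simp only [div_eq_mul_inv, mul_inv, mul_pow]
      ring
  · rw [msc_coul hq, ← sub_div, abs_div, abs_of_pos hq]
    exact div_le_div_of_nonneg_right (h.w_near _ _ _ _) hq.le
  · rw [msc_int' hq q⁻¹ (fun x => v x * (χ a x * χ a' x)) _ fun x => ?_]
    · rw [← div_eq_inv_mul, ← sub_div, abs_div, abs_of_pos hq]
      exact div_le_div_of_nonneg_right (h.v_near _ _) hq.le
    · rw [msc_mul hq]; ring

end Crest.Agent.R338
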