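import Crest.Agent.R338.MCore
import Crest.Agent.R338.MRed
import Crest.Agent.R338.MScale

/-! Row 338, module M: first order perturbation theory for the many-electron problem. -/

set_option autoImplicit false

open MeasureTheory Crest.MathPhysics.ElectronicCoulomb

namespace Crest.Agent.R338

variable {ι : Type} [Fintype ι] [DecidableEq ι] {χ : ι → Pos3 → ℝ} {core : ι → Prop}
  [DecidablePred core] {K : ℕ} {R : Fin K → Pos3} {v : Pos3 → ℝ} {E lam η M η' : ℝ}
  {w : ι → ι → ι → ι → ℝ} {vm : ι → ι → ℝ}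

/-- Change of units. -/
theorem Full.scale {q : ℝ} (hq : 0 < q) (h : Full χ core q R v E lam η M η' w vm) :
    Full (fun a x => (√q)⁻¹ ^ 3 * χ a (q⁻¹ • x)) core 1 (fun α => q • R α)
      (fun x => v (q⁻¹ • x) / q) (E / q ^ 2) (lam / q ^ 2) (η / q ^ 2) (M / q) (η' / q)
      (fun a a' b b' => w a a' b b' / q) (fun a a' => vm a a' / q) :=
  h.scale' hq

/-- Lower bound.  `N = 2 * (number of core orbitals) + p` electrons. -/
theorem mb_lower [hι : Nonempty ι] (h : Full χ core 1 R v E lam η M η' w vm) {N p : ℕ}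
    (hN : N = 2 * (Finset.univ.filter core).card + p) {β : ℝ}
    (hβ : ∀ c : (Fin N → ι × Fin 2) → ℂ, Anti c → GoodT core c → β * nsq c ≤ EF w vm c)
    (hs : N * M + |β| + 2 * (N : ℝ) ^ 2 * (Fintype.card ι : ℝ) ^ 2 * η' ≤ lam / 4) :
    InfEnergyGE (unitNucleiPotential (n := N) R) (N * E + p * lam + β - N * η -
      2 * (N : ℝ) ^ 2 * (Fintype.card ι : ℝ) ^ 2 * η' - 64 * (N : ℝ) ^ 4 * M ^ 2 / lam) :=
  infEnergyGE_of_real R (C := (N : ℝ) ^ 4 * M ^ 2) fun _ hL _ hu ha =>
    h.core_lower ((abs_nonneg _).trans (h.ob.ub hι.some hι.some)) hN hβ hs hL hu ha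

theorem antiR_st {N : ℕ} {c : Spin N → (Fin N → ι) → ℝ}
    (hc : ∀ (σ : Equiv.Perm (Fin N)) s a, c (fun i => s (σ i)) (fun i => a (σ i)) =
      ((Equiv.Perm.sign σ : ℤ) : ℝ) * c s a) : AntiR fun s => st χ (c s) := by
  intro σ s x
  simp only [st, Finset.mul_sum]
  symm
  refine Fintype.sum_equiv (Equiv.arrowCongr σ.symm (Equiv.refl ι)) _ _ fun a => ?_
  have e : (Equiv.arrowCongr σ.symm (Equiv.refl ι)) a = fun i => a (σ i) := rfl
  rw [e, hc, mul_assoc]
  congr 2
  exact (Equiv.prod_comp σ fun i => χ (a i) (x i)).symm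

/-- Upper bound. -/
theorem mb_upper [hι : Nonempty ι] (h : Full χ core 1 R v E lam η M η' w vm) {N p : ℕ}
    (hN : N = 2 * (Finset.univ.filter core).card + p) {β : ℝ}
    {c : (Fin N → ι × Fin 2) → ℂ} (h1 : Anti c) (h2 : GoodT core c) (h3 : nsq c = 1)
    (h4 : EF w vm c ≤ β) :
    InfEnergyLE (unitNucleiPotential (n := N) R) (N * E + p * lam + β +
      N * (Fintype.card ι : ℝ) * η + 2 * (N : ℝ) ^ 2 * (Fintype.card ι : ℝ) ^ 2 * η') := by
  have ho := h.ob.orb
  have hre : ∀ s a, sre c s a ≠ 0 → Good core fun i => (a i, s i) := fun s a ha =>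
    h2 _ fun e => ha (by rw [sre, e, Complex.zero_re])
  have him : ∀ s a, sim c s a ≠ 0 → Good core fun i => (a i, s i) := fun s a ha =>
    h2 _ fun e => ha (by rw [sim, e, Complex.zero_im])
  refine infEnergyLE_of_real R (u := fun s => st χ (sre c s)) (w := fun s => st χ (sim c s))
    (fun s => ho.st_c1 _) (fun s => ho.st_c1 _) (antiR_st fun σ s a => ?_)
    (antiR_st fun σ s a => ?_) ?_ ?_
  · have := congrArg Complex.re (h1 σ fun i => (a i, s i))
    simpa [sre] using this
  · have := congrArg Complex.im (h1 σ fun i => (a i, s i))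
    simpa [sim] using this
  · simp only [ho.st_sq]
    rw [← nsq_eq, h3]
  · refine (Finset.sum_le_sum fun s _ => add_le_add (h.core_upper hN s (hre s))
      (h.core_upper hN s (him s))).trans ?_
    have e1 := nsq_eq c
    have e2 := EF_eq w vm c
    rw [h3] at e1
    set A := N * E + p * lam + N * (Fintype.card ι : ℝ) * η +
        2 * (N : ℝ) ^ 2 * (Fintype.card ι : ℝ) ^ 2 * η' with hA
    have e3 : ∑ s : Spin N, (A * ∑ a, sre c s a ^ 2 + EFR w vm (sre c s) +
        (A * ∑ a, sim c s a ^ 2 + EFR w vm (sim c s))) = A * 1 + EF w vm c := by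
      rw [e1, e2, Finset.mul_sum, ← Finset.sum_add_distrib]
      exact Finset.sum_congr rfl fun s _ => by ring
    rw [e3]
    linarith

end Crest.Agent.R338
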