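import Crest.Agent.R338.MAbs1

/-! Row 338, module M: algebra (commuting projections, counting, tensors). -/

set_option autoImplicit false

open MeasureTheory Crest.MathPhysics.ElectronicCoulomb Function

namespace Crest.Agent.R338

variable {N : ℕ}

variable {ι : Type} [Fintype ι] [DecidableEq ι]

omit [DecidableEq ι] in
lemma mabs_sum (F : (Fin N → ι × Fin 2) → ℝ) :
    ∑ α, F α = ∑ s : Spin N, ∑ a : Fin N → ι, F fun i => (a i, s i) := by
  rw [← (Equiv.arrowProdEquivProdArrow (Fin N) (fun _ => ι) (fun _ => Fin 2)).symm.sum_comp,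
    Fintype.sum_prod_type, Finset.sum_comm]
  rfl

lemma mabs_inv {A T : Type} [Fintype A] [Fintype T] (c : A → ℝ) (τ : A × T → A × T)
    (hτ : Involutive τ) (m : A × T → ℝ) {η : ℝ} (h : ∀ p, |m p| ≤ η) :
    |∑ p : A × T, m p * (c p.1 * c (τ p).1)| ≤ Fintype.card T * η * ∑ a, c a ^ 2 := by
  have h1 : ∑ p : A × T, c p.1 ^ 2 = Fintype.card T * ∑ a, c a ^ 2 := by
    simp [Fintype.sum_prod_type, Finset.mul_sum]
  have h2 : ∑ p : A × T, c (τ p).1 ^ 2 = ∑ p : A × T, c p.1 ^ 2 :=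
    Equiv.sum_comp hτ.toPerm fun p : A × T => c p.1 ^ 2
  refine (Finset.abs_sum_le_sum_abs _ _).trans ((Finset.sum_le_sum (g := fun p =>
    η / 2 * (c p.1 ^ 2 + c (τ p).1 ^ 2)) fun p _ => ?_).trans (le_of_eq ?_))
  · have h3 : |c p.1 * c (τ p).1| ≤ (c p.1 ^ 2 + c (τ p).1 ^ 2) / 2 :=
      abs_le.2 ⟨by nlinarith [sq_nonneg (c p.1 + c (τ p).1)], by nlinarith [sq_nonneg (c p.1 - c (τ p).1)]⟩
    rw [abs_mul]
    exact (mul_le_mul (h p) h3 (abs_nonneg _) ((abs_nonneg _).trans (h p))).trans (le_of_eq (by ring))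
  · rw [← Finset.mul_sum, Finset.sum_add_distrib, h2, h1]; ring

omit [Fintype ι] [DecidableEq ι] in
lemma mabs_upd (a : Fin N → ι) (s : Spin N) (i : Fin N) (t : ι) :
    update (fun k => (a k, s k)) i (t, s i) = fun k => (update a i t k, s k) := by
  funext k
  by_cases h : k = i
  · subst h; simp
  · simp [h]

/-- `Equiv.arrowProdEquivProdArrow`. -/
theorem nsq_eq (c : (Fin N → ι × Fin 2) → ℂ) :
    nsq c = ∑ s : Spin N, (∑ a, sre c s a ^ 2 + ∑ a, sim c s a ^ 2) := by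
  rw [nsq, mabs_sum]
  refine Finset.sum_congr rfl fun s _ => ?_
  rw [← Finset.sum_add_distrib]
  exact Finset.sum_congr rfl fun a _ => by rw [Complex.sq_norm, Complex.normSq_apply, sre, sim, sq, sq]

theorem EF_eq (w : ι → ι → ι → ι → ℝ) (m : ι → ι → ℝ) (c : (Fin N → ι × Fin 2) → ℂ) :
    EF w m c = ∑ s : Spin N, (EFR w m (sre c s) + EFR w m (sim c s)) := by
  rw [EF, mabs_sum]
  refine Finset.sum_congr rfl fun s _ => ?_
  rw [Finset.sum_comm, EFR, EFR, ← Finset.sum_add_distrib]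
  refine Finset.sum_congr rfl fun i _ => ?_
  rw [Finset.sum_add_distrib, add_add_add_comm, Finset.sum_comm (s := (Finset.univ : Finset (Fin N → ι)))
    (t := (Finset.univ : Finset (Fin N))), ← Finset.sum_add_distrib]
  congr 1
  · simp only [E1, mabs_upd, ← Finset.sum_add_distrib, ← mul_add, sre, sim, Complex.mul_re,
      Complex.conj_re, Complex.conj_im, neg_mul, sub_neg_eq_add]
  · refine Finset.sum_congr rfl fun j _ => ?_
    split_ifs
    · simp only [E2, mabs_upd, ← Finset.sum_add_distrib, ← mul_add, sre, sim, Complex.mul_re,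
        Complex.conj_re, Complex.conj_im, neg_mul, sub_neg_eq_add]
    · simp

/-- `|c a * c b| ≤ (c a ^ 2 + c b ^ 2) / 2` and `(a, t) ↦ (update a i t, a i)` is an involution. -/
theorem abs_E1_le {m : ι → ι → ℝ} {η : ℝ} (h : ∀ a b, |m a b| ≤ η) (c : (Fin N → ι) → ℝ)
    (i : Fin N) : |E1 m c i| ≤ Fintype.card ι * η * ∑ a, c a ^ 2 := by
  have := mabs_inv c (fun p : (Fin N → ι) × ι => (update p.1 i p.2, p.1 i)) (fun p => by simp)
    (fun p => m (p.1 i) p.2) fun p => h _ _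
  rwa [Fintype.sum_prod_type] at this

theorem abs_E2_le {w : ι → ι → ι → ι → ℝ} {η : ℝ} (h : ∀ a a' b b', |w a a' b b'| ≤ η)
    (c : (Fin N → ι) → ℝ) {i j : Fin N} (hij : i ≠ j) :
    |E2 w c i j| ≤ (Fintype.card ι : ℝ) ^ 2 * η * ∑ a, c a ^ 2 := by
  have := mabs_inv c (fun p : (Fin N → ι) × ι × ι => (update (update p.1 i p.2.1) j p.2.2, p.1 i, p.1 j))
    (fun p => by
      refine Prod.ext (funext fun k => ?_) (by simp [hij])
      by_cases h1 : k = j
      · simp [h1]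
      · by_cases h2 : k = i
        · subst h2; simp [h1]
        · simp [h1, h2])
    (fun p => w (p.1 i) p.2.1 (p.1 j) p.2.2) fun p => h _ _ _ _
  simp only [Fintype.sum_prod_type, Fintype.card_prod, Nat.cast_mul] at this
  rwa [sq]

theorem EFR_near {w w' : ι → ι → ι → ι → ℝ} {m m' : ι → ι → ℝ} {η : ℝ}
    (hw : ∀ a a' b b', |w a a' b b' - w' a a' b b'| ≤ η) (hm : ∀ a b, |m a b - m' a b| ≤ η)
    (c : (Fin N → ι) → ℝ) :
    |EFR w m c - EFR w' m' c| ≤
      2 * (N : ℝ) ^ 2 * (Fintype.card ι : ℝ) ^ 2 * η * ∑ a, c a ^ 2 := by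
  rcases isEmpty_or_nonempty ι with hι | ⟨⟨t⟩⟩
  · simp [EFR, E1, E2]
  have hη : 0 ≤ η := (abs_nonneg _).trans (hm t t)
  have hS : 0 ≤ η * ∑ a, c a ^ 2 := mul_nonneg hη (Finset.sum_nonneg fun _ _ => sq_nonneg _)
  have hc : (1 : ℝ) ≤ Fintype.card ι := Nat.one_le_cast.2 (Fintype.card_pos_iff.2 ⟨t⟩)
  have h1 : ∀ i, |E1 m c i - E1 m' c i| ≤ Fintype.card ι * (η * ∑ a, c a ^ 2) := fun i => by
    have := abs_E1_le (m := fun a b => m a b - m' a b) hm c i
    simpa only [E1, sub_mul, Finset.sum_sub_distrib, mul_assoc] using this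
  have h2 : ∀ i j, |(if i < j then E2 w c i j else 0) - if i < j then E2 w' c i j else 0| ≤
      (Fintype.card ι : ℝ) ^ 2 * (η * ∑ a, c a ^ 2) := fun i j => by
    split_ifs with hij
    · have := abs_E2_le (w := fun a a' b b' => w a a' b b' - w' a a' b b') hw c hij.ne
      simpa only [E2, sub_mul, Finset.sum_sub_distrib, mul_assoc] using this
    · rw [sub_zero, abs_zero]; positivity
  rw [EFR, EFR, ← Finset.sum_sub_distrib]
  refine (Finset.abs_sum_le_sum_abs _ _).trans ((Finset.sum_le_card_nsmul _ _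
    (2 * N * (Fintype.card ι : ℝ) ^ 2 * (η * ∑ a, c a ^ 2)) fun i _ => ?_).trans (le_of_eq ?_))
  · have hN : (1 : ℝ) ≤ N := Nat.one_le_cast.2 i.pos
    rw [add_sub_add_comm, ← Finset.sum_sub_distrib]
    have h3 := (Finset.abs_sum_le_sum_abs _ _).trans (Finset.sum_le_card_nsmul Finset.univ _ _ fun j _ => h2 i j)
    rw [Finset.card_univ, Fintype.card_fin, nsmul_eq_mul] at h3
    have h4 : (Fintype.card ι : ℝ) ≤ N * (Fintype.card ι : ℝ) ^ 2 := by nlinarith
    have h5 := mul_le_mul_of_nonneg_right h4 hS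
    refine (abs_add_le _ _).trans ?_
    linarith [h1 i]
  · rw [Finset.card_univ, Fintype.card_fin, nsmul_eq_mul]; ring

theorem E1_le_diag {m : ι → ι → ℝ} {d : ι → ℝ} {η : ℝ}
    (h : ∀ a b, |m a b - if a = b then d a else 0| ≤ η) (c : (Fin N → ι) → ℝ) (i : Fin N) :
    E1 m c i ≤ ∑ a, d (a i) * c a ^ 2 + Fintype.card ι * η * ∑ a, c a ^ 2 := by
  have h1 := (le_abs_self _).trans (abs_E1_le (m := fun a b => m a b - if a = b then d a else 0) h c i)
  have h2 : E1 (fun a b => if a = b then d a else 0) c i = ∑ a, d (a i) * c a ^ 2 := by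
    simp [E1, sq]
  simp only [E1, sub_mul, Finset.sum_sub_distrib] at h1 h2
  rw [E1]
  linarith

end Crest.Agent.R338
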