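import Crest.Agent.R338.MDefs

/-! Row 338, module M: algebra (commuting projections, counting, tensors). -/

set_option autoImplicit false

open MeasureTheory Crest.MathPhysics.ElectronicCoulomb Function

namespace Crest.Agent.R338

variable {N : ℕ}

theorem mabs1_sum {R κ : Type} [Semiring R] [Fintype κ] (P : Fin N → κ → R) (h : ∀ i, ∑ b, P i b = 1) :
    ∑ a : Fin N → κ, (List.ofFn fun i => P i (a i)).prod = 1 := by
  induction N with
  | zero => simp
  | succ n ih =>
    rw [← (Fin.consEquiv fun _ => κ).sum_comp, Fintype.sum_prod_type]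
    simp only [List.ofFn_succ, List.prod_cons, Fin.consEquiv_apply, Fin.cons_zero, Fin.cons_succ,
      ← Finset.mul_sum, ih (fun i => P i.succ) fun i => h _, mul_one, h]

theorem mabs1_idem {R : Type} [Monoid R] {e : R} (he : e * e = e) {l : List R} (hl : e ∈ l)
    (hc : ∀ x ∈ l, Commute e x) : e * l.prod = l.prod := by
  induction l with
  | nil => simp at hl
  | cons x l ih =>
    rw [List.prod_cons, ← mul_assoc]
    rcases List.mem_cons.1 hl with rfl | h
    · rw [he]
    · rw [(hc x List.mem_cons_self).eq, mul_assoc, ih h fun y hy => hc y (List.mem_cons_of_mem _ hy)]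

theorem mabs1_orth {V α : Type} [AddCommGroup V] [Module ℝ V] (B : V →ₗ[ℝ] V →ₗ[ℝ] ℝ) [Fintype α]
    (g : α → V) (h : ∀ a a', a ≠ a' → B (g a) (g a') = 0) :
    B (∑ a, g a) (∑ a, g a) = ∑ a, B (g a) (g a) := by
  simp only [map_sum, LinearMap.sum_apply]
  exact Finset.sum_congr rfl fun a _ => Finset.sum_eq_single a (fun a' _ h' => h a' a h') (by simp)

/-- Joint spectral decomposition.  `Q a = (List.ofFn fun i => P i (a i)).prod f`; the sum over `a`
of these products is the product of the sums (induction on `N`, `Fin.consEquiv`);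
`P i b * prod = if a i = b then prod else 0`; orthogonality of `Q a`, `Q a'` through an index with
`a i ≠ a' i`. -/
theorem abs_decomp {V : Type} [AddCommGroup V] [Module ℝ V] (B : V →ₗ[ℝ] V →ₗ[ℝ] ℝ)
    {κ : Type} [Fintype κ] [DecidableEq κ] (P : Fin N → κ → Module.End ℝ V)
    (hsa : ∀ i b u w, B (P i b u) w = B u (P i b w))
    (horth : ∀ i b b', P i b * P i b' = if b = b' then P i b else 0)
    (hsum : ∀ i, ∑ b, P i b = 1)
    (hcomm : ∀ i j b b', i ≠ j → Commute (P i b) (P j b')) (f : V) :
    ∃ Q : (Fin N → κ) → V, ∑ a, Q a = f ∧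
      (∀ a i b, P i b (Q a) = if a i = b then Q a else 0) ∧
      (∀ a i j, P i (a i) (P j (a j) f) = 0 → Q a = 0) ∧
      B f f = ∑ a, B (Q a) (Q a) ∧
      ∀ i b, B (P i b f) (P i b f) = ∑ a, if a i = b then B (Q a) (Q a) else 0 := by
  set T : (Fin N → κ) → Module.End ℝ V := fun a => (List.ofFn fun i => P i (a i)).prod with hT
  have hc : ∀ (a : Fin N → κ) i, ∀ x ∈ List.ofFn fun j => P j (a j), Commute (P i (a i)) x :=
    fun a i x hx => by
      obtain ⟨j, rfl⟩ := List.mem_ofFn.1 hx
      rcases eq_or_ne i j with rfl | h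
      exacts [Commute.refl _, hcomm _ _ _ _ h]
  have h1 : ∀ a i, P i (a i) * T a = T a := fun a i =>
    mabs1_idem (by rw [horth, if_pos rfl]) (List.mem_ofFn.2 ⟨i, rfl⟩) (hc a i)
  have h2 : ∀ a i, T a * P i (a i) = T a := fun a i =>
    (Commute.list_prod_right _ _ (hc a i)).eq.symm.trans (h1 a i)
  have h3 : ∑ a, T a f = f := by
    rw [← LinearMap.sum_apply, mabs1_sum P hsum, Module.End.one_apply]
  have h4 : ∀ a i b, P i b (T a f) = if a i = b then T a f else 0 := fun a i b => by
    split_ifs with h
    · rw [← h, ← Module.End.mul_apply, h1]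
    · rw [← h1 a i, ← Module.End.mul_apply, ← mul_assoc, horth, if_neg (Ne.symm h), zero_mul,
        LinearMap.zero_apply]
  have h5 : ∀ a a', a ≠ a' → B (T a f) (T a' f) = 0 := fun a a' h => by
    obtain ⟨i, hi⟩ := Function.ne_iff.1 h
    have e := hsa i (a i) (T a f) (T a' f)
    rwa [h4, h4, if_pos rfl, if_neg hi.symm, map_zero] at e
  refine ⟨fun a => T a f, h3, h4, fun a i j h => ?_, ?_, fun i b => ?_⟩
  · simp only
    rw [← h2 a j, ← h2 a i, Module.End.mul_apply, Module.End.mul_apply, h, map_zero]
  · rw [← mabs1_orth B _ h5, h3]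
  · have e : P i b f = ∑ a, if a i = b then T a f else 0 := by
      conv_lhs => rw [← h3, map_sum]
      simp only [h4]
    rw [e, mabs1_orth]
    · exact Finset.sum_congr rfl fun a _ => by split_ifs <;> simp
    · intro a a' h
      split_ifs <;> simp [h5 a a' h]

variable {ι : Type} [Fintype ι] [DecidableEq ι] {core : ι → Prop} [DecidablePred core]

/-- A good labeling has exactly `p` non-core entries. -/
theorem sum_good {p : ℕ} (hN : N = 2 * (Finset.univ.filter core).card + p)
    {α : Fin N → ι × Fin 2} (h : Good core α) (E lam : ℝ) :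
    ∑ i, (E + if core (α i).1 then 0 else lam) = N * E + p * lam := by
  have h1 : (Finset.univ.filter fun i => core (α i).1).card =
      (Finset.univ.filter core ×ˢ (Finset.univ : Finset (Fin 2))).card :=
    Finset.card_bij (fun i _ => α i) (fun i hi => by simpa using hi) (fun i _ j _ e => h.1 e)
      fun x hx => by
        have hx' : core x.1 := by simpa using hx
        obtain ⟨i, rfl⟩ := h.2 x hx'
        exact ⟨i, by simpa using hx', rfl⟩
  have h2 := Finset.card_filter_add_card_filter_not (s := Finset.univ) fun i => core (α i).1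
  simp only [Finset.card_product, Finset.card_univ, Fintype.card_fin] at h1 h2
  have h3 : (Finset.univ.filter fun i => ¬ core (α i).1).card = p := by omega
  simp [Finset.sum_add_distrib, Finset.sum_ite, h3]

theorem mabs1_count {E lam η : ℝ} (hη : 0 ≤ η) (s : Spin N) (a : Fin N → Option ι)
    (hinj : ∀ i j b, i ≠ j → a i = some b → a j = some b → s i ≠ s j) :
    ∃ m k : ℕ, m ≤ (Finset.univ.filter core).card * 2 ∧
      ((∀ a' : Fin N → ι, (a = fun i => some (a' i)) → ¬ Good core fun i => (a' i, s i)) →
        0 < k ∨ m < (Finset.univ.filter core).card * 2) ∧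
      N * (E - η + lam) - m * lam + k * (lam / 2) ≤ ∑ i, ene core E lam η (a i) := by
  set S := Finset.univ.filter fun i => ∃ b, a i = some b ∧ core b with hS
  have h0 : S.image (fun i => (a i, s i)) ⊆
      (Finset.univ.filter core).map Function.Embedding.some ×ˢ Finset.univ := fun x hx => by
    obtain ⟨i, hi, rfl⟩ := Finset.mem_image.1 hx
    obtain ⟨b, h1, h2⟩ := (Finset.mem_filter.1 hi).2
    simp [h1, h2]
  have h1 : (S.image fun i => (a i, s i)).card = S.card :=
    Finset.card_image_of_injOn fun i hi j _ e => by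
      obtain ⟨b, h1, -⟩ := (Finset.mem_filter.1 hi).2
      by_contra h
      exact hinj i j b h h1 ((congrArg Prod.fst e).symm.trans h1) (congrArg Prod.snd e)
  have h2 : ((Finset.univ.filter core).map Function.Embedding.some ×ˢ (Finset.univ : Finset (Fin 2))).card =
      (Finset.univ.filter core).card * 2 := by
    rw [Finset.card_product, Finset.card_map, Finset.card_univ, Fintype.card_fin]
  refine ⟨S.card, (Finset.univ.filter fun i => a i = none).card, h1 ▸ h2 ▸ Finset.card_le_card h0,
    fun hbad => ?_, ?_⟩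
  · by_cases h : ∃ i, a i = none
    · obtain ⟨i, hi⟩ := h
      exact Or.inl (Finset.card_pos.2 ⟨i, by simpa using hi⟩)
    · have h' : ∀ i, ∃ b, a i = some b := fun i => Option.ne_none_iff_exists'.1 fun e => h ⟨i, e⟩
      choose a' ha' using h'
      refine Or.inr (h1 ▸ h2 ▸ Finset.card_lt_card (h0.ssubset_of_ne fun e => hbad a' (funext ha')
        ⟨fun i j e' => ?_, fun x hx => ?_⟩))
      · by_contra hne
        exact hinj i j (a' i) hne (ha' i) ((ha' j).trans (congrArg (fun z => some z.1) e').symm)
          (congrArg Prod.snd e')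
      · have hm : (some x.1, x.2) ∈ (Finset.univ.filter core).map Function.Embedding.some ×ˢ
            (Finset.univ : Finset (Fin 2)) := by simpa using hx
        rw [← e] at hm
        obtain ⟨i, -, hi⟩ := Finset.mem_image.1 hm
        have e1 : a i = some x.1 := congrArg Prod.fst hi
        have e2 : s i = x.2 := congrArg Prod.snd hi
        exact ⟨i, Prod.ext (Option.some.inj ((ha' i).symm.trans e1)) e2⟩
  · have h : ∀ i, E - η + lam - (if ∃ b, a i = some b ∧ core b then lam else 0) +
        (if a i = none then lam / 2 else 0) ≤ ene core E lam η (a i) := fun i => by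
      cases a i with
      | none => simp [ene]; linarith
      | some b => by_cases hb : core b <;> simp [ene, hb] <;> linarith
    refine le_trans (le_of_eq ?_) (Finset.sum_le_sum fun i _ => h i)
    rw [Finset.sum_add_distrib, Finset.sum_sub_distrib, ← Finset.sum_filter, ← Finset.sum_filter]
    simp only [Finset.sum_const, nsmul_eq_mul, Finset.card_univ, Fintype.card_fin, hS]

/-- At most `2 * #core` electrons carry a core label (the spin-orbitals are distinct). -/
theorem sum_ene_ge {p : ℕ} (hN : N = 2 * (Finset.univ.filter core).card + p) {E lam η : ℝ}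
    (hlam : 0 < lam) (hη : 0 ≤ η) (s : Spin N) (a : Fin N → Option ι)
    (hinj : ∀ i j b, i ≠ j → a i = some b → a j = some b → s i ≠ s j) :
    N * E + p * lam - N * η ≤ ∑ i, ene core E lam η (a i) := by
  obtain ⟨m, k, h1, -, h⟩ := mabs1_count (core := core) (E := E) (lam := lam) hη s a hinj
  have h2 : (m : ℝ) + p ≤ N := by exact_mod_cast (by omega : m + p ≤ N)
  have h3 : 0 ≤ k * (lam / 2) := by positivity
  nlinarith [mul_le_mul_of_nonneg_right h2 hlam.le]

/-- If the labeling is not good, a core spin-orbital is missing or a label is `none`. -/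
theorem sum_ene_ge_of_bad {p : ℕ} (hN : N = 2 * (Finset.univ.filter core).card + p) {E lam η : ℝ}
    (hlam : 0 < lam) (hη : 0 ≤ η) (s : Spin N) (a : Fin N → Option ι)
    (hinj : ∀ i j b, i ≠ j → a i = some b → a j = some b → s i ≠ s j)
    (hbad : ∀ a' : Fin N → ι, (a = fun i => some (a' i)) → ¬ Good core fun i => (a' i, s i)) :
    N * E + p * lam - N * η + lam / 2 ≤ ∑ i, ene core E lam η (a i) := by
  obtain ⟨m, k, h1, h4, h⟩ := mabs1_count (core := core) (E := E) (lam := lam) hη s a hinj
  replace h4 := h4 hbad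
  have h2 : 2 * (m : ℝ) + 2 * p + 1 ≤ 2 * N + k := by
    exact_mod_cast (by omega : 2 * m + 2 * p + 1 ≤ 2 * N + k)
  nlinarith [mul_le_mul_of_nonneg_right h2 hlam.le]

omit [Fintype ι] [DecidableEq ι] [DecidablePred core] in
theorem good_perm (σ : Equiv.Perm (Fin N)) (α : Fin N → ι × Fin 2) :
    Good core (fun i => α (σ i)) ↔ Good core α :=
  and_congr (EquivLike.injective_comp σ α) (forall₂_congr fun a _ => σ.exists_congr fun _ => Iff.rfl)

end Crest.Agent.R338
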