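import Crest.Agent.R338.MProj

/-! Row 338, module M: the bounds for real waves. -/

set_option autoImplicit false

open MeasureTheory Crest.MathPhysics.ElectronicCoulomb Function

namespace Crest.Agent.R338

variable {ι : Type} [Fintype ι] [DecidableEq ι] {χ : ι → Pos3 → ℝ} {core : ι → Prop}
  [DecidablePred core] {K : ℕ} {R : Fin K → Pos3} {v : Pos3 → ℝ} {E lam η M η' : ℝ}
  {w : ι → ι → ι → ι → ℝ} {vm : ι → ι → ℝ} {N : ℕ}

theorem mcore_pointwise {W L lam b B : ℝ} (hW : 0 ≤ W) (hL : 0 < L) (hlam : 0 < lam)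
    (hb : |b| ≤ B) (u f : ℝ) :
    W * f ^ 2 + b * f ^ 2 - (1 / L + 8 / lam) * (W ^ 2 * f ^ 2) +
        (B - 32 * B ^ 2 / lam) * f ^ 2 - lam / 4 * (u - f) ^ 2 - B * u ^ 2 ≤
      min W L * u ^ 2 + b * u ^ 2 := by
  set U := min W L + b + B with hU
  have hb' := abs_le.1 hb
  have hm0 : 0 ≤ min W L := le_min hW hL.le
  have hm1 : min W L ≤ W := min_le_left _ _
  have hU0 : 0 ≤ U := by linarith [hb'.1]
  have hU1 : U ≤ W + 2 * B := by linarith [hb'.2]
  have hU2 : U ^ 2 ≤ 2 * W ^ 2 + 8 * B ^ 2 := by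
    have := pow_le_pow_left₀ hU0 hU1 2
    nlinarith [sq_nonneg (W - 2 * B)]
  have hm2 : W - 1 / L * W ^ 2 ≤ min W L := by
    refine le_min ?_ ?_
    · have : 0 ≤ 1 / L * W ^ 2 := by positivity
      linarith
    · have h1 : 0 ≤ (W - L) ^ 2 / L := by positivity
      have h2 : (W - L) ^ 2 / L = 1 / L * W ^ 2 - 2 * W + L := by field_simp; ring
      have h3 : 0 ≤ 1 / L * W ^ 2 := by positivity
      linarith
  have h1 : 0 ≤ (4 * U * f + lam * (u - f)) ^ 2 / (4 * lam) := by positivity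
  have h2 : (4 * U * f + lam * (u - f)) ^ 2 / (4 * lam) =
      4 / lam * (U ^ 2 * f ^ 2) + 2 * U * f * (u - f) + lam / 4 * (u - f) ^ 2 := by
    field_simp; ring
  have h3 : 4 / lam * (U ^ 2 * f ^ 2) ≤ 4 / lam * ((2 * W ^ 2 + 8 * B ^ 2) * f ^ 2) :=
    mul_le_mul_of_nonneg_left (mul_le_mul_of_nonneg_right hU2 (sq_nonneg _)) (by positivity)
  have h4 : (W - 1 / L * W ^ 2) * f ^ 2 ≤ min W L * f ^ 2 :=
    mul_le_mul_of_nonneg_right hm2 (sq_nonneg _)
  have h5 : 0 ≤ U * (u - f) ^ 2 := by positivity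
  have e1 : min W L * u ^ 2 + b * u ^ 2 =
      U * f ^ 2 + 2 * U * f * (u - f) + U * (u - f) ^ 2 - B * u ^ 2 := by rw [hU]; ring
  have e2 : U * f ^ 2 = min W L * f ^ 2 + b * f ^ 2 + B * f ^ 2 := by rw [hU]; ring
  have e3 : W * f ^ 2 + b * f ^ 2 - (1 / L + 8 / lam) * (W ^ 2 * f ^ 2) +
        (B - 32 * B ^ 2 / lam) * f ^ 2 = (W - 1 / L * W ^ 2) * f ^ 2 + b * f ^ 2 + B * f ^ 2 -
        4 / lam * ((2 * W ^ 2 + 8 * B ^ 2) * f ^ 2) := by ring
  rw [e1, e2, e3]
  linarith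

theorem mcore_integrable_min {u : XN N → ℝ} (hu : CC u) {L : ℝ} (hL : 0 < L) :
    Integrable fun x => min (Wrep x) L * u x ^ 2 := by
  refine hu.sq.integrable.bdd_mul (c := L)
    (measurable_Wrep.min measurable_const).aestronglyMeasurable
    (Filter.Eventually.of_forall fun x => ?_)
  rw [Real.norm_eq_abs, abs_of_nonneg (le_min (Wrep_nonneg x) hL.le)]
  exact min_le_right _ _

theorem mcore_hV (h : Full χ core 1 R v E lam η M η' w vm) (f : Pos3 → ℝ) (hf : CC f) :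
    Integrable fun y => (1 * (Vn R y + v y)) * f y := by
  simp only [one_mul, add_mul]
  exact (hf.integrable_Vn R).add (hf.mul_left h.v_cont).integrable

theorem mcore_hVX (h : Full χ core 1 R v E lam η M η' w vm) (u : XN N → ℝ) (i : Fin N)
    (hu : CC u) : Integrable fun x : XN N => (1 * (Vn R (x i) + v (x i))) * u x := by
  simp only [one_mul, add_mul]
  exact (hu.integrable_VnX R i).add
    (hu.mul_left (h.v_cont.comp (continuous_apply i))).integrable

theorem mcore_split (h : Full χ core 1 R v E lam η M η' w vm) {u : XN N → ℝ} (hu : CC u) :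
    ∑ i, ∫ x : XN N, (1 * (Vn R (x i) + v (x i))) * u x =
      (∫ x, Vatt R x * u x) + ∑ i, ∫ x : XN N, v (x i) * u x := by
  have e : ∫ x, Vatt R x * u x = ∑ i, ∫ x : XN N, Vn R (x i) * u x := by
    rw [← integral_finsetSum _ fun i _ => hu.integrable_VnX R i]
    simp only [Vatt, Finset.sum_mul]
  rw [e, ← Finset.sum_add_distrib]
  refine Finset.sum_congr rfl fun i _ => ?_
  have hv : Continuous fun x : XN N => v (x i) := h.v_cont.comp (continuous_apply i)
  rw [← integral_add (hu.integrable_VnX R i) (hu.mul_left hv).integrable]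
  simp only [one_mul, add_mul]

/-- If `c a` is `0` or the overlap of `u` with `pr χ a`, then `u - st χ c ⊥ st χ c`. -/
theorem Orb.perp_sq (h : Orb χ) {u : XN N → ℝ} (hu : CC u) {c : (Fin N → ι) → ℝ}
    (hc : ∀ a, c a = 0 ∨ c a = ∫ x, pr χ a x * u x) :
    ∫ x, (u x - st χ c x) ^ 2 = (∫ x, u x ^ 2) - ∑ a, c a ^ 2 := by
  have hf : CC (st χ c) := (h.st_c1 c).cc
  have h1 : ∫ x, st χ c x * u x = ∑ a, c a ^ 2 := by
    have e : ∀ x, st χ c x * u x = ∑ a, c a * (pr χ a x * u x) := fun x => by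
      simp only [st, Finset.sum_mul, mul_assoc]
    simp only [e]
    rw [integral_finsetSum _ fun a _ => (((h.pr_c1 a).cc.mul hu).integrable).const_mul _]
    refine Finset.sum_congr rfl fun a _ => ?_
    rw [integral_const_mul]
    rcases hc a with h0 | h0
    · rw [h0]; simp
    · rw [← h0]; ring
  have e : ∀ x, (u x - st χ c x) ^ 2 = u x ^ 2 - 2 * (st χ c x * u x) + st χ c x ^ 2 :=
    fun x => by ring
  simp only [e]
  have i1 := hu.sq.integrable
  have i2 := ((hf.mul hu).integrable).const_mul 2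
  have i3 := hf.sq.integrable
  rw [integral_add (i1.sub' i2) i3, integral_sub i1 i2, integral_const_mul, h1, h.st_sq]
  ring

/-- `U = min Wrep L + ∑ v (x i) + N M` satisfies `0 ≤ U ≤ Wrep + 2 N M`.  With `u = f + g`,
`f = st χ c`: `U u² ≥ U f² + 2 U f g ≥ U f² - (4 / lam) U² f² - (lam / 4) g²`,
`U² ≤ 2 Wrep² + 8 N² M²`, `min Wrep L ≥ Wrep - Wrep² / L`, then `st_Wrep_sq`, `st_EFR`. -/
theorem Full.pert_lower (h : Full χ core 1 R v E lam η M η' w vm) {L : ℝ} (hL : 0 < L)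
    {u : XN N → ℝ} (hu : CC u) {c : (Fin N → ι) → ℝ}
    (hc : ∀ a, c a = 0 ∨ c a = ∫ x, pr χ a x * u x) :
    EFR (coul χ) (fun s t => ∫ y, v y * (χ s y * χ t y)) c -
        ((N : ℝ) ^ 4 * M ^ 2 / L + 64 * (N : ℝ) ^ 4 * M ^ 2 / lam) * ∑ a, c a ^ 2 -
        (N * M + lam / 4) * ((∫ x, u x ^ 2) - ∑ a, c a ^ 2) ≤
      (∫ x, min (Wrep x) L * u x ^ 2) + ∑ i, ∫ x : XN N, v (x i) * u x ^ 2 := by
  have ho : Orb χ := h.ob.orb
  have hlam := h.lam_pos
  have hM : 0 ≤ M := (abs_nonneg _).trans (h.v_bd 0)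
  have hf : CC (st χ c) := (ho.st_c1 c).cc
  have hvi : ∀ i : Fin N, Continuous fun x : XN N => v (x i) := fun i =>
    h.v_cont.comp (continuous_apply i)
  have iA := hf.sq.integrable_Wrep
  have iB : ∀ i : Fin N, Integrable fun x : XN N => v (x i) * st χ c x ^ 2 := fun i =>
    (hf.sq.mul_left (hvi i)).integrable
  have iBs : Integrable fun x : XN N => ∑ i, v (x i) * st χ c x ^ 2 :=
    integrable_finsetSum _ fun i _ => iB i
  have iC := hf.sq.integrable_Wrep_sq.const_mul (1 / L + 8 / lam)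
  have iD := hf.sq.integrable.const_mul ((N : ℝ) * M - 32 * (N : ℝ) ^ 2 * M ^ 2 / lam)
  have iG := (hu.sub hf).sq.integrable.const_mul (lam / 4)
  have iT := hu.sq.integrable.const_mul ((N : ℝ) * M)
  have iU := mcore_integrable_min hu hL
  have iV : ∀ i : Fin N, Integrable fun x : XN N => v (x i) * u x ^ 2 := fun i =>
    (hu.sq.mul_left (hvi i)).integrable
  have iVs : Integrable fun x : XN N => ∑ i, v (x i) * u x ^ 2 :=
    integrable_finsetSum _ fun i _ => iV i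
  have key : ∫ x : XN N, (Wrep x * st χ c x ^ 2 + ∑ i, v (x i) * st χ c x ^ 2 -
        (1 / L + 8 / lam) * (Wrep x ^ 2 * st χ c x ^ 2) +
        ((N : ℝ) * M - 32 * (N : ℝ) ^ 2 * M ^ 2 / lam) * st χ c x ^ 2 -
        lam / 4 * (u x - st χ c x) ^ 2 - (N : ℝ) * M * u x ^ 2) ≤
      ∫ x : XN N, (min (Wrep x) L * u x ^ 2 + ∑ i, v (x i) * u x ^ 2) := by
    refine integral_mono ((((iA.add iBs).sub iC).add iD).sub iG |>.sub iT) (iU.add iVs) fun x => ?_
    have hb : |∑ i, v (x i)| ≤ N * M := by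
      refine (Finset.abs_sum_le_sum_abs _ _).trans ?_
      calc ∑ i, |v (x i)| ≤ ∑ _i : Fin N, M := Finset.sum_le_sum fun i _ => h.v_bd _
        _ = N * M := by simp
    have := mcore_pointwise (Wrep_nonneg x) hL hlam hb (u x) (st χ c x)
    simp only [← Finset.sum_mul]
    have e : 32 * (N : ℝ) ^ 2 * M ^ 2 / lam = 32 * (N * M) ^ 2 / lam := by ring
    rw [e]
    exact this
  rw [integral_sub (((((iA.fun_add iBs).sub' iC).fun_add iD).sub' iG)) iT,
    integral_sub (((iA.fun_add iBs).sub' iC).fun_add iD) iG,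
    integral_add ((iA.fun_add iBs).sub' iC) iD,
    integral_sub (iA.fun_add iBs) iC, integral_add iA iBs, integral_add iU iVs,
    integral_finsetSum _ fun i _ => iB i, integral_finsetSum _ fun i _ => iV i,
    integral_const_mul, integral_const_mul, integral_const_mul, integral_const_mul,
    ho.st_EFR c h.v_cont, ho.st_sq, ho.perp_sq hu hc] at key
  have h1 := ho.st_Wrep_sq h.k2 c
  have hS : 0 ≤ ∑ a, c a ^ 2 := Finset.sum_nonneg fun _ _ => sq_nonneg _
  have h2 := mul_le_mul_of_nonneg_left h1 (show 0 ≤ 1 / L + 8 / lam by positivity)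
  have hN : (N : ℝ) ^ 2 ≤ (N : ℝ) ^ 4 := by
    have : N ^ 2 ≤ N ^ 4 := by
      rcases Nat.eq_zero_or_pos N with h0 | h0
      · simp [h0]
      · exact Nat.pow_le_pow_right h0 (by norm_num)
    exact_mod_cast this
  have h3 : (N : ℝ) ^ 2 * (M ^ 2 / lam * ∑ a, c a ^ 2) ≤
      (N : ℝ) ^ 4 * (M ^ 2 / lam * ∑ a, c a ^ 2) :=
    mul_le_mul_of_nonneg_right hN (by positivity)
  have h4 : 0 ≤ (N : ℝ) ^ 4 * (M ^ 2 / lam * ∑ a, c a ^ 2) := by positivity
  refine le_trans ?_ key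
  have e1 : ((N : ℝ) ^ 4 * M ^ 2 / L + 64 * (N : ℝ) ^ 4 * M ^ 2 / lam) * ∑ a, c a ^ 2 =
      (1 / L + 8 / lam) * ((N : ℝ) ^ 4 * M ^ 2 * ∑ a, c a ^ 2) +
        56 * ((N : ℝ) ^ 4 * (M ^ 2 / lam * ∑ a, c a ^ 2)) := by ring
  have e2 : ((N : ℝ) * M - 32 * (N : ℝ) ^ 2 * M ^ 2 / lam) * ∑ a, c a ^ 2 =
      N * M * ∑ a, c a ^ 2 - 32 * ((N : ℝ) ^ 2 * (M ^ 2 / lam * ∑ a, c a ^ 2)) := by ring
  rw [e1, e2]
  linarith

/-- The tensor `α ↦ gc χ core (spin α) (u (spin α)) (label α)` is antisymmetric (`good_perm`,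
`integral_perm`) and good. -/
theorem anti_gc {u : Spin N → XN N → ℝ} (ha : AntiR u) :
    Anti fun α : Fin N → ι × Fin 2 =>
      ((gc χ core (fun i => (α i).2) (u fun i => (α i).2) fun i => (α i).1 : ℝ) : ℂ) := by
  intro σ α
  have hg : Good core (fun i => ((α (σ i)).1, (α (σ i)).2)) ↔
      Good core (fun i => ((α i).1, (α i).2)) := good_perm σ α
  simp only [gc]
  by_cases h : Good core (fun i => ((α i).1, (α i).2))
  · rw [if_pos h, if_pos (hg.2 h), ← integral_perm σ]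
    have e : ∀ x : XN N, pr χ (fun i => (α (σ i)).1) (fun i => x (σ i)) *
        u (fun i => (α (σ i)).2) (fun i => x (σ i)) =
        ((Equiv.Perm.sign σ : ℤ) : ℝ) * (pr χ (fun i => (α i).1) x * u (fun i => (α i).2) x) := by
      intro x
      have e1 : pr χ (fun i => (α (σ i)).1) (fun i => x (σ i)) = pr χ (fun i => (α i).1) x :=
        Equiv.prod_comp σ fun i => χ (α i).1 (x i)
      rw [e1, ha σ (fun i => (α i).2) x]
      ring
    simp only [e]
    rw [integral_const_mul]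
    push_cast
    rfl
  · rw [if_neg h, if_neg (fun h' => h (hg.1 h'))]
    simp

/-- Sum `h0_lower` and `pert_lower` over the spins; `hβ`, `EF_eq`, `nsq_eq`, `EFR_near`. -/
theorem Full.core_lower (h : Full χ core 1 R v E lam η M η' w vm) (hη : 0 ≤ η) {p : ℕ}
    (hN : N = 2 * (Finset.univ.filter core).card + p) {β : ℝ}
    (hβ : ∀ c : (Fin N → ι × Fin 2) → ℂ, Anti c → GoodT core c → β * nsq c ≤ EF w vm c)
    (hs : N * M + |β| + 2 * (N : ℝ) ^ 2 * (Fintype.card ι : ℝ) ^ 2 * η' ≤ lam / 4)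
    {L : ℝ} (hL : 0 < L) {u : Spin N → XN N → ℝ} (hu : ∀ s, C1 (u s)) (ha : AntiR u) :
    (N * E + p * lam + β - N * η - 2 * (N : ℝ) ^ 2 * (Fintype.card ι : ℝ) ^ 2 * η' -
        64 * (N : ℝ) ^ 4 * M ^ 2 / lam - (N : ℝ) ^ 4 * M ^ 2 / L) * ∑ s, ∫ x, u s x ^ 2 ≤
      ∑ s, (kinR (u s) + ∫ x, (min (Wrep x) L - Vatt R x) * u s x ^ 2) := by
  have ho : Orb χ := h.ob.orb
  have hlam := h.lam_pos
  set δ : ℝ := 2 * (N : ℝ) ^ 2 * (Fintype.card ι : ℝ) ^ 2 * η' with hδ
  set k : ℝ := (N : ℝ) ^ 4 * M ^ 2 / L + 64 * (N : ℝ) ^ 4 * M ^ 2 / lam with hk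
  have hδ0 : 0 ≤ δ := by
    rcases isEmpty_or_nonempty ι with hι | ⟨⟨a⟩⟩
    · simp [hδ]
    · have : 0 ≤ η' := (abs_nonneg _).trans (h.v_near a a)
      positivity
  have hk0 : 0 ≤ k := by positivity
  set c : Spin N → (Fin N → ι) → ℝ := fun s => gc χ core s (u s) with hc
  have hcc : ∀ s a, c s a = 0 ∨ c s a = ∫ x, pr χ a x * u s x := by
    intro s a
    simp only [hc, gc]
    split_ifs
    · exact Or.inr rfl
    · exact Or.inl rfl
  have hone : ∀ s, (N * E + p * lam - N * η) * (∫ x, u s x ^ 2) +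
      (lam / 4 - N * M) * ((∫ x, u s x ^ 2) - ∑ a, c s a ^ 2) + EFR w vm (c s) -
        (δ + k) * ∑ a, c s a ^ 2 ≤
      kinR (u s) + ∫ x, (min (Wrep x) L - Vatt R x) * u s x ^ 2 := by
    intro s
    have hus : CC (u s) := (hu s).cc
    have h1 := h.ob.h0_lower (mcore_hV h) (mcore_hVX h) hlam hη hN s (hu s) (by
      intro i j hij hs x
      have := ha (Equiv.swap i j) s x
      have e : (fun l => s (Equiv.swap i j l)) = s := by
        funext l
        rw [Equiv.swap_apply_def]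
        split_ifs with h1 h2
        · rw [h1, hs]
        · rw [h2, hs]
        · rfl
      rw [e, Equiv.Perm.sign_swap hij] at this
      simpa using this)
    rw [mcore_split h hus.sq] at h1
    have h2 := h.pert_lower hL hus (hcc s)
    have h3 := abs_le.1 (EFR_near h.w_near h.v_near (c s))
    have e : ∫ x, (min (Wrep x) L - Vatt R x) * u s x ^ 2 =
        (∫ x, min (Wrep x) L * u s x ^ 2) - ∫ x, Vatt R x * u s x ^ 2 := by
      rw [← integral_sub (mcore_integrable_min hus hL) (hus.sq.integrable_Vatt R)]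
      simp only [sub_mul]
    rw [e]
    rw [← hk] at h2
    rw [← hδ] at h3
    have e2 : ∑ a, gc χ core s (u s) a ^ 2 = ∑ a, c s a ^ 2 := rfl
    rw [e2] at h1
    linarith [h3.1]
  have hsum := Finset.sum_le_sum fun s (_ : s ∈ Finset.univ) => hone s
  refine le_trans ?_ hsum
  simp only [Finset.sum_add_distrib, Finset.sum_sub_distrib, ← Finset.mul_sum]
  have hb := hβ _ (anti_gc (χ := χ) (core := core) ha) (by
    intro α hα
    by_contra hg
    apply hα
    simp only [gc]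
    rw [if_neg hg]
    simp)
  rw [nsq_eq, EF_eq] at hb
  have e1 : ∀ s, sre (fun α : Fin N → ι × Fin 2 =>
      ((gc χ core (fun i => (α i).2) (u fun i => (α i).2) fun i => (α i).1 : ℝ) : ℂ)) s = c s := by
    intro s; funext a; simp [sre, hc]
  have e2 : ∀ s, sim (fun α : Fin N → ι × Fin 2 =>
      ((gc χ core (fun i => (α i).2) (u fun i => (α i).2) fun i => (α i).1 : ℝ) : ℂ)) s =
        fun _ => 0 := by
    intro s; funext a; simp [sim]
  have e3 : EFR w vm (fun _ : Fin N → ι => (0 : ℝ)) = 0 := by simp [EFR, E1, E2]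
  simp only [e1, e2, e3, add_zero, ne_eq, OfNat.ofNat_ne_zero, not_false_eq_true, zero_pow,
    Finset.sum_const_zero] at hb
  have hTS : ∑ s, ∑ a, c s a ^ 2 ≤ ∑ s, ∫ x, u s x ^ 2 := by
    refine Finset.sum_le_sum fun s _ => ?_
    have h1 := ho.perp_sq (hu s).cc (hcc s)
    have h2 : 0 ≤ ∫ x, (u s x - st χ (c s) x) ^ 2 := integral_nonneg fun x => sq_nonneg _
    linarith
  have h5 : 0 ≤ (lam / 4 - N * M - β + δ + k) *
      (∑ s, (∫ x, u s x ^ 2) - ∑ s, ∑ a, c s a ^ 2) :=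
    mul_nonneg (by linarith [le_abs_self β]) (sub_nonneg.2 hTS)
  have e4 : N * E + p * lam + β - N * η - δ - 64 * (N : ℝ) ^ 4 * M ^ 2 / lam -
      (N : ℝ) ^ 4 * M ^ 2 / L = N * E + p * lam - N * η + β - δ - k := by rw [hk]; ring
  rw [e4]
  nlinarith

/-- `st_qf`, `E1_le_diag` with `OB.ub`, `sum_good`, `st_EFR`, `EFR_near`. -/
theorem Full.core_upper (h : Full χ core 1 R v E lam η M η' w vm) {p : ℕ}
    (hN : N = 2 * (Finset.univ.filter core).card + p) (s : Spin N) {c : (Fin N → ι) → ℝ}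
    (hc : ∀ a, c a ≠ 0 → Good core fun i => (a i, s i)) :
    kinR (st χ c) + ∫ x, (Wrep x - Vatt R x) * st χ c x ^ 2 ≤
      (N * E + p * lam + N * (Fintype.card ι : ℝ) * η +
        2 * (N : ℝ) ^ 2 * (Fintype.card ι : ℝ) ^ 2 * η') * ∑ a, c a ^ 2 + EFR w vm c := by
  have ho : Orb χ := h.ob.orb
  have hf : CC (st χ c) := (ho.st_c1 c).cc
  have h1 := ho.st_qf c (V := fun x => 1 * (Vn R x + v x)) fun s t =>
    mcore_hV h _ ((ho.c1 s).cc.mul (ho.c1 t).cc)
  rw [mcore_split h hf.sq] at h1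
  have h2 := ho.st_EFR c h.v_cont
  have h3 := abs_le.1 (EFR_near h.w_near h.v_near c)
  have h4 : ∑ i, E1 (fun s t => qf (fun x => 1 * (Vn R x + v x)) (χ s) (χ t)) c i ≤
      ∑ i : Fin N, (∑ a, (E + if core (a i) then 0 else lam) * c a ^ 2 +
        Fintype.card ι * η * ∑ a, c a ^ 2) :=
    Finset.sum_le_sum fun i _ =>
      E1_le_diag (d := fun a => E + if core a then 0 else lam) h.ob.ub c i
  have h5 : ∑ i : Fin N, ∑ a, (E + if core (a i) then 0 else lam) * c a ^ 2 =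
      (N * E + p * lam) * ∑ a, c a ^ 2 := by
    rw [Finset.sum_comm, Finset.mul_sum]
    refine Finset.sum_congr rfl fun a _ => ?_
    rw [← Finset.sum_mul]
    by_cases h0 : c a = 0
    · simp [h0]
    · rw [sum_good hN (hc a h0) E lam]
  rw [Finset.sum_add_distrib, h5] at h4
  simp only [Finset.sum_const, Finset.card_univ, Fintype.card_fin, nsmul_eq_mul] at h4
  have e : ∫ x, (Wrep x - Vatt R x) * st χ c x ^ 2 =
      (∫ x, Wrep x * st χ c x ^ 2) - ∫ x, Vatt R x * st χ c x ^ 2 := by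
    rw [← integral_sub hf.sq.integrable_Wrep (hf.sq.integrable_Vatt R)]
    simp only [sub_mul]
  rw [e]
  linarith [h3.2]

end Crest.Agent.R338
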