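import Crest.Agent.R338.F

/-! Row 338, module M: definitions.  The core of the argument is about REAL functions on
`XN N = Fin N → Pos3`; complex waves on `Config N` are split into real and imaginary parts. -/

set_option autoImplicit false

open MeasureTheory Crest.MathPhysics.ElectronicCoulomb

namespace Crest.Agent.R338

/-- Configurations as tuples of positions. -/
abbrev XN (N : ℕ) : Type := Fin N → Pos3

/-- Continuous with compact support. -/
def CC {X : Type} [TopologicalSpace X] (u : X → ℝ) : Prop := Continuous u ∧ HasCompactSupport u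

/-- `C¹` with compact support. -/
def C1 {X : Type} [NormedAddCommGroup X] [NormedSpace ℝ X] (u : X → ℝ) : Prop :=
  ContDiff ℝ 1 u ∧ HasCompactSupport u

theorem C1.cc {X : Type} [NormedAddCommGroup X] [NormedSpace ℝ X] {u : X → ℝ} (h : C1 u) :
    CC u := ⟨h.1.continuous, h.2⟩

/-- An orthonormal family of `C¹_c` orbitals. -/
structure Orb {ι : Type} [DecidableEq ι] (χ : ι → Pos3 → ℝ) : Prop where
  c1 : ∀ a, C1 (χ a)
  on : ∀ a b, ∫ x, χ a x * χ b x = if a = b then 1 else 0

theorem OB.orb {ι : Type} [Fintype ι] [DecidableEq ι] {χ : ι → Pos3 → ℝ} {core : ι → Prop}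
    [DecidablePred core] {V : Pos3 → ℝ} {E lam η : ℝ} (h : OB χ core V E lam η) : Orb χ :=
  ⟨fun a => ⟨h.c1 a, h.cs a⟩, h.on⟩

variable {N : ℕ}

/-- The identification of `Config N` with tuples of positions. -/
noncomputable def toX (N : ℕ) : Config N ≃L[ℝ] XN N :=
  LinearEquiv.toContinuousLinearEquiv
    { toFun := fun x i => elPos i x
      invFun := fun y => WithLp.toLp 2 fun ic => y ic.1 ic.2
      map_add' := fun _ _ => rfl
      map_smul' := fun _ _ => rfl
      left_inv := fun _ => rfl
      right_inv := fun _ => rfl }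

theorem toX_apply (x : Config N) (i : Fin N) : toX N x i = elPos i x := rfl

theorem toX_perm (σ : Equiv.Perm (Fin N)) (x : Config N) :
    toX N (permConfig σ x) = fun i => toX N x (σ i) := rfl

/-- Partial derivative in coordinate `k` of electron `i`. -/
noncomputable def dX (u : XN N → ℝ) (i : Fin N) (k : Fin 3) (x : XN N) : ℝ :=
  fderiv ℝ u x (Pi.single i (EuclideanSpace.single k 1))

/-- The kinetic energy of a real function. -/
noncomputable def kinR (u : XN N → ℝ) : ℝ := (1 / 2) * ∑ i, ∑ k, ∫ x, dX u i k x ^ 2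

/-- The electron repulsion. -/
noncomputable def Wrep (x : XN N) : ℝ :=
  ∑ i : Fin N, ∑ j : Fin N, if i < j then 1 / ‖x i - x j‖ else 0

/-- The attraction of the nuclei (positive sign). -/
noncomputable def Vatt {K : ℕ} (R : Fin K → Pos3) (x : XN N) : ℝ := ∑ i, Vn R (x i)

/-- Antisymmetric real waves. -/
def AntiR (u : Spin N → XN N → ℝ) : Prop :=
  ∀ (σ : Equiv.Perm (Fin N)) (s : Spin N) (x : XN N),
    u (fun i => s (σ i)) (fun i => x (σ i)) = ((Equiv.Perm.sign σ : ℤ) : ℝ) * u s x

/-- The complex wave with real part `u` and imaginary part `w`. -/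
noncomputable def cw (u w : XN N → ℝ) (x : Config N) : ℂ := ⟨u (toX N x), w (toX N x)⟩

section

variable {ι : Type} [Fintype ι] [DecidableEq ι]

/-- Products of orbitals. -/
noncomputable def pr (χ : ι → Pos3 → ℝ) (a : Fin N → ι) (x : XN N) : ℝ := ∏ i, χ (a i) (x i)

/-- The state with coefficients `c`. -/
noncomputable def st (χ : ι → Pos3 → ℝ) (c : (Fin N → ι) → ℝ) (x : XN N) : ℝ :=
  ∑ a, c a * pr χ a x

/-- The one-body expectation in the label of electron `i`. -/
noncomputable def E1 (m : ι → ι → ℝ) (c : (Fin N → ι) → ℝ) (i : Fin N) : ℝ :=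
  ∑ a : Fin N → ι, ∑ t, m (a i) t * (c a * c (Function.update a i t))

/-- The two-body expectation in the labels of electrons `i`, `j`. -/
noncomputable def E2 (w : ι → ι → ι → ι → ℝ) (c : (Fin N → ι) → ℝ) (i j : Fin N) : ℝ :=
  ∑ a : Fin N → ι, ∑ t, ∑ t', w (a i) t (a j) t' *
    (c a * c (Function.update (Function.update a i t) j t'))

/-- The real version of `EF` for one spin component. -/
noncomputable def EFR (w : ι → ι → ι → ι → ℝ) (m : ι → ι → ℝ) (c : (Fin N → ι) → ℝ) : ℝ :=
  ∑ i, (E1 m c i + ∑ j, if i < j then E2 w c i j else 0)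

/-- Real part of a spin component of a tensor. -/
def sre (c : (Fin N → ι × Fin 2) → ℂ) (s : Spin N) (a : Fin N → ι) : ℝ :=
  (c fun i => (a i, s i)).re

/-- Imaginary part of a spin component of a tensor. -/
def sim (c : (Fin N → ι × Fin 2) → ℂ) (s : Spin N) (a : Fin N → ι) : ℝ :=
  (c fun i => (a i, s i)).im

/-- One-body energies of the labels; `none` is the orthogonal complement of the orbitals. -/
noncomputable def ene (core : ι → Prop) [DecidablePred core] (E lam η : ℝ) : Option ι → ℝ
  | some a => E + (if core a then 0 else lam) - η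
  | none => E + 3 / 2 * lam

open Classical in
/-- The overlaps of `u` with the good products of orbitals, for the spin assignment `s`. -/
noncomputable def gc (χ : ι → Pos3 → ℝ) (core : ι → Prop) (s : Spin N) (u : XN N → ℝ)
    (a : Fin N → ι) : ℝ :=
  if Good core (fun i => (a i, s i)) then ∫ x, pr χ a x * u x else 0

end

/-- Continuous compactly supported functions on `XN N`. -/
def CCX (N : ℕ) : Submodule ℝ (XN N → ℝ) where
  carrier := {u | CC u}
  add_mem' := fun ha hb => ⟨ha.1.add hb.1, ha.2.add hb.2⟩
  zero_mem' := ⟨continuous_const, HasCompactSupport.zero⟩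
  smul_mem' := fun c _ ha => ⟨ha.1.const_smul c, ha.2.smul_left (f := fun _ => c)⟩

/-- The projection onto the orbital `f` in the variable of electron `i`. -/
noncomputable def prj (f : Pos3 → ℝ) (i : Fin N) (u : XN N → ℝ) (x : XN N) : ℝ :=
  f (x i) * ∫ y, f y * u (Function.update x i y)

end Crest.Agent.R338
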