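import Crest.Agent.R338.MProd1

/-! Row 338, module M: matrix elements between products of orbitals. -/

set_option autoImplicit false

open MeasureTheory Crest.MathPhysics.ElectronicCoulomb Function

namespace Crest.Agent.R338

variable {N : ℕ} {ι : Type} [Fintype ι] [DecidableEq ι] {χ : ι → Pos3 → ℝ}

theorem mprod_split {i j : Fin N} (hij : i ≠ j) (φ : Fin N → ℝ) :
    ∏ l, φ l = φ i * φ j * ∏ l ∈ (Finset.univ.erase i).erase j, φ l := by
  rw [mul_assoc, Finset.mul_prod_erase _ _ (Finset.mem_erase.2 ⟨hij.symm, Finset.mem_univ _⟩),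
    Finset.mul_prod_erase _ _ (Finset.mem_univ _)]

theorem Orb.mprod_integrable (h : Orb χ) (s t s' t' : ι) :
    Integrable fun y => ∫ z, χ s y * χ t y * (χ s' z * χ t' z) / ‖y - z‖ := by
  have h1 := (((h.pr_c1 ![s, s']).cc.mul (h.pr_c1 ![t, t']).cc).integrable_pair
    (i := 0) (j := 1) (by decide))
  have h2 := (volume_preserving_finTwoArrow Pos3).symm.integrable_comp_of_integrable h1
  have h3 : Integrable (fun p : Pos3 × Pos3 =>
      χ s p.1 * χ t p.1 * (χ s' p.2 * χ t' p.2) / ‖p.1 - p.2‖) (volume.prod volume) := by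
    refine h2.congr (Filter.Eventually.of_forall fun p => ?_)
    simp [pr, MeasurableEquiv.finTwoArrow]
    ring
  exact h3.integral_prod_left

/-- Slice in `x j` (`integral_eq_of_slice`): replace `χ_s χ_t (x i) χ_s' χ_t' (x j) / ‖x i - x j‖`
by `G (x i) * χ_s' (x j) ^ 2` with `G y = ∫ z, χ_s χ_t (y) χ_s' χ_t' (z) / ‖y - z‖`
(integrable by Fubini: apply `CC.integrable_pair` with `N = 2`, or bound `G` directly). -/
theorem Orb.pr_pair (h : Orb χ) (a b : Fin N → ι) {i j : Fin N} (hij : i ≠ j) :
    ∫ x, pr χ a x * pr χ b x / ‖x i - x j‖ =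
      if ∀ l, l ≠ i → l ≠ j → a l = b l then coul χ (a i) (b i) (a j) (b j) else 0 := by
  set G : Pos3 → ℝ := fun y => ∫ z, χ (a i) y * χ (b i) y * (χ (a j) z * χ (b j) z) / ‖y - z‖
    with hG
  set g : Fin N → Pos3 → ℝ := fun l =>
    if l = i then G else if l = j then fun y => χ (a j) y * χ (a j) y else
      fun y => χ (a l) y * χ (b l) y with hg
  have gi : g i = G := if_pos rfl
  have gj : g j = fun y => χ (a j) y * χ (a j) y := by simp [hg, hij.symm]
  have gl : ∀ l ∈ (Finset.univ.erase i).erase j, g l = fun y => χ (a l) y * χ (b l) y := by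
    intro l hl
    simp only [Finset.mem_erase] at hl
    simp [hg, hl.1, hl.2.1]
  have hint : ∀ l, Integrable (g l) := by
    intro l
    simp only [hg]
    split_ifs
    · exact h.mprod_integrable _ _ _ _
    · exact ((h.c1 _).cc.mul (h.c1 _).cc).integrable
    · exact ((h.c1 _).cc.mul (h.c1 _).cc).integrable
  rw [integral_eq_of_slice (G := fun x => ∏ l, g l (x l)) j
    (((h.pr_c1 a).cc.mul (h.pr_c1 b).cc).integrable_pair hij) (Integrable.fintype_prod hint)
    fun x => ?_, integral_fintype_prod_volume_eq_prod, mprod_split hij, gi, gj, h.on, if_pos rfl,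
    mul_one, Finset.prod_congr rfl fun l hl => by rw [gl l hl, h.on], Finset.prod_ite_zero]
  · simp only [Finset.mem_erase, Finset.mem_univ, and_true, Finset.prod_const_one, mul_ite, mul_one,
      mul_zero, and_imp]
    exact if_congr ⟨fun H l h1 h2 => H l h2 h1, fun H l h1 h2 => H l h2 h1⟩ rfl rfl
  · have e1 : ∀ y, pr χ a (update x j y) * pr χ b (update x j y) /
        ‖update x j y i - update x j y j‖ =
        χ (a i) (x i) * χ (b i) (x i) * (χ (a j) y * χ (b j) y) / ‖x i - y‖ *
          ∏ l ∈ (Finset.univ.erase i).erase j, χ (a l) (x l) * χ (b l) (x l) := by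
      intro y
      simp only [pr]
      rw [← Finset.prod_mul_distrib, mprod_split hij, update_self, update_of_ne hij,
        Finset.prod_congr rfl fun l hl => by rw [update_of_ne (Finset.mem_erase.1 hl).1]]
      ring
    have e2 : ∀ y, ∏ l, g l (update x j y l) = χ (a j) y * χ (a j) y * (G (x i) *
        ∏ l ∈ (Finset.univ.erase i).erase j, χ (a l) (x l) * χ (b l) (x l)) := by
      intro y
      rw [mprod_split hij, update_self, update_of_ne hij, gi, gj,
        Finset.prod_congr rfl fun l hl => by rw [update_of_ne (Finset.mem_erase.1 hl).1, gl l hl]]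
      ring
    simp only [e1, e2, integral_mul_const, h.on, if_true, one_mul, hG]

theorem Orb.st_pair (h : Orb χ) (c : (Fin N → ι) → ℝ) {i j : Fin N} (hij : i ≠ j) :
    ∫ x, st χ c x ^ 2 / ‖x i - x j‖ = E2 (coul χ) c i j := by
  have e1 : ∀ x, st χ c x ^ 2 / ‖x i - x j‖ =
      ∑ a, ∑ b, c a * c b * (pr χ a x * pr χ b x / ‖x i - x j‖) := by
    intro x
    simp only [st, sq, Finset.sum_mul_sum, Finset.sum_div]
    exact Finset.sum_congr rfl fun a _ => Finset.sum_congr rfl fun b _ => by ring
  have hi : ∀ a b, Integrable fun x : XN N => c a * c b * (pr χ a x * pr χ b x / ‖x i - x j‖) :=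
    fun a b => (((h.pr_c1 a).cc.mul (h.pr_c1 b).cc).integrable_pair hij).const_mul _
  simp only [e1]
  rw [integral_finsetSum _ fun a _ => integrable_finsetSum _ fun b _ => hi a b]
  refine Finset.sum_congr rfl fun a _ => ?_
  rw [integral_finsetSum _ fun b _ => hi a b, ← Fintype.sum_prod_type']
  simp only [integral_const_mul, h.pr_pair a _ hij, mul_ite, mul_zero, ← Finset.sum_filter]
  refine Finset.sum_nbij' (fun b => (b i, b j)) (fun p => update (update a i p.1) j p.2)
    (fun _ _ => Finset.mem_univ _) (fun p _ => ?_) (fun b hb => ?_) (fun p _ => ?_) (fun b hb => ?_)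
  · refine Finset.mem_filter.2 ⟨Finset.mem_univ _, fun l h1 h2 => ?_⟩
    rw [update_of_ne h2, update_of_ne h1]
  · funext l
    by_cases h2 : l = j
    · subst h2; simp
    · by_cases h1 : l = i
      · subst h1; simp [update_of_ne h2]
      · rw [update_of_ne h2, update_of_ne h1]; exact (Finset.mem_filter.1 hb).2 l h1 h2
  · simp [update_of_ne hij]
  · have : update (update a i (b i)) j (b j) = b := by
      funext l
      by_cases h2 : l = j
      · subst h2; simp
      · by_cases h1 : l = i
        · subst h1; simp [update_of_ne h2]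
        · rw [update_of_ne h2, update_of_ne h1]; exact (Finset.mem_filter.1 hb).2 l h1 h2
    simp only [this]
    ring

/-- On a slice in `x i`, `st χ c = ∑ t, χ t * φ t` with `φ t` independent of `x i`; Cauchy-Schwarz
gives `st ^ 2 ≤ (∑ χ t ^ 2) * ∑ φ t ^ 2` and `∑ φ t ^ 2` is the integral of `st ^ 2` over the
slice.  Compare with `M ^ 2 * st ^ 2` by `integral_le_of_slice`. -/
theorem Orb.st_pair_sq (h : Orb χ) {M : ℝ}
    (hM : ∀ y, ∫ x, (∑ a, χ a x ^ 2) / ‖x - y‖ ^ 2 ≤ M ^ 2) (c : (Fin N → ι) → ℝ) {i j : Fin N}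
    (hij : i ≠ j) : ∫ x, st χ c x ^ 2 / ‖x i - x j‖ ^ 2 ≤ M ^ 2 * ∑ a, c a ^ 2 := by
  have hcc := (h.st_c1 c).cc.sq
  rw [← h.st_sq, ← integral_const_mul]
  refine integral_le_of_slice i (hcc.integrable_pair_sq hij) (hcc.integrable.const_mul _) fun x => ?_
  set φ : ι → ℝ := fun t => ∑ a ∈ Finset.univ.filter (fun a : Fin N → ι => a i = t),
    c a * ∏ l ∈ Finset.univ.erase i, χ (a l) (x l) with hφ
  have e1 : ∀ y, st χ c (update x i y) = ∑ t, χ t y * φ t := by
    intro y
    simp only [st, hφ, Finset.mul_sum]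
    rw [← Finset.sum_fiberwise Finset.univ fun a : Fin N → ι => a i]
    refine Finset.sum_congr rfl fun t _ => Finset.sum_congr rfl fun a ha => ?_
    rw [pr, ← Finset.mul_prod_erase _ _ (Finset.mem_univ i), update_self, (Finset.mem_filter.1 ha).2,
      Finset.prod_congr rfl fun l hl => by rw [update_of_ne (Finset.mem_erase.1 hl).1]]
    ring
  have e2 : ∫ y, (∑ t, χ t y * φ t) ^ 2 = ∑ t, φ t ^ 2 := by
    have hi : ∀ s t, Integrable fun y => χ s y * χ t y * (φ s * φ t) :=
      fun s t => ((h.c1 s).cc.mul (h.c1 t).cc).integrable.mul_const _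
    have : ∀ y, (∑ t, χ t y * φ t) ^ 2 = ∑ s, ∑ t, χ s y * χ t y * (φ s * φ t) := by
      intro y
      simp only [sq, Finset.sum_mul_sum]
      exact Finset.sum_congr rfl fun a _ => Finset.sum_congr rfl fun b _ => by ring
    simp only [this]
    rw [integral_finsetSum _ fun s _ => integrable_finsetSum _ fun t _ => hi s t]
    refine Finset.sum_congr rfl fun s _ => ?_
    rw [integral_finsetSum _ fun t _ => hi s t]
    simp [integral_mul_const, h.on, sq]
  have i1 := (hcc.slice x i).integrable_div_sq (x j)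
  have i2 := (CC.sum Finset.univ fun t _ => (h.c1 t).cc.sq).integrable_div_sq (x j)
  simp only [update_self, update_of_ne hij.symm, e1, integral_const_mul, e2] at i1 ⊢
  calc ∫ y, (∑ t, χ t y * φ t) ^ 2 / ‖y - x j‖ ^ 2
      ≤ ∫ y, (∑ t, χ t y ^ 2) / ‖y - x j‖ ^ 2 * ∑ t, φ t ^ 2 := by
        refine integral_mono i1 (i2.mul_const _) fun y => ?_
        simp only [div_mul_eq_mul_div]
        exact div_le_div_of_nonneg_right (Finset.sum_mul_sq_le_sq_mul_sq _ _ _) (by positivity)
    _ ≤ _ := by
        rw [integral_mul_const]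
        exact mul_le_mul_of_nonneg_right (hM _) (by positivity)

theorem Orb.st_Wrep_sq (h : Orb χ) {M : ℝ}
    (hM : ∀ y, ∫ x, (∑ a, χ a x ^ 2) / ‖x - y‖ ^ 2 ≤ M ^ 2) (c : (Fin N → ι) → ℝ) :
    ∫ x, Wrep x ^ 2 * st χ c x ^ 2 ≤ (N : ℝ) ^ 4 * M ^ 2 * ∑ a, c a ^ 2 := by
  have hcc := (h.st_c1 c).cc.sq
  have hi : ∀ i j : Fin N, Integrable fun x : XN N =>
      if i < j then st χ c x ^ 2 / ‖x i - x j‖ ^ 2 else 0 := by
    intro i j
    split_ifs with hij
    · exact hcc.integrable_pair_sq hij.ne
    · exact integrable_zero _ _ _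
  calc ∫ x, Wrep x ^ 2 * st χ c x ^ 2 ≤ ∫ x : XN N, (N : ℝ) ^ 2 * ∑ i : Fin N, ∑ j : Fin N,
        if i < j then st χ c x ^ 2 / ‖x i - x j‖ ^ 2 else 0 := by
        refine integral_mono hcc.integrable_Wrep_sq
          ((integrable_finsetSum _ fun i _ => integrable_finsetSum _ fun j _ => hi i j).const_mul _)
          fun x => ?_
        refine (mul_le_mul_of_nonneg_right (Wrep_sq_le x) (sq_nonneg _)).trans (le_of_eq ?_)
        simp only [mul_assoc, Finset.sum_mul, ite_mul, zero_mul, one_div_mul_eq_div]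
    _ ≤ (N : ℝ) ^ 2 * ∑ _i : Fin N, ∑ _j : Fin N, M ^ 2 * ∑ a, c a ^ 2 := by
        rw [integral_const_mul,
          integral_finsetSum _ fun i _ => integrable_finsetSum _ fun j _ => hi i j]
        refine mul_le_mul_of_nonneg_left (Finset.sum_le_sum fun i _ => ?_) (by positivity)
        rw [integral_finsetSum _ fun j _ => hi i j]
        refine Finset.sum_le_sum fun j _ => ?_
        split_ifs with hij
        · exact h.st_pair_sq hM c hij.ne
        · rw [integral_zero]; positivity
    _ = _ := by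
        simp only [Finset.sum_const, Finset.card_univ, Fintype.card_fin, nsmul_eq_mul]
        ring

/-- The first order energy. -/
theorem Orb.st_EFR (h : Orb χ) (c : (Fin N → ι) → ℝ) {v : Pos3 → ℝ} (hv : Continuous v) :
    (∫ x, Wrep x * st χ c x ^ 2) + ∑ i, ∫ x : XN N, v (x i) * st χ c x ^ 2 =
      EFR (coul χ) (fun s t => ∫ y, v y * (χ s y * χ t y)) c := by
  have hcc := (h.st_c1 c).cc.sq
  have hi : ∀ i j : Fin N, Integrable fun x : XN N =>
      if i < j then st χ c x ^ 2 / ‖x i - x j‖ else 0 := by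
    intro i j
    split_ifs with hij
    · exact hcc.integrable_pair hij.ne
    · exact integrable_zero _ _ _
  have e1 : ∀ x : XN N, Wrep x * st χ c x ^ 2 = ∑ i : Fin N, ∑ j : Fin N,
      if i < j then st χ c x ^ 2 / ‖x i - x j‖ else 0 := by
    intro x
    simp only [Wrep, Finset.sum_mul, ite_mul, zero_mul, one_div_mul_eq_div]
  simp only [e1]
  rw [integral_finsetSum _ fun i _ => integrable_finsetSum _ fun j _ => hi i j, EFR,
    Finset.sum_add_distrib, add_comm]
  congr 1
  · exact Finset.sum_congr rfl fun i _ => h.st_pot c i fun s t =>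
      (((h.c1 s).cc.mul (h.c1 t).cc).mul_left hv).integrable
  · refine Finset.sum_congr rfl fun i _ => ?_
    rw [integral_finsetSum _ fun j _ => hi i j]
    refine Finset.sum_congr rfl fun j _ => ?_
    split_ifs with hij
    · exact h.st_pair c hij.ne
    · exact integral_zero _ _

end Crest.Agent.R338
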