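import Crest.Agent.R338.MSlice

/-! Row 338, module M: matrix elements between products of orbitals. -/

set_option autoImplicit false

open MeasureTheory Crest.MathPhysics.ElectronicCoulomb Function

namespace Crest.Agent.R338

variable {N : ℕ} {ι : Type} [Fintype ι] [DecidableEq ι] {χ : ι → Pos3 → ℝ}

/-- The support lies in `Set.pi univ fun i => tsupport (χ (a i))`. -/
theorem Orb.pr_c1 (h : Orb χ) (a : Fin N → ι) : C1 (pr χ a) := by
  refine ⟨contDiff_prod fun i _ => (h.c1 (a i)).1.comp (contDiff_apply ℝ Pos3 i),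
    HasCompactSupport.intro (isCompact_univ_pi fun i => (h.c1 (a i)).2) fun x hx => ?_⟩
  simp only [Set.mem_pi, Set.mem_univ, true_imp_iff, not_forall] at hx
  obtain ⟨i, hi⟩ := hx
  exact Finset.prod_eq_zero (Finset.mem_univ i) (image_eq_zero_of_notMem_tsupport hi)
theorem Orb.st_c1 (h : Orb χ) (c : (Fin N → ι) → ℝ) : C1 (st χ c) := by
  exact ⟨ContDiff.sum fun a _ => contDiff_const.mul (h.pr_c1 a).1,
    (CC.sum Finset.univ fun a _ => (h.pr_c1 a).cc.mul_left (w := fun _ => c a) continuous_const).2⟩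
/-- `integral_fintype_prod_volume_eq_prod`. -/
theorem Orb.pr_on (h : Orb χ) (a b : Fin N → ι) :
    ∫ x, pr χ a x * pr χ b x = if a = b then 1 else 0 := by
  simp only [pr, ← Finset.prod_mul_distrib]
  rw [integral_fintype_prod_volume_eq_prod fun i y => χ (a i) y * χ (b i) y]
  simp only [h.on]
  split_ifs with hab
  · simp [hab]
  · obtain ⟨i, hi⟩ := Function.ne_iff.1 hab
    exact Finset.prod_eq_zero (Finset.mem_univ i) (if_neg hi)
theorem Orb.ip_pr_st (h : Orb χ) (a : Fin N → ι) (c : (Fin N → ι) → ℝ) :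
    ∫ x, pr χ a x * st χ c x = c a := by
  simp only [st, Finset.mul_sum, mul_left_comm (pr χ a _)]
  rw [integral_finset_sum _ fun b _ =>
    ((h.pr_c1 a).cc.mul (h.pr_c1 b).cc).integrable.const_mul (c b)]
  simp [integral_const_mul, h.pr_on]
theorem Orb.st_sq (h : Orb χ) (c : (Fin N → ι) → ℝ) : ∫ x, st χ c x ^ 2 = ∑ a, c a ^ 2 := by
  have e : ∀ x, st χ c x ^ 2 = ∑ a, c a * (pr χ a x * st χ c x) := fun x => by
    rw [sq]
    nth_rw 1 [st]
    simp only [Finset.sum_mul, mul_assoc]
  simp only [e]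
  rw [integral_finset_sum _ fun a _ =>
    ((h.pr_c1 a).cc.mul (h.st_c1 c).cc).integrable.const_mul (c a)]
  simp only [integral_const_mul, h.ip_pr_st, sq]

/-- General one-body matrix elements: the orbital of electron `i` is replaced by `f` resp. `g`.
Expand the product of the sums; every term is a product of one-variable functions
(`integral_fintype_prod_volume_eq_prod`, `Integrable.fintype_prod`), which vanishes unless `a` and
`b` agree off `i`, i.e. `b = update a i (b i)`. -/
theorem Orb.one_body (h : Orb χ) (c : (Fin N → ι) → ℝ) (i : Fin N) {f g : ι → Pos3 → ℝ}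
    (hfg : ∀ s t, Integrable fun y => f s y * g t y) :
    ∫ x : XN N, (∑ a, c a * (f (a i) (x i) * ∏ l ∈ Finset.univ.erase i, χ (a l) (x l))) *
        (∑ a, c a * (g (a i) (x i) * ∏ l ∈ Finset.univ.erase i, χ (a l) (x l))) =
      E1 (fun s t => ∫ y, f s y * g t y) c i := by
  let F : (Fin N → ι) → (Fin N → ι) → Fin N → Pos3 → ℝ := fun a b l y =>
    if l = i then f (a i) y * g (b i) y else χ (a l) y * χ (b l) y
  have hF : ∀ a b l, Integrable (F a b l) := fun a b l => by
    by_cases hl : l = i
    · simpa only [F, if_pos hl] using hfg _ _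
    · simpa only [F, if_neg hl] using ((h.c1 _).cc.mul (h.c1 _).cc).integrable
  have e : ∀ x : XN N, (∑ a, c a * (f (a i) (x i) * ∏ l ∈ Finset.univ.erase i, χ (a l) (x l))) *
      (∑ a, c a * (g (a i) (x i) * ∏ l ∈ Finset.univ.erase i, χ (a l) (x l))) =
      ∑ a, ∑ b, (c a * c b) * ∏ l, F a b l (x l) := fun x => by
    rw [Finset.sum_mul_sum]
    refine Finset.sum_congr rfl fun a _ => Finset.sum_congr rfl fun b _ => ?_
    rw [← Finset.mul_prod_erase _ _ (Finset.mem_univ i),
      Finset.prod_congr rfl fun l hl => show F a b l (x l) = χ (a l) (x l) * χ (b l) (x l) from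
        if_neg (Finset.ne_of_mem_erase hl), Finset.prod_mul_distrib]
    simp only [F, if_true]
    ring
  have hi : ∀ a b, Integrable fun x : XN N => (c a * c b) * ∏ l, F a b l (x l) := fun a b =>
    (Integrable.fintype_prod (hF a b)).const_mul _
  simp only [e]
  rw [integral_finset_sum _ fun a _ => integrable_finset_sum _ fun b _ => hi a b]
  refine Finset.sum_congr rfl fun a _ => ?_
  rw [integral_finset_sum _ fun b _ => hi a b]
  have e2 : ∀ b, ∫ x : XN N, (c a * c b) * ∏ l, F a b l (x l) = (c a * c b) *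
      ((∫ y, f (a i) y * g (b i) y) * ∏ l ∈ Finset.univ.erase i, if a l = b l then 1 else 0) :=
    fun b => by
      rw [integral_const_mul, integral_fintype_prod_volume_eq_prod (F a b),
        ← Finset.mul_prod_erase _ _ (Finset.mem_univ i)]
      congr 2
      · simp only [F, if_true]
      · refine Finset.prod_congr rfl fun l hl => ?_
        simp only [F, if_neg (Finset.ne_of_mem_erase hl), h.on]
  simp only [e2]
  refine (Fintype.sum_of_injective (update a i) (update_injective a i) _ _ (fun b hb => ?_)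
    fun t => ?_).symm
  · have : ∃ l ∈ Finset.univ.erase i, a l ≠ b l := by
      by_contra hc
      push Not at hc
      refine hb ⟨b i, funext fun l => ?_⟩
      by_cases hl : l = i
      · rw [hl, update_self]
      · rw [update_of_ne hl, hc l (by simp [hl])]
    obtain ⟨l, hl, hl'⟩ := this
    rw [Finset.prod_eq_zero hl (if_neg hl'), mul_zero, mul_zero]
  · rw [update_self, Finset.prod_eq_one fun l hl =>
      if_pos (update_of_ne (Finset.ne_of_mem_erase hl) _ _).symm]
    ring

theorem mprod1_st (χ : ι → Pos3 → ℝ) (c : (Fin N → ι) → ℝ) (i : Fin N) (x : XN N) :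
    st χ c x = ∑ a, c a * (χ (a i) (x i) * ∏ l ∈ Finset.univ.erase i, χ (a l) (x l)) := by
  refine Finset.sum_congr rfl fun a _ => ?_
  rw [pr, ← Finset.mul_prod_erase _ _ (Finset.mem_univ i)]

theorem Orb.st_pot (h : Orb χ) (c : (Fin N → ι) → ℝ) (i : Fin N) {V : Pos3 → ℝ}
    (hV : ∀ s t, Integrable fun y => V y * (χ s y * χ t y)) :
    ∫ x : XN N, V (x i) * st χ c x ^ 2 = E1 (fun s t => ∫ y, V y * (χ s y * χ t y)) c i := by
  rw [← show (fun s t => ∫ y, V y * χ s y * χ t y) = fun s t => ∫ y, V y * (χ s y * χ t y) by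
    simp only [mul_assoc], ← h.one_body c i (f := fun s y => V y * χ s y) (g := χ)
      fun s t => by simpa only [mul_assoc] using hV s t]
  refine integral_congr_ae (Filter.Eventually.of_forall fun x => ?_)
  have e : V (x i) * ∑ a, c a * (χ (a i) (x i) * ∏ l ∈ Finset.univ.erase i, χ (a l) (x l)) =
      ∑ a, c a * (V (x i) * χ (a i) (x i) * ∏ l ∈ Finset.univ.erase i, χ (a l) (x l)) := by
    rw [Finset.mul_sum]
    exact Finset.sum_congr rfl fun a _ => by ring
  simp only [mprod1_st χ c i x, sq]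
  rw [← mul_assoc, e]

/-- Through `pd_slice`: the slice of `st χ c` is a linear combination of orbitals. -/
theorem Orb.dX_st (h : Orb χ) (c : (Fin N → ι) → ℝ) (i : Fin N) (k : Fin 3) (x : XN N) :
    dX (st χ c) i k x =
      ∑ a, c a * (pd k (χ (a i)) (x i) * ∏ l ∈ Finset.univ.erase i, χ (a l) (x l)) := by
  have e := pd_slice (h.st_c1 c) x i k (x i)
  rw [update_eq_self] at e
  rw [← e]
  have e2 : (fun y => st χ c (update x i y)) =
      fun y => ∑ a, c a * (χ (a i) y * ∏ l ∈ Finset.univ.erase i, χ (a l) (x l)) := by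
    funext y
    rw [mprod1_st χ c i, update_self]
    refine Finset.sum_congr rfl fun a _ => ?_
    rw [Finset.prod_congr rfl fun l hl => by rw [update_of_ne (Finset.ne_of_mem_erase hl)]]
  have hd : ∀ a : Fin N → ι, HasFDerivAt (χ (a i)) (fderiv ℝ (χ (a i)) (x i)) (x i) := fun a =>
    ((h.c1 (a i)).1.differentiable one_ne_zero (x i)).hasFDerivAt
  rw [e2, pd, (HasFDerivAt.fun_sum fun a _ => ((hd a).mul_const
    (∏ l ∈ Finset.univ.erase i, χ (a l) (x l))).const_mul (c a)).fderiv]
  simp only [ContinuousLinearMap.sum_apply, ContinuousLinearMap.smul_apply, smul_eq_mul, pd]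
  exact Finset.sum_congr rfl fun a _ => by ring

/-- Kinetic energy minus the one-body potential. -/
theorem Orb.st_qf (h : Orb χ) (c : (Fin N → ι) → ℝ) {V : Pos3 → ℝ}
    (hV : ∀ s t, Integrable fun y => V y * (χ s y * χ t y)) :
    kinR (st χ c) - ∑ i, ∫ x : XN N, V (x i) * st χ c x ^ 2 =
      ∑ i, E1 (fun s t => qf V (χ s) (χ t)) c i := by
  have h1 : ∀ i k, ∫ x, dX (st χ c) i k x ^ 2 =
      E1 (fun s t => ∫ y, pd k (χ s) y * pd k (χ t) y) c i := fun i k => by
    simp only [h.dX_st c, sq]
    exact h.one_body c i (f := fun s => pd k (χ s)) (g := fun s => pd k (χ s))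
      fun s t => (((h.c1 s).pd k).mul ((h.c1 t).pd k)).integrable
  simp only [kinR, h1, h.st_pot c _ hV, Finset.mul_sum, ← Finset.sum_sub_distrib]
  refine Finset.sum_congr rfl fun i _ => ?_
  simp only [E1, qf, sub_mul, Finset.sum_sub_distrib, Finset.mul_sum, Finset.sum_mul, mul_assoc]
  congr 1
  rw [Finset.sum_comm]
  exact Finset.sum_congr rfl fun a _ => Finset.sum_comm

end Crest.Agent.R338
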