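import Crest.Agent.R338.MProj1

/-! Row 338, module M: the projections `prj` and the lower bound for `∑_i h_i`. -/

set_option autoImplicit false

open MeasureTheory Crest.MathPhysics.ElectronicCoulomb Function

namespace Crest.Agent.R338

variable {N : ℕ} {ι : Type} [Fintype ι] [DecidableEq ι] {χ : ι → Pos3 → ℝ}

variable {core : ι → Prop} [DecidablePred core] {V : Pos3 → ℝ} {E lam η : ℝ}

/-- Type synonym (one instance path). -/
def mpV (N : ℕ) : Type := CCX N
noncomputable instance (N : ℕ) : AddCommGroup (mpV N) := inferInstanceAs (AddCommGroup (CCX N))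
noncomputable instance (N : ℕ) : Module ℝ (mpV N) := inferInstanceAs (Module ℝ (CCX N))

/-- The `L²` form on `CCX N`. -/
noncomputable def mpB (N : ℕ) : mpV N →ₗ[ℝ] mpV N →ₗ[ℝ] ℝ :=
  LinearMap.mk₂ ℝ (fun u w => ∫ x, u.1 x * w.1 x)
    (fun u u' w => by
      rw [← integral_add (CC.mul u.2 w.2).integrable (CC.mul u'.2 w.2).integrable]
      exact integral_congr_ae (.of_forall fun x => add_mul _ _ _))
    (fun c u w => by
      rw [smul_eq_mul, ← integral_const_mul]
      exact integral_congr_ae (.of_forall fun x => mul_assoc _ _ _))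
    (fun u w w' => by
      rw [← integral_add (CC.mul u.2 w.2).integrable (CC.mul u.2 w'.2).integrable]
      exact integral_congr_ae (.of_forall fun x => mul_add _ _ _))
    (fun c u w => by
      rw [smul_eq_mul, ← integral_const_mul]
      exact integral_congr_ae (.of_forall fun x => mul_left_comm _ _ _))

theorem mpB_apply (u w : mpV N) : mpB N u w = ∫ x, u.1 x * w.1 x := rfl

theorem mpB_self (u : mpV N) : mpB N u u = ∫ x, u.1 x ^ 2 := by
  simp only [mpB_apply, sq]

/-- `prj` as an endomorphism of `CCX N`. -/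
noncomputable def mpP {f : Pos3 → ℝ} (hf : CC f) (i : Fin N) : Module.End ℝ (mpV N) where
  toFun u := ⟨prj f i u.1, CC.prj u.2 hf i⟩
  map_add' u w := Subtype.ext <| funext fun x => by
    change f (x i) * ∫ y, f y * (u.1 _ + w.1 _) = f (x i) * _ + f (x i) * _
    rw [← mul_add, ← integral_add (hf.mul (CC.slice u.2 x i)).integrable
      (hf.mul (CC.slice w.2 x i)).integrable]
    simp only [mul_add]
  map_smul' c u := Subtype.ext <| funext fun x => by
    change f (x i) * ∫ y, f y * (c * u.1 _) = c * (f (x i) * _)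
    rw [mul_left_comm c, ← integral_const_mul c]
    simp only [mul_left_comm c]

/-- The resolution of the identity in the variable of electron `i`. -/
noncomputable def mpO (h : Orb χ) (i : Fin N) : Option ι → Module.End ℝ (mpV N)
  | some a => mpP (h.c1 a).cc i
  | none => 1 - ∑ a, mpP (h.c1 a).cc i

theorem mpP_mul (h : Orb χ) (i : Fin N) (a b : ι) :
    mpP (h.c1 a).cc i * mpP (h.c1 b).cc i = if a = b then mpP (h.c1 a).cc i else 0 := by
  refine LinearMap.ext fun u => Subtype.ext <| funext fun x => ?_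
  change prj (χ a) i (prj (χ b) i u.1) x = _
  rw [prj_prj, h.on]
  split_ifs with e
  · subst e
    rw [one_mul]; rfl
  · rw [zero_mul]; rfl

theorem mpO_sa (h : Orb χ) (i : Fin N) (b : Option ι) (u w : mpV N) :
    mpB N (mpO h i b u) w = mpB N u (mpO h i b w) := by
  have h1 : ∀ a, mpB N (mpP (h.c1 a).cc i u) w = mpB N u (mpP (h.c1 a).cc i w) := fun a =>
    prj_symm u.2 w.2 (h.c1 a).cc i
  cases b with
  | some a => exact h1 a
  | none =>
    simp only [mpO, LinearMap.sub_apply, Module.End.one_apply, LinearMap.sum_apply, map_sub,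
      map_sum, h1]

theorem mpO_orth (h : Orb χ) (i : Fin N) (b b' : Option ι) :
    mpO h i b * mpO h i b' = if b = b' then mpO h i b else 0 := by
  have h1 : ∀ a, mpP (h.c1 a).cc i * ∑ a', mpP (h.c1 a').cc i = mpP (h.c1 a).cc i := fun a => by
    simp [Finset.mul_sum, mpP_mul h]
  have h2 : ∀ a, (∑ a', mpP (h.c1 a').cc i) * mpP (h.c1 a).cc i = mpP (h.c1 a).cc i := fun a => by
    simp [Finset.sum_mul, mpP_mul h]
  cases b with
  | some a =>
    cases b' with
    | some a' => simp only [mpO, mpP_mul h, Option.some.injEq]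
    | none => simp [mpO, mul_sub, h1]
  | none =>
    cases b' with
    | some a' => simp [mpO, sub_mul, h2]
    | none =>
      rw [if_pos rfl, mpO, sub_mul, mul_sub, mul_sub, Finset.sum_mul _ _ (∑ a, _)]
      simp [h1]

theorem mpO_sum (h : Orb χ) (i : Fin N) : ∑ b, mpO h i b = 1 := by
  simp [Fintype.sum_option, mpO]

theorem mpO_comm (h : Orb χ) (i j : Fin N) (b b' : Option ι) (hij : i ≠ j) :
    Commute (mpO h i b) (mpO h j b') := by
  have h1 : ∀ a a', Commute (mpP (h.c1 a).cc i) (mpP (h.c1 a').cc j) := fun a a' =>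
    LinearMap.ext fun u => Subtype.ext (prj_comm u.2 (h.c1 a).cc (h.c1 a').cc hij)
  have h2 : ∀ a, Commute (mpP (h.c1 a).cc i) (mpO h j b') := fun a => by
    cases b' with
    | some a' => exact h1 a a'
    | none => exact (Commute.one_right _).sub_right (Commute.sum_right _ _ _ fun a' _ => h1 a a')
  cases b with
  | some a => exact h2 a
  | none => exact (Commute.one_left _).sub_left (Commute.sum_left _ _ _ fun a _ => h2 a)

/-- Apply `abs_decomp` on `CCX N` with `B u w = ∫ u w`, `P i (some a) = prj (χ a) i`,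
`P i none = 1 - ∑ a, prj (χ a) i`.  `∑_i ∑_b ene b * B (P i b u) (P i b u) =
∑_a (∑_i ene (a i)) * B (Q a) (Q a)`; `Q a = 0` if a spin-orbital is repeated (`prj_anti`);
otherwise `sum_ene_ge`, `sum_ene_ge_of_bad`; for `a = some ∘ a'` one has
`B (Q a) (Q a) = (∫ pr χ a' * u) ^ 2` (`eq_smul_pr`, `prj_pr`). -/
theorem OB.h0_lower (h : OB χ core V E lam η) (hV : ∀ f, CC f → Integrable fun y => V y * f y)
    (hVX : ∀ (u : XN N → ℝ) (i : Fin N), CC u → Integrable fun x => V (x i) * u x)
    (hlam : 0 < lam) (hη : 0 ≤ η) {p : ℕ} (hN : N = 2 * (Finset.univ.filter core).card + p)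
    (s : Spin N) {u : XN N → ℝ} (hu : C1 u)
    (ha : ∀ i j, i ≠ j → s i = s j → ∀ x : XN N, u (fun l => x (Equiv.swap i j l)) = -u x) :
    (N * E + p * lam - N * η) * (∫ x, u x ^ 2) +
        lam / 2 * ((∫ x, u x ^ 2) - ∑ a, gc χ core s u a ^ 2) ≤
      kinR u - ∑ i, ∫ x, V (x i) * u x ^ 2 := by
  classical
  have ho := h.orb
  let f : mpV N := ⟨u, hu.cc⟩
  obtain ⟨Q, hQ1, hQ2, hQ3, hQ4, hQ5⟩ := abs_decomp (mpB N) (mpO ho) (mpO_sa ho) (mpO_orth ho)
    (mpO_sum ho) (mpO_comm ho) f
  set q : (Fin N → Option ι) → ℝ := fun a => mpB N (Q a) (Q a) with hq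
  have hq0 : ∀ a, 0 ≤ q a := fun a => by
    rw [hq]
    simp only [mpB_self]
    exact integral_nonneg fun x => sq_nonneg _
  have hf : (∫ x, u x ^ 2) = ∑ a, q a := by rw [← hQ4, mpB_self]
  -- the one-body bounds
  have h1 : ∀ i, ∑ a, ene core E lam η (a i) * q a ≤
      (1 / 2) * (∑ k, ∫ x, dX u i k x ^ 2) - ∫ x, V (x i) * u x ^ 2 := fun i => by
    refine le_trans (le_of_eq ?_) (h.lift hV hVX hu i)
    have e1 : ∀ a, (∫ x, prj (χ a) i u x ^ 2) = ∑ c, if c i = some a then q c else 0 := fun a => by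
      rw [← hQ5 i (some a), mpB_self]; rfl
    have e2 : (∫ x, u x ^ 2) - ∑ a, ∫ x, prj (χ a) i u x ^ 2 =
        ∑ c, if c i = none then q c else 0 := by
      simp only [e1, hf]
      rw [Finset.sum_comm, ← Finset.sum_sub_distrib]
      refine Finset.sum_congr rfl fun c _ => ?_
      cases c i <;> simp
    rw [e2]
    simp only [e1, Finset.mul_sum]
    rw [Finset.sum_comm, ← Finset.sum_add_distrib]
    refine Finset.sum_congr rfl fun c _ => ?_
    cases c i <;> simp
  have h2 : ∑ a, (∑ i, ene core E lam η (a i)) * q a ≤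
      kinR u - ∑ i, ∫ x, V (x i) * u x ^ 2 := by
    simp only [Finset.sum_mul]
    rw [Finset.sum_comm, kinR, Finset.mul_sum, ← Finset.sum_sub_distrib]
    exact Finset.sum_le_sum fun i _ => h1 i
  -- the good part
  let g : (Fin N → Option ι) → ℝ := fun a =>
    if ∃ a' : Fin N → ι, (a = fun i => some (a' i)) ∧ Good core fun i => (a' i, s i) then q a else 0
  have h3 : ∀ a' : Fin N → ι, q (fun i => some (a' i)) = (∫ x, pr χ a' x * u x) ^ 2 := fun a' => by
    let π : mpV N := ⟨pr χ a', (ho.pr_c1 a').cc⟩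
    have e1 : ∀ i, prj (χ (a' i)) i (Q fun i => some (a' i)).1 = (Q fun i => some (a' i)).1 :=
      fun i => by
        have := hQ2 (fun i => some (a' i)) i (some (a' i))
        rw [if_pos rfl] at this
        exact congrArg Subtype.val this
    have e2 : mpB N π (Q fun i => some (a' i)) = mpB N π f := by
      rw [← hQ1, map_sum, Finset.sum_eq_single (fun i => some (a' i))]
      · intro c _ hc
        obtain ⟨i, hi⟩ := Function.ne_iff.1 hc
        have e3 : mpO ho i (some (a' i)) π = π := Subtype.ext (ho.prj_pr a' i)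
        rw [← e3, mpO_sa, hQ2, if_neg hi, map_zero]
      · simp
    have e4 := ho.eq_smul_pr a' e1
    rw [mpB_apply, mpB_apply] at e2
    have e5 : (∫ z, pr χ a' z * (Q fun i => some (a' i)).1 z) = ∫ x, pr χ a' x * u x := e2
    rw [hq]
    simp only [mpB_apply]
    rw [integral_congr_ae (.of_forall fun x => (by rw [e4 x, e5]; ring :
      (Q fun i => some (a' i)).1 x * (Q fun i => some (a' i)).1 x =
        (∫ x, pr χ a' x * u x) ^ 2 * (pr χ a' x * pr χ a' x))), integral_const_mul, ho.pr_on,
      if_pos rfl, mul_one]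
  have h4 : ∑ a', gc χ core s u a' ^ 2 = ∑ a, g a := by
    refine Fintype.sum_of_injective (fun (a' : Fin N → ι) i => some (a' i))
      (fun a b e => funext fun i => Option.some.inj (congrFun e i)) _ _ (fun a ha => ?_) fun a' => ?_
    · exact if_neg fun ⟨a', e, _⟩ => ha ⟨a', e.symm⟩
    · by_cases hg : Good core fun i => (a' i, s i)
      · rw [gc, if_pos hg, ← h3]
        exact (if_pos ⟨a', rfl, hg⟩).symm
      · rw [gc, if_neg hg, sq, zero_mul]
        refine (if_neg fun ⟨b, e, hb⟩ => hg ?_).symm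
        rwa [show a' = b from funext fun i => Option.some.inj (congrFun e i)]
  refine le_trans ?_ h2
  rw [hf, h4, ← Finset.sum_sub_distrib, Finset.mul_sum, Finset.mul_sum, ← Finset.sum_add_distrib]
  refine Finset.sum_le_sum fun a _ => ?_
  by_cases hinj : ∀ i j b, i ≠ j → a i = some b → a j = some b → s i ≠ s j
  · by_cases hg : ∃ a' : Fin N → ι, (a = fun i => some (a' i)) ∧ Good core fun i => (a' i, s i)
    · rw [show g a = q a from if_pos hg, sub_self, mul_zero, add_zero]
      exact mul_le_mul_of_nonneg_right (sum_ene_ge hN hlam hη s a hinj) (hq0 a)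
    · rw [show g a = 0 from if_neg hg, sub_zero, ← add_mul]
      exact mul_le_mul_of_nonneg_right
        (sum_ene_ge_of_bad hN hlam hη s a hinj fun a' e hg' => hg ⟨a', e, hg'⟩) (hq0 a)
  · push Not at hinj
    obtain ⟨i, j, b, hij, hi, hj, hs⟩ := hinj
    have e1 : Q a = 0 := hQ3 a i j (by
      rw [hi, hj]
      exact Subtype.ext (prj_anti hu.cc (ho.c1 b).cc hij (ha i j hij hs)))
    have e2 : q a = 0 := by rw [hq]; simp [e1]
    have e3 : g a = 0 := by simp [g, e2]
    rw [e2, e3]
    simp

end Crest.Agent.R338
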