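import Crest.Agent.R338.MProd
import Crest.Agent.R338.MAbs

/-! Row 338, module M: the projections `prj` and the lower bound for `∑_i h_i`. -/

set_option autoImplicit false

open MeasureTheory Crest.MathPhysics.ElectronicCoulomb Function

namespace Crest.Agent.R338

variable {N : ℕ} {ι : Type} [Fintype ι] [DecidableEq ι] {χ : ι → Pos3 → ℝ}

theorem CC.prj {u : XN N → ℝ} (h : CC u) {f : Pos3 → ℝ} (hf : CC f) (i : Fin N) :
    CC (prj f i u) := h.slice_integral hf hf.1 i

theorem mp1_prj_update (f : Pos3 → ℝ) (i : Fin N) (u : XN N → ℝ) (x : XN N) (y : Pos3) :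
    prj f i u (update x i y) = f y * ∫ z, f z * u (update x i z) := by
  simp only [prj, update_self, update_idem]

/-- Fubini for two different electrons -/
theorem mp1_swap {u : XN N → ℝ} (hu : CC u) {f g : Pos3 → ℝ} (hf : CC f) (hg : CC g) (i j : Fin N)
    (x : XN N) :
    ∫ y, ∫ z, f y * g z * u (update (update x i y) j z) =
      ∫ z, ∫ y, f y * g z * u (update (update x i y) j z) := by
  have h1 : CC fun p : Pos3 × Pos3 => f p.1 * g p.2 := by
    refine ⟨(hf.1.comp continuous_fst).mul (hg.1.comp continuous_snd), ?_⟩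
    refine HasCompactSupport.intro (IsCompact.prod hf.2 hg.2) fun p hp => ?_
    by_cases h : p.1 ∈ tsupport f
    · have : p.2 ∉ tsupport g := fun h' => hp ⟨h, h'⟩
      rw [image_eq_zero_of_notMem_tsupport this, mul_zero]
    · rw [image_eq_zero_of_notMem_tsupport h, zero_mul]
  have h0 : Continuous fun p : Pos3 × Pos3 => (update x i p.1 : XN N) :=
    Continuous.update (A := fun _ : Fin N => Pos3) continuous_const i continuous_fst
  have h0' : Continuous fun p : Pos3 × Pos3 => (update (update x i p.1) j p.2 : XN N) :=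
    Continuous.update (A := fun _ : Fin N => Pos3) h0 j continuous_snd
  have h2 : Continuous fun p : Pos3 × Pos3 => u (update (update x i p.1) j p.2) := hu.1.comp h0'
  have h3 := (h1.mul_right h2).integrable
  rw [Measure.volume_eq_prod] at h3
  exact integral_integral_swap (f := fun y z => f y * g z * u (update (update x i y) j z)) h3

theorem mp1_prj_prj_ne (u : XN N → ℝ) (f g : Pos3 → ℝ) {i j : Fin N} (hij : i ≠ j) (x : XN N) :
    prj f i (prj g j u) x =
      f (x i) * g (x j) * ∫ y, ∫ z, f y * g z * u (update (update x i y) j z) := by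
  simp only [prj, update_of_ne hij.symm]
  rw [mul_assoc, ← integral_const_mul (g (x j))]
  congr 1
  refine integral_congr_ae (Filter.Eventually.of_forall fun y => ?_)
  simp only [mul_assoc, integral_const_mul]
  ring

/-- Both sides have the slice integral `(∫ f u) * (∫ f w)`. -/
theorem prj_symm {u w : XN N → ℝ} (hu : CC u) (hw : CC w) {f : Pos3 → ℝ} (hf : CC f) (i : Fin N) :
    ∫ x, prj f i u x * w x = ∫ x, u x * prj f i w x := by
  refine integral_eq_of_slice i ((hu.prj hf i).mul hw).integrable (hu.mul (hw.prj hf i)).integrable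
    fun x => ?_
  simp only [mp1_prj_update]
  have e1 : ∀ y, f y * (∫ z, f z * u (update x i z)) * w (update x i y) =
      (∫ z, f z * u (update x i z)) * (f y * w (update x i y)) := fun y => by ring
  have e2 : ∀ y, u (update x i y) * (f y * ∫ z, f z * w (update x i z)) =
      (f y * u (update x i y)) * ∫ z, f z * w (update x i z) := fun y => by ring
  simp only [e1, e2, integral_const_mul, integral_mul_const]

theorem prj_prj (u : XN N → ℝ) (f g : Pos3 → ℝ) (i : Fin N) (x : XN N) :
    prj f i (prj g i u) x =
      (∫ y, f y * g y) * (f (x i) * ∫ y, g y * u (update x i y)) := by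
  have e : ∀ y, f y * prj g i u (update x i y) =
      (f y * g y) * ∫ z, g z * u (update x i z) := fun y => by rw [mp1_prj_update]; ring
  have : prj f i (prj g i u) x = f (x i) * ∫ y, f y * prj g i u (update x i y) := rfl
  rw [this]
  simp only [e, integral_mul_const]
  ring

/-- Fubini (`integral_integral_swap`) for a continuous compactly supported function of `(y, z)`. -/
theorem prj_comm {u : XN N → ℝ} (hu : CC u) {f g : Pos3 → ℝ} (hf : CC f) (hg : CC g) {i j : Fin N}
    (hij : i ≠ j) : prj f i (prj g j u) = prj g j (prj f i u) := by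
  funext x
  rw [mp1_prj_prj_ne u f g hij, mp1_prj_prj_ne u g f hij.symm, mp1_swap hu hf hg i j x,
    mul_comm (g (x j))]
  congr 1
  refine integral_congr_ae (Filter.Eventually.of_forall fun z => ?_)
  refine integral_congr_ae (Filter.Eventually.of_forall fun y => ?_)
  simp only [update_comm hij y z x, mul_comm (f y) (g z)]

/-- The double integral `∫∫ f y f z u (x[i ↦ y, j ↦ z])` equals its negative. -/
theorem prj_anti {u : XN N → ℝ} (hu : CC u) {f : Pos3 → ℝ} (hf : CC f) {i j : Fin N} (hij : i ≠ j)
    (ha : ∀ x : XN N, u (fun l => x (Equiv.swap i j l)) = -u x) : prj f i (prj f j u) = 0 := by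
  funext x
  rw [mp1_prj_prj_ne u f f hij]
  have e : ∀ y z, u (update (update x i y) j z) = -u (update (update x i z) j y) := by
    intro y z
    rw [← ha (update (update x i z) j y)]
    congr 1
    funext l
    by_cases h1 : l = i
    · subst h1
      simp [update_of_ne hij]
    by_cases h2 : l = j
    · subst h2
      simp [update_of_ne hij]
    · simp [Equiv.swap_apply_of_ne_of_ne h1 h2, update_of_ne h1, update_of_ne h2]
  have h1 := mp1_swap hu hf hf i j x
  have h2 : ∫ z, ∫ y, f y * f z * u (update (update x i y) j z) =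
      -∫ z, ∫ y, f z * f y * u (update (update x i z) j y) := by
    rw [← integral_neg]
    refine integral_congr_ae (Filter.Eventually.of_forall fun z => ?_)
    dsimp only
    rw [← integral_neg]
    refine integral_congr_ae (Filter.Eventually.of_forall fun y => ?_)
    dsimp only
    rw [e y z]
    ring
  have h3 : ∫ y, ∫ z, f y * f z * u (update (update x i y) j z) = 0 := by linarith
  rw [h3, mul_zero]
  rfl

theorem Orb.prj_pr (h : Orb χ) (a : Fin N → ι) (i : Fin N) : prj (χ (a i)) i (pr χ a) = pr χ a := by
  funext x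
  have e : ∀ y, pr χ a (update x i y) =
      χ (a i) y * ∏ l ∈ Finset.univ.erase i, χ (a l) (x l) := by
    intro y
    unfold pr
    rw [← Finset.mul_prod_erase Finset.univ _ (Finset.mem_univ i), update_self]
    congr 1
    refine Finset.prod_congr rfl fun l hl => ?_
    rw [update_of_ne (Finset.ne_of_mem_erase hl)]
  have h1 := h.on (a i) (a i)
  rw [if_pos rfl] at h1
  have h2 := e (x i)
  rw [update_eq_self] at h2
  simp only [prj, e, ← mul_assoc, integral_mul_const]
  rw [h1, h2, mul_one]

/-- From `prj u = u`: `u (update x i y) * χ (x i) = u x * χ y`; by induction over a finset `S`,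
`u (S.piecewise x' x) * ∏_{i ∈ S} χ (x i) = u x * ∏_{i ∈ S} χ (x' i)`; multiply by `pr χ a x'`
and integrate over `x'`. -/
theorem Orb.eq_smul_pr (h : Orb χ) (a : Fin N → ι) {u : XN N → ℝ}
    (hu : ∀ i, prj (χ (a i)) i u = u) (x : XN N) :
    u x = (∫ z, pr χ a z * u z) * pr χ a x := by
  have step : ∀ (i : Fin N) (w : XN N) (y : Pos3),
      u (update w i y) * χ (a i) (w i) = u w * χ (a i) y := by
    intro i w y
    have h1 : u (update w i y) = χ (a i) y * ∫ z, χ (a i) z * u (update w i z) := by
      rw [← mp1_prj_update, hu i]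
    have h2 : u w = χ (a i) (w i) * ∫ z, χ (a i) z * u (update w i z) :=
      (congrFun (hu i) w).symm
    rw [h1, h2]
    ring
  have key : ∀ (x' : XN N) (S : Finset (Fin N)),
      u (S.piecewise x' x) * ∏ i ∈ S, χ (a i) (x i) = u x * ∏ i ∈ S, χ (a i) (x' i) := by
    intro x' S
    induction S using Finset.induction_on with
    | empty => simp
    | insert j S hj ih =>
      rw [Finset.prod_insert hj, Finset.prod_insert hj, Finset.piecewise_insert]
      have h1 := step j (S.piecewise x' x) (x' j)
      rw [Finset.piecewise_eq_of_notMem _ _ _ hj] at h1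
      rw [← mul_assoc, h1, mul_right_comm, ih]
      ring
  have key2 : ∀ x' : XN N, pr χ a x' * u x' * pr χ a x = u x * (pr χ a x' * pr χ a x') := by
    intro x'
    have h1 := key x' Finset.univ
    rw [Finset.piecewise_univ] at h1
    have h2 : u x' * pr χ a x = u x * pr χ a x' := h1
    rw [mul_assoc, h2]
    ring
  have h1 := h.pr_on a a
  rw [if_pos rfl] at h1
  rw [← integral_mul_const]
  simp only [key2, integral_const_mul]
  rw [h1, mul_one]

variable {core : ι → Prop} [DecidablePred core] {V : Pos3 → ℝ} {E lam η : ℝ}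

/-- `OB.lb` on the slices in `x i` (`integral_le_of_slice`, `pd_slice`). -/
theorem OB.lift (h : OB χ core V E lam η) (hV : ∀ f, CC f → Integrable fun y => V y * f y)
    (hVX : ∀ (u : XN N → ℝ) (i : Fin N), CC u → Integrable fun x => V (x i) * u x)
    {u : XN N → ℝ} (hu : C1 u) (i : Fin N) :
    ∑ a, ene core E lam η (some a) * (∫ x, prj (χ a) i u x ^ 2) +
        ene core E lam η none * ((∫ x, u x ^ 2) - ∑ a, ∫ x, prj (χ a) i u x ^ 2) ≤
      (1 / 2) * (∑ k, ∫ x, dX u i k x ^ 2) - ∫ x, V (x i) * u x ^ 2 := by
  have ho := h.orb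
  have hP : ∀ a, CC fun x => prj (χ a) i u x ^ 2 := fun a => (hu.cc.prj (ho.c1 a).cc i).sq
  have hU : CC fun x => u x ^ 2 := hu.cc.sq
  have hD : ∀ k, CC fun x => dX u i k x ^ 2 := fun k => (hu.dX i k).sq
  have iP : ∀ a, Integrable fun x => prj (χ a) i u x ^ 2 := fun a => (hP a).integrable
  have iD : ∀ k, Integrable fun x => dX u i k x ^ 2 := fun k => (hD k).integrable
  have iA : Integrable fun x => ∑ a, ene core E lam η (some a) * prj (χ a) i u x ^ 2 :=
    integrable_finsetSum _ fun a _ => (iP a).const_mul _
  have iS : Integrable fun x => ∑ a, prj (χ a) i u x ^ 2 := integrable_finsetSum _ fun a _ => iP a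
  have iB : Integrable fun x => u x ^ 2 - ∑ a, prj (χ a) i u x ^ 2 := hU.integrable.sub iS
  have iK : Integrable fun x => ∑ k, dX u i k x ^ 2 := integrable_finsetSum _ fun k _ => iD k
  have iV := hVX _ i hU
  have eL : ∫ x, ((∑ a, ene core E lam η (some a) * prj (χ a) i u x ^ 2) +
      ene core E lam η none * (u x ^ 2 - ∑ a, prj (χ a) i u x ^ 2)) =
      ∑ a, ene core E lam η (some a) * (∫ x, prj (χ a) i u x ^ 2) +
        ene core E lam η none * ((∫ x, u x ^ 2) - ∑ a, ∫ x, prj (χ a) i u x ^ 2) := by
    rw [integral_add iA (iB.const_mul _), integral_const_mul, integral_sub hU.integrable iS,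
      integral_finsetSum _ fun a _ => iP a, integral_finsetSum _ fun a _ => (iP a).const_mul _]
    simp only [integral_const_mul]
  have eR : ∫ x, ((1 / 2) * (∑ k, dX u i k x ^ 2) - V (x i) * u x ^ 2) =
      (1 / 2) * (∑ k, ∫ x, dX u i k x ^ 2) - ∫ x, V (x i) * u x ^ 2 := by
    rw [integral_sub (iK.const_mul _) iV, integral_const_mul, integral_finsetSum _ fun k _ => iD k]
  rw [← eL, ← eR]
  refine integral_le_of_slice i (iA.add (iB.const_mul _)) ((iK.const_mul _).sub iV) fun x => ?_
  have hs := hu.slice x i
  have lb := h.lb _ hs.1 hs.2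
  have jP : ∀ a, Integrable fun y => prj (χ a) i u (update x i y) ^ 2 :=
    fun a => ((hP a).slice x i).integrable
  have jD : ∀ k, Integrable fun y => dX u i k (update x i y) ^ 2 :=
    fun k => ((hD k).slice x i).integrable
  have jU : Integrable fun y => u (update x i y) ^ 2 := (hU.slice x i).integrable
  have jA : Integrable fun y => ∑ a, ene core E lam η (some a) * prj (χ a) i u (update x i y) ^ 2 :=
    integrable_finsetSum _ fun a _ => (jP a).const_mul _
  have jS : Integrable fun y => ∑ a, prj (χ a) i u (update x i y) ^ 2 :=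
    integrable_finsetSum _ fun a _ => jP a
  have jK : Integrable fun y => ∑ k, dX u i k (update x i y) ^ 2 :=
    integrable_finsetSum _ fun k _ => jD k
  have jV : Integrable fun y => V y * u (update x i y) ^ 2 := hV _ (hU.slice x i)
  have eP : ∀ a, ∫ y, prj (χ a) i u (update x i y) ^ 2 = (∫ y, χ a y * u (update x i y)) ^ 2 := by
    intro a
    have h1 := h.on a a
    rw [if_pos rfl] at h1
    have e : ∀ y, prj (χ a) i u (update x i y) ^ 2 =
        (χ a y * χ a y) * (∫ z, χ a z * u (update x i z)) ^ 2 := fun y => by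
      rw [mp1_prj_update]; ring
    simp only [e, integral_mul_const]
    rw [h1, one_mul]
  have jB : Integrable fun y => u (update x i y) ^ 2 - ∑ a, prj (χ a) i u (update x i y) ^ 2 :=
    jU.sub jS
  simp only [update_self]
  rw [integral_add jA (jB.const_mul _), integral_const_mul, integral_sub jU jS,
    integral_finsetSum _ fun a _ => jP a, integral_finsetSum _ fun a _ => (jP a).const_mul _,
    integral_sub (jK.const_mul _) jV, integral_const_mul, integral_finsetSum _ fun k _ => jD k]
  simp only [integral_const_mul, eP]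
  refine le_trans (le_of_eq ?_) (lb.trans (le_of_eq ?_))
  · rfl
  · unfold qf
    simp only [pd_slice hu, sq]

end Crest.Agent.R338
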