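import Crest.Agent.R338.MSlice

/-! Row 338, module M: reduction to smooth fermionic waves and to real parts. -/

set_option autoImplicit false

open MeasureTheory Crest.MathPhysics.ElectronicCoulomb Function

namespace Crest.Agent.R338

variable {N : ℕ}

/-- `C¹_c` complex functions. -/
def C1c (g : Config N → ℂ) : Prop := ContDiff ℝ 1 g ∧ HasCompactSupport g

/-- The relabelling of the index set. -/
def mr1_e (σ : Equiv.Perm (Fin N)) : Fin N × Fin 3 ≃ Fin N × Fin 3 :=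
  (Equiv.prodCongr σ (Equiv.refl _)).symm

/-- `permConfig` as a linear isometry. -/
noncomputable def mr1_P (σ : Equiv.Perm (Fin N)) : Config N ≃ₗᵢ[ℝ] Config N :=
  LinearIsometryEquiv.piLpCongrLeft 2 ℝ ℝ (mr1_e σ)

theorem mr1_P_apply (σ : Equiv.Perm (Fin N)) (x : Config N) : mr1_P σ x = permConfig σ x := rfl

theorem mr1_P_single (σ : Equiv.Perm (Fin N)) (k : Fin N × Fin 3) :
    mr1_P σ (EuclideanSpace.single k 1) = EuclideanSpace.single (mr1_e σ k) 1 :=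
  EuclideanSpace.piLpCongrLeft_single _ _ _

/-- Relabelling of spins. -/
def mr1_s (σ : Equiv.Perm (Fin N)) : Spin N ≃ Spin N := Equiv.arrowCongr σ.symm (Equiv.refl _)

theorem mr1_s_apply (σ : Equiv.Perm (Fin N)) (s : Spin N) : mr1_s σ s = fun i => s (σ i) := rfl

theorem mr1_norm_sign (σ : Equiv.Perm (Fin N)) : ‖((Equiv.Perm.sign σ : ℤ) : ℂ)‖ = 1 := by
  rcases Int.units_eq_one_or (Equiv.Perm.sign σ) with h | h <;> simp [h]

theorem mr1_sign_sq (σ : Equiv.Perm (Fin N)) :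
    ((Equiv.Perm.sign σ : ℤ) : ℂ) * ((Equiv.Perm.sign σ : ℤ) : ℂ) = 1 := by
  rcases Int.units_eq_one_or (Equiv.Perm.sign σ) with h | h <;> simp [h]

theorem mr1_avg {S : Type} [Fintype S] (e : Equiv.Perm (Fin N) → S ≃ S) {h : S → Config N → ℂ}
    (hh : ∀ a, MemLp (h a) 2 volume) :
    ∑ a, ∫ x, ‖(Fintype.card (Equiv.Perm (Fin N)) : ℂ)⁻¹ *
        ∑ σ : Equiv.Perm (Fin N), ((Equiv.Perm.sign σ : ℤ) : ℂ) * h (e σ a) (mr1_P σ x)‖ ^ 2 ≤
      ∑ a, ∫ x, ‖h a x‖ ^ 2 := by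
  set c : ℝ := (Fintype.card (Equiv.Perm (Fin N)) : ℝ) with hc
  have hc0 : 0 < c := by
    rw [hc]
    exact_mod_cast Fintype.card_pos
  have hi : ∀ a σ, Integrable fun x => ‖h a (mr1_P σ x)‖ ^ 2 := fun a σ =>
    (integrable_comp (mr1_P σ) (fun x => ‖h a x‖ ^ 2)).2 ((hh a).integrable_norm_pow (by norm_num))
  calc ∑ a, ∫ x, ‖(Fintype.card (Equiv.Perm (Fin N)) : ℂ)⁻¹ *
        ∑ σ : Equiv.Perm (Fin N), ((Equiv.Perm.sign σ : ℤ) : ℂ) * h (e σ a) (mr1_P σ x)‖ ^ 2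
      ≤ ∑ a, ∫ x, c⁻¹ * ∑ σ : Equiv.Perm (Fin N), ‖h (e σ a) (mr1_P σ x)‖ ^ 2 := by
        refine Finset.sum_le_sum fun a _ => integral_mono_of_nonneg
          (Filter.Eventually.of_forall fun x => by positivity)
          ((integrable_finsetSum _ fun σ _ => hi _ σ).const_mul _)
          (Filter.Eventually.of_forall fun x => ?_)
        have h1 : ‖∑ σ : Equiv.Perm (Fin N), ((Equiv.Perm.sign σ : ℤ) : ℂ) * h (e σ a) (mr1_P σ x)‖
            ≤ ∑ σ : Equiv.Perm (Fin N), ‖h (e σ a) (mr1_P σ x)‖ := by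
          refine (norm_sum_le _ _).trans (le_of_eq (Finset.sum_congr rfl fun σ _ => ?_))
          rw [norm_mul, mr1_norm_sign, one_mul]
        have h2 := (pow_le_pow_left₀ (norm_nonneg _) h1 2).trans sq_sum_le_card_mul_sum_sq
        rw [Finset.card_univ, ← hc] at h2
        simp only
        rw [norm_mul, norm_inv, Complex.norm_natCast, ← hc, mul_pow]
        calc c⁻¹ ^ 2 * _ ≤ c⁻¹ ^ 2 * (c * ∑ σ : Equiv.Perm (Fin N), ‖h (e σ a) (mr1_P σ x)‖ ^ 2) :=
              mul_le_mul_of_nonneg_left h2 (by positivity)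
          _ = _ := by field_simp
    _ = c⁻¹ * ∑ σ : Equiv.Perm (Fin N), ∑ a, ∫ x, ‖h (e σ a) x‖ ^ 2 := by
        rw [Finset.sum_comm, Finset.mul_sum]
        refine Finset.sum_congr rfl fun a _ => ?_
        rw [integral_const_mul, integral_finsetSum _ fun σ _ => hi _ σ]
        congr 1
        exact Finset.sum_congr rfl fun σ _ =>
          integral_comp (mr1_P σ) (fun x => ‖h (e σ a) x‖ ^ 2)
    _ = ∑ a, ∫ x, ‖h a x‖ ^ 2 := by
        have : ∀ σ, ∑ a, ∫ x, ‖h (e σ a) x‖ ^ 2 = ∑ a, ∫ x, ‖h a x‖ ^ 2 := fun σ =>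
          Equiv.sum_comp (e σ) (fun a => ∫ x, ‖h a x‖ ^ 2)
        simp only [this, Finset.sum_const, Finset.card_univ, nsmul_eq_mul, ← hc]
        field_simp

theorem mr1_c1c_sum {κ : Type} (s : Finset κ) {f : κ → Config N → ℂ} (h : ∀ a, C1c (f a)) :
    C1c fun x => ∑ a ∈ s, f a x := by
  classical
  refine ⟨ContDiff.sum fun a _ => (h a).1, ?_⟩
  induction s using Finset.induction_on with
  | empty => exact HasCompactSupport.zero
  | insert a s ha ih =>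
    simp only [Finset.sum_insert ha]
    exact (h a).2.add ih

theorem mr1_c1c_mul (c : ℂ) {f : Config N → ℂ} (h : C1c f) : C1c fun x => c * f x :=
  ⟨contDiff_const.mul h.1, h.2.mul_left (f := fun _ => c)⟩

theorem mr1_c1c_comp (σ : Equiv.Perm (Fin N)) {f : Config N → ℂ} (h : C1c f) :
    C1c fun x => f (mr1_P σ x) :=
  ⟨h.1.comp (mr1_P σ).contDiff, h.2.comp_homeomorph (mr1_P σ).toHomeomorph⟩

theorem mr1_memLp {f : Config N → ℂ} (h : C1c f) : MemLp f 2 volume :=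
  h.1.continuous.memLp_of_hasCompactSupport h.2

theorem mr1_memLp_pd {f : Config N → ℂ} (h : C1c f) (k : Fin N × Fin 3) :
    MemLp (fun x => fderiv ℝ f x (EuclideanSpace.single k 1)) 2 volume :=
  (ContinuousLinearMap.apply ℝ ℂ (EuclideanSpace.single k (1 : ℝ) : Config N)).comp_memLp'
    ((h.1.continuous_fderiv (by norm_num)).memLp_of_hasCompactSupport (h.2.fderiv ℝ))

/-- Approximate every component (`exists_c1_approx`) and antisymmetrise:
`(A g) s x = (N!)⁻¹ ∑ σ, sign σ * g (s ∘ σ) (permConfig σ x)`.  `A Ψ = Ψ`; by convexity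
(`‖n⁻¹ ∑ z‖² ≤ n⁻¹ ∑ ‖z‖²`) and invariance of the volume under the linear isometry `permConfig σ`,
`A` does not increase `∑ s, ∫ ‖·‖²` nor `∑ s, kin`. -/
theorem exists_fermi_approx {Ψ : Wave N} (hf : IsFermionic Ψ) (hk : kinetic Ψ < ⊤) {δ : ℝ}
    (hδ : 0 < δ) : ∃ g : Wave N, (∀ s, C1c (g s)) ∧ IsFermionic g ∧
      ∑ s, ∫ x, ‖g s x - Ψ s x‖ ^ 2 ≤ δ ∧ ∑ s, kin (g s) ≤ (kinetic Ψ).toReal + δ := by
  have hcS : (0 : ℝ) < Fintype.card (Spin N) := by exact_mod_cast Fintype.card_pos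
  have hk1 : ∀ s, kineticOne (Ψ s) < ⊤ := fun s =>
    lt_of_le_of_lt (Finset.single_le_sum (f := fun s => kineticOne (Ψ s)) (fun _ _ => bot_le)
      (Finset.mem_univ s)) hk
  choose g0 hg1 hg2 hg3 hg4 using fun s => exists_c1_approx (hf.1 s) (hk1 s) (div_pos hδ hcS)
  have hg : ∀ s, C1c (g0 s) := fun s => ⟨hg1 s, hg2 s⟩
  have hc0 : (Fintype.card (Equiv.Perm (Fin N)) : ℂ) ≠ 0 := by exact_mod_cast Fintype.card_ne_zero
  have hC : ∀ s, C1c fun x => (Fintype.card (Equiv.Perm (Fin N)) : ℂ)⁻¹ *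
      ∑ σ : Equiv.Perm (Fin N), ((Equiv.Perm.sign σ : ℤ) : ℂ) * g0 (mr1_s σ s) (mr1_P σ x) :=
    fun s => mr1_c1c_mul _ (mr1_c1c_sum _ fun σ => mr1_c1c_mul _ (mr1_c1c_comp σ (hg _)))
  have hsum : ∑ _s : Spin N, δ / Fintype.card (Spin N) = δ := by
    rw [Finset.sum_const, Finset.card_univ, nsmul_eq_mul]
    field_simp
  refine ⟨fun s x => (Fintype.card (Equiv.Perm (Fin N)) : ℂ)⁻¹ *
      ∑ σ : Equiv.Perm (Fin N), ((Equiv.Perm.sign σ : ℤ) : ℂ) * g0 (mr1_s σ s) (mr1_P σ x),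
    hC, ⟨fun s => mr1_memLp (hC s), fun τ s x => ?_⟩, ?_, ?_⟩
  · simp only
    rw [mul_left_comm, ← Equiv.sum_comp (Equiv.mulLeft τ) (fun σ : Equiv.Perm (Fin N) =>
      ((Equiv.Perm.sign σ : ℤ) : ℂ) * g0 (mr1_s σ s) (mr1_P σ x))]
    congr 1
    rw [Finset.mul_sum]
    refine Finset.sum_congr rfl fun σ _ => ?_
    simp only [Equiv.coe_mulLeft, Equiv.Perm.sign_mul, Units.val_mul, Int.cast_mul]
    rw [← mul_assoc, ← mul_assoc, mr1_sign_sq, one_mul]
    rfl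
  · have h1 := mr1_avg mr1_s (h := fun s x => g0 s x - Ψ s x)
      (fun s => (mr1_memLp (hg s)).sub (hf.1 s))
    refine le_trans (le_of_eq ?_) (h1.trans ((Finset.sum_le_sum fun s _ => hg3 s).trans hsum.le))
    refine Finset.sum_congr rfl fun s _ => integral_congr_ae
      (Filter.Eventually.of_forall fun x => ?_)
    have e : ∀ σ : Equiv.Perm (Fin N),
        ((Equiv.Perm.sign σ : ℤ) : ℂ) * Ψ (mr1_s σ s) (mr1_P σ x) = Ψ s x := fun σ => by
      rw [mr1_s_apply, mr1_P_apply, hf.2, ← mul_assoc, mr1_sign_sq, one_mul]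
    simp only [mul_sub, Finset.sum_sub_distrib, e, Finset.sum_const, Finset.card_univ, nsmul_eq_mul]
    rw [inv_mul_cancel_left₀ hc0]
  · have h1 := mr1_avg (fun σ => (mr1_s σ).prodCongr (mr1_e σ))
      (h := fun a x => fderiv ℝ (g0 a.1) x (EuclideanSpace.single a.2 1))
      (fun a => mr1_memLp_pd (hg a.1) a.2)
    rw [Fintype.sum_prod_type, Fintype.sum_prod_type] at h1
    have h2 : ∑ s, kin (g0 s) ≤ (kinetic Ψ).toReal + δ := by
      refine (Finset.sum_le_sum fun s _ => hg4 s).trans (le_of_eq ?_)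
      rw [Finset.sum_add_distrib, hsum, kinetic, ENNReal.toReal_sum fun s _ => (hk1 s).ne]
    refine le_trans ?_ h2
    simp only [kin]
    rw [← Finset.mul_sum, ← Finset.mul_sum]
    refine mul_le_mul_of_nonneg_left (le_trans (le_of_eq ?_) h1) (by norm_num)
    refine Finset.sum_congr rfl fun s _ => Finset.sum_congr rfl fun k _ => integral_congr_ae
      (Filter.Eventually.of_forall fun x => ?_)
    have hd : HasFDerivAt (fun x => (Fintype.card (Equiv.Perm (Fin N)) : ℂ)⁻¹ *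
        ∑ σ : Equiv.Perm (Fin N), ((Equiv.Perm.sign σ : ℤ) : ℂ) * g0 (mr1_s σ s) (mr1_P σ x))
        ((Fintype.card (Equiv.Perm (Fin N)) : ℂ)⁻¹ • ∑ σ : Equiv.Perm (Fin N),
          ((Equiv.Perm.sign σ : ℤ) : ℂ) • (fderiv ℝ (g0 (mr1_s σ s)) (mr1_P σ x)).comp
            ((mr1_P σ).toContinuousLinearEquiv : Config N →L[ℝ] Config N)) x := by
      refine HasFDerivAt.const_mul (HasFDerivAt.fun_sum fun σ _ => HasFDerivAt.const_mul ?_ _) _
      exact ((hg1 _).differentiable (by norm_num) _).hasFDerivAt.comp x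
        (mr1_P σ).toContinuousLinearEquiv.hasFDerivAt
    simp only
    rw [hd.fderiv]
    simp [mr1_P_single]

theorem mr1_sq_sub {t : ℝ} (ht : 0 < t) (a b : ℂ) :
    |‖a‖ ^ 2 - ‖b‖ ^ 2| ≤ t * ‖b‖ ^ 2 + (1 + 1 / t) * ‖a - b‖ ^ 2 := by
  have h1 := abs_norm_sub_norm_le a b
  have h2 : |‖a‖ ^ 2 - ‖b‖ ^ 2| ≤ ‖a - b‖ * (2 * ‖b‖ + ‖a - b‖) := by
    rw [sq_sub_sq, abs_mul, mul_comm]
    refine mul_le_mul h1 ?_ (abs_nonneg _) (norm_nonneg _)
    rw [abs_of_nonneg (by positivity)]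
    linarith [(abs_le.1 h1).2]
  have h3 : 0 ≤ 1 / t * (t * ‖b‖ - ‖a - b‖) ^ 2 := by positivity
  have h4 : 1 / t * (t * ‖b‖ - ‖a - b‖) ^ 2 =
      t * ‖b‖ ^ 2 + 1 / t * ‖a - b‖ ^ 2 - 2 * ‖b‖ * ‖a - b‖ := by
    field_simp
    ring
  nlinarith

theorem mr1_normSq {Ψ : Wave N} (hf : IsFermionic Ψ) (h : normSq Ψ = 1) :
    ∑ s, ∫ x, ‖Ψ s x‖ ^ 2 = 1 := by
  unfold normSq at h
  simp only [fa_lint_eq (hf.1 _)] at h
  rw [← ENNReal.ofReal_sum_of_nonneg fun s _ => integral_nonneg fun x => by positivity] at h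
  exact ENNReal.ofReal_eq_one.1 h

/-- For a bounded potential the potential energy is continuous in `L²`:
`|‖g‖² - ‖Ψ‖²| ≤ t ‖Ψ‖² + (1 + 1 / t) ‖g - Ψ‖²`. -/
theorem red_bounded {W : Config N → ℝ} (hW : Measurable W) {C : ℝ} (hC : ∀ x, |W x| ≤ C) {b : ℝ}
    (h : ∀ g : Wave N, (∀ s, C1c (g s)) → IsFermionic g →
      b * ∑ s, ∫ x, ‖g s x‖ ^ 2 ≤ ∑ s, (kin (g s) + ∫ x, W x * ‖g s x‖ ^ 2)) :
    InfEnergyGE W b := by
  intro Ψ hΨ hn
  obtain ⟨hf, hk, hW1⟩ := hΨ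
  have hn1 := mr1_normSq hf hn
  have hC0 : 0 ≤ C := (abs_nonneg _).trans (hC 0)
  have key : ∀ t : ℝ, 0 < t → b ≤ energy W Ψ + (t ^ 2 + (C + |b|) * (2 * t + t ^ 2)) := by
    intro t ht
    obtain ⟨g, hg, hgf, h1, h2⟩ := exists_fermi_approx hf hk (pow_pos ht 2)
    have h3 := h g hg hgf
    have i1 : ∀ s, Integrable fun x => ‖g s x‖ ^ 2 := fun s =>
      (hgf.1 s).integrable_norm_pow (by norm_num)
    have i2 : ∀ s, Integrable fun x => ‖Ψ s x‖ ^ 2 := fun s =>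
      (hf.1 s).integrable_norm_pow (by norm_num)
    have i3 : ∀ s, Integrable fun x => ‖g s x - Ψ s x‖ ^ 2 := fun s =>
      ((hgf.1 s).sub (hf.1 s)).integrable_norm_pow (by norm_num)
    have i4 : ∀ s, Integrable fun x => W x * ‖g s x‖ ^ 2 := fun s =>
      (i1 s).bdd_mul (c := C) hW.aestronglyMeasurable (Filter.Eventually.of_forall hC)
    have h4 : ∀ s, (∫ x, W x * ‖g s x‖ ^ 2) - b * ∫ x, ‖g s x‖ ^ 2 ≤
        (∫ x, W x * ‖Ψ s x‖ ^ 2) - b * (∫ x, ‖Ψ s x‖ ^ 2) +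
          (C + |b|) * (t * (∫ x, ‖Ψ s x‖ ^ 2) + (1 + 1 / t) * ∫ x, ‖g s x - Ψ s x‖ ^ 2) := by
      intro s
      have j1 : Integrable fun x => W x * ‖g s x‖ ^ 2 - b * ‖g s x‖ ^ 2 :=
        (i4 s).sub ((i1 s).const_mul b)
      have j2 : Integrable fun x => W x * ‖Ψ s x‖ ^ 2 - b * ‖Ψ s x‖ ^ 2 :=
        (hW1 s).sub ((i2 s).const_mul b)
      have j3 : Integrable fun x => t * ‖Ψ s x‖ ^ 2 + (1 + 1 / t) * ‖g s x - Ψ s x‖ ^ 2 :=
        ((i2 s).const_mul t).add ((i3 s).const_mul (1 + 1 / t))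
      have j4 := integral_mono j1 (j2.add (j3.const_mul (C + |b|))) (fun x => by
        have k1 := mr1_sq_sub ht (g s x) (Ψ s x)
        have k2 : |W x - b| ≤ C + |b| := (abs_sub _ _).trans (add_le_add_left (hC x) _)
        have k3 := (le_abs_self ((W x - b) * (‖g s x‖ ^ 2 - ‖Ψ s x‖ ^ 2))).trans
          ((abs_mul _ _).le.trans (mul_le_mul k2 k1 (abs_nonneg _) (by positivity)))
        simp only [Pi.add_apply]
        linarith)
      simp only [Pi.add_apply] at j4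
      rw [integral_sub (i4 s) ((i1 s).const_mul b), integral_add j2 (j3.const_mul (C + |b|)),
        integral_sub (hW1 s) ((i2 s).const_mul b), integral_const_mul, integral_const_mul,
        integral_const_mul, integral_add ((i2 s).const_mul t) ((i3 s).const_mul (1 + 1 / t)),
        integral_const_mul, integral_const_mul] at j4
      exact j4
    have h5 := Finset.sum_le_sum fun s (_ : s ∈ Finset.univ) => h4 s
    simp only [Finset.sum_add_distrib, Finset.sum_sub_distrib, ← Finset.mul_sum, hn1] at h5 h3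
    have h6 : (1 + 1 / t) * ∑ s, ∫ x, ‖g s x - Ψ s x‖ ^ 2 ≤ t + t ^ 2 := by
      refine (mul_le_mul_of_nonneg_left h1 (by positivity)).trans (le_of_eq ?_)
      field_simp
      ring
    have h7 := mul_le_mul_of_nonneg_left h6 (by positivity : 0 ≤ C + |b|)
    unfold energy potentialEnergy
    nlinarith
  have hlim : Filter.Tendsto (fun t : ℝ => energy W Ψ + (t ^ 2 + (C + |b|) * (2 * t + t ^ 2)))
      (nhdsWithin 0 (Set.Ioi 0)) (nhds (energy W Ψ)) := by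
    have hc : Continuous fun t : ℝ => energy W Ψ + (t ^ 2 + (C + |b|) * (2 * t + t ^ 2)) := by
      fun_prop
    simpa using (hc.tendsto 0).mono_left nhdsWithin_le_nhds
  exact ge_of_tendsto hlim (eventually_mem_nhdsWithin.mono fun t ht => key t ht)

/-- Dominated convergence along `L = n + 1`. -/
theorem red_trunc {W : Config N → ℝ} (hW : Measurable W) {b C : ℝ}
    (h : ∀ L : ℝ, 0 < L → InfEnergyGE (fun x => max (min (W x) L) (-L)) (b - C / L)) :
    InfEnergyGE W b := by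
  intro Ψ hΨ hn
  obtain ⟨hf, hk, hW1⟩ := hΨ
  have hm : ∀ (L : ℝ) s, AEStronglyMeasurable
      (fun x => max (min (W x) L) (-L) * ‖Ψ s x‖ ^ 2) volume := fun L s =>
    ((hW.min measurable_const).max measurable_const).aestronglyMeasurable.mul
      ((hf.1 s).1.norm.pow 2)
  have hb : ∀ L : ℝ, 0 < L → ∀ s x,
      ‖max (min (W x) L) (-L) * ‖Ψ s x‖ ^ 2‖ ≤ ‖W x * ‖Ψ s x‖ ^ 2‖ := by
    intro L hL s x
    rw [norm_mul, norm_mul]
    refine mul_le_mul_of_nonneg_right ?_ (norm_nonneg _)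
    simp only [Real.norm_eq_abs]
    refine abs_le.2 ⟨le_max_of_le_left (le_min (neg_abs_le _) ?_), max_le
      ((min_le_left _ _).trans (le_abs_self _)) ?_⟩ <;> linarith [abs_nonneg (W x)]
  have hL : ∀ n : ℕ, (0 : ℝ) < n + 1 := fun n => by positivity
  have h1 : ∀ n : ℕ, b - C / (n + 1) ≤ (kinetic Ψ).toReal +
      ∑ s, ∫ x, max (min (W x) (n + 1)) (-(n + 1)) * ‖Ψ s x‖ ^ 2 := fun n =>
    h _ (hL n) Ψ ⟨hf, hk, fun s => (hW1 s).mono (hm _ s)
      (Filter.Eventually.of_forall (hb _ (hL n) s))⟩ hn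
  have t1 : Filter.Tendsto (fun n : ℕ => b - C / (n + 1)) Filter.atTop (nhds b) := by
    have := (tendsto_const_nhds (x := b)).sub
      ((tendsto_one_div_add_atTop_nhds_zero_nat (𝕜 := ℝ)).const_mul C)
    simpa [div_eq_mul_inv] using this
  have t2 : Filter.Tendsto (fun n : ℕ => (kinetic Ψ).toReal +
      ∑ s, ∫ x, max (min (W x) (n + 1)) (-(n + 1)) * ‖Ψ s x‖ ^ 2) Filter.atTop
      (nhds (energy W Ψ)) := by
    refine tendsto_const_nhds.add (tendsto_finsetSum _ fun s _ => ?_)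
    refine tendsto_integral_of_dominated_convergence (fun x => ‖W x * ‖Ψ s x‖ ^ 2‖)
      (fun n => hm _ s) (hW1 s).norm (fun n => Filter.Eventually.of_forall (hb _ (hL n) s))
      (Filter.Eventually.of_forall fun x => tendsto_const_nhds.congr' ?_)
    filter_upwards [tendsto_natCast_atTop_atTop.eventually_ge_atTop |W x|] with n hn
    have := abs_le.1 hn
    rw [min_eq_left (by linarith), max_eq_left (by linarith)]
  exact le_of_tendsto_of_tendsto' t1 t2 h1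

end Crest.Agent.R338
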