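import Crest.Agent.R338.MSlice1

/-! Row 338, module M: slicing, singular kernels, changes of variables. -/

set_option autoImplicit false

open MeasureTheory Crest.MathPhysics.ElectronicCoulomb Function

namespace Crest.Agent.R338

variable {N : ℕ}

/-! ### singular kernels -/

theorem msl_loc_sq : LocallyIntegrable (fun y : Pos3 => 1 / ‖y‖ ^ 2) volume := by
  refine locallyIntegrable_of_norm_le_rpow (C := 1) (α := 2) (by simp) (by simp; norm_num)
    (Filter.Eventually.of_forall fun y => ?_) (Measurable.aestronglyMeasurable (by fun_prop))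
  rw [Real.rpow_neg (norm_nonneg _), Real.norm_of_nonneg (by positivity)]
  simp

theorem msl_inv_le (r : ℝ) : 1 / r ≤ 1 + 1 / r ^ 2 := by
  have : 1 / r ^ 2 = (1 / r) ^ 2 := by rw [one_div_pow]
  rw [this]
  nlinarith [sq_nonneg (1 / r - 1)]

theorem msl_div_of_sq {X : Type} [MeasurableSpace X] {μ : Measure X} {u r : X → ℝ}
    (hu : Integrable u μ) (hr : Measurable r) (h0 : ∀ x, 0 ≤ r x)
    (h : Integrable (fun x => u x / r x ^ 2) μ) : Integrable (fun x => u x / r x) μ := by
  refine (hu.norm.add h.norm).mono' (hu.1.div₀ hr.aestronglyMeasurable)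
    (Filter.Eventually.of_forall fun x => ?_)
  have h1 := msl_inv_le (r x)
  have h2 := norm_nonneg (u x)
  simp only [Pi.add_apply, norm_div, norm_pow, Real.norm_of_nonneg (h0 x)]
  calc ‖u x‖ / r x = ‖u x‖ * (1 / r x) := by ring
    _ ≤ ‖u x‖ * (1 + 1 / r x ^ 2) := by gcongr
    _ = _ := by ring

theorem msl_unif (r : ℝ) : ∃ A : ENNReal, A ≠ ⊤ ∧ ∀ z : Pos3,
    ∫⁻ y in Metric.closedBall (0 : Pos3) r, ENNReal.ofReal (1 / ‖y - z‖ ^ 2) ≤ A := by
  set F : Pos3 → ENNReal :=
    (Metric.closedBall (0 : Pos3) 1).indicator fun y => ENNReal.ofReal (1 / ‖y‖ ^ 2) with hF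
  have hFm : Measurable F := Measurable.indicator (by fun_prop) measurableSet_closedBall
  have hFt : ∫⁻ y, F y ≠ ⊤ := by
    rw [hF, lintegral_indicator measurableSet_closedBall]
    exact (msl_loc_sq.integrableOn_isCompact (isCompact_closedBall 0 1)).lintegral_lt_top.ne
  refine ⟨volume (Metric.closedBall (0 : Pos3) r) + ∫⁻ y, F y,
    ENNReal.add_ne_top.2 ⟨measure_closedBall_lt_top.ne, hFt⟩, fun z => ?_⟩
  calc ∫⁻ y in Metric.closedBall (0 : Pos3) r, ENNReal.ofReal (1 / ‖y - z‖ ^ 2)
      ≤ ∫⁻ y in Metric.closedBall (0 : Pos3) r, (1 + F (y - z)) := by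
        refine lintegral_mono fun y => ?_
        by_cases hy : y - z ∈ Metric.closedBall (0 : Pos3) 1
        · rw [hF, Set.indicator_of_mem hy]; exact le_add_self
        · refine le_trans ?_ le_self_add
          rw [mem_closedBall_zero_iff, not_le] at hy
          rw [← ENNReal.ofReal_one]
          refine ENNReal.ofReal_le_ofReal ?_
          rw [div_le_one (by positivity)]
          nlinarith
    _ = volume (Metric.closedBall (0 : Pos3) r) +
          ∫⁻ y in Metric.closedBall (0 : Pos3) r, F (y - z) := by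
        rw [lintegral_add_left measurable_const]; simp
    _ ≤ _ := by
        exact add_le_add le_rfl ((setLIntegral_le_lintegral _ _).trans
          (lintegral_sub_right_eq_self (μ := volume) F z).le)

theorem msl_core {u : XN N → ℝ} (h : CC u) (i : Fin N) {k : XN N → Pos3} (hk : Measurable k)
    (hki : ∀ x y, k (update x i y) = k x) : Integrable fun x => u x / ‖x i - k x‖ ^ 2 := by
  obtain ⟨C, hC⟩ := h.1.bounded_above_of_compact_support h.2
  obtain ⟨r, hr0, hr⟩ := h.2.isCompact.isBounded.exists_pos_norm_le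
  obtain ⟨A, hA, hAz⟩ := msl_unif r
  set B : Set Pos3 := Metric.closedBall 0 r with hB
  set S : Set (XN N) := Set.univ.pi fun _ => B with hS
  have hBm : MeasurableSet B := measurableSet_closedBall
  have hSm : MeasurableSet S := MeasurableSet.univ_pi fun _ => hBm
  have hSc : IsCompact S := isCompact_univ_pi fun _ => isCompact_closedBall _ _
  have hB0 : volume B ≠ 0 := (Metric.measure_closedBall_pos volume _ hr0).ne'
  have hBt : volume B ≠ ⊤ := measure_closedBall_lt_top.ne
  have hm : Measurable fun x : XN N => 1 / ‖x i - k x‖ ^ 2 := by fun_prop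
  have key : ∫⁻ x, S.indicator (fun x => ENNReal.ofReal (1 / ‖x i - k x‖ ^ 2)) x ≤
      ∫⁻ x, S.indicator (fun _ => A * (volume B)⁻¹) x := by
    refine lintegral_le_of_lmarginal_le (μ := fun _ => (volume : Measure Pos3)) {i}
      (hm.ennreal_ofReal.indicator hSm) (measurable_const.indicator hSm) ?_
    rw [lmarginal_singleton, lmarginal_singleton]
    intro x
    by_cases hx : ∀ l, l ≠ i → x l ∈ B
    · have e : ∀ y, update x i y ∈ S ↔ y ∈ B := by
        intro y
        refine ⟨fun hy => by simpa using hy i (Set.mem_univ _), fun hy l _ => ?_⟩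
        by_cases hl : l = i
        · subst hl; simpa using hy
        · rw [update_of_ne hl]; exact hx l hl
      have e1 : ∀ y, S.indicator (fun x => ENNReal.ofReal (1 / ‖x i - k x‖ ^ 2)) (update x i y) =
          B.indicator (fun y => ENNReal.ofReal (1 / ‖y - k x‖ ^ 2)) y := by
        intro y
        by_cases hy : y ∈ B
        · rw [Set.indicator_of_mem hy, Set.indicator_of_mem ((e y).2 hy), hki, update_self]
        · rw [Set.indicator_of_notMem hy, Set.indicator_of_notMem fun h => hy ((e y).1 h)]
      have e2 : ∀ y, S.indicator (fun _ => A * (volume B)⁻¹) (update x i y) =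
          B.indicator (fun _ => A * (volume B)⁻¹) y := by
        intro y
        by_cases hy : y ∈ B
        · rw [Set.indicator_of_mem hy, Set.indicator_of_mem ((e y).2 hy)]
        · rw [Set.indicator_of_notMem hy, Set.indicator_of_notMem fun h => hy ((e y).1 h)]
      simp only [e1, e2]
      rw [lintegral_indicator hBm, lintegral_indicator hBm, setLIntegral_const, mul_assoc,
        ENNReal.inv_mul_cancel hB0 hBt, mul_one]
      exact hAz _
    · have e : ∀ y, update x i y ∉ S := by
        intro y hy
        refine hx fun l hl => ?_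
        have := hy l (Set.mem_univ _)
        rwa [update_of_ne hl] at this
      simp only [Set.indicator_of_notMem (e _), le_refl]
  have hI : IntegrableOn (fun x : XN N => 1 / ‖x i - k x‖ ^ 2) S := by
    refine ⟨hm.aestronglyMeasurable, ?_⟩
    rw [hasFiniteIntegral_iff_ofReal (Filter.Eventually.of_forall fun x => by positivity),
      ← lintegral_indicator hSm]
    refine key.trans_lt ?_
    rw [lintegral_indicator hSm, setLIntegral_const]
    exact ENNReal.mul_lt_top (ENNReal.mul_lt_top hA.lt_top (ENNReal.inv_lt_top.2 hB0.bot_lt))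
      hSc.measure_lt_top
  refine (((integrable_indicator_iff hSm).2 hI).const_mul C).mono'
    (Measurable.aestronglyMeasurable (h.1.measurable.div (by fun_prop)))
    (Filter.Eventually.of_forall fun x => ?_)
  by_cases hx : x ∈ S
  · rw [Set.indicator_of_mem hx, norm_div,
      Real.norm_of_nonneg (r := ‖x i - k x‖ ^ 2) (by positivity), mul_one_div]
    gcongr
    exact hC x
  · have hu : u x = 0 := by
      by_contra hu
      refine hx fun l _ => ?_
      exact mem_closedBall_zero_iff.2 ((norm_le_pi_norm x l).trans (hr x (subset_tsupport _ hu)))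
    simp [hu, Set.indicator_of_notMem hx]

theorem msl_div_sq {f : Pos3 → ℝ} (h : CC f) (z : Pos3) :
    Integrable fun y => f y / ‖y - z‖ ^ 2 := by
  have h1 : Continuous fun y => f (y + z) := h.1.comp (by fun_prop)
  have h2 : HasCompactSupport fun y => f (y + z) :=
    h.2.comp_homeomorph (Homeomorph.addRight z)
  have h3 := (msl_loc_sq.integrable_smul_left_of_hasCompactSupport h1 h2).comp_sub_right z
  simpa [div_eq_mul_inv] using h3

/-- `locallyIntegrable_of_norm_le_rpow` (Mathlib/Analysis/SpecialFunctions/Pow/Integral.lean),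
translation, `LocallyIntegrable.integrable_smul_left_of_hasCompactSupport`. -/
theorem CC.integrable_div {f : Pos3 → ℝ} (h : CC f) (z : Pos3) :
    Integrable fun y => f y / ‖y - z‖ := by
  exact msl_div_of_sq h.integrable (by fun_prop) (fun _ => norm_nonneg _) (msl_div_sq h z)
theorem CC.integrable_div_sq {f : Pos3 → ℝ} (h : CC f) (z : Pos3) :
    Integrable fun y => f y / ‖y - z‖ ^ 2 := by
  exact msl_div_sq h z
theorem CC.integrable_Vn {f : Pos3 → ℝ} (h : CC f) {K : ℕ} (R : Fin K → Pos3) :
    Integrable fun y => Vn R y * f y := by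
  simp only [Vn, Finset.sum_mul]
  refine integrable_finsetSum _ fun α _ => ?_
  simpa [div_eq_mul_inv, mul_comm] using h.integrable_div (R α)
/-- Bound `|u| ≤ C ∏ 1_B (x l)` and use `Integrable.fintype_prod` (product of one-variable
functions). -/
theorem CC.integrable_VnX {u : XN N → ℝ} (h : CC u) {K : ℕ} (R : Fin K → Pos3) (i : Fin N) :
    Integrable fun x => Vn R (x i) * u x := by
  simp only [Vn, Finset.sum_mul]
  refine integrable_finsetSum _ fun α _ => ?_
  have h1 := msl_div_of_sq h.integrable (r := fun x : XN N => ‖x i - R α‖) (by fun_prop)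
    (fun _ => norm_nonneg _) (msl_core h i (k := fun _ => R α) measurable_const fun _ _ => rfl)
  simpa [div_eq_mul_inv, mul_comm] using h1
/-- Bound `|u| ≤ C ∏ 1_B (x l)`, `B` a ball of radius `r`; on slices in `x i` the integral is at
most `∫_{B(0,2r)} ‖y‖⁻²`; `lintegral_le_of_lmarginal_le {i}`, `lmarginal_singleton`. -/
theorem CC.integrable_pair_sq {u : XN N → ℝ} (h : CC u) {i j : Fin N} (hij : i ≠ j) :
    Integrable fun x => u x / ‖x i - x j‖ ^ 2 := by
  exact msl_core h i (k := fun x => x j) (measurable_pi_apply j)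
    fun x y => update_of_ne hij.symm _ _
/-- `1 / r ≤ 1 + 1 / r ^ 2`. -/
theorem CC.integrable_pair {u : XN N → ℝ} (h : CC u) {i j : Fin N} (hij : i ≠ j) :
    Integrable fun x => u x / ‖x i - x j‖ := by
  exact msl_div_of_sq h.integrable (by fun_prop) (fun _ => norm_nonneg _)
    (h.integrable_pair_sq hij)
theorem Wrep_nonneg (x : XN N) : 0 ≤ Wrep x := by
  refine Finset.sum_nonneg fun i _ => Finset.sum_nonneg fun j _ => ?_
  split_ifs <;> positivity
theorem Vatt_nonneg {K : ℕ} (R : Fin K → Pos3) (x : XN N) : 0 ≤ Vatt R x := by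
  exact Finset.sum_nonneg fun i _ => Finset.sum_nonneg fun j _ => by positivity
theorem measurable_Wrep : Measurable (Wrep : XN N → ℝ) := by
  refine Finset.measurable_sum _ fun i _ => Finset.measurable_sum _ fun j _ => ?_
  split_ifs
  · fun_prop
  · exact measurable_const
theorem measurable_Vatt {K : ℕ} (R : Fin K → Pos3) : Measurable (Vatt R : XN N → ℝ) := by
  refine Finset.measurable_sum _ fun i _ => Finset.measurable_sum _ fun j _ => ?_
  fun_prop
/-- Cauchy-Schwarz over at most `N ^ 2` pairs. -/
theorem Wrep_sq_le (x : XN N) :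
    Wrep x ^ 2 ≤ (N : ℝ) ^ 2 * ∑ i : Fin N, ∑ j : Fin N, if i < j then 1 / ‖x i - x j‖ ^ 2 else 0 := by
  have h := sq_sum_le_card_mul_sum_sq (s := (Finset.univ : Finset (Fin N × Fin N)))
    (f := fun p => if p.1 < p.2 then 1 / ‖x p.1 - x p.2‖ else 0)
  rw [Fintype.sum_prod_type, Fintype.sum_prod_type] at h
  refine h.trans (le_of_eq ?_)
  congr 1
  · simp [sq]
  · refine Finset.sum_congr rfl fun i _ => Finset.sum_congr rfl fun j _ => ?_
    split_ifs <;> simp
theorem CC.integrable_Wrep {u : XN N → ℝ} (h : CC u) : Integrable fun x => Wrep x * u x := by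
  simp only [Wrep, Finset.sum_mul]
  refine integrable_finsetSum _ fun i _ => integrable_finsetSum _ fun j _ => ?_
  split_ifs with hij
  · simpa [div_eq_mul_inv, mul_comm] using h.integrable_pair hij.ne
  · simp
theorem CC.integrable_Wrep_sq {u : XN N → ℝ} (h : CC u) :
    Integrable fun x => Wrep x ^ 2 * u x := by
  have h1 : Integrable fun x : XN N => (N : ℝ) ^ 2 * ∑ i : Fin N, ∑ j : Fin N,
      if i < j then ‖u x / ‖x i - x j‖ ^ 2‖ else 0 := by
    refine (integrable_finsetSum _ fun i _ => integrable_finsetSum _ fun j _ => ?_).const_mul _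
    split_ifs with hij
    · exact (h.integrable_pair_sq hij.ne).norm
    · simp
  refine h1.mono' ((measurable_Wrep.pow_const 2).mul h.1.measurable).aestronglyMeasurable
    (Filter.Eventually.of_forall fun x => ?_)
  rw [norm_mul, Real.norm_of_nonneg (sq_nonneg _)]
  refine (mul_le_mul_of_nonneg_right (Wrep_sq_le x) (norm_nonneg _)).trans (le_of_eq ?_)
  rw [mul_assoc, Finset.sum_mul]
  congr 1
  refine Finset.sum_congr rfl fun i _ => ?_
  rw [Finset.sum_mul]
  refine Finset.sum_congr rfl fun j _ => ?_
  split_ifs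
  · simp [div_eq_mul_inv, mul_comm]
  · simp
theorem CC.integrable_Vatt {u : XN N → ℝ} (h : CC u) {K : ℕ} (R : Fin K → Pos3) :
    Integrable fun x => Vatt R x * u x := by
  simp only [Vatt, Finset.sum_mul]
  exact integrable_finsetSum _ fun i _ => h.integrable_VnX R i

end Crest.Agent.R338
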