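import Crest.Agent.R338.MDefs

/-! Row 338, module M: slicing, singular kernels, changes of variables. -/

set_option autoImplicit false

open MeasureTheory Crest.MathPhysics.ElectronicCoulomb Function

namespace Crest.Agent.R338

variable {N : ℕ}

/-! ### `CC` and `C1` -/

section
variable {X : Type} [TopologicalSpace X] {u w : X → ℝ}
theorem CC.mul_left (h : CC u) (hw : Continuous w) : CC fun x => w x * u x := by
  exact ⟨hw.mul h.1, h.2.mul_left⟩
theorem CC.mul_right (h : CC u) (hw : Continuous w) : CC fun x => u x * w x := by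
  exact ⟨h.1.mul hw, h.2.mul_right⟩
theorem CC.mul (h : CC u) (hw : CC w) : CC fun x => u x * w x := h.mul_right hw.1
theorem CC.sq (h : CC u) : CC fun x => u x ^ 2 := by
  simpa only [pow_two] using h.mul h
theorem CC.add (h : CC u) (hw : CC w) : CC fun x => u x + w x := by
  exact ⟨h.1.add hw.1, h.2.add hw.2⟩
theorem CC.sub (h : CC u) (hw : CC w) : CC fun x => u x - w x := by
  exact ⟨h.1.sub hw.1, h.2.sub hw.2⟩
theorem CC.sum {κ : Type} (s : Finset κ) {f : κ → X → ℝ} (h : ∀ a ∈ s, CC (f a)) :
    CC fun x => ∑ a ∈ s, f a x := by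
  classical
  induction s using Finset.induction_on with
  | empty =>
    simp only [Finset.sum_empty]
    exact ⟨continuous_const, HasCompactSupport.zero⟩
  | insert a s ha ih =>
    simp only [Finset.sum_insert ha]
    exact (h a (Finset.mem_insert_self _ _)).add
      (ih fun b hb => h b (Finset.mem_insert_of_mem hb))
theorem CC.integrable [MeasureSpace X] [OpensMeasurableSpace X] [T2Space X]
    [IsFiniteMeasureOnCompacts (volume : Measure X)] (h : CC u) : Integrable u := by
  exact h.1.integrable_of_hasCompactSupport h.2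
end

theorem C1.pd {f : Pos3 → ℝ} (h : C1 f) (k : Fin 3) : CC (pd k f) := by
  exact ⟨(h.1.continuous_fderiv one_ne_zero).clm_apply continuous_const,
    h.2.fderiv_apply ℝ _⟩
theorem C1.dX {u : XN N → ℝ} (h : C1 u) (i : Fin N) (k : Fin 3) : CC (dX u i k) := by
  exact ⟨(h.1.continuous_fderiv one_ne_zero).clm_apply continuous_const,
    h.2.fderiv_apply ℝ _⟩
theorem CC.slice {u : XN N → ℝ} (h : CC u) (x : XN N) (i : Fin N) :
    CC fun y => u (update x i y) := by
  exact ⟨h.1.comp (continuous_const.update i continuous_id),
    h.2.comp_isClosedEmbedding (isClosedEmbedding_update x i)⟩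
theorem C1.slice {u : XN N → ℝ} (h : C1 u) (x : XN N) (i : Fin N) :
    C1 fun y => u (update x i y) := by
  exact ⟨h.1.comp (contDiff_update 1 x i),
    h.2.comp_isClosedEmbedding (isClosedEmbedding_update x i)⟩
/-- `hasFDerivAt_update`. -/
theorem pd_slice {u : XN N → ℝ} (h : C1 u) (x : XN N) (i : Fin N) (k : Fin 3) (y : Pos3) :
    pd k (fun y => u (update x i y)) y = dX u i k (update x i y) := by
  have h1 := (h.1.differentiable one_ne_zero (update x i y)).hasFDerivAt.comp y
    (hasFDerivAt_update (𝕜 := ℝ) x y)
  unfold pd dX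
  rw [show (fun y => u (update x i y)) = u ∘ update x i from rfl, h1.fderiv,
    ContinuousLinearMap.comp_apply]
  congr 1
  ext1 j
  rcases eq_or_ne j i with rfl | hj
  · simp
  · simp [hj]
/-- Continuity: `continuous_parametric_integral_of_continuous` over the compact image of
`tsupport u` under `eval i`.  The support lies in the image of `tsupport u ×ˢ tsupport f` under
`(z, t) ↦ update z i t`. -/
theorem CC.slice_integral {u : XN N → ℝ} (h : CC u) {f g : Pos3 → ℝ} (hf : CC f)
    (hg : Continuous g) (i : Fin N) :
    CC fun x : XN N => f (x i) * ∫ y, g y * u (update x i y) := by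
  have hK : IsCompact ((fun z : XN N => z i) '' tsupport u) :=
    h.2.isCompact.image (continuous_apply i)
  refine ⟨(hf.1.comp (continuous_apply i)).mul ?_, ?_⟩
  · have e : (fun x : XN N => ∫ y, g y * u (update x i y)) =
        fun x => ∫ y in (fun z : XN N => z i) '' tsupport u, g y * u (update x i y) := by
      funext x
      refine (setIntegral_eq_integral_of_forall_compl_eq_zero fun y hy => ?_).symm
      rw [image_eq_zero_of_notMem_tsupport (f := u) fun hm => hy ⟨_, hm, by simp⟩, mul_zero]
    rw [e]
    refine continuous_parametric_integral_of_continuous ?_ hK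
    exact (hg.comp continuous_snd).mul (h.1.comp (continuous_fst.update i continuous_snd))
  · refine HasCompactSupport.intro ((h.2.isCompact.prod hf.2.isCompact).image
      (f := fun p : XN N × Pos3 => update p.1 i p.2) (continuous_fst.update i continuous_snd))
      fun x hx => ?_
    by_cases h1 : x i ∈ tsupport f
    · have h2 : ∀ y, u (update x i y) = 0 := fun y =>
        image_eq_zero_of_notMem_tsupport fun hm => hx ⟨(update x i y, x i), ⟨hm, h1⟩, by simp⟩
      simp [h2]
    · rw [image_eq_zero_of_notMem_tsupport h1, zero_mul]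
theorem CC.perm {u : XN N → ℝ} (h : CC u) (σ : Equiv.Perm (Fin N)) :
    CC fun x : XN N => u fun i => x (σ i) := by
  exact ⟨h.1.comp (by fun_prop),
    h.2.comp_homeomorph (Homeomorph.piCongrLeft (Y := fun _ => Pos3) σ).symm⟩

/-! ### slicing -/

/-- Write `N = n + 1`, use `volume_preserving_piFinSuccAbove`, `integral_prod_symm`,
`Fin.update_insertNth`, `integral_mono`. -/
theorem integral_le_of_slice {F G : XN N → ℝ} (i : Fin N) (hF : Integrable F) (hG : Integrable G)
    (h : ∀ x, ∫ y, F (update x i y) ≤ ∫ y, G (update x i y)) : ∫ x, F x ≤ ∫ x, G x := by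
  obtain ⟨n, rfl⟩ : ∃ n, N = n + 1 := ⟨N - 1, by have := i.pos; omega⟩
  have hp := (volume_preserving_piFinSuccAbove (fun _ : Fin (n + 1) => Pos3) i).symm
  set e := (MeasurableEquiv.piFinSuccAbove (fun _ : Fin (n + 1) => Pos3) i).symm with he
  have key : ∀ H : XN (n + 1) → ℝ, Integrable H →
      Integrable (fun z : Fin n → Pos3 => ∫ y, H (update (i.insertNth 0 z) i y)) ∧
      ∫ x, H x = ∫ z : Fin n → Pos3, ∫ y, H (update (i.insertNth 0 z) i y) := fun H hH => by
    have h1 : Integrable (fun p => H (e p)) ((volume : Measure Pos3).prod volume) :=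
      hp.integrable_comp_of_integrable hH
    have h2 : ∀ (z : Fin n → Pos3) (y : Pos3), update (i.insertNth 0 z : XN (n + 1)) i y = e (y, z) :=
      fun z y => by rw [Fin.update_insertNth]; rfl
    simp only [h2]
    exact ⟨h1.integral_prod_right, by
      rw [← hp.integral_comp' H]; exact integral_prod_symm _ h1⟩
  rw [(key F hF).2, (key G hG).2]
  exact integral_mono (key F hF).1 (key G hG).1 fun z => h _
theorem integral_eq_of_slice {F G : XN N → ℝ} (i : Fin N) (hF : Integrable F) (hG : Integrable G)
    (h : ∀ x, ∫ y, F (update x i y) = ∫ y, G (update x i y)) : ∫ x, F x = ∫ x, G x :=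
  le_antisymm (integral_le_of_slice i hF hG fun x => (h x).le)
    (integral_le_of_slice i hG hF fun x => (h x).ge)
/-- `volume_measurePreserving_piCongrLeft`. -/
theorem integral_perm (σ : Equiv.Perm (Fin N)) (F : XN N → ℝ) :
    ∫ x : XN N, F (fun i => x (σ i)) = ∫ x, F x := by
  exact (volume_measurePreserving_piCongrLeft (fun _ : Fin N => Pos3) σ).symm.integral_comp' F
/-- `Config N → (Fin N × Fin 3 → ℝ) → (Fin N → Fin 3 → ℝ) → XN N`; for the currying step use
`Measure.pi_eq` on boxes (or: `toX` maps the additive Haar measure to an additive Haar measure,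
compare on one box). -/
theorem toX_mp : MeasurePreserving (toX N) volume volume := by
  have h1 : MeasurePreserving (fun (y : Fin N → Fin 3 → ℝ) (p : Fin N × Fin 3) => y p.1 p.2)
      volume volume := by
    have hm : Measurable fun (y : Fin N → Fin 3 → ℝ) (p : Fin N × Fin 3) => y p.1 p.2 := by
      fun_prop
    refine ⟨hm, (Measure.pi_eq fun s hs => ?_).symm⟩
    have e : (fun (y : Fin N → Fin 3 → ℝ) (p : Fin N × Fin 3) => y p.1 p.2) ⁻¹' Set.univ.pi s =
        Set.univ.pi fun i => Set.univ.pi fun k => s (i, k) := by
      ext y; simp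
    rw [Measure.map_apply hm (MeasurableSet.univ_pi hs), e, volume_pi_pi, Fintype.prod_prod_type]
    exact Finset.prod_congr rfl fun i _ => volume_pi_pi _
  have h2 : MeasurePreserving (fun (y : XN N) (i : Fin N) => WithLp.ofLp (y i)) volume volume :=
    volume_preserving_pi fun _ => PiLp.volume_preserving_ofLp (Fin 3)
  have h3 : MeasurePreserving (toX N).toHomeomorph.toMeasurableEquiv.symm volume volume :=
    ((PiLp.volume_preserving_toLp (Fin N × Fin 3)).comp h1).comp h2
  exact h3.symm
theorem integral_toX {E : Type} [NormedAddCommGroup E] [NormedSpace ℝ E] (F : XN N → E) :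
    ∫ x : Config N, F (toX N x) = ∫ x, F x := by
  exact toX_mp.integral_comp (toX N).toHomeomorph.measurableEmbedding F
theorem integrable_toX {E : Type} [NormedAddCommGroup E] (F : XN N → E) :
    Integrable (fun x : Config N => F (toX N x)) ↔ Integrable F := by
  exact toX_mp.integrable_comp_emb (toX N).toHomeomorph.measurableEmbedding

end Crest.Agent.R338
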