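import Crest.Agent.R338.Defs2
import Crest.Agent.R338.OInt

/-! Row 338, module O: from the smooth one-body problem to the one with point nuclei. -/

set_option autoImplicit false

open MeasureTheory Crest.MathPhysics.ElectronicCoulomb

namespace Crest.Agent.R338

/-- Abstract Schur complement bound. -/
theorem o_schur {S ι : Type} [AddCommGroup S] [Module ℝ S] [Fintype ι] [DecidableEq ι]
    (Q N : S →ₗ[ℝ] S →ₗ[ℝ] ℝ) (hQ : ∀ u w, Q u w = Q w u) (hN : ∀ u w, N u w = N w u)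
    (χ : ι → S) (hon : ∀ a b, N (χ a) (χ b) = if a = b then 1 else 0) (e : ι → ℝ)
    {η₁ η₂ G s n : ℝ} (hn : (Fintype.card ι : ℝ) ≤ n) (hη₁ : 0 ≤ η₁) (hs : 0 ≤ s)
    (hpos : ∀ w, 0 ≤ N w w)
    (hub : ∀ a b, |Q (χ a) (χ b) - if a = b then e a else 0| ≤ η₁)
    (hgap : ∀ w, (∀ a, N (χ a) w = 0) → G * N w w ≤ Q w w)
    (hcross : ∀ w, (∀ a, N (χ a) w = 0) → ∀ (a : ι) (c : ℝ),
      -(η₂ * c ^ 2 + s * N w w) ≤ 2 * c * Q (χ a) w) (u : S) :
    ∑ a, (e a - (n * η₁ + η₂)) * N (χ a) u ^ 2 + (G - n * s) * (N u u - ∑ a, N (χ a) u ^ 2)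
      ≤ Q u u := by
  obtain ⟨c, hc⟩ : ∃ c : ι → ℝ, c = fun a => N (χ a) u := ⟨_, rfl⟩
  have hc' : ∀ a, N (χ a) u = c a := fun a => by rw [hc]
  simp only [hc']
  obtain ⟨p, hp⟩ : ∃ p : S, p = ∑ a, c a • χ a := ⟨_, rfl⟩
  obtain ⟨w, hw⟩ : ∃ w : S, w = u - p := ⟨_, rfl⟩
  have hu : u = p + w := by rw [hw]; abel
  have hl : ∀ (B : S →ₗ[ℝ] S →ₗ[ℝ] ℝ) (z : S), B p z = ∑ a, c a * B (χ a) z := by
    intro B z
    rw [hp, map_sum, LinearMap.sum_apply]
    simp only [map_smul, LinearMap.smul_apply, smul_eq_mul]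
  have hNp : ∀ a, N (χ a) p = c a := by
    intro a
    rw [hN, hl]
    simp only [hon, mul_ite, mul_one, mul_zero, Finset.sum_ite_eq', Finset.mem_univ, if_true]
  have hNw : ∀ a, N (χ a) w = 0 := by
    intro a
    rw [hw, map_sub, hNp, hc', sub_self]
  have hexp : ∀ (B : S →ₗ[ℝ] S →ₗ[ℝ] ℝ), (∀ u w, B u w = B w u) →
      B u u = B p p + 2 * B p w + B w w := by
    intro B hB
    rw [hu]
    simp only [map_add, LinearMap.add_apply]
    rw [hB w p]; ring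
  have hNu : N u u - ∑ a, c a ^ 2 = N w w := by
    rw [hexp N hN, hl, hl]
    simp only [hNp, hNw, mul_zero, Finset.sum_const_zero, sq]
    ring
  have hS : 0 ≤ ∑ a, c a ^ 2 := Finset.sum_nonneg fun a _ => sq_nonneg _
  have hpp : ∑ a, e a * c a ^ 2 - n * η₁ * ∑ a, c a ^ 2 ≤ Q p p := by
    have h1 : Q p p = ∑ a, ∑ b, c a * c b * Q (χ a) (χ b) := by
      rw [hl]
      refine Finset.sum_congr rfl fun a _ => ?_
      rw [hQ, hl, Finset.mul_sum]
      refine Finset.sum_congr rfl fun b _ => ?_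
      rw [hQ (χ b)]; ring
    have h2 : ∑ a, ∑ b, ((if a = b then e a * c a ^ 2 else 0) - η₁ / 2 * (c a ^ 2 + c b ^ 2)) ≤
        ∑ a, ∑ b, c a * c b * Q (χ a) (χ b) := by
      refine Finset.sum_le_sum fun a _ => Finset.sum_le_sum fun b _ => ?_
      have h3 : (if a = b then e a * c a ^ 2 else 0) = c a * c b * (if a = b then e a else 0) := by
        split_ifs with h
        · subst h; ring
        · ring
      rw [h3]
      have h4 := abs_le.1 (hub a b)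
      obtain ⟨D, hD⟩ : ∃ D, D = Q (χ a) (χ b) - if a = b then e a else 0 := ⟨_, rfl⟩
      have h5 : Q (χ a) (χ b) = D + if a = b then e a else 0 := by rw [hD]; ring
      rw [← hD] at h4
      rw [h5]
      nlinarith [mul_nonneg (sub_nonneg.2 h4.2) (sq_nonneg (c a - c b)),
        mul_nonneg (neg_le_iff_add_nonneg.1 h4.1) (sq_nonneg (c a + c b))]
    have h3 : ∑ a, ∑ b, ((if a = b then e a * c a ^ 2 else 0) - η₁ / 2 * (c a ^ 2 + c b ^ 2)) =
        ∑ a, e a * c a ^ 2 - (Fintype.card ι : ℝ) * η₁ * ∑ a, c a ^ 2 := by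
      simp only [Finset.sum_sub_distrib, Finset.sum_ite_eq, Finset.mem_univ, if_true,
        ← Finset.mul_sum, Finset.sum_add_distrib, Finset.sum_const, Finset.card_univ, nsmul_eq_mul]
      ring
    have h4 : (Fintype.card ι : ℝ) * η₁ * ∑ a, c a ^ 2 ≤ n * η₁ * ∑ a, c a ^ 2 := by gcongr
    linarith
  have hpw : -(η₂ * ∑ a, c a ^ 2 + n * s * N w w) ≤ 2 * Q p w := by
    have h1 : ∑ a, -(η₂ * c a ^ 2 + s * N w w) ≤ ∑ a, 2 * c a * Q (χ a) w :=
      Finset.sum_le_sum fun a _ => hcross w hNw a (c a)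
    have h2 : ∑ a, 2 * c a * Q (χ a) w = 2 * Q p w := by
      rw [hl, Finset.mul_sum]
      exact Finset.sum_congr rfl fun a _ => by ring
    have h3 : ∑ a, -(η₂ * c a ^ 2 + s * N w w) =
        -(η₂ * ∑ a, c a ^ 2 + (Fintype.card ι : ℝ) * s * N w w) := by
      simp only [Finset.sum_neg_distrib, Finset.sum_add_distrib, ← Finset.mul_sum, Finset.sum_const,
        Finset.card_univ, nsmul_eq_mul]
      ring
    have h4 : (Fintype.card ι : ℝ) * s * N w w ≤ n * s * N w w := by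
      have := hpos w
      gcongr
    linarith
  have hww := hgap w hNw
  have h5 : ∑ a, (e a - (n * η₁ + η₂)) * c a ^ 2 =
      ∑ a, e a * c a ^ 2 - (n * η₁ + η₂) * ∑ a, c a ^ 2 := by
    rw [Finset.mul_sum, ← Finset.sum_sub_distrib]
    exact Finset.sum_congr rfl fun a _ => by ring
  rw [hNu, h5, hexp Q hQ]
  nlinarith

/-- The cross term of the discretisation error. -/
theorem o_cross {F f w : Pos3 → ℝ} {r A δ t : ℝ} (hF : LocallyIntegrable F)
    (hF2 : LocallyIntegrable fun x => F x ^ 2) (hf : CC f) (hw : CC w) (hs : SuppIn r f)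
    (hA : ∀ x, |f x| ≤ A) (hδ : ∫ x in Metric.ball (0 : Pos3) r, F x ^ 2 ≤ δ) (ht : 0 < t) (c : ℝ) :
    2 * c * ∫ x, F x * (f x * w x) ≤ t * A ^ 2 * δ * c ^ 2 + 1 / t * ∫ x, w x ^ 2 := by
  have hI : IntegrableOn (fun x => F x ^ 2) (Metric.ball (0 : Pos3) r) :=
    (hF2.integrableOn_isCompact (isCompact_closedBall 0 r)).mono_set Metric.ball_subset_closedBall
  have hI' := (integrable_indicator_iff Metric.isOpen_ball.measurableSet).2 hI
  have hw2 := oi_int (oi_cc_sq hw)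
  have h1 : ∫ x, 2 * c * (F x * (f x * w x)) ≤ ∫ x, (t * A ^ 2 * c ^ 2 *
      (Metric.ball (0 : Pos3) r).indicator (fun x => F x ^ 2) x + 1 / t * w x ^ 2) := by
    refine integral_mono ((oi_int_mul hF (oi_cc_mul hf hw.1)).const_mul _)
      ((hI'.const_mul _).add (hw2.const_mul _)) fun x => ?_
    by_cases hx : x ∈ Metric.ball (0 : Pos3) r
    · simp only [Set.indicator_of_mem hx]
      have h2 : f x ^ 2 ≤ A ^ 2 := by
        rw [← sq_abs]; exact pow_le_pow_left₀ (abs_nonneg _) (hA x) 2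
      have h3 : 2 * c * (F x * (f x * w x)) ≤ t * (c * F x * f x) ^ 2 + 1 / t * w x ^ 2 := by
        have h4 : t * (c * F x * f x) ^ 2 + 1 / t * w x ^ 2 - 2 * c * (F x * (f x * w x)) =
            1 / t * (t * (c * F x * f x) - w x) ^ 2 := by
          field_simp; ring
        have h5 : 0 ≤ 1 / t * (t * (c * F x * f x) - w x) ^ 2 := by positivity
        linarith
      have h4 : t * (c * F x * f x) ^ 2 ≤ t * A ^ 2 * c ^ 2 * F x ^ 2 := by
        calc t * (c * F x * f x) ^ 2 = t * c ^ 2 * F x ^ 2 * f x ^ 2 := by ring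
          _ ≤ t * c ^ 2 * F x ^ 2 * A ^ 2 := by gcongr
          _ = _ := by ring
      linarith
    · have h2 : f x = 0 := hs x (by rwa [mem_ball_zero_iff, not_lt] at hx)
      simp only [Set.indicator_of_notMem hx, h2, zero_mul, mul_zero, zero_add]
      positivity
  rw [integral_const_mul, integral_add (hI'.const_mul _) (hw2.const_mul _), integral_const_mul,
    integral_const_mul, integral_indicator Metric.isOpen_ball.measurableSet] at h1
  have h2 : t * A ^ 2 * c ^ 2 * ∫ x in Metric.ball (0 : Pos3) r, F x ^ 2 ≤ t * A ^ 2 * c ^ 2 * δ := by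
    gcongr
  linarith

theorem ob_of_disc : ∃ k : ℕ, ∀ {ι : Type} [Fintype ι] [DecidableEq ι] (χ : ι → Pos3 → ℝ)
    (core : ι → Prop) [DecidablePred core] (V₀ v : Pos3 → ℝ) (lam c r₀ A η₀ q E₀ δ₁ δ₂ δ₃ : ℝ)
    {K : ℕ} (R : Fin K → Pos3), OB0 χ core V₀ lam c r₀ A η₀ → Continuous v → 0 ≤ q →
    DiscOut (c ^ 2 / 2) r₀ (fun x => V₀ x + q * v x) q E₀ R δ₁ δ₂ δ₃ →
    (Fintype.card ι : ℝ) ≤ A → 0 ≤ η₀ → η₀ ≤ 1 → 0 ≤ δ₁ → δ₁ * A ^ k ≤ 1 → 0 ≤ δ₂ → 0 ≤ δ₃ →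
    OB χ core (fun x => q * (Vn R x + v x)) (E₀ + c / 2) lam (A ^ k * (η₀ + δ₂ + δ₃)) := by
  refine ⟨6, ?_⟩
  intro ι _ _ χ core _ V₀ v lam c r₀ A η₀ q E₀ δ₁ δ₂ δ₃ K R h0 hv hq hD hcard hη0 hη1 hδ1 hδ1' hδ2 hδ3
  have hc2 := h0.c_bd.1
  have hcA := h0.c_bd.2
  have hA : 4 ≤ A := by nlinarith
  have hA0 : 0 < A := by linarith
  have hcA' : c ≤ A / 2 := by nlinarith
  have hlam1 := h0.lam_bd.2
  have hlam0 : 1 / A ≤ lam := h0.lam_bd.1
  have hlam : 0 < lam := lt_of_lt_of_le (by positivity) hlam0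
  have hV₀ : Continuous V₀ := h0.V_sb.1.continuous
  have hχ : ∀ a, C1 (χ a) := fun a =>
    ⟨(h0.χ_sb a).1.of_le (by norm_num), oi_cs_of_suppIn (h0.χ_supp a)⟩
  obtain ⟨W, hW⟩ : ∃ W : Pos3 → ℝ, W = fun x => c ^ 2 / 2 * min (‖x‖ ^ 2) (r₀ ^ 2) + V₀ x := ⟨_, rfl⟩
  obtain ⟨V, hV⟩ : ∃ V : Pos3 → ℝ, V = fun x => q * (Vn R x + v x) := ⟨_, rfl⟩
  obtain ⟨F, hF⟩ : ∃ F : Pos3 → ℝ,
    F = fun x => q * Vn R x + (E₀ + c ^ 2 / 2 * ‖x‖ ^ 2 + (V₀ x + q * v x)) := ⟨_, rfl⟩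
  obtain ⟨F', hF'⟩ : ∃ F' : Pos3 → ℝ,
    F' = fun x => q * Vn R x + (E₀ + c ^ 2 / 2 * min (‖x‖ ^ 2) (r₀ ^ 2) + (V₀ x + q * v x)) := ⟨_, rfl⟩
  rw [← hV]
  have hWc : Continuous W := by rw [hW]; fun_prop
  have hWl : LocallyIntegrable fun x => -W x := hWc.neg.locallyIntegrable
  have hVl : LocallyIntegrable V := by
    rw [hV]; exact oi_li_const_mul ((oi_li_Vn R).add hv.locallyIntegrable) q
  have hFl : LocallyIntegrable F := by
    rw [hF]; exact (oi_li_const_mul (oi_li_Vn R) q).add (Continuous.locallyIntegrable (by fun_prop))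
  have hF'l : LocallyIntegrable F' := by
    rw [hF']; exact (oi_li_const_mul (oi_li_Vn R) q).add (Continuous.locallyIntegrable (by fun_prop))
  have hF2 : LocallyIntegrable fun x => F x ^ 2 := by
    rw [hF]; exact oi_li_sq R q (by fun_prop)
  have hres : ∀ a, ∀ u : Pos3 → ℝ, C1 u → |qf (fun x => -W x) (χ a) u -
      (c / 2 + if core a then 0 else lam) * ∫ x, χ a x * u x| ≤ η₀ * √(∫ x, u x ^ 2) := by
    intro a u hu; rw [hW]; exact h0.res a u hu.1 hu.2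
  have hgap : ∀ u : Pos3 → ℝ, C1 u → (∀ a, ∫ x, χ a x * u x = 0) →
      (c / 2 + 7 / 4 * lam) * ∫ x, u x ^ 2 ≤ qf (fun x => -W x) u u := by
    intro u hu; rw [hW]; exact h0.gap u hu.1 hu.2
  have hd1 : ∀ u : Pos3 → ℝ, C1 u → ∫ x, F' x * u x ^ 2 ≤ δ₁ * (dir u + ∫ x, u x ^ 2) := by
    intro u hu; rw [hF']; exact hD.d1 u hu.1 hu.2
  have hd2 : ∫ x in Metric.ball (0 : Pos3) r₀, F x ^ 2 ≤ δ₂ := by rw [hF]; exact hD.d2
  have hd3 : ∀ (g : Pos3 → ℝ) (G : ℝ), SB 4 G g → SuppIn r₀ g → |∫ x, F x * g x| ≤ δ₃ * G := by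
    rw [hF]; exact hD.d3
  have hsplit : ∀ u w : Pos3 → ℝ, C1 u → C1 w → qf V u w =
      qf (fun x => -W x) u w + E₀ * (∫ x, u x * w x) - ∫ x, F' x * (u x * w x) := by
    intro u w hu hw
    rw [oi_qf_pot hVl hWl hu hw]
    have h1 : ∫ x, (V x - -W x) * (u x * w x) =
        (∫ x, F' x * (u x * w x)) - E₀ * ∫ x, u x * w x := by
      rw [← integral_const_mul, ← integral_sub (oi_int_mul hF'l (oi_cc_mul hu.cc hw.cc.1))
        ((oi_int (oi_cc_mul hu.cc hw.cc.1)).const_mul _)]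
      refine integral_congr_ae (ae_of_all _ fun x => ?_)
      simp only [hV, hW, hF']; ring
    rw [h1]; ring
  have hFF : ∀ a (w : Pos3 → ℝ), ∫ x, F' x * (χ a x * w x) = ∫ x, F x * (χ a x * w x) := by
    intro a w
    refine integral_congr_ae (ae_of_all _ fun x => ?_)
    by_cases hx : r₀ ≤ ‖x‖
    · simp only [h0.χ_supp a x hx, zero_mul, mul_zero]
    · have h1 : min (‖x‖ ^ 2) (r₀ ^ 2) = ‖x‖ ^ 2 :=
        min_eq_left (pow_le_pow_left₀ (norm_nonneg _) (not_le.1 hx).le 2)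
      simp only [hF, hF', h1]
  have hnorm : ∀ b, ∫ x, χ b x ^ 2 = 1 := by
    intro b
    have := h0.on b b
    simpa only [if_true, ← sq] using this
  have hub : ∀ a b, |qf V (χ a) (χ b) -
      if a = b then E₀ + c / 2 + (if core a then 0 else lam) else 0| ≤ η₀ + 16 * A ^ 2 * δ₃ := by
    intro a b
    have h1 := hres a (χ b) (hχ b)
    have h2 := hd3 _ _ ((h0.χ_sb a).oi_mul (h0.χ_sb b))
      (fun x hx => by simp only [h0.χ_supp a x hx, zero_mul])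
    rw [hnorm, Real.sqrt_one, mul_one, h0.on] at h1
    rw [hsplit _ _ (hχ a) (hχ b), hFF, h0.on]
    have h3 := abs_le.1 h1
    have h4 := abs_le.1 h2
    rw [abs_le]
    split_ifs at h3 ⊢ <;> constructor <;> nlinarith [h3.1, h3.2, h4.1, h4.2]
  have hA2 : 16 ≤ A ^ 2 := by nlinarith
  have hA3 : 64 ≤ A ^ 3 := by nlinarith
  have hA4 : 256 ≤ A ^ 4 := by nlinarith
  have hA6a : 16 * A ^ 4 ≤ A ^ 6 := by nlinarith
  have hA6b : 16 * A ^ 3 ≤ A ^ 6 := by nlinarith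
  have hA6c : A + 16 * A ^ 2 ≤ A ^ 6 := by nlinarith
  have hA6d : 32 * A ^ 2 ≤ A ^ 6 := by nlinarith
  refine ⟨fun a => (hχ a).1, fun a => (hχ a).2, h0.on, ?_, fun a b => (hub a b).trans ?_⟩
  · intro u hu1 hu2
    have hpos : ∀ w : oiS, 0 ≤ oiN w w := fun w => by
      rw [oiN_self]; exact integral_nonneg fun x => sq_nonneg _
    have key := o_schur (oiQ hVl) oiN (fun u w => oi_qf_symm V u.1 w.1) oiN_symm
      (fun a => (⟨χ a, hχ a⟩ : oiS)) h0.on (fun a => E₀ + c / 2 + (if core a then 0 else lam))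
      (η₁ := η₀ + 16 * A ^ 2 * δ₃) (η₂ := 16 * A ^ 2 * η₀ + 16 * A ^ 4 * δ₂)
      (G := E₀ + c / 2 + 13 / 8 * lam) (s := 1 / (8 * A ^ 2)) (n := A) hcard (by positivity)
      (by positivity) hpos hub ?_ ?_ ⟨u, hu1, hu2⟩
    · refine le_trans ?_ key
      simp only [oiN_apply, ← sq]
      have hb : 0 ≤ (∫ x, u x ^ 2) - ∑ a, (∫ x, χ a x * u x) ^ 2 := by
        have h1 := o_schur oiN oiN oiN_symm oiN_symm (fun a => (⟨χ a, hχ a⟩ : oiS)) h0.on
          (fun _ => 1) (η₁ := 0) (η₂ := 0) (G := 0) (s := 0) (n := A) hcard le_rfl le_rfl hpos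
          (fun a b => by
            have h2 : oiN (⟨χ a, hχ a⟩ : oiS) ⟨χ b, hχ b⟩ = if a = b then 1 else 0 := h0.on a b
            rw [h2]; simp)
          (fun w _ => by rw [zero_mul]; exact hpos w)
          (fun w hw a c => by rw [hw a]; simp) ⟨u, hu1, hu2⟩
        simp only [oiN_apply, ← sq, mul_zero, add_zero, sub_zero, one_mul, zero_mul] at h1
        linarith
      refine add_le_add (Finset.sum_le_sum fun a _ => ?_) ?_
      · refine mul_le_mul_of_nonneg_right ?_ (sq_nonneg _)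
        have h1 : A * (η₀ + 16 * A ^ 2 * δ₃) + (16 * A ^ 2 * η₀ + 16 * A ^ 4 * δ₂) ≤
            A ^ 6 * (η₀ + δ₂ + δ₃) := by
          nlinarith [mul_le_mul_of_nonneg_right hA6a hδ2, mul_le_mul_of_nonneg_right hA6b hδ3,
            mul_le_mul_of_nonneg_right hA6c hη0]
        linarith
      · refine mul_le_mul_of_nonneg_right ?_ hb
        have h1 : A * (1 / (8 * A ^ 2)) = 1 / 8 * (1 / A) := by field_simp
        rw [h1]
        linarith
    · intro w hw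
      have hw1 : C1 w.1 := w.2
      have hn : 0 ≤ ∫ x, w.1 x ^ 2 := integral_nonneg fun x => sq_nonneg _
      have h1 := hgap w.1 hw1 hw
      have h2 := hd1 w.1 hw1
      have h3 := oi_dir_eq (fun x => -W x) w.1
      have h4 : ∫ x, -W x * (w.1 x * w.1 x) ≤ A * ∫ x, w.1 x ^ 2 := by
        rw [← integral_const_mul]
        refine integral_mono (oi_int_mul hWl (oi_cc_mul hw1.cc hw1.cc.1))
          ((oi_int (oi_cc_sq hw1.cc)).const_mul _) fun x => ?_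
        have h5 : -W x ≤ A := by
          have h6 := (abs_le.1 (h0.V_sb.oi_abs_le x)).1
          have h7 : 0 ≤ c ^ 2 / 2 * min (‖x‖ ^ 2) (r₀ ^ 2) := by positivity
          rw [hW]; dsimp only; linarith
        simp only [← sq]
        exact mul_le_mul_of_nonneg_right h5 (sq_nonneg _)
      rw [oiQ_apply, oiN_self, hsplit _ _ hw1 hw1]
      simp only [← sq] at h3 h4 ⊢
      have h5 : δ₁ * (32 * A ^ 2) ≤ 1 := (mul_le_mul_of_nonneg_left hA6d hδ1).trans hδ1'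
      have h6 : 0 ≤ 1 - 2 * δ₁ := by nlinarith
      have h7 : δ₁ * (4 * A) ≤ lam / 8 := by
        have h8 : δ₁ * (4 * A) = 1 / 8 * (δ₁ * (32 * A ^ 2)) * (1 / A) := by field_simp; ring
        have h9 : 1 / 8 * (δ₁ * (32 * A ^ 2)) * (1 / A) ≤ 1 / 8 * 1 * lam := by gcongr
        linarith
      have h8 := mul_le_mul_of_nonneg_left h1 h6
      have h9 := mul_le_mul_of_nonneg_left h4 hδ1
      have h10 : δ₁ * (c + 7 / 2 * lam + 2 * A + 1) ≤ δ₁ * (4 * A) :=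
        mul_le_mul_of_nonneg_left (by linarith) hδ1
      have h11 := mul_le_mul_of_nonneg_right (h10.trans h7) hn
      rw [h3] at h2
      nlinarith
    · intro w hw a t
      have hw1 : C1 w.1 := w.2
      have hn : 0 ≤ ∫ x, w.1 x ^ 2 := integral_nonneg fun x => sq_nonneg _
      have hw0 : ∫ x, χ a x * w.1 x = 0 := hw a
      have h1 := hres a w.1 hw1
      rw [hw0, mul_zero, sub_zero] at h1
      have h2 := o_cross (t := 16 * A ^ 2) hFl hF2 (hχ a).cc hw1.cc (h0.χ_supp a)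
        (h0.χ_sb a).oi_abs_le hd2 (by positivity) t
      rw [oiQ_apply, oiN_self]
      show _ ≤ 2 * t * qf V (χ a) w.1
      rw [hsplit _ _ (hχ a) hw1, hFF, hw0]
      obtain ⟨m, hm⟩ : ∃ m, m = √(∫ x, w.1 x ^ 2) := ⟨_, rfl⟩
      have hm0 : 0 ≤ m := by rw [hm]; exact Real.sqrt_nonneg _
      have hm2 : ∫ x, w.1 x ^ 2 = m ^ 2 := by rw [hm, Real.sq_sqrt hn]
      rw [← hm] at h1
      rw [hm2] at h2 ⊢
      have h3 : -(2 * |t| * (η₀ * m)) ≤ 2 * t * qf (fun x => -W x) (χ a) w.1 := by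
        have h4 : |2 * t * qf (fun x => -W x) (χ a) w.1| ≤ 2 * |t| * (η₀ * m) := by
          rw [abs_mul, abs_mul, abs_two]
          gcongr
        exact (abs_le.1 h4).1
      have h4 : 2 * |t| * (η₀ * m) ≤ 16 * A ^ 2 * η₀ * t ^ 2 + 1 / (16 * A ^ 2) * m ^ 2 := by
        have h5 : 16 * A ^ 2 * (η₀ * |t|) ^ 2 + 1 / (16 * A ^ 2) * m ^ 2 - 2 * |t| * (η₀ * m) =
            1 / (16 * A ^ 2) * (16 * A ^ 2 * (η₀ * |t|) - m) ^ 2 := by
          field_simp; ring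
        have h6 : 0 ≤ 1 / (16 * A ^ 2) * (16 * A ^ 2 * (η₀ * |t|) - m) ^ 2 := by positivity
        have h7 : 16 * A ^ 2 * (η₀ * |t|) ^ 2 ≤ 16 * A ^ 2 * η₀ * t ^ 2 := by
          rw [mul_pow η₀, sq_abs]
          have h8 : η₀ ^ 2 ≤ η₀ := by nlinarith
          calc 16 * A ^ 2 * (η₀ ^ 2 * t ^ 2) ≤ 16 * A ^ 2 * (η₀ * t ^ 2) := by gcongr
            _ = _ := by ring
        linarith
      have h5 : 1 / (8 * A ^ 2) * m ^ 2 = 2 * (1 / (16 * A ^ 2) * m ^ 2) := by field_simp; ring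
      rw [h5]
      nlinarith
  · nlinarith [mul_le_mul_of_nonneg_right hA6d hδ3, mul_le_mul_of_nonneg_right hA6c hη0,
      mul_nonneg (pow_pos hA0 6).le hδ2, mul_nonneg (pow_pos hA0 2).le hδ3,
      mul_nonneg (pow_pos hA0 2).le hη0, mul_nonneg (sub_nonneg.2 hA) hη0]

theorem k2_of_bdd {ι : Type} [Fintype ι] {χ : ι → Pos3 → ℝ} {A : ℝ} (hA : 4 ≤ A)
    (hc : (Fintype.card ι : ℝ) ≤ A) (h1 : ∀ a, Continuous (χ a)) (h2 : ∀ a, HasCompactSupport (χ a))
    (h3 : ∀ a x, |χ a x| ≤ A) (h4 : ∀ a, ∫ x, χ a x * χ a x = 1) (y : Pos3) :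
    ∫ x, (∑ a, χ a x ^ 2) / ‖x - y‖ ^ 2 ≤ (A ^ 3) ^ 2 := by
  have hI : IntegrableOn (fun x : Pos3 => 1 / ‖x - y‖ ^ 2) (Metric.ball y 1) :=
    ((oi_li_inv_sq y).integrableOn_isCompact (isCompact_closedBall y 1)).mono_set
      Metric.ball_subset_closedBall
  have hI' := (integrable_indicator_iff Metric.isOpen_ball.measurableSet).2 hI
  have hsq : ∀ a, Integrable fun x => χ a x ^ 2 := fun a => oi_int (oi_cc_sq ⟨h1 a, h2 a⟩)
  have hS : Integrable fun x => ∑ a, χ a x ^ 2 := integrable_finsetSum _ fun a _ => hsq a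
  have hS0 : ∀ x, 0 ≤ ∑ a, χ a x ^ 2 := fun x => Finset.sum_nonneg fun a _ => sq_nonneg _
  have hSle : ∀ x, ∑ a, χ a x ^ 2 ≤ A ^ 3 := by
    intro x
    calc ∑ a, χ a x ^ 2 ≤ ∑ _a : ι, A ^ 2 := Finset.sum_le_sum fun a _ => by
          rw [← sq_abs]; exact pow_le_pow_left₀ (abs_nonneg _) (h3 a x) 2
      _ = (Fintype.card ι : ℝ) * A ^ 2 := by simp
      _ ≤ A * A ^ 2 := by gcongr
      _ = A ^ 3 := by ring
  have hA3 : 64 ≤ A ^ 3 := by nlinarith [mul_le_mul hA hA (by norm_num) (by linarith : (0 : ℝ) ≤ A)]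
  have hmain : ∫ x, (∑ a, χ a x ^ 2) / ‖x - y‖ ^ 2 ≤
      ∫ x, (A ^ 3 * (Metric.ball y 1).indicator (fun x : Pos3 => 1 / ‖x - y‖ ^ 2) x +
        ∑ a, χ a x ^ 2) := by
    refine integral_mono_of_nonneg (ae_of_all _ fun x => div_nonneg (hS0 x) (sq_nonneg _))
      ((hI'.const_mul _).add hS) (ae_of_all _ fun x => ?_)
    by_cases hx : x ∈ Metric.ball y 1
    · simp only [Set.indicator_of_mem hx]
      have h5 : (∑ a, χ a x ^ 2) / ‖x - y‖ ^ 2 ≤ A ^ 3 * (1 / ‖x - y‖ ^ 2) := by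
        rw [mul_one_div]; gcongr; exact hSle x
      linarith [hS0 x]
    · simp only [Set.indicator_of_notMem hx, mul_zero, zero_add]
      rw [Metric.mem_ball, dist_eq_norm, not_lt] at hx
      exact div_le_self (hS0 x) (one_le_pow₀ hx)
  rw [integral_add (hI'.const_mul _) hS, integral_const_mul,
    integral_indicator Metric.isOpen_ball.measurableSet, oi_integral_ball,
    integral_finsetSum _ fun a _ => hsq a] at hmain
  have h5 : ∑ a, ∫ x, χ a x ^ 2 = (Fintype.card ι : ℝ) := by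
    simp only [sq, h4]; simp
  rw [h5] at hmain
  have h6 : A ≤ A ^ 3 := by nlinarith [mul_le_mul hA hA (by norm_num) (by linarith : (0 : ℝ) ≤ A)]
  have h7 := Real.pi_le_four
  nlinarith

end Crest.Agent.R338
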