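import Crest.Agent.R338.M
import Crest.Agent.R338.FinB
import Crest.Agent.R338.O

/-! Row 338: lemmas for the assembly. -/

set_option autoImplicit false

open MeasureTheory Crest.MathPhysics.ElectronicCoulomb Crest.Agent.Lib.PT
open Crest.MathPhysics.CoulombProblem

namespace Crest.Agent.R338

theorem main_two_pow (t : ℕ) : t + t ^ 2 + 2 ≤ 2 ^ (t + 1) := by
  induction t with
  | zero => simp
  | succ t ih =>
    have : t + 1 ≤ 2 ^ t := Nat.lt_two_pow_self
    rw [pow_succ 2 (t + 1), pow_succ 2 t] at *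
    nlinarith

theorem main_poly_le (L B : ℕ) : (B + (B + (L + 1)) ^ 2 + 2) ^ L ≤ 2 ^ ((B + (L + 1)) ^ 2) := by
  set t := B + (L + 1) with ht
  calc (B + t ^ 2 + 2) ^ L ≤ (2 ^ (t + 1)) ^ L :=
        Nat.pow_le_pow_left (le_trans (by omega) (main_two_pow t)) L
    _ = 2 ^ ((t + 1) * L) := by rw [← pow_mul]
    _ ≤ _ := Nat.pow_le_pow_right (by norm_num) (by nlinarith [Nat.zero_le B])

theorem SB.mono {k : ℕ} {A A' : ℝ} {f : Pos3 → ℝ} (h : SB k A f) (hA : A ≤ A') : SB k A' f :=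
  ⟨h.1, fun j hj x => (h.2 j hj x).trans hA⟩

theorem SB.main_abs_le {k : ℕ} {A : ℝ} {f : Pos3 → ℝ} (h : SB k A f) (x : Pos3) : |f x| ≤ A := by
  simpa using h.2 0 (Nat.zero_le _) x

theorem SB.main_add {k : ℕ} {A q : ℝ} {f g : Pos3 → ℝ} (hf : SB k A f) (hg : SB k A g)
    (h0 : 0 ≤ q) (h1 : q ≤ 1) : SB k (2 * A) (fun x => f x + q * g x) := by
  refine ⟨hf.1.add (contDiff_const.mul hg.1), fun j hj x => ?_⟩
  have hj' : ((j : ℕ∞) : WithTop ℕ∞) ≤ (k : ℕ∞) := by exact_mod_cast hj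
  have e : (fun x => f x + q * g x) = f + q • g := rfl
  rw [e, iteratedFDeriv_add_apply (g := q • g) (hf.1.of_le hj').contDiffAt
    ((hg.1.of_le hj').const_smul q).contDiffAt,
    iteratedFDeriv_const_smul_apply (hg.1.of_le hj').contDiffAt]
  refine (norm_add_le _ _).trans ?_
  rw [norm_smul, Real.norm_of_nonneg h0]
  have h2 := hf.2 j hj x
  have h3 := hg.2 j hj x
  nlinarith [norm_nonneg (iteratedFDeriv ℝ j g x)]

theorem main_pd_pd {f : Pos3 → ℝ} (hf : ContDiff ℝ 2 f) (k : Fin 3) (x : Pos3) :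
    pd k (pd k f) x =
      iteratedFDeriv ℝ 2 f x ![EuclideanSpace.single k 1, EuclideanSpace.single k 1] := by
  have h : DifferentiableAt ℝ (fderiv ℝ f) x :=
    (hf.fderiv_right (m := 1) (by norm_num)).differentiable (by norm_num) x
  rw [iteratedFDeriv_two_apply]
  unfold pd
  rw [fderiv_clm_apply h (differentiableAt_const _)]
  simp

theorem main_lap_add {A q : ℝ} {f g : Pos3 → ℝ} (hf : SB 6 A f) (hg : SB 6 A g) (h0 : 0 ≤ q)
    (x : Pos3) : |lap (fun x => f x + q * g x) x| ≤ |lap f x| + 3 * q * A := by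
  have f2 : ContDiff ℝ 2 f := hf.1.of_le (by norm_num)
  have g2 : ContDiff ℝ 2 g := hg.1.of_le (by norm_num)
  have e : (fun x => f x + q * g x) = f + q • g := rfl
  have h1 : lap (fun x => f x + q * g x) x = lap f x + q * lap g x := by
    simp only [lap, main_pd_pd f2, main_pd_pd g2, main_pd_pd (f2.add (contDiff_const.mul g2))]
    rw [e, iteratedFDeriv_add_apply (g := q • g) f2.contDiffAt (g2.const_smul q).contDiffAt,
      iteratedFDeriv_const_smul_apply g2.contDiffAt, Finset.mul_sum, ← Finset.sum_add_distrib]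
    rfl
  have h2 : |lap g x| ≤ 3 * A := by
    refine (Finset.abs_sum_le_sum_abs _ _).trans ?_
    refine (Finset.sum_le_sum (g := fun _ => A) fun k _ => ?_).trans (by simp)
    rw [main_pd_pd g2]
    refine ((iteratedFDeriv ℝ 2 g x).le_opNorm _).trans ?_
    simpa using hg.2 2 (by norm_num) x
  rw [h1]
  refine (abs_add_le _ _).trans ?_
  rw [abs_mul, abs_of_nonneg h0]
  nlinarith

theorem Design.mono {d : XZ} {U : ℚ} {m lam c r₀ A A' η₀ : ℝ} {V₀ v : Pos3 → ℝ}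
    {χ : Fin d.n × Fin 3 → Pos3 → ℝ} (h : Design d U m lam c r₀ A η₀ V₀ v χ) (h0 : 0 < A)
    (hA : A ≤ A') : Design d U m lam c r₀ A' η₀ V₀ v χ :=
  have h1 : 1 / A' ≤ 1 / A := one_div_le_one_div_of_le h0 hA
  { h with
    ob := { h.ob with
      lam_bd := ⟨h1.trans h.ob.lam_bd.1, h.ob.lam_bd.2⟩
      c_bd := ⟨h.ob.c_bd.1, h.ob.c_bd.2.trans hA⟩
      r_bd := ⟨h.ob.r_bd.1, h.ob.r_bd.2.trans hA⟩
      V_sb := h.ob.V_sb.mono hA
      χ_sb := fun a => (h.ob.χ_sb a).mono hA }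
    U_bd := ⟨h.U_bd.1, h.U_bd.2.trans hA⟩
    m_bd := ⟨h1.trans h.m_bd.1, h.m_bd.2⟩
    v_sb := h.v_sb.mono hA }

theorem main_EF {ι : Type} [Fintype ι] [DecidableEq ι] {N : ℕ} (w : ι → ι → ι → ι → ℝ)
    (v : ι → ι → ℝ) (c : (Fin N → ι × Fin 2) → ℂ) (s q : ℝ) :
    EF (fun a a' b b' => s * w a a' b b' / q) (fun a a' => s * v a a' / q) c =
      s / q * EF w v c := by
  simp only [EF, Finset.mul_sum, mul_add, mul_ite, mul_zero]
  refine Finset.sum_congr rfl fun α _ => Finset.sum_congr rfl fun i _ => ?_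
  congr 1
  · exact Finset.sum_congr rfl fun a _ => by ring
  · refine Finset.sum_congr rfl fun j _ => ?_
    split_ifs
    · exact Finset.sum_congr rfl fun a _ => Finset.sum_congr rfl fun b _ => by ring
    · rfl

theorem main_card_core (n : ℕ) :
    3 * n = 2 * (Finset.univ.filter (core3 (n := n))).card + n := by
  have : (Finset.univ.filter (core3 (n := n))) = Finset.univ ×ˢ {0} := by
    ext ⟨a, b⟩
    simp [core3, eq_comm]
  rw [this]
  simp
  ring

theorem main_LE_mono {n : ℕ} {W : Config n → ℝ} {a a' : ℝ} (h : InfEnergyLE W a) (ha : a ≤ a') :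
    InfEnergyLE W a' := fun ε hε =>
  (h ε hε).imp fun _ h => ⟨h.1, h.2.1, h.2.2.trans (by linarith)⟩

theorem main_GE_mono {n : ℕ} {W : Config n → ℝ} {a a' : ℝ} (h : InfEnergyGE W a) (ha : a' ≤ a) :
    InfEnergyGE W a' := fun Ψ h1 h2 => ha.trans (h Ψ h1 h2)

theorem main_potential {n : ℕ} {β γ : Type} (l : List β) (F : β → γ) (g : γ → Pos3) :
    unitNucleiPotential (n := n) (fun α : Fin (l.map F).length => g ((l.map F).get α)) =
      unitNucleiPotential (fun α : Fin l.length => g (F (l.get α))) := by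
  funext x
  unfold unitNucleiPotential
  congr 1
  refine Finset.sum_congr rfl fun i _ => ?_
  exact Fintype.sum_equiv (finCongr (List.length_map F)) _ _ fun α => by simp

/-- From the one-body data to the many-body thresholds. -/
theorem main_energy {d : XZ} (hv : d.Valid) {U : ℚ} (hU : 1 / 2 ≤ U) {m lam q E η A : ℝ}
    {χ : Fin d.n × Fin 3 → Pos3 → ℝ} {K : ℕ} {R : Fin K → Pos3} {v : Pos3 → ℝ}
    (hF : Full χ core3 q R v E lam η (A ^ 3) (m ^ 2 / (2000 * (d.B : ℝ) ^ 5))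
      (fun a a' b b' => m ^ 2 * d.wbar U a a' b b') (fun a a' => m ^ 2 * d.vbar U a a'))
    (hq : 0 < q) (hqA : q * A ^ 12 ≤ 1) (hη : η ≤ q * m ^ 2 / (100 * (d.B : ℝ) ^ 3))
    (hlam : 1 / A ≤ lam) (hm : 1 / A ≤ m) (hm1 : m ≤ 1) (hUA : (U : ℝ) ≤ A)
    (hA : 10 ^ 20 * (d.B : ℝ) ^ 40 ≤ A) :
    (d.Yes → InfEnergyLE (unitNucleiPotential (n := 3 * d.n) fun α => q • R α)
      ((3 * d.n * E + d.n * lam) / q ^ 2 + m ^ 2 / q * (d.C0 U + d.lo) + m ^ 2 / (4 * d.B * q))) ∧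
    (d.No → InfEnergyGE (unitNucleiPotential (n := 3 * d.n) fun α => q • R α)
      ((3 * d.n * E + d.n * lam) / q ^ 2 + m ^ 2 / q * (d.C0 U + d.lo) + m ^ 2 / (4 * d.B * q) +
        1)) := by
  haveI : Nonempty (Fin d.n × Fin 3) := ⟨(⟨0, hv.n_pos⟩, 0)⟩
  have hS := hF.scale hq
  have hn1 : (1 : ℝ) ≤ d.n := by exact_mod_cast hv.n_pos
  have hnB : (d.n : ℝ) ≤ d.B := by exact_mod_cast hv.n_le
  have hcard : (Fintype.card (Fin d.n × Fin 3) : ℝ) = 3 * d.n := by simp; ring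
  set n : ℝ := (d.n : ℝ) with hn
  set B : ℝ := (d.B : ℝ) with hB
  have hB1 : 1 ≤ B := hn1.trans hnB
  have hBA : ∀ j ≤ 40, 10 ^ 20 * B ^ j ≤ A := fun j hj =>
    le_trans (mul_le_mul_of_nonneg_left (pow_le_pow_right₀ hB1 hj) (by norm_num)) hA
  have hA1 : 16 ≤ A := by have := hBA 0 (by norm_num); norm_num at this; linarith
  have hA0 : 0 < A := by linarith
  have hm0 : 0 < m := lt_of_lt_of_le (by positivity) hm
  have hlam0 : 0 < lam := hF.lam_pos
  -- unit of the error terms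
  set u : ℝ := m ^ 2 / (B * q) with hu
  have hu0 : 0 < u := by positivity
  have e1 : n ^ 2 * (η / q ^ 2) ≤ u / 100 := by
    calc n ^ 2 * (η / q ^ 2) ≤ n ^ 2 * (q * m ^ 2 / (100 * B ^ 3) / q ^ 2) := by gcongr
      _ ≤ B ^ 2 * (q * m ^ 2 / (100 * B ^ 3) / q ^ 2) := by gcongr
      _ = u / 100 := by rw [hu]; field_simp
  have e1' : n * (η / q ^ 2) ≤ u / 100 := by
    calc n * (η / q ^ 2) ≤ n * (q * m ^ 2 / (100 * B ^ 3) / q ^ 2) := by gcongr
      _ ≤ B ^ 2 * (q * m ^ 2 / (100 * B ^ 3) / q ^ 2) := by gcongr; nlinarith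
      _ = u / 100 := by rw [hu]; field_simp
  have e2 : n ^ 4 * (m ^ 2 / (2000 * B ^ 5) / q) ≤ u / 2000 := by
    calc n ^ 4 * (m ^ 2 / (2000 * B ^ 5) / q) ≤ B ^ 4 * (m ^ 2 / (2000 * B ^ 5) / q) := by gcongr
      _ = u / 2000 := by rw [hu]; field_simp
  have e3 : m ^ 2 / (4 * B * q) = u / 4 := by rw [hu]; field_simp
  have e4 : (3 * n * E + n * lam) / q ^ 2 = 3 * n * (E / q ^ 2) + n * (lam / q ^ 2) := by ring
  constructor
  · intro hy
    obtain ⟨c, h1, h2, h3, h4⟩ := fin_yes hv hU hy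
    refine main_LE_mono (mb_upper hS (main_card_core d.n) (β := m ^ 2 / q * (d.C0 U + d.lo))
      h1 h2 h3 ?_) ?_
    · rw [main_EF]
      exact mul_le_mul_of_nonneg_left h4 (by positivity)
    · rw [hcard, e3, e4]
      push_cast
      linarith
  · intro hno
    have hC : |(d.C0 U : ℝ)| ≤ A ^ 2 := by
      have h1 : |(d.C0 U : ℝ)| ≤ 10 ^ 17 * B ^ 30 * U := by
        have := (Rat.cast_le (K := ℝ)).2 (C0_bd hv hU)
        push_cast at this
        exact this
      have h2 := hBA 30 (by norm_num)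
      have h3 : (0 : ℝ) ≤ U := by exact_mod_cast (by linarith : (0 : ℚ) ≤ U)
      have h4 : 0 ≤ B ^ 30 := by positivity
      calc _ ≤ _ := h1
        _ ≤ A * A := mul_le_mul (by linarith) hUA h3 hA0.le
        _ = _ := by ring
    have hhi : |(d.hi : ℝ)| ≤ B := by rw [hB]; exact_mod_cast hv.hi_bd
    have hgap : (d.lo : ℝ) + 1 / B ≤ d.hi := by
      have := (Rat.cast_le (K := ℝ)).2 hv.gap
      push_cast at this
      exact this
    have hBA1 := hBA 1 (by norm_num)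
    have hqj : ∀ j ≤ 12, q * A ^ j ≤ 1 := fun j hj =>
      le_trans (mul_le_mul_of_nonneg_left (pow_le_pow_right₀ (by linarith) hj) hq.le) hqA
    have hm2 : m ^ 2 ≤ 1 := pow_le_one₀ hm0.le hm1
    refine main_GE_mono (mb_lower hS (main_card_core d.n) (β := m ^ 2 / q * (d.C0 U + d.hi))
      (fun c h1 h2 => ?_) ?_) ?_
    · rw [main_EF, mul_assoc]
      exact mul_le_mul_of_nonneg_left (fin_no hv hU hno c h1 h2) (by positivity)
    · rw [hcard]
      push_cast
      have p2 : A ^ 2 ≤ A ^ 4 := pow_le_pow_right₀ (by linarith) (by norm_num)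
      have p1 : A ^ 1 ≤ A ^ 4 := pow_le_pow_right₀ (by linarith) (by norm_num)
      have a1 : 3 * n * (A ^ 3 / q) ≤ A ^ 4 / q := by
        rw [← mul_div_assoc, pow_succ' A 3]
        gcongr
        linarith
      have a2 : |m ^ 2 / q * ((d.C0 U : ℝ) + d.hi)| ≤ 2 * (A ^ 4 / q) := by
        rw [abs_mul, abs_of_nonneg (by positivity)]
        have := (abs_add_le (d.C0 U : ℝ) d.hi).trans (add_le_add hC hhi)
        calc _ ≤ 1 / q * (2 * A ^ 4) := by gcongr; linarith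
          _ = _ := by ring
      have a3 : u ≤ A ^ 4 / q := by
        rw [hu, ← div_div]
        gcongr
        rw [div_le_iff₀ (by positivity)]
        exact hm2.trans (one_le_mul_of_one_le_of_one_le (one_le_pow₀ (by linarith)) hB1)
      have a4 : 4 * (A ^ 4 / q) ≤ lam / q ^ 2 / 4 := by
        have h1 : 1 ≤ lam * A := by rwa [div_le_iff₀ hA0] at hlam
        have h2 := hqj 6 (by norm_num)
        have h3 : 16 * (q * A ^ 5) ≤ A * (q * A ^ 5) := by gcongr
        have h4 : 16 * (q * A ^ 4) ≤ lam := by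
          refine le_of_mul_le_mul_right ?_ hA0
          linarith
        rw [le_div_iff₀ (by norm_num), le_div_iff₀ (by positivity)]
        calc 4 * (A ^ 4 / q) * 4 * q ^ 2 = 16 * (q * A ^ 4) := by field_simp; ring
          _ ≤ lam := h4
      have a5 : 0 < A ^ 4 / q := by positivity
      linarith
    · rw [hcard, e3, e4]
      push_cast
      have a1 : 64 * (3 * n) ^ 4 * (A ^ 3 / q) ^ 2 / (lam / q ^ 2) ≤ 5184 * B ^ 4 * A ^ 7 := by
        have h1 : 1 / lam ≤ A := by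
          rw [div_le_iff₀ hlam0]
          rw [div_le_iff₀ hA0] at hlam
          linarith
        calc _ = 5184 * n ^ 4 * A ^ 6 * (1 / lam) := by field_simp; ring
          _ ≤ 5184 * B ^ 4 * A ^ 6 * A := by gcongr
          _ = _ := by ring
      have a2 : 5184 * B ^ 4 * A ^ 7 + 1 ≤ u / 4 := by
        have h1 : 1 ≤ B ^ 4 * A ^ 7 :=
          one_le_mul_of_one_le_of_one_le (one_le_pow₀ hB1) (one_le_pow₀ (by linarith))
        have h2 : 1 ≤ m * A := by rwa [div_le_iff₀ hA0] at hm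
        have h3 : 1 ≤ (m * A) ^ 2 := one_le_pow₀ h2
        have h4 := hqj 10 (by norm_num)
        have h5 := hBA 5 (by norm_num)
        have h6 : q * A ^ 8 ≤ m ^ 2 := by
          refine le_of_mul_le_mul_right ?_ (pow_pos hA0 2)
          linarith
        rw [hu, le_div_iff₀ (by norm_num), le_div_iff₀ (by positivity)]
        calc (5184 * B ^ 4 * A ^ 7 + 1) * 4 * (B * q) ≤ (5185 * (B ^ 4 * A ^ 7)) * 4 * (B * q) := by
              gcongr; linarith
          _ = 20740 * B ^ 5 * (q * A ^ 7) := by ring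
          _ ≤ A * (q * A ^ 7) := by gcongr; linarith [pow_pos (by linarith : 0 < B) 5]
          _ = q * A ^ 8 := by ring
          _ ≤ _ := h6
      have a3 : m ^ 2 / q * ((d.C0 U : ℝ) + d.lo) + u ≤ m ^ 2 / q * (d.C0 U + d.hi) := by
        have : u = m ^ 2 / q * (1 / B) := by rw [hu]; field_simp
        rw [this, ← mul_add]
        exact mul_le_mul_of_nonneg_left (by linarith) (by positivity)
      linarith

/-- The choice of parameters. -/
theorem main_params {A G q m B A₀ P : ℝ} {k2 k3 : ℕ} (hB : 1 ≤ B) (hA : 10 ^ 20 * B ^ 40 ≤ A)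
    (hG : G = (2 * A) ^ (k2 + k3 + 3)) (hq1 : 1 / (1000 * (G ^ 2) ^ 3) ≤ q)
    (hq2 : q ≤ A / (G ^ 2) ^ 3) (hm : 1 / A ≤ m) (hA₀ : A₀ ≤ A)
    (hP : A ^ (k3 + 5 + 12 * (k2 + k3 + 3)) ≤ P) :
    q * A ^ 12 ≤ 1 ∧ (2 * A) ^ k2 ≤ G ^ 2 ∧ (2 * A) ^ k2 / G * A ^ k3 ≤ 1 ∧ A₀ / P ≤ 1 ∧
      A ^ k3 * (A₀ / P + (2 * A) ^ k2 * G / (G ^ 2) ^ 4 + (2 * A) ^ k2 * G / (G ^ 2) ^ 4) ≤
        q * m ^ 2 / (100 * B ^ 3) := by
  have hBA : ∀ j ≤ 40, 10 ^ 20 * B ^ j ≤ A := fun j hj =>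
    le_trans (mul_le_mul_of_nonneg_left (pow_le_pow_right₀ hB hj) (by norm_num)) hA
  have hA1 : 16 ≤ A := by have := hBA 0 (by norm_num); norm_num at this; linarith
  have hA0 : 0 < A := by linarith
  have h1A : 1 ≤ A := by linarith
  have h2A : 1 ≤ 2 * A := by linarith
  have hG1 : 1 ≤ G := hG ▸ one_le_pow₀ h2A
  have hG0 : 0 < G := by linarith
  have hGG : G ≤ G ^ 2 := le_self_pow₀ hG1 (by norm_num)
  have g1 : (2 * A) ^ k2 * (8 * A ^ (k3 + 3)) ≤ G := by
    rw [hG, add_assoc, pow_add (2 * A)]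
    gcongr
    rw [mul_pow]
    gcongr
    calc (8 : ℝ) = 2 ^ 3 := by norm_num
      _ ≤ _ := pow_le_pow_right₀ (by norm_num) (by omega)
  have g2 : A ^ 3 ≤ G := by
    rw [hG]
    exact (pow_le_pow_left₀ hA0.le (by linarith) 3).trans (pow_le_pow_right₀ h2A (by omega))
  have g3 : G ≤ A ^ (2 * (k2 + k3 + 3)) := by
    rw [hG, pow_mul]
    exact pow_le_pow_left₀ (by linarith) (by nlinarith) _
  have g4 : (2 * A) ^ k2 * A ^ k3 ≤ G := by
    refine le_trans ?_ g1
    gcongr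
    have := pow_le_pow_right₀ h1A (by omega : k3 ≤ k3 + 3)
    have := pow_pos hA0 (k3 + 3)
    linarith
  have hP1 : A ≤ P := (le_self_pow₀ h1A (by omega)).trans hP
  have hP0 : 0 < P := by linarith
  refine ⟨?_, ?_, ?_, ?_, ?_⟩
  · calc q * A ^ 12 ≤ A / ((A ^ 3) ^ 2) ^ 3 * A ^ 12 := by
          refine mul_le_mul_of_nonneg_right (hq2.trans ?_) (by positivity)
          gcongr
      _ = 1 / A ^ 5 := by field_simp
      _ ≤ 1 := (div_le_one (by positivity)).2 (one_le_pow₀ h1A)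
  · exact ((le_mul_of_one_le_right (by positivity) (one_le_pow₀ h1A)).trans g4).trans hGG
  · rw [div_mul_eq_mul_div, div_le_one (by positivity)]
    exact g4
  · exact (div_le_one hP0).2 (hA₀.trans hP1)
  · have a1 : A ^ k3 * (A₀ / P) ≤ 1 / (2 * (G ^ 6 * A ^ 3)) := by
      calc A ^ k3 * (A₀ / P) ≤ A ^ k3 * (A / A ^ (k3 + 5 + 12 * (k2 + k3 + 3))) := by
            refine mul_le_mul_of_nonneg_left ?_ (by positivity)
            exact (div_le_div_of_nonneg_right hA₀ hP0.le).trans (by gcongr)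
        _ = 1 / (A * ((A ^ (2 * (k2 + k3 + 3))) ^ 6 * A ^ 3)) := by field_simp; ring
        _ ≤ _ := by gcongr; linarith
    have a2 : A ^ k3 * ((2 * A) ^ k2 * G / (G ^ 2) ^ 4) ≤ 1 / (4 * (G ^ 6 * A ^ 3)) := by
      rw [← mul_div_assoc, div_le_div_iff₀ (by positivity) (by positivity)]
      calc _ = (2 * A) ^ k2 * (4 * A ^ (k3 + 3)) * G ^ 7 := by ring
        _ ≤ G * G ^ 7 := by
            refine mul_le_mul_of_nonneg_right (le_trans ?_ g1) (by positivity)
            gcongr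
            norm_num
        _ = _ := by ring
    have a3 : 1 / (G ^ 6 * A ^ 3) ≤ q * m ^ 2 / (100 * B ^ 3) := by
      have h5 := hBA 3 (by norm_num)
      have h6 : 0 < B ^ 3 := by positivity
      have hq0 : 0 ≤ q := le_trans (by positivity) hq1
      calc 1 / (G ^ 6 * A ^ 3) = 1 / (G ^ 6 * A ^ 2 * A) := by ring
        _ ≤ 1 / (G ^ 6 * A ^ 2 * (100000 * B ^ 3)) := by gcongr; linarith
        _ = 1 / (1000 * (G ^ 2) ^ 3) * (1 / A) ^ 2 / (100 * B ^ 3) := by field_simp; ring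
        _ ≤ _ := by gcongr
    have a4 : 1 / (2 * (G ^ 6 * A ^ 3)) + 1 / (4 * (G ^ 6 * A ^ 3)) + 1 / (4 * (G ^ 6 * A ^ 3)) =
        1 / (G ^ 6 * A ^ 3) := by field_simp; ring
    rw [mul_add, mul_add]
    linarith

end Crest.Agent.R338
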