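import Crest.Agent.R338.K
import Crest.Agent.R338.M
import Crest.Agent.R338.B
import Crest.Agent.R338.D
import Crest.Agent.R338.O
import Crest.Agent.R338.MainAux

/-! Row 338: assembly. -/

set_option autoImplicit false

open MeasureTheory Crest.MathPhysics.ElectronicCoulomb Crest.Agent.Lib.PT
open Crest.Quantum.QMA Crest.MathPhysics.CoulombProblem

namespace Crest.Agent.R338

theorem main_pt_rat {α : Type} [Enc α] {a : α → ℚ} (h : PT a) : PT fun x => ratCode (a x) := by
  unfold ratCode intCode Crest.Quantum.GateCircuit.natCode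
  fun_prop

theorem pt_code {nuc : List Bool → List Q3} {N : List Bool → ℕ} {a b : List Bool → ℚ}
    (h1 : PT nuc) (h2 : PT N) (h3 : PB N) (h4 : PT a) (h5 : PT b) :
    PT fun x => Instance.code ⟨(nuc x).map Q3.vec, N x, a x, b x⟩ := by
  have h6 : PT fun p : List Bool × Q3 =>
      true :: (ratCode p.2.1 ++ ratCode p.2.2.1 ++ ratCode p.2.2.2) :=
    (PT.const true).cons (((main_pt_rat (by fun_prop)).append (main_pt_rat (by fun_prop))).append
      (main_pt_rat (by fun_prop)))
  have h7 := (PT.map (g := fun _ (p : Q3) =>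
    true :: (ratCode p.1 ++ ratCode p.2.1 ++ ratCode p.2.2)) h1 h6).flatten
  have h8 : PT fun x => unaryCode (N x) := by
    unfold unaryCode
    fun_prop
  refine ((((h7.append (PT.const [false])).append h8).append (main_pt_rat h4)).append
    (main_pt_rat h5)).congr fun x => ?_
  simp [Instance.code, Crest.Quantum.GateCircuit.listCode, posCode, Q3.vec, Function.comp_def]

theorem qma_hard : QMAHard groundEnergyProblem := by
  intro P hP
  obtain ⟨d, hd, hv, hy, hn⟩ := xz_hard P hP
  obtain ⟨k1, hk1⟩ := design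
  obtain ⟨k2, hk2⟩ := disc
  obtain ⟨k3, hk3⟩ := ob_of_disc
  have dB := hd.B
  have dn := hd.n
  have dlo := hd.lo
  have pB := hd.pbB
  set L := (k1 + 82) * (k3 + 5 + 12 * (k2 + k3 + 3)) with hL
  set N : List Bool → ℕ := fun x => ((d x).B + (L + 1)) ^ 2 with hN
  have hN1 : PT N := (dB.add (PT.const _)).pow (PT.const 2) (PB.const 2)
  have hN2 : PB N := (pB.add (PB.const _)).pow 2
  obtain ⟨U, m, lam, c, r₀, Vq, vq, pU, pm, plam, pc, -, pVq, pvq, hdes⟩ := hk1 d N hd hN1 hN2 hv
  set A : List Bool → ℕ := fun x => ((d x).B + N x + 2) ^ (k1 + 82) with hA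
  set H : List Bool → ℕ := fun x => ((2 * A x) ^ (k2 + k3 + 3)) ^ 2 with hH
  have hH1 : PT H := (((PT.const 2).mul (((dB.add hN1).add (PT.const 2)).pow (PT.const _)
    (PB.const _))).pow (PT.const _) (PB.const _)).pow (PT.const 2) (PB.const 2)
  have hH2 : PB H := (((PB.const 2).mul (((pB.add hN2).add (PB.const 2)).pow _)).pow _).pow 2
  obtain ⟨q, pq, hq, hdisc⟩ := hk2 (fun x => c x ^ 2 / 2) H (by fun_prop) hH1 hH2
  obtain ⟨E₀, nuc, pE, pnuc, hout⟩ := hdisc (fun x p => Vq x p + q x * vq x p) (by fun_prop)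
  have pC := pt_C0 hd hv pU
  set lower : List Bool → ℚ := fun x =>
    (3 * (d x).n * (E₀ x + c x / 2) + (d x).n * lam x) / q x ^ 2 +
      m x ^ 2 / q x * ((d x).C0 (U x) + (d x).lo) + m x ^ 2 / (4 * (d x).B * q x) with hlower
  have plower : PT lower := by rw [hlower]; fun_prop
  set sc : ℚ → Q3 → Q3 := fun t p => (t * p.1, t * p.2.1, t * p.2.2) with hsc
  have pnuc' : PT fun x => (nuc x).map (sc (q x)) := by rw [hsc]; fun_prop
  set inst : List Bool → Instance := fun x =>
    ⟨((nuc x).map (sc (q x))).map Q3.vec, 3 * (d x).n, lower x, lower x + 1⟩ with hinst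
  have key : ∀ x, (inst x).Valid ∧
      ((d x).Yes → InfEnergyLE (inst x).potential ((inst x).lower : ℝ)) ∧
      ((d x).No → InfEnergyGE (inst x).potential ((inst x).upper : ℝ)) := by
    intro x
    obtain ⟨V₀, v, χ, hV, hvq, hD₀⟩ := hdes x
    have hvx := hv x
    have hB1 : 1 ≤ (d x).B := hvx.n_pos.trans hvx.n_le
    have hB1' : (1 : ℝ) ≤ (d x).B := by exact_mod_cast hB1
    have hA₀ : ((((d x).B + N x + 2 : ℕ) : ℝ)) ^ k1 ≤ A x := by
      exact_mod_cast Nat.pow_le_pow_right (by omega) (by omega)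
    have hAB : 10 ^ 20 * ((d x).B : ℝ) ^ 40 ≤ A x := by
      have h1 : 10 ^ 20 ≤ ((d x).B + N x + 2) ^ 42 :=
        le_trans (by norm_num) (Nat.pow_le_pow_left (by omega : 3 ≤ (d x).B + N x + 2) 42)
      have h2 : (d x).B ^ 40 ≤ ((d x).B + N x + 2) ^ 40 := Nat.pow_le_pow_left (by omega) _
      have h3 : 10 ^ 20 * (d x).B ^ 40 ≤ A x := by
        refine (Nat.mul_le_mul h1 h2).trans ?_
        rw [← pow_add]
        exact Nat.pow_le_pow_right (by omega) (by omega)
      exact_mod_cast h3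
    have hP2 : (A x : ℝ) ^ (k3 + 5 + 12 * (k2 + k3 + 3)) ≤ 2 ^ N x := by
      have := main_poly_le L (d x).B
      rw [hL, pow_mul] at this
      exact_mod_cast this
    have hD := hD₀.mono (by positivity) hA₀
    set a : ℝ := (A x : ℝ) with ha
    have hBa : 16 * ((d x).B : ℝ) ≤ a := by
      have := le_self_pow₀ hB1' (by norm_num : 40 ≠ 0)
      linarith
    have ha1 : 16 ≤ a := by linarith
    set G : ℝ := (2 * a) ^ (k2 + k3 + 3) with hG
    have hG0 : 0 < G := by positivity
    have hHG : (H x : ℝ) = G ^ 2 := by rw [hH, hG, ha]; push_cast; rfl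
    have hc2 : (2 : ℝ) ≤ c x := hD.ob.c_bd.1
    have hc3 : (c x : ℝ) ^ 2 ≤ a := hD.ob.c_bd.2
    have hc4 : (4 : ℝ) ≤ c x ^ 2 := by nlinarith
    obtain ⟨hq1, hq2⟩ := hq x
      (by have : (1 : ℝ) ≤ c x ^ 2 / 2 := by linarith
          exact_mod_cast this)
      (by have : (0 : ℝ) < H x := by rw [hHG]; positivity
          exact_mod_cast this)
    have hq1' : 1 / (1000 * (G ^ 2) ^ 3) ≤ (q x : ℝ) := by
      have := (Rat.cast_le (K := ℝ)).2 hq1
      push_cast at this
      rwa [hHG] at this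
    have hq2' : (q x : ℝ) ≤ a / (G ^ 2) ^ 3 := by
      have := (Rat.cast_le (K := ℝ)).2 hq2
      push_cast at this
      rw [hHG] at this
      refine this.trans ?_
      gcongr
      linarith
    have hq0 : (0 : ℝ) < q x := lt_of_lt_of_le (by positivity) hq1'
    obtain ⟨p1, p2, p3, p4, p5⟩ := main_params hB1' hAB hG hq1' hq2' hD.m_bd.1 hA₀ hP2
    have hqa : (q x : ℝ) * a ^ 2 ≤ 1 :=
      le_trans (mul_le_mul_of_nonneg_left (pow_le_pow_right₀ (by linarith) (by norm_num)) hq0.le) p1
    have hqa' : 16 * (q x * a) ≤ 1 := by nlinarith [mul_pos hq0 (by linarith : 0 < a)]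
    have hq1'' : (q x : ℝ) ≤ 1 := by nlinarith
    have hin : DiscIn ((c x ^ 2 / 2 : ℚ) : ℝ) (r₀ x) (2 * a) fun y => V₀ y + q x * v y := by
      push_cast
      refine ⟨by linarith, ⟨by linarith, by linarith⟩,
        ⟨hD.ob.r_bd.1, by linarith [hD.ob.r_bd.2]⟩, hD.ob.V_sb.main_add hD.v_sb hq0.le hq1'',
        fun y hy => by simp only [hD.ob.V_supp y hy, hD.v_supp y hy]; simp, fun y => ?_⟩
      have h1 := main_lap_add hD.ob.V_sb hD.v_sb hq0.le y
      have h2 := hD.ob.V_lap y
      linarith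
    obtain ⟨hne, hnd, hO⟩ := hout x (r₀ x) (2 * a) _ hin
      (fun p => by rw [hV, hvq]; push_cast; rfl) (by rwa [hHG])
    rw [hHG, Real.sqrt_sq hG0.le] at hO
    push_cast at hO
    have hcard : (Fintype.card (Fin (d x).n × Fin 3) : ℝ) ≤ a := by
      have : ((d x).n : ℝ) ≤ (d x).B := by exact_mod_cast hvx.n_le
      simp only [Fintype.card_prod, Fintype.card_fin]
      push_cast
      linarith
    have hOB := hk3 χ core3 V₀ v _ _ _ _ _ _ _ _ _ _ _ hD.ob hD.v_sb.1.continuous hq0.le hO hcard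
      (by positivity) p4 (by positivity) p3 (by positivity) (by positivity)
    have hF : Full χ core3 (q x) (fun i : Fin (nuc x).length => rp ((nuc x).get i)) v _ _ _ (a ^ 3)
        (m x ^ 2 / (2000 * ((d x).B : ℝ) ^ 5))
        (fun i i' j j' => m x ^ 2 * (d x).wbar (U x) i i' j j')
        (fun i i' => m x ^ 2 * (d x).vbar (U x) i i') :=
      ⟨hOB, lt_of_lt_of_le (by positivity) hD.ob.lam_bd.1, hD.v_sb.1.continuous,
        fun y => (hD.v_sb.main_abs_le y).trans (le_self_pow₀ (by linarith) (by norm_num)),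
        k2_of_bdd (by linarith) hcard (fun i => (hOB.c1 i).continuous) hOB.cs
          (fun i => (hD.ob.χ_sb i).main_abs_le) (fun i => by rw [hOB.on, if_pos rfl]),
        hD.w_near, hD.v_near⟩
    obtain ⟨h1, h2⟩ := main_energy hvx hD.U_bd.1 hF hq0 p1 p5 hD.ob.lam_bd.1 hD.m_bd.1 hD.m_bd.2
      hD.U_bd.2 hAB
    have hpot : (inst x).potential = unitNucleiPotential (n := 3 * (d x).n)
        fun i : Fin (nuc x).length => (q x : ℝ) • rp ((nuc x).get i) := by
      refine ((main_potential ((nuc x).map (sc (q x))) Q3.vec realPos).trans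
        (main_potential (nuc x) (sc (q x)) fun p => realPos (Q3.vec p))).trans ?_
      congr 1
      funext i
      ext k
      fin_cases k <;> simp [hsc, rp, realPos, Q3.vec]
    have hq0' : q x ≠ 0 := by
      have := hq0.ne'
      exact_mod_cast this
    refine ⟨⟨by simpa [hinst] using hne, ?_, ?_, le_rfl⟩, fun h => ?_, fun h => ?_⟩
    · refine (hnd.map fun p p' h => ?_).map fun p p' h => ?_
      · simp only [hsc, Prod.mk.injEq, mul_right_inj' hq0'] at h
        exact Prod.ext h.1 (Prod.ext h.2.1 h.2.2)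
      · exact Prod.ext (congrFun h 0) (Prod.ext (congrFun h 1) (congrFun h 2))
    · have := hvx.n_pos
      change 0 < 3 * (d x).n
      omega
    · rw [hpot]
      convert h1 h using 1
      simp only [hinst, hlower]
      push_cast
      rfl
    · rw [hpot]
      convert h2 h using 1
      simp only [hinst, hlower]
      push_cast
      rfl
  refine ⟨fun x => (inst x).code, PT.polyTime (pt_code pnuc' (by fun_prop) ?_ plower (by fun_prop)),
    fun x hx => ⟨inst x, (key x).1, rfl, (key x).2.1 (hy x hx)⟩,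
    fun x hx => ⟨inst x, (key x).1, rfl, (key x).2.2 (hn x hx)⟩⟩
  exact ((PB.const 3).mul pB).of_le fun x => Nat.mul_le_mul_left 3 (hv x).n_le

end Crest.Agent.R338
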