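import Crest.Agent.R338.Haz
import Crest.Agent.R338.Fac
import Crest.Agent.R338.FinB

/-! Row 338: the parameters and the explicit design. -/

set_option autoImplicit false

open MeasureTheory Crest.MathPhysics.ElectronicCoulomb

namespace Crest.Agent.R338

/-- Number of scales of the logarithmic cut-off. -/
@[irreducible] def pJ : ℕ := 10 ^ 48

namespace XZ

variable (d : XZ) (N : ℕ)

/-- The size. -/
noncomputable def sz : ℝ := ((d.B + N + 2 : ℕ) : ℝ)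

/-- The basic large parameter. -/
noncomputable def pQ : ℝ := 10 ^ 20 * (d.B : ℝ) ^ 40
noncomputable def pG : ℝ := N + d.pQ
/-- Width of the dots. -/
noncomputable def pσ : ℝ := 1 / d.pQ
noncomputable def pt : ℝ := 1 / d.pQ ^ 4
noncomputable def pδ : ℝ := 1 / d.pQ ^ 8
noncomputable def pτ : ℝ := 1 / d.pQ ^ 5
noncomputable def pβ : ℝ := 1 / d.pQ ^ 30
noncomputable def plam : ℝ := d.pβ ^ 2 / (d.pQ ^ 4 * d.pG N)
noncomputable def pΛ : ℝ := 4 * d.B * d.pQ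
noncomputable def pw : ℝ := 1 / d.pQ ^ 4
noncomputable def pπ : ℝ := 1 / (d.pQ ^ 5 * d.pG N)
noncomputable def pXr : ℝ := d.pΛ * (3 * (d.n : ℝ) ^ 2 + 1)
noncomputable def pT : ℝ := d.pXr + 2 * d.pG N / d.pβ
noncomputable def pr1 : ℝ := d.pT N + d.pQ ^ 2
noncomputable def pr0 : ℝ := 2 ^ (pJ + 2) * d.pr1 N

/-- Centre of molecule `m` in the first coordinate. -/
noncomputable def xm (m : ℕ) : ℝ := m * d.pQ
noncomputable def rho (m : ℕ) : ℝ := d.pΛ * ((if m < d.nd then 2 else 1) * (d.n : ℝ) ^ 2 + 1 / 2)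
noncomputable def pos (k i j : ℕ) : ℝ := d.pΛ * (k * (d.n : ℝ) ^ 2 + i * d.n + j + 1)
/-- Distance of the dots of slot `(k, i, j)` from the centre of molecule `m`. -/
noncomputable def ys (m k i j : ℕ) : ℝ := d.pos k i j - (d.side k i j : ℝ) * d.xm m
/-- Position of a column relative to the centre of the molecule. -/
noncomputable def xc (m k i j : ℕ) (mir : Bool) : ℝ :=
  (rs mir : ℝ) * (d.side k i j : ℝ) * d.ys m k i j

/-! #### The first coordinate -/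

noncomputable def hx (m : ℕ) (x : ℝ) : ℝ :=
  -(2 * d.plam N * d.rho m * Sd 0 (x - d.rho m + 2)) +
    d.pβ * (Sd 0 (x - 1) - Sd 0 ((x - d.rho m - d.pt) / d.pδ + 1) + Sd 0 ((x - d.rho m - 1) / d.pδ)) +
    ∑ k ∈ Finset.range 3, ∑ i ∈ Finset.range d.n, ∑ j ∈ Finset.range d.n,
      d.pτ * (d.amp m k i j : ℝ) * (if d.typ m k = 0 then d.pt else 1) * bs d.pσ (x - d.ys m k i j)

noncomputable def rx (m : ℕ) (x : ℝ) : ℝ := 2 * d.plam N * x + d.hx N m x - d.hx N m (-x)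
noncomputable def x0 (m : ℕ) : ℝ := d.rho m + 1 + d.pδ
noncomputable def Wx (m : ℕ) : ℝ → ℝ := hzW (d.plam N) (d.rx N m)
noncomputable def eX (m : ℕ) : Fin 2 → ℝ → ℝ :=
  facE (d.pT N) 1 (hzF (d.plam N) (d.x0 m) (d.rx N m)) (hzG (d.plam N) (d.x0 m) (d.rx N m))

/-- The main part of `eX a * eX a'` (`t = a + a'`). -/
noncomputable def mainX (m t : ℕ) (x : ℝ) : ℝ :=
  ∑ k ∈ Finset.range 3, ∑ i ∈ Finset.range d.n, ∑ j ∈ Finset.range d.n, ∑ mir : Bool,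
    d.pτ / 2 * (d.amp m k i j : ℝ) * (d.xi m k i j mir : ℝ) ^ t * bs d.pσ (x - d.xc m k i j mir)

/-! #### The second coordinate -/

noncomputable def hy (y : ℝ) : ℝ :=
  d.pβ * Sd 0 (4 * y - 1) +
    (1 - d.pπ N) * bs d.pσ (y - 1) /
      (d.pπ N + (1 - d.pπ N) * (1 - Sd 0 ((y - 1) / d.pσ + 1 / 2))) +
    4 * d.pG N * Sd 0 (4 * y - 5)

noncomputable def ry (y : ℝ) : ℝ := 2 * d.plam N * y + d.hy N y - d.hy N (-y)
noncomputable def Wy : ℝ → ℝ := hzW (d.plam N) (d.ry N)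
noncomputable def eY : Fin 2 → ℝ → ℝ :=
  facE 2 (1 / 2) (hzF (d.plam N) (1 / 2) (d.ry N)) (hzG (d.plam N) (1 / 2) (d.ry N))

noncomputable def mainY (t : ℕ) (y : ℝ) : ℝ :=
  ∑ r : Bool, 1 / 2 * (rs r : ℝ) ^ t * bs d.pσ (y - rs r)

/-! #### The third coordinate -/

noncomputable def eZ (c : ℝ) : ℝ → ℝ := cn d.pw d.pw fun z => Real.exp (-(c * z ^ 2 / 2))

end XZ

/-! #### Three dimensions -/

def ix : Fin 3 → Fin 2 := ![0, 1, 0]
def iy : Fin 3 → Fin 2 := ![0, 0, 1]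

/-- Product cut-off of a cube. -/
noncomputable def cube (R : ℝ) (x : Pos3) : ℝ := cut R R (x 0) * cut R R (x 1) * cut R R (x 2)

noncomputable def logCut (R : ℝ) (x : Pos3) : ℝ :=
  (∑ j ∈ Finset.range pJ, cube (2 ^ j * R) x) / pJ

namespace XZ

variable (d : XZ) (N : ℕ) (c : ℝ)

noncomputable def chi (a : Fin d.n × Fin 3) (x : Pos3) : ℝ :=
  d.eX N a.1 (ix a.2) (x 0 - d.xm a.1) * d.eY N (iy a.2) (x 1 - 8 * (a.1 : ℕ)) * d.eZ c (x 2)

noncomputable def coreM (m : ℕ) (x : Pos3) : ℝ :=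
  cut (d.pT N + 1) 1 (x 0 - d.xm m) * cut (5 / 2) (1 / 2) (x 1 - 8 * m) * cut (1 / 2) (1 / 2) (x 2)

noncomputable def V0 (x : Pos3) : ℝ :=
  -(c ^ 2 / 2 * ((x 0 ^ 2 + x 1 ^ 2) * logCut (d.pr1 N) x)) +
    ∑ m ∈ Finset.range d.n,
      d.coreM N m x * (d.Wx N m (x 0 - d.xm m) + d.Wy N (x 1 - 8 * m) - c) +
    c * cube (2 ^ pJ * d.pr1 N) x

/-- The weak potential. -/
noncomputable def vv (U : ℚ) (x : Pos3) : ℝ :=
  ∑ m ∈ Finset.range d.n, ∑ k ∈ Finset.range 3, ∑ i ∈ Finset.range d.n, ∑ j ∈ Finset.range d.n,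
    ∑ mir : Bool, ∑ r : Bool, d.pτ / 4 * (d.pot U m k i j mir r : ℝ) *
      (cut d.pσ d.pσ (x 0 - d.xm m - d.xc m k i j mir) * cut d.pσ d.pσ (x 1 - 8 * m - rs r) *
        cut 1 1 (x 2))

end XZ

/-- The self-energy of a planar dot of width one. -/
noncomputable def ustar : ℝ :=
  ∫ p : ℝ × ℝ, ∫ p' : ℝ × ℝ, bs 1 p.1 * bs 1 p.2 * (bs 1 p'.1 * bs 1 p'.2) /
    √((p.1 - p'.1) ^ 2 + (p.2 - p'.2) ^ 2)

/-- Valid instances together with a tail parameter. -/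
abbrev Inst : Type := {p : XZ × ℕ // p.1.Valid}

noncomputable abbrev Inst.s (i : Inst) : ℝ := i.1.1.sz i.1.2

end Crest.Agent.R338
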