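import Crest.Agent.R338.Par

/-! Row 338: sizes of the parameters, and the factor in the third coordinate. -/

set_option autoImplicit false

open MeasureTheory

namespace Crest.Agent.R338

theorem XZ.two_le_sz (d : XZ) (N : ℕ) : 2 ≤ d.sz N := by
  unfold XZ.sz
  exact_mod_cast Nat.le_add_left 2 _

theorem Inst.two_le (i : Inst) : 2 ≤ i.s := by
  exact XZ.two_le_sz _ _

/-! #### Elementary inequalities between the parameters -/

namespace XZ.Valid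

variable {d : XZ}

theorem one_le_B (hv : d.Valid) : (1 : ℝ) ≤ d.B := by
  exact_mod_cast hv.n_pos.trans hv.n_le

theorem one_le_n (hv : d.Valid) : (1 : ℝ) ≤ d.n := by
  exact_mod_cast hv.n_pos

theorem n_le_B (hv : d.Valid) : (d.n : ℝ) ≤ d.B := by
  exact_mod_cast hv.n_le

theorem pQ_ge (hv : d.Valid) : (10 : ℝ) ^ 20 ≤ d.pQ := by
  have h : (1 : ℝ) ≤ (d.B : ℝ) ^ 40 := one_le_pow₀ hv.one_le_B
  unfold XZ.pQ
  nlinarith

theorem one_le_pQ (hv : d.Valid) : 1 ≤ d.pQ := le_trans (by norm_num) hv.pQ_ge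

theorem pQ_pos (hv : d.Valid) : 0 < d.pQ := lt_of_lt_of_le one_pos hv.one_le_pQ

theorem pQ_le_pG (_hv : d.Valid) (N : ℕ) : d.pQ ≤ d.pG N := by
  unfold XZ.pG
  linarith [(Nat.cast_nonneg N : (0 : ℝ) ≤ N)]

theorem N_le_pG (hv : d.Valid) (N : ℕ) : (N : ℝ) ≤ d.pG N := by
  unfold XZ.pG
  linarith [hv.pQ_pos]

theorem pG_ge (hv : d.Valid) (N : ℕ) : (10 : ℝ) ^ 20 ≤ d.pG N := hv.pQ_ge.trans (hv.pQ_le_pG N)

theorem one_le_pG (hv : d.Valid) (N : ℕ) : 1 ≤ d.pG N := hv.one_le_pQ.trans (hv.pQ_le_pG N)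

theorem pG_pos (hv : d.Valid) (N : ℕ) : 0 < d.pG N := lt_of_lt_of_le one_pos (hv.one_le_pG N)

theorem inv_pow_bd (hv : d.Valid) (k : ℕ) : 0 < 1 / d.pQ ^ k ∧ 1 / d.pQ ^ k ≤ 1 := by
  have h : 1 ≤ d.pQ ^ k := one_le_pow₀ hv.one_le_pQ
  exact ⟨by positivity, (div_le_one (by linarith)).2 h⟩

theorem inv_pow_small (hv : d.Valid) {k : ℕ} (hk : 1 ≤ k) : 1 / d.pQ ^ k ≤ 1 / 10 ^ 20 := by
  refine one_div_le_one_div_of_le (by norm_num) (hv.pQ_ge.trans ?_)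
  exact le_self_pow₀ hv.one_le_pQ (by omega)

theorem pσ_bd (hv : d.Valid) : 0 < d.pσ ∧ d.pσ ≤ 1 := by
  simpa [XZ.pσ] using hv.inv_pow_bd 1

theorem pt_bd (hv : d.Valid) : 0 < d.pt ∧ d.pt ≤ 1 := hv.inv_pow_bd 4
theorem pδ_bd (hv : d.Valid) : 0 < d.pδ ∧ d.pδ ≤ 1 := hv.inv_pow_bd 8
theorem pτ_bd (hv : d.Valid) : 0 < d.pτ ∧ d.pτ ≤ 1 := hv.inv_pow_bd 5
theorem pβ_bd (hv : d.Valid) : 0 < d.pβ ∧ d.pβ ≤ 1 := hv.inv_pow_bd 30
theorem pw_bd (hv : d.Valid) : 0 < d.pw ∧ d.pw ≤ 1 := hv.inv_pow_bd 4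

theorem pw_small (hv : d.Valid) : d.pw ≤ 1 / 10 ^ 20 := hv.inv_pow_small (by norm_num)

theorem pπ_bd (hv : d.Valid) (N : ℕ) : 0 < d.pπ N ∧ d.pπ N ≤ 1 := by
  have h : 1 ≤ d.pQ ^ 5 * d.pG N :=
    one_le_mul_of_one_le_of_one_le (one_le_pow₀ hv.one_le_pQ) (hv.one_le_pG N)
  unfold XZ.pπ
  exact ⟨by positivity, (div_le_one (by linarith)).2 h⟩

theorem pΛ_pos (hv : d.Valid) : 0 < d.pΛ := by
  have := hv.one_le_B
  have := hv.pQ_pos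
  unfold XZ.pΛ
  positivity

theorem pXr_pos (hv : d.Valid) : 0 < d.pXr := by
  have := hv.pΛ_pos
  unfold XZ.pXr
  positivity

theorem pT_pos (hv : d.Valid) (N : ℕ) : 0 < d.pT N := by
  have := hv.pXr_pos
  have := hv.pG_pos N
  have := hv.pβ_bd.1
  unfold XZ.pT
  positivity

theorem one_le_pr1 (hv : d.Valid) (N : ℕ) : 1 ≤ d.pr1 N := by
  have h1 := hv.pT_pos N
  have h2 : 1 ≤ d.pQ ^ 2 := one_le_pow₀ hv.one_le_pQ
  unfold XZ.pr1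
  linarith

theorem one_le_pr0 (hv : d.Valid) (N : ℕ) : 1 ≤ d.pr0 N :=
  one_le_mul_of_one_le_of_one_le (one_le_pow₀ (by norm_num)) (hv.one_le_pr1 N)

end XZ.Valid

theorem plam_bd {d : XZ} (hv : d.Valid) (N : ℕ) : 0 < d.plam N ∧ d.plam N ≤ 1 := by
  have h : 1 ≤ d.pQ ^ 4 * d.pG N :=
    one_le_mul_of_one_le_of_one_le (one_le_pow₀ hv.one_le_pQ) (hv.one_le_pG N)
  obtain ⟨h1, h2⟩ := hv.pβ_bd
  unfold XZ.plam
  refine ⟨by positivity, (div_le_one (by linarith)).2 ?_⟩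
  nlinarith

/-! #### Polynomial bounds -/

/-- Numbers bounded by one. -/
theorem PN.of_le_one {I : Type} {s a : I → ℝ} (h : ∀ i, |a i| ≤ 1) : PN s a :=
  ⟨0, fun i => by simpa using h i⟩

theorem PN.congr' {I : Type} {s a b : I → ℝ} (h : PN s b) (e : ∀ i, a i = b i) : PN s a :=
  h.of_le fun i => (congrArg _ (e i)).le

/-- Inverses of numbers that are at least one. -/
theorem PN.inv_of_one_le {I : Type} {s a : I → ℝ} (h : ∀ i, 1 ≤ a i) : PN s fun i => (a i)⁻¹ :=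
  PN.of_le_one fun i => by
    have := h i
    rw [abs_of_nonneg (by positivity)]
    exact inv_le_one_of_one_le₀ this

theorem pn_const (t : ℝ) : PN Inst.s fun _ => t := PN.const Inst.two_le t

theorem pn_s : PN Inst.s Inst.s := PN.self Inst.two_le

theorem pn_B : PN Inst.s fun i => (i.1.1.B : ℝ) :=
  pn_s.of_le fun i => by
    have h : (0 : ℝ) ≤ i.1.2 := Nat.cast_nonneg _
    have h' : (0 : ℝ) ≤ i.1.1.B := Nat.cast_nonneg _
    rw [abs_of_nonneg h', abs_of_nonneg (by linarith [i.two_le])]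
    simp only [Inst.s, XZ.sz]
    push_cast
    linarith

theorem pn_N : PN Inst.s fun i => (i.1.2 : ℝ) :=
  pn_s.of_le fun i => by
    have h : (0 : ℝ) ≤ i.1.2 := Nat.cast_nonneg _
    have h' : (0 : ℝ) ≤ i.1.1.B := Nat.cast_nonneg _
    rw [abs_of_nonneg h, abs_of_nonneg (by linarith [i.two_le])]
    simp only [Inst.s, XZ.sz]
    push_cast
    linarith

theorem pn_n : PN Inst.s fun i => (i.1.1.n : ℝ) :=
  pn_B.of_le fun i => by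
    rw [abs_of_nonneg (Nat.cast_nonneg _), abs_of_nonneg (Nat.cast_nonneg _)]
    exact i.2.n_le_B

theorem pn_pQ : PN Inst.s fun i => i.1.1.pQ := by
  exact (pn_const _).mul (pn_B.pow 40)

theorem pn_pG : PN Inst.s fun i => i.1.1.pG i.1.2 := by
  exact pn_N.add Inst.two_le pn_pQ

theorem pn_alc : PN Inst.s fun i => (i.1.1.alc : ℝ) :=
  ((pn_const (10 ^ 4)).mul (pn_B.pow 8)).congr' fun i => by
    simp [XZ.alc]

theorem pn_pσ_inv : PN Inst.s fun i => (i.1.1.pσ)⁻¹ :=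
  pn_pQ.congr' fun i => by simp [XZ.pσ]

theorem pn_pt_inv : PN Inst.s fun i => (i.1.1.pt)⁻¹ :=
  (pn_pQ.pow 4).congr' fun i => by simp [XZ.pt]

theorem pn_pδ_inv : PN Inst.s fun i => (i.1.1.pδ)⁻¹ :=
  (pn_pQ.pow 8).congr' fun i => by simp [XZ.pδ]

theorem pn_pτ_inv : PN Inst.s fun i => (i.1.1.pτ)⁻¹ :=
  (pn_pQ.pow 5).congr' fun i => by simp [XZ.pτ]

theorem pn_pβ_inv : PN Inst.s fun i => (i.1.1.pβ)⁻¹ :=
  (pn_pQ.pow 30).congr' fun i => by simp [XZ.pβ]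

theorem pn_pw_inv : PN Inst.s fun i => (i.1.1.pw)⁻¹ :=
  (pn_pQ.pow 4).congr' fun i => by simp [XZ.pw]

theorem pn_pπ_inv : PN Inst.s fun i => (i.1.1.pπ i.1.2)⁻¹ :=
  ((pn_pQ.pow 5).mul pn_pG).congr' fun i => by rw [XZ.pπ, one_div, inv_inv]

theorem pn_plam_inv : PN Inst.s fun i => (i.1.1.plam i.1.2)⁻¹ := by
  exact (((pn_pQ.pow 4).mul pn_pG).mul (pn_pβ_inv.pow 2)).congr' fun i => by
    rw [XZ.plam, inv_div, div_eq_mul_inv, inv_pow]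

theorem pn_pσ : PN Inst.s fun i => i.1.1.pσ :=
  PN.of_le_one fun i => by rw [abs_of_pos i.2.pσ_bd.1]; exact i.2.pσ_bd.2

theorem pn_pt : PN Inst.s fun i => i.1.1.pt :=
  PN.of_le_one fun i => by rw [abs_of_pos i.2.pt_bd.1]; exact i.2.pt_bd.2

theorem pn_pδ : PN Inst.s fun i => i.1.1.pδ :=
  PN.of_le_one fun i => by rw [abs_of_pos i.2.pδ_bd.1]; exact i.2.pδ_bd.2

theorem pn_pτ : PN Inst.s fun i => i.1.1.pτ :=
  PN.of_le_one fun i => by rw [abs_of_pos i.2.pτ_bd.1]; exact i.2.pτ_bd.2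

theorem pn_pβ : PN Inst.s fun i => i.1.1.pβ :=
  PN.of_le_one fun i => by rw [abs_of_pos i.2.pβ_bd.1]; exact i.2.pβ_bd.2

theorem pn_pw : PN Inst.s fun i => i.1.1.pw :=
  PN.of_le_one fun i => by rw [abs_of_pos i.2.pw_bd.1]; exact i.2.pw_bd.2

theorem pn_pπ : PN Inst.s fun i => i.1.1.pπ i.1.2 :=
  PN.of_le_one fun i => by rw [abs_of_pos (i.2.pπ_bd _).1]; exact (i.2.pπ_bd _).2

theorem pn_plam : PN Inst.s fun i => i.1.1.plam i.1.2 :=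
  PN.of_le_one fun i => by rw [abs_of_pos (plam_bd i.2 _).1]; exact (plam_bd i.2 _).2

theorem pn_pQ_inv : PN Inst.s fun i => (i.1.1.pQ)⁻¹ := PN.inv_of_one_le fun i => i.2.one_le_pQ

theorem pn_pG_inv : PN Inst.s fun i => (i.1.1.pG i.1.2)⁻¹ :=
  PN.inv_of_one_le fun i => i.2.one_le_pG _

theorem pn_pΛ : PN Inst.s fun i => i.1.1.pΛ := ((pn_const 4).mul pn_B).mul pn_pQ

theorem pn_pXr : PN Inst.s fun i => i.1.1.pXr :=
  pn_pΛ.mul (((pn_const 3).mul (pn_n.pow 2)).add Inst.two_le (pn_const 1))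

theorem pn_pT : PN Inst.s fun i => i.1.1.pT i.1.2 :=
  (pn_pXr.add Inst.two_le (((pn_const 2).mul pn_pG).mul pn_pβ_inv)).congr' fun i => by
    rw [XZ.pT, div_eq_mul_inv]

theorem pn_pr1 : PN Inst.s fun i => i.1.1.pr1 i.1.2 := pn_pT.add Inst.two_le (pn_pQ.pow 2)

theorem pn_pr0 : PN Inst.s fun i => i.1.1.pr0 i.1.2 := by
  exact (pn_const _).mul pn_pr1

theorem pn_pr1_inv : PN Inst.s fun i => (i.1.1.pr1 i.1.2)⁻¹ :=
  PN.inv_of_one_le fun i => i.2.one_le_pr1 _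

theorem pn_pr0_inv : PN Inst.s fun i => (i.1.1.pr0 i.1.2)⁻¹ :=
  PN.inv_of_one_le fun i => i.2.one_le_pr0 _

/-! #### The Gaussian factor -/

/-- For large `k₁` the frequency `s ^ k₁` is at least `2 G Q ^ 8`. -/
theorem eZ_freq : ∃ k₀ : ℕ, ∀ k₁, k₀ ≤ k₁ → ∀ (d : XZ) (N : ℕ), d.Valid →
    2 * d.pG N ≤ d.sz N ^ k₁ * d.pw ^ 2 := by
  obtain ⟨k₀, hk⟩ := ((pn_const 2).mul pn_pG).mul (pn_pw_inv.pow 2)
  refine ⟨k₀, fun k₁ h d N hv => ?_⟩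
  have h1 : 2 * d.pG N * d.pw⁻¹ ^ 2 ≤ d.sz N ^ k₁ :=
    ((le_abs_self _).trans (hk ⟨(d, N), hv⟩)).trans
      (pow_le_pow_right₀ (by linarith [d.two_le_sz N]) h)
  have hw := hv.pw_bd.1
  calc 2 * d.pG N = 2 * d.pG N * d.pw⁻¹ ^ 2 * d.pw ^ 2 := by field_simp
    _ ≤ _ := mul_le_mul_of_nonneg_right h1 (by positivity)

theorem Fac1.mono {lam T η η' : ℝ} {W e : ℝ → ℝ} (h : Fac1 lam W e T η) (hη : η ≤ η') :
    Fac1 lam W e T η' :=
  ⟨h.W_cont, h.c2, h.supp, h.on, fun x => (h.res x).trans hη, h.gap⟩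

theorem exp_neg_le_two_pow {t : ℝ} {N : ℕ} (h : (N : ℝ) ≤ t) : Real.exp (-t) ≤ 1 / 2 ^ N := by
  have h2 : (2 : ℝ) ≤ Real.exp 1 := by linarith [Real.add_one_le_exp (1 : ℝ)]
  have h3 : (2 : ℝ) ^ N ≤ Real.exp t := by
    calc (2 : ℝ) ^ N ≤ Real.exp 1 ^ N := pow_le_pow_left₀ (by norm_num) h2 N
      _ = Real.exp N := by rw [← Real.exp_nat_mul, mul_one]
      _ ≤ Real.exp t := Real.exp_le_exp.2 h
  rw [Real.exp_neg, ← one_div]
  exact one_div_le_one_div_of_le (by positivity) h3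

theorem eZ_fac : ∃ k₀ : ℕ, ∀ k₁, k₀ ≤ k₁ → ∃ k : ℕ, ∀ (d : XZ) (N : ℕ), d.Valid →
    Fac1 (d.plam N) (fun z => (d.sz N ^ k₁) ^ 2 / 2 * z ^ 2 - d.sz N ^ k₁ / 2) (d.eZ (d.sz N ^ k₁))
      (2 * d.pw) (d.sz N ^ k / 2 ^ N) := by
  obtain ⟨k₀, hk⟩ := eZ_freq
  refine ⟨k₀, fun k₁ h => ?_⟩
  obtain ⟨k, hk'⟩ := (pn_const (10 ^ 50)).mul ((pn_s.pow k₁).pow 3)
  refine ⟨k, fun d N hv => ?_⟩
  have h1 := hk k₁ h d N hv
  have hG := hv.pG_ge N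
  have hc : 100 ≤ d.sz N ^ k₁ * d.pw ^ 2 := by linarith
  refine (fac_gauss (plam_bd hv N).1 (plam_bd hv N).2 hv.pw_bd.1 hv.pw_bd.2 hc).1.mono ?_
  have h2 : 10 ^ 50 * (d.sz N ^ k₁) ^ 3 ≤ d.sz N ^ k := (le_abs_self _).trans (hk' ⟨(d, N), hv⟩)
  have h3 : Real.exp (-(d.sz N ^ k₁ * d.pw ^ 2 / 2)) ≤ 1 / 2 ^ N :=
    exp_neg_le_two_pow (by linarith [hv.N_le_pG N])
  have h4 : 0 ≤ d.sz N := by linarith [d.two_le_sz N]
  calc _ ≤ d.sz N ^ k * (1 / 2 ^ N) := mul_le_mul h2 h3 (Real.exp_pos _).le (by positivity)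
    _ = _ := by ring

/-- The norm of the cut-off Gaussian is at least `1 / c`. -/
theorem eZ_norm : ∃ k₀ : ℕ, ∀ k₁, k₀ ≤ k₁ → ∀ (d : XZ) (N : ℕ), d.Valid →
    1 / d.sz N ^ k₁ ≤
      √(∫ y, (cut d.pw d.pw y * Real.exp (-(d.sz N ^ k₁ * y ^ 2 / 2))) ^ 2) := by
  obtain ⟨k₀, hk⟩ := eZ_freq
  refine ⟨k₀, fun k₁ h d N hv => ?_⟩
  have h1 := hk k₁ h d N hv
  have hG := hv.pG_ge N
  have hc : 100 ≤ d.sz N ^ k₁ * d.pw ^ 2 := by linarith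
  have h2 := (fac_gauss (plam_bd hv N).1 (plam_bd hv N).2 hv.pw_bd.1 hv.pw_bd.2 hc).2
  have h3 : 1 ≤ d.sz N ^ k₁ := one_le_pow₀ (by linarith [d.two_le_sz N])
  refine Real.le_sqrt_of_sq_le (le_trans ?_ h2)
  rw [div_pow, one_pow]
  exact one_div_le_one_div_of_le (by positivity) (by nlinarith)

theorem eZ_pj : ∃ k₀ : ℕ, ∀ k₁, k₀ ≤ k₁ → PJ 4 (fun j : Inst × ℝ => j.1.s)
    (fun j => j.1.1.1.eZ (j.1.s ^ k₁)) fun j => j.2 := by
  obtain ⟨k₀, hk⟩ := eZ_norm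
  refine ⟨k₀, fun k₁ h => ?_⟩
  refine PJ.cases (fun j => j.1.two_le) (fun j => |j.2| ≤ 1) ?_ ?_
  · have hs : ∀ j : {j : Inst × ℝ // |j.2| ≤ 1}, 2 ≤ j.1.1.s := fun j => j.1.1.two_le
    have hc : PN (fun j : {j : Inst × ℝ // |j.2| ≤ 1} => j.1.1.s) fun j => j.1.1.s ^ k₁ :=
      (PN.self hs).pow k₁
    have hx : PN (fun j : {j : Inst × ℝ // |j.2| ≤ 1} => j.1.1.s) fun j => j.1.2 :=
      PN.of_le_one fun j => j.2
    have hcut : PJ 4 (fun j : {j : Inst × ℝ // |j.2| ≤ 1} => j.1.1.s)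
        (fun j => cut j.1.1.1.1.pw j.1.1.1.1.pw) fun j => j.1.2 :=
      PJ.cut hs (by norm_num) (pn_pw_inv.comp fun j : {j : Inst × ℝ // |j.2| ≤ 1} => j.1.1) _
    have hexp : PJ 4 (fun j : {j : Inst × ℝ // |j.2| ≤ 1} => j.1.1.s)
        (fun j z => Real.exp (-(j.1.1.s ^ k₁ * z ^ 2 / 2))) fun j => j.1.2 := by
      refine PJ.of_ode (k := 3) hs (G := fun j z => -(j.1.1.s ^ k₁ * z)) (fun j => ?_)
        ((PJ.mul hs (PJ.const hs hc) (PJ.id hs hx)).neg) (PN.of_le_one fun j => ?_)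
      · refine Filter.Eventually.of_forall fun y => ?_
        have h1 : HasDerivAt (fun z : ℝ => -(j.1.1.s ^ k₁ * z ^ 2 / 2)) (-(j.1.1.s ^ k₁ * y)) y := by
          have := (((hasDerivAt_pow 2 y).const_mul (j.1.1.s ^ k₁)).div_const 2).fun_neg
          refine this.congr_deriv ?_
          norm_num
          ring
        have h2 := h1.exp
        rwa [mul_comm] at h2
      · have h0 : 0 ≤ j.1.1.s := by linarith [hs j]
        rw [abs_of_pos (Real.exp_pos _), Real.exp_le_one_iff]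
        have : 0 ≤ j.1.1.s ^ k₁ * j.1.2 ^ 2 / 2 := by positivity
        linarith
    have hN : PN (fun j : {j : Inst × ℝ // |j.2| ≤ 1} => j.1.1.s) fun j =>
        (√(∫ y, (cut j.1.1.1.1.pw j.1.1.1.1.pw y * Real.exp (-(j.1.1.s ^ k₁ * y ^ 2 / 2))) ^ 2))⁻¹ := by
      refine hc.of_le fun j => ?_
      have h0 : 0 < j.1.1.s := by linarith [hs j]
      have h1 := hk k₁ h j.1.1.1.1 j.1.1.1.2 j.1.1.2
      rw [abs_of_nonneg (by positivity), abs_of_nonneg (by positivity)]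
      have h2 : 0 < 1 / j.1.1.s ^ k₁ := by positivity
      have h3 := inv_anti₀ h2 h1
      rwa [one_div, inv_inv] at h3
    refine (PJ.mul hs (PJ.mul hs hcut hexp) (PJ.const hs hN)).congr fun j => ?_
    exact Filter.Eventually.of_forall fun y => by simp only [XZ.eZ, cn, div_eq_mul_inv]
  · refine PJ.of_eventually_zero (fun j => j.1.1.two_le) fun j => ?_
    have h1 : 1 < |j.1.2| := not_le.1 j.2
    have h2 : ∀ᶠ y in nhds j.1.2, 1 < |y| := continuous_abs.continuousAt.eventually (lt_mem_nhds h1)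
    filter_upwards [h2] with y hy
    have h3 := j.1.1.2.pw_small
    have h4 : cut j.1.1.1.1.pw j.1.1.1.1.pw y = 0 :=
      cut_eq_zero j.1.1.2.pw_bd.1 (by linarith)
    simp only [XZ.eZ, cn, h4, zero_mul, zero_div]

end Crest.Agent.R338
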