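import Crest.Agent.R338.XF
import Crest.Agent.R338.YF
import Crest.Agent.R338.ZF

/-! Row 338: polynomially bounded jets of the design (auxiliary file for `V0.lean`). -/

set_option autoImplicit false

open MeasureTheory Crest.MathPhysics.ElectronicCoulomb

namespace Crest.Agent.R338

section General

variable {E : Type} [NormedAddCommGroup E] [NormedSpace ℝ E] {I : Type} {s : I → ℝ} {k : ℕ}

/-- A finite choice of families. -/
theorem PJ.v0b_finite {A : Type} [Fintype A] (hs : ∀ i, 2 ≤ s i) {f : A → I → E → ℝ} {x : I → E}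
    (h : ∀ a, PJ k s (f a) x) (a : I → A) : PJ k s (fun i => f (a i) i) x := by
  choose c hc using h
  refine ⟨Finset.univ.sup c, fun i => (hc (a i) i).mono le_rfl ?_⟩
  exact pow_le_pow_right₀ (by linarith [hs i]) (Finset.le_sup (f := c) (Finset.mem_univ _))

/-- A cut-off in one coordinate. -/
theorem PJ.v0b_cut (hs : ∀ i, 2 ≤ s i) (hk : k ≤ 9) {a b c : I → ℝ} (h : PN s fun i => (b i)⁻¹)
    (l : Fin 3) (x : I → Pos3) : PJ k s (fun i y => R338.cut (a i) (b i) (y l - c i)) x :=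
  PJ.comp_coord hs l (PJ.cut hs hk h _)

theorem PJ.v0b_cut0 (hs : ∀ i, 2 ≤ s i) (hk : k ≤ 9) {a b : I → ℝ} (h : PN s fun i => (b i)⁻¹)
    (l : Fin 3) (x : I → Pos3) : PJ k s (fun i y => R338.cut (a i) (b i) (y l)) x := by
  simpa using PJ.v0b_cut hs hk (a := a) (c := fun _ => 0) h l x

theorem PJ.v0b_cut2 (hs : ∀ i, 2 ≤ s i) (hk : k ≤ 9) {a b c c' : I → ℝ} (h : PN s fun i => (b i)⁻¹)
    (l : Fin 3) (x : I → Pos3) : PJ k s (fun i y => R338.cut (a i) (b i) (y l - c i - c' i)) x := by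
  simpa only [sub_sub] using PJ.v0b_cut hs hk (a := a) (c := fun i => c i + c' i) h l x

theorem PJ.v0b_cube (hs : ∀ i, 2 ≤ s i) (hk : k ≤ 9) {R : I → ℝ} (h : ∀ i, 1 ≤ R i)
    (x : I → Pos3) : PJ k s (fun i => cube (R i)) x :=
  have h' : PN s fun i => (R i)⁻¹ := PN.inv_of_one_le h
  ((PJ.v0b_cut0 hs hk h' 0 x).mul hs (PJ.v0b_cut0 hs hk h' 1 x)).mul hs (PJ.v0b_cut0 hs hk h' 2 x)

theorem PJ.v0b_logCut (hs : ∀ i, 2 ≤ s i) (hk : k ≤ 9) {R : I → ℝ} (h : ∀ i, 1 ≤ R i)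
    (x : I → Pos3) : PJ k s (fun i => logCut (R i)) x := by
  have h1 : PJ k s (fun i y => ∑ j ∈ Finset.range pJ, cube (2 ^ j * R i) y) x := by
    refine PJ.sum hs (κ := fun _ => ℕ) (fun _ => Finset.range pJ) (PN.const hs _)
      (T := fun i j y => cube (2 ^ j * R i) y) ?_
    exact PJ.v0b_cube (s := fun j : Σ _ : I, {e : ℕ // e ∈ Finset.range pJ} => s j.1)
      (fun j => hs j.1) hk (R := fun j => 2 ^ j.2.1 * R j.1)
      (fun j => one_le_mul_of_one_le_of_one_le (one_le_pow₀ (by norm_num)) (h j.1)) fun j => x j.1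
  refine (h1.mul hs (PJ.const hs (PN.const hs (pJ : ℝ)⁻¹))).congr fun i => ?_
  exact Filter.Eventually.of_forall fun y => by simp only [logCut, div_eq_mul_inv]

end General

theorem v0b_logCut_zero {R : ℝ} (hR : 0 < R) {y : Pos3} {l : Fin 3} (hl : l = 0 ∨ l = 1)
    (h : 2 ^ (pJ + 2) * R ≤ |y l|) : logCut R y = 0 := by
  unfold logCut
  rw [Finset.sum_eq_zero, zero_div]
  intro j hj
  have hj' : j + 1 ≤ pJ + 2 := by
    have := Finset.mem_range.1 hj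
    omega
  have h1 : (2 : ℝ) ^ (j + 1) ≤ 2 ^ (pJ + 2) := pow_le_pow_right₀ (by norm_num) hj'
  have h2 : cut (2 ^ j * R) (2 ^ j * R) (y l) = 0 := by
    refine cut_eq_zero (by positivity) (le_trans ?_ h)
    calc 2 ^ j * R + 2 ^ j * R = 2 ^ (j + 1) * R := by ring
      _ ≤ _ := mul_le_mul_of_nonneg_right h1 hR.le
  rcases hl with rfl | rfl <;> simp only [cube, h2, zero_mul, mul_zero]

theorem v0b_cont_coord (l : Fin 3) : Continuous fun y : Pos3 => y l := by fun_prop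

/-- The confining term. -/
theorem v0b_conf_pj : PJ 6 (fun j : Inst × Pos3 => j.1.s)
    (fun j y => (y 0 ^ 2 + y 1 ^ 2) * logCut (j.1.1.1.pr1 j.1.1.2) y) fun j => j.2 := by
  refine PJ.cases (fun j => j.1.two_le)
    (fun j => |j.2 0| ≤ j.1.1.1.pr0 j.1.1.2 ∧ |j.2 1| ≤ j.1.1.1.pr0 j.1.1.2) ?_ ?_
  · refine PJ.mul (fun j => j.1.1.two_le) (PJ.add (fun j => j.1.1.two_le)
      (PJ.pow (fun j => j.1.1.two_le) (PJ.coord (fun j => j.1.1.two_le) 0 ?_) 2)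
      (PJ.pow (fun j => j.1.1.two_le) (PJ.coord (fun j => j.1.1.two_le) 1 ?_) 2))
      (PJ.v0b_logCut (fun j => j.1.1.two_le) (by norm_num) (fun j => j.1.1.2.one_le_pr1 _) _)
    · exact (pn_pr0.comp fun j : {j : Inst × Pos3 // _} => j.1.1).of_le fun j =>
        j.2.1.trans (le_abs_self _)
    · exact (pn_pr0.comp fun j : {j : Inst × Pos3 // _} => j.1.1).of_le fun j =>
        j.2.2.trans (le_abs_self _)
  · refine PJ.of_eventually_zero (fun j => j.1.1.two_le) fun j => ?_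
    have hR : 0 < j.1.1.1.1.pr1 j.1.1.1.2 := lt_of_lt_of_le one_pos (j.1.1.2.one_le_pr1 _)
    obtain ⟨l, hl, h⟩ : ∃ l : Fin 3, (l = 0 ∨ l = 1) ∧ j.1.1.1.1.pr0 j.1.1.1.2 < |j.1.2 l| := by
      rcases not_and_or.1 j.2 with h | h
      · exact ⟨0, Or.inl rfl, not_le.1 h⟩
      · exact ⟨1, Or.inr rfl, not_le.1 h⟩
    have h2 : ∀ᶠ y in nhds j.1.2, j.1.1.1.1.pr0 j.1.1.1.2 < |y l| :=
      (v0b_cont_coord l).abs.continuousAt.eventually (lt_mem_nhds h)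
    filter_upwards [h2] with y hy
    rw [v0b_logCut_zero hR hl hy.le, mul_zero]

/-- The cut-offs of the cores. -/
theorem v0b_coreM_pj : PJ 6 (fun j : Inst × ℕ × Pos3 => j.1.s)
    (fun j => j.1.1.1.coreM j.1.1.2 j.2.1) fun j => j.2.2 :=
  have hs : ∀ j : Inst × ℕ × Pos3, 2 ≤ j.1.s := fun j => j.1.two_le
  ((PJ.v0b_cut hs (by norm_num) (PN.const hs _) 0 _).mul hs
    (PJ.v0b_cut hs (by norm_num) (PN.const hs _) 1 _)).mul hs
    (PJ.v0b_cut0 hs (by norm_num) (PN.const hs _) 2 _)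

/-- The potential of one core. -/
theorem v0b_coreW_pj : PJ 6 (fun j : Σ i : Inst, Fin i.1.1.n × Pos3 => j.1.s)
    (fun j y => j.1.1.1.coreM j.1.1.2 j.2.1 y *
      (j.1.1.1.Wx j.1.1.2 j.2.1 (y 0 - j.1.1.1.xm j.2.1) + j.1.1.1.Wy j.1.1.2 (y 1 - 8 * (j.2.1 : ℕ))))
    fun j => j.2.2 := by
  refine PJ.cases (fun j => j.1.two_le)
    (fun j => |j.2.2 0 - j.1.1.1.xm j.2.1| ≤ j.1.1.1.pT j.1.1.2 + 3 ∧
      |j.2.2 1 - 8 * (j.2.1 : ℕ)| ≤ 7 / 2) ?_ ?_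
  · refine PJ.mul (fun j => j.1.1.two_le)
      (v0b_coreM_pj.reindex fun j : {j : Σ i : Inst, Fin i.1.1.n × Pos3 // _} =>
        (j.1.1, (j.1.2.1 : ℕ), j.1.2.2))
      (PJ.add (fun j => j.1.1.two_le) (PJ.comp_coord (fun j => j.1.1.two_le) 0 ?_)
        (PJ.comp_coord (fun j => j.1.1.two_le) 1 ?_))
    · exact Wx_pj.reindex fun j : {j : Σ i : Inst, Fin i.1.1.n × Pos3 // _} =>
        ⟨j.1.1, j.1.2.1, ⟨_, j.2.1⟩⟩
    · exact Wy_pj.reindex fun j : {j : Σ i : Inst, Fin i.1.1.n × Pos3 // _} => (j.1.1, ⟨_, j.2.2⟩)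
  · refine PJ.of_eventually_zero (fun j => j.1.1.two_le) fun j => ?_
    rcases not_and_or.1 j.2 with h | h
    · have h2 : ∀ᶠ y : Pos3 in nhds j.1.2.2,
          j.1.1.1.1.pT j.1.1.1.2 + 3 < |y 0 - j.1.1.1.1.xm j.1.2.1| :=
        ((v0b_cont_coord 0).sub continuous_const).abs.continuousAt.eventually
          (lt_mem_nhds (not_le.1 h))
      filter_upwards [h2] with y hy
      have h3 : cut (j.1.1.1.1.pT j.1.1.1.2 + 1) 1 (y 0 - j.1.1.1.1.xm j.1.2.1) = 0 :=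
        cut_eq_zero one_pos (by linarith)
      simp only [XZ.coreM, h3, zero_mul]
    · have h2 : ∀ᶠ y : Pos3 in nhds j.1.2.2, 7 / 2 < |y 1 - 8 * (j.1.2.1 : ℕ)| :=
        ((v0b_cont_coord 1).sub continuous_const).abs.continuousAt.eventually
          (lt_mem_nhds (not_le.1 h))
      filter_upwards [h2] with y hy
      have h3 : cut (5 / 2) (1 / 2) (y 1 - 8 * (j.1.2.1 : ℕ)) = 0 :=
        cut_eq_zero (by norm_num) (by linarith)
      simp only [XZ.coreM, h3, zero_mul, mul_zero]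

/-- `F₁ = ∑ coreM (Wx + Wy)`. -/
theorem v0b_F1_pj : PJ 6 (fun j : Inst × Pos3 => j.1.s)
    (fun j y => ∑ m ∈ Finset.range j.1.1.1.n, j.1.1.1.coreM j.1.1.2 m y *
      (j.1.1.1.Wx j.1.1.2 m (y 0 - j.1.1.1.xm m) + j.1.1.1.Wy j.1.1.2 (y 1 - 8 * m)))
    fun j => j.2 := by
  refine PJ.sum (fun j => j.1.two_le) (κ := fun _ => ℕ) (fun j => Finset.range j.1.1.1.n)
    ((pn_n.comp fun j : Inst × Pos3 => j.1).congr' fun j => by simp)
    (T := fun j m y => j.1.1.1.coreM j.1.1.2 m y *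
      (j.1.1.1.Wx j.1.1.2 m (y 0 - j.1.1.1.xm m) + j.1.1.1.Wy j.1.1.2 (y 1 - 8 * m))) ?_
  exact v0b_coreW_pj.reindex
    fun j : Σ j : Inst × Pos3, {e : ℕ // e ∈ Finset.range j.1.1.1.n} =>
      ⟨j.1.1, ⟨j.2.1, Finset.mem_range.1 j.2.2⟩, j.1.2⟩

/-- `∑ coreM`. -/
theorem v0b_sumCore_pj : PJ 6 (fun j : Inst × Pos3 => j.1.s)
    (fun j y => ∑ m ∈ Finset.range j.1.1.1.n, j.1.1.1.coreM j.1.1.2 m y) fun j => j.2 := by
  refine PJ.sum (fun j => j.1.two_le) (κ := fun _ => ℕ) (fun j => Finset.range j.1.1.1.n)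
    ((pn_n.comp fun j : Inst × Pos3 => j.1).congr' fun j => by simp)
    (T := fun j m y => j.1.1.1.coreM j.1.1.2 m y) ?_
  exact v0b_coreM_pj.reindex
    fun j : Σ j : Inst × Pos3, {e : ℕ // e ∈ Finset.range j.1.1.1.n} => (j.1.1, j.2.1, j.1.2)

/-- `F₂ = cube - ∑ coreM`. -/
theorem v0b_F2_pj : PJ 6 (fun j : Inst × Pos3 => j.1.s)
    (fun j y => cube (2 ^ pJ * j.1.1.1.pr1 j.1.1.2) y -
      ∑ m ∈ Finset.range j.1.1.1.n, j.1.1.1.coreM j.1.1.2 m y) fun j => j.2 :=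
  (PJ.v0b_cube (fun j : Inst × Pos3 => j.1.two_le) (by norm_num)
    (fun j => one_le_mul_of_one_le_of_one_le (one_le_pow₀ (by norm_num)) (j.1.2.one_le_pr1 _))
    _).sub (fun j => j.1.two_le) v0b_sumCore_pj

theorem v0b_V0_eq (d : XZ) (N : ℕ) (c : ℝ) (y : Pos3) : d.V0 N c y =
    -(c ^ 2 / 2 * ((y 0 ^ 2 + y 1 ^ 2) * logCut (d.pr1 N) y)) +
      (∑ m ∈ Finset.range d.n, d.coreM N m y * (d.Wx N m (y 0 - d.xm m) + d.Wy N (y 1 - 8 * m))) +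
      c * (cube (2 ^ pJ * d.pr1 N) y - ∑ m ∈ Finset.range d.n, d.coreM N m y) := by
  simp only [XZ.V0, mul_sub, Finset.sum_sub_distrib, ← Finset.sum_mul]
  ring

theorem v0b_V0_pj (k₁ : ℕ) : PJ 6 (fun j : Inst × Pos3 => j.1.s)
    (fun j => j.1.1.1.V0 j.1.1.2 (j.1.s ^ k₁)) fun j => j.2 := by
  have hs : ∀ j : Inst × Pos3, 2 ≤ j.1.s := fun j => j.1.two_le
  have hc : PN (fun j : Inst × Pos3 => j.1.s) fun j => j.1.s ^ k₁ := (PN.self hs).pow k₁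
  have hc2 : PN (fun j : Inst × Pos3 => j.1.s) fun j => (j.1.s ^ k₁) ^ 2 / 2 :=
    ((hc.pow 2).mul (PN.const hs 2⁻¹)).congr' fun j => div_eq_mul_inv _ _
  refine ((((PJ.const hs hc2).mul hs v0b_conf_pj).neg.add hs v0b_F1_pj).add hs
    ((PJ.const hs hc).mul hs v0b_F2_pj)).congr fun j => ?_
  exact Filter.Eventually.of_forall fun y => v0b_V0_eq _ _ _ y

theorem v0b_chi_pj : ∃ k₀ : ℕ, ∀ k₁, k₀ ≤ k₁ →
    PJ 4 (fun j : Σ i : Inst, (Fin i.1.1.n × Fin 3) × Pos3 => j.1.s)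
      (fun j => j.1.1.1.chi j.1.1.2 (j.1.s ^ k₁) j.2.1) fun j => j.2.2 := by
  obtain ⟨k₀, hk⟩ := eZ_pj
  refine ⟨k₀, fun k₁ h => ?_⟩
  have hs : ∀ j : Σ i : Inst, (Fin i.1.1.n × Fin 3) × Pos3, 2 ≤ j.1.s := fun j => j.1.two_le
  have h1 : PJ 4 (fun j : Σ i : Inst, (Fin i.1.1.n × Fin 3) × Pos3 => j.1.s)
      (fun j y => j.1.1.1.eX j.1.1.2 j.2.1.1 (ix j.2.1.2) (y 0 - j.1.1.1.xm j.2.1.1))
      fun j => j.2.2 := by
    refine PJ.comp_coord hs 0 ?_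
    refine PJ.v0b_finite hs (f := fun a j => j.1.1.1.eX j.1.1.2 j.2.1.1 a) (fun a => ?_)
      fun j => ix j.2.1.2
    exact (eX_pj a).reindex fun j : Σ i : Inst, (Fin i.1.1.n × Fin 3) × Pos3 =>
      ⟨j.1, j.2.1.1, j.2.2 0 - j.1.1.1.xm j.2.1.1⟩
  have h2 : PJ 4 (fun j : Σ i : Inst, (Fin i.1.1.n × Fin 3) × Pos3 => j.1.s)
      (fun j y => j.1.1.1.eY j.1.1.2 (iy j.2.1.2) (y 1 - 8 * (j.2.1.1 : ℕ))) fun j => j.2.2 := by
    refine PJ.comp_coord hs 1 ?_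
    refine PJ.v0b_finite hs (f := fun a j => j.1.1.1.eY j.1.1.2 a) (fun a => ?_)
      fun j => iy j.2.1.2
    exact (eY_pj a).reindex fun j : Σ i : Inst, (Fin i.1.1.n × Fin 3) × Pos3 =>
      (j.1, j.2.2 1 - 8 * (j.2.1.1 : ℕ))
  have h3 : PJ 4 (fun j : Σ i : Inst, (Fin i.1.1.n × Fin 3) × Pos3 => j.1.s)
      (fun j y => j.1.1.1.eZ (j.1.s ^ k₁) (y 2 - 0)) fun j => j.2.2 := by
    refine PJ.comp_coord hs 2 ?_
    exact (hk k₁ h).reindex fun j : Σ i : Inst, (Fin i.1.1.n × Fin 3) × Pos3 => (j.1, j.2.2 2 - 0)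
  refine ((h1.mul hs h2).mul hs h3).congr fun j => ?_
  exact Filter.Eventually.of_forall fun y => by simp only [XZ.chi, sub_zero]

/-- Instances together with an admissible self-energy. -/
abbrev V0bU : Type := {p : Inst × ℚ // 1 / 2 ≤ p.2 ∧ (p.2 : ℝ) ≤ 100 * p.1.1.1.pQ}

/-- One term of the weak potential. -/
theorem v0b_term_pj : PJ 6
    (fun j : Σ p : V0bU, (Fin p.1.1.1.1.n × ℕ × Fin p.1.1.1.1.n × Fin p.1.1.1.1.n × Bool × Bool) × Pos3 =>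
      j.1.1.1.s)
    (fun j y => j.1.1.1.1.1.pτ / 4 *
      (j.1.1.1.1.1.pot j.1.1.2 j.2.1.1 j.2.1.2.1 j.2.1.2.2.1 j.2.1.2.2.2.1 j.2.1.2.2.2.2.1
        j.2.1.2.2.2.2.2 : ℝ) *
      (cut j.1.1.1.1.1.pσ j.1.1.1.1.1.pσ (y 0 - j.1.1.1.1.1.xm j.2.1.1 -
          j.1.1.1.1.1.xc j.2.1.1 j.2.1.2.1 j.2.1.2.2.1 j.2.1.2.2.2.1 j.2.1.2.2.2.2.1) *
        cut j.1.1.1.1.1.pσ j.1.1.1.1.1.pσ (y 1 - 8 * (j.2.1.1 : ℕ) - rs j.2.1.2.2.2.2.2) *
        cut 1 1 (y 2)))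
    fun j => j.2.2 := by
  set J := Σ p : V0bU,
    (Fin p.1.1.1.1.n × ℕ × Fin p.1.1.1.1.n × Fin p.1.1.1.1.n × Bool × Bool) × Pos3
  have hs : ∀ j : J, 2 ≤ j.1.1.1.s := fun j => j.1.1.1.two_le
  have hσ := pn_pσ_inv.comp fun j : J => j.1.1.1
  have hτ : PN (fun j : J => j.1.1.1.s) fun j => j.1.1.1.1.1.pτ / 4 :=
    ((pn_pτ.comp fun j : J => j.1.1.1).mul (PN.const hs 4⁻¹)).congr' fun j => div_eq_mul_inv _ _
  have hpot : PN (fun j : J => j.1.1.1.s) fun j =>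
      (j.1.1.1.1.1.pot j.1.1.2 j.2.1.1 j.2.1.2.1 j.2.1.2.2.1 j.2.1.2.2.2.1 j.2.1.2.2.2.2.1
        j.2.1.2.2.2.2.2 : ℝ) := by
    refine ((((pn_const (10 ^ 10)).mul (pn_B.pow 18)).mul ((pn_const 100).mul pn_pQ)).comp
      fun j : J => j.1.1.1).of_le fun j => le_trans ?_ (le_abs_self _)
    have h1 := pot_bd j.1.1.1.2 j.1.2.1 (k := j.2.1.2.1) j.2.1.1.2 j.2.1.2.2.1.2 j.2.1.2.2.2.1.2
      j.2.1.2.2.2.2.1 j.2.1.2.2.2.2.2
    have h2 : ((|j.1.1.1.1.1.pot j.1.1.2 j.2.1.1 j.2.1.2.1 j.2.1.2.2.1 j.2.1.2.2.2.1 j.2.1.2.2.2.2.1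
        j.2.1.2.2.2.2.2| : ℚ) : ℝ) ≤ ((10 ^ 10 * (j.1.1.1.1.1.B : ℚ) ^ 18 * j.1.1.2 : ℚ) : ℝ) :=
      Rat.cast_le.2 h1
    push_cast at h2
    exact h2.trans (mul_le_mul_of_nonneg_left j.1.2.2 (by positivity))
  exact (PJ.const hs (hτ.mul hpot)).mul hs
    (((PJ.v0b_cut2 hs (by norm_num) hσ 0 _).mul hs (PJ.v0b_cut2 hs (by norm_num) hσ 1 _)).mul hs
      (PJ.v0b_cut0 hs (by norm_num) (PN.const hs (1 : ℝ)⁻¹) 2 _))

theorem v0b_vv_pj : PJ 6 (fun j : V0bU × Pos3 => j.1.1.1.s) (fun j => j.1.1.1.1.1.vv j.1.1.2)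
    fun j => j.2 := by
  obtain ⟨c, hc⟩ := v0b_term_pj
  have hs : ∀ j : V0bU × Pos3, 2 ≤ j.1.1.1.s := fun j => j.1.1.1.two_le
  have hn := pn_n.comp fun j : V0bU × Pos3 => j.1.1.1
  refine PJ.of_pn (hn.mul ((PN.const hs 3).mul (hn.mul (hn.mul ((PN.const hs 2).mul
    ((PN.const hs 2).mul ((PN.self hs).pow c))))))) fun j => ?_
  refine JB.mono (jb_sum (Finset.range j.1.1.1.1.1.n) fun m hm =>
    jb_sum (Finset.range 3) fun k _ =>
      jb_sum (Finset.range j.1.1.1.1.1.n) fun i hi =>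
        jb_sum (Finset.range j.1.1.1.1.1.n) fun i' hi' =>
          jb_sum (Finset.univ : Finset Bool) fun mir _ =>
            jb_sum (K := j.1.1.1.s ^ c) (Finset.univ : Finset Bool) fun r _ => ?_) le_rfl ?_
  · exact hc ⟨j.1, (⟨m, Finset.mem_range.1 hm⟩, k, ⟨i, Finset.mem_range.1 hi⟩,
      ⟨i', Finset.mem_range.1 hi'⟩, mir, r), j.2⟩
  · simp only [Finset.card_range, Finset.card_univ, Fintype.card_bool, Nat.cast_ofNat, le_refl]

end Crest.Agent.R338
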