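import Crest.Agent.R338.V0A

/-! Row 338: Laplacians and supports of the design. -/

set_option autoImplicit false

open MeasureTheory Crest.MathPhysics.ElectronicCoulomb

namespace Crest.Agent.R338

theorem v0c_pd_pd {f : Pos3 → ℝ} (hf : ContDiff ℝ 2 f) (k : Fin 3) (x : Pos3) :
    pd k (pd k f) x =
      iteratedFDeriv ℝ 2 f x ![EuclideanSpace.single k 1, EuclideanSpace.single k 1] := by
  have h : DifferentiableAt ℝ (fderiv ℝ f) x :=
    (hf.fderiv_right (m := 1) (by norm_num)).differentiable (by norm_num) x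
  rw [iteratedFDeriv_two_apply]
  unfold pd
  rw [fderiv_clm_apply h (differentiableAt_const _)]
  simp

theorem v0c_lap_add {f g : Pos3 → ℝ} (hf : ContDiff ℝ 2 f) (hg : ContDiff ℝ 2 g) (x : Pos3) :
    lap (fun y => f y + g y) x = lap f x + lap g x := by
  have e : (fun y => f y + g y) = f + g := rfl
  simp only [lap, v0c_pd_pd hf, v0c_pd_pd hg, v0c_pd_pd (hf.add hg)]
  rw [e, iteratedFDeriv_add_apply hf.contDiffAt hg.contDiffAt, ← Finset.sum_add_distrib]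
  rfl

theorem v0c_lap_smul {g : Pos3 → ℝ} (hg : ContDiff ℝ 2 g) (q : ℝ) (x : Pos3) :
    lap (fun y => q * g y) x = q * lap g x := by
  have e : (fun y => q * g y) = q • g := rfl
  simp only [lap, v0c_pd_pd hg, v0c_pd_pd (contDiff_const.mul hg)]
  rw [e, iteratedFDeriv_const_smul_apply hg.contDiffAt, Finset.mul_sum]
  rfl

theorem v0c_lap_sum {ι : Type} (s : Finset ι) {f : ι → Pos3 → ℝ} (hf : ∀ i, ContDiff ℝ 2 (f i))
    (x : Pos3) : lap (fun y => ∑ i ∈ s, f i y) x = ∑ i ∈ s, lap (f i) x := by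
  classical
  induction s using Finset.induction_on with
  | empty =>
    have := v0c_lap_smul (g := fun _ => 0) contDiff_const 0 x
    simpa using this
  | insert i s hi ih =>
    simp only [Finset.sum_insert hi]
    rw [v0c_lap_add (hf i) (ContDiff.sum fun j _ => hf j), ih]

theorem v0c_lap_le {A : ℝ} {g : Pos3 → ℝ} (hg : SB 6 A g) (x : Pos3) : |lap g x| ≤ 3 * A := by
  have g2 : ContDiff ℝ 2 g := hg.1.of_le (by norm_num)
  refine (Finset.abs_sum_le_sum_abs _ _).trans ?_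
  refine (Finset.sum_le_sum (g := fun _ => A) fun k _ => ?_).trans (by simp)
  rw [v0c_pd_pd g2]
  refine ((iteratedFDeriv ℝ 2 g x).le_opNorm _).trans ?_
  simpa using hg.2 2 (by norm_num) x

theorem v0c_pd_prod {f g h : ℝ → ℝ} (hf : Differentiable ℝ f) (hg : Differentiable ℝ g)
    (hh : Differentiable ℝ h) (k : Fin 3) (y : Pos3) :
    pd k (fun y : Pos3 => f (y 0) * g (y 1) * h (y 2)) y =
      deriv f (y 0) * (if (0 : Fin 3) = k then 1 else 0) * g (y 1) * h (y 2) +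
      f (y 0) * (deriv g (y 1) * (if (1 : Fin 3) = k then 1 else 0)) * h (y 2) +
      f (y 0) * g (y 1) * (deriv h (y 2) * (if (2 : Fin 3) = k then 1 else 0)) := by
  have p : ∀ l : Fin 3, HasFDerivAt (fun y : Pos3 => y l)
      (EuclideanSpace.proj l : Pos3 →L[ℝ] ℝ) y := fun l =>
    (EuclideanSpace.proj l : Pos3 →L[ℝ] ℝ).hasFDerivAt
  have h0 := (hf (y 0)).hasDerivAt.comp_hasFDerivAt y (p 0)
  have h1 := (hg (y 1)).hasDerivAt.comp_hasFDerivAt y (p 1)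
  have h2 := (hh (y 2)).hasDerivAt.comp_hasFDerivAt y (p 2)
  have h3 := ((h0.mul h1).mul h2).fderiv
  have e : (fun y : Pos3 => f (y 0) * g (y 1) * h (y 2)) =
      (f ∘ fun y : Pos3 => y 0) * (g ∘ fun y : Pos3 => y 1) * (h ∘ fun y : Pos3 => y 2) := rfl
  rw [pd, e, h3]
  simp [Pi.single_apply]
  ring

theorem v0c_lap_prod {f g h : ℝ → ℝ} (hf : ContDiff ℝ 2 f) (hg : ContDiff ℝ 2 g)
    (hh : ContDiff ℝ 2 h) (x : Pos3) :
    lap (fun y : Pos3 => f (y 0) * g (y 1) * h (y 2)) x =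
      deriv (deriv f) (x 0) * g (x 1) * h (x 2) + f (x 0) * deriv (deriv g) (x 1) * h (x 2) +
        f (x 0) * g (x 1) * deriv (deriv h) (x 2) := by
  have d1 : ∀ {u : ℝ → ℝ}, ContDiff ℝ 2 u → Differentiable ℝ u := fun hu =>
    hu.differentiable (by norm_num)
  have d2 : ∀ {u : ℝ → ℝ}, ContDiff ℝ 2 u → Differentiable ℝ (deriv u) := fun hu =>
    (ContDiff.deriv' (n := 1) hu).differentiable (by norm_num)
  have e0 : pd 0 (fun y : Pos3 => f (y 0) * g (y 1) * h (y 2)) =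
      fun y : Pos3 => deriv f (y 0) * g (y 1) * h (y 2) := by
    funext y; rw [v0c_pd_prod (d1 hf) (d1 hg) (d1 hh)]; simp
  have e1 : pd 1 (fun y : Pos3 => f (y 0) * g (y 1) * h (y 2)) =
      fun y : Pos3 => f (y 0) * deriv g (y 1) * h (y 2) := by
    funext y; rw [v0c_pd_prod (d1 hf) (d1 hg) (d1 hh)]; simp
  have e2 : pd 2 (fun y : Pos3 => f (y 0) * g (y 1) * h (y 2)) =
      fun y : Pos3 => f (y 0) * g (y 1) * deriv h (y 2) := by
    funext y; rw [v0c_pd_prod (d1 hf) (d1 hg) (d1 hh)]; simp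
  rw [lap, Fin.sum_univ_three, e0, e1, e2, v0c_pd_prod (d2 hf) (d1 hg) (d1 hh),
    v0c_pd_prod (d1 hf) (d2 hg) (d1 hh), v0c_pd_prod (d1 hf) (d1 hg) (d2 hh)]
  simp

theorem v0c_cut_c2 (a l : ℝ) : ContDiff ℝ 2 (cut a l) := (cut_contDiff a l).of_le (by norm_num)

theorem v0c_dd_cut (a l t : ℝ) : deriv (deriv (cut a l)) t = iteratedDeriv 2 (cut a l) t := by
  rw [iteratedDeriv_succ, iteratedDeriv_one]

theorem v0c_dd_sq (a l t : ℝ) : deriv (deriv fun u => u ^ 2 * cut a l u) t =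
    2 * cut a l t + 4 * t * iteratedDeriv 1 (cut a l) t + t ^ 2 * iteratedDeriv 2 (cut a l) t := by
  have e : (deriv fun u => u ^ 2 * cut a l u) =
      fun u => 2 * u * cut a l u + u ^ 2 * iteratedDeriv 1 (cut a l) u := by
    funext u
    refine (((hasDerivAt_pow 2 u).fun_mul (facA_cut_d1 a l u)).congr_deriv ?_).deriv
    norm_num
  rw [e]
  refine (((((hasDerivAt_id t).const_mul 2).fun_mul (facA_cut_d1 a l t)).fun_add
    ((hasDerivAt_pow 2 t).fun_mul (facA_cut_d2 a l t))).congr_deriv ?_).deriv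
  simp only [id]
  norm_num
  ring

theorem v0c_coord_c2 (l : Fin 3) : ContDiff ℝ 2 fun y : Pos3 => y l :=
  (EuclideanSpace.proj l : Pos3 →L[ℝ] ℝ).contDiff

theorem v0c_prod_c2 {f g h : ℝ → ℝ} (hf : ContDiff ℝ 2 f) (hg : ContDiff ℝ 2 g)
    (hh : ContDiff ℝ 2 h) : ContDiff ℝ 2 fun y : Pos3 => f (y 0) * g (y 1) * h (y 2) :=
  ((hf.comp (v0c_coord_c2 0)).mul (hg.comp (v0c_coord_c2 1))).mul (hh.comp (v0c_coord_c2 2))

theorem v0c_sqcube_c2 (R : ℝ) : ContDiff ℝ 2 fun y : Pos3 => (y 0 ^ 2 + y 1 ^ 2) * cube R y :=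
  (((v0c_coord_c2 0).pow 2).add ((v0c_coord_c2 1).pow 2)).mul
    (v0c_prod_c2 (v0c_cut_c2 R R) (v0c_cut_c2 R R) (v0c_cut_c2 R R))

/-- The error term in the Laplacian of `(x₀² + x₁²) cube R`. -/
noncomputable def v0cE (R : ℝ) (x : Pos3) : ℝ :=
  4 * x 0 * iteratedDeriv 1 (cut R R) (x 0) * cut R R (x 1) * cut R R (x 2) +
  4 * x 1 * iteratedDeriv 1 (cut R R) (x 1) * cut R R (x 0) * cut R R (x 2) +
  (x 0 ^ 2 + x 1 ^ 2) * (iteratedDeriv 2 (cut R R) (x 0) * cut R R (x 1) * cut R R (x 2) +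
    iteratedDeriv 2 (cut R R) (x 1) * cut R R (x 0) * cut R R (x 2) +
    iteratedDeriv 2 (cut R R) (x 2) * cut R R (x 0) * cut R R (x 1))

theorem v0c_lap_cube (R : ℝ) (x : Pos3) :
    lap (fun y : Pos3 => (y 0 ^ 2 + y 1 ^ 2) * cube R y) x = 4 * cube R x + v0cE R x := by
  have hc := v0c_cut_c2 R R
  have hq : ContDiff ℝ 2 fun u : ℝ => u ^ 2 * cut R R u := (contDiff_id.pow 2).mul hc
  have e : (fun y : Pos3 => (y 0 ^ 2 + y 1 ^ 2) * cube R y) = fun y : Pos3 =>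
      (fun u : ℝ => u ^ 2 * cut R R u) (y 0) * cut R R (y 1) * cut R R (y 2) +
        cut R R (y 0) * (fun u : ℝ => u ^ 2 * cut R R u) (y 1) * cut R R (y 2) := by
    funext y; simp only [cube]; ring
  rw [e, v0c_lap_add (v0c_prod_c2 hq hc hc) (v0c_prod_c2 hc hq hc), v0c_lap_prod hq hc hc,
    v0c_lap_prod hc hq hc]
  simp only [v0c_dd_sq, v0c_dd_cut, cube, v0cE]
  ring

theorem v0cE_le {R : ℝ} (hR : 0 < R) (x : Pos3) :
    |v0cE R x| ≤ if R < max |x 0| (max |x 1| |x 2|) ∧ max |x 0| (max |x 1| |x 2|) < 2 * R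
      then 40 * 10 ^ 45 else 0 := by
  have z1 : ∀ t : ℝ, |t| ≤ R ∨ R + R ≤ |t| → iteratedDeriv 1 (cut R R) t = 0 := fun t ht =>
    cut_iteratedDeriv_eq_zero hR le_rfl (by norm_num) ht
  have z2 : ∀ t : ℝ, |t| ≤ R ∨ R + R ≤ |t| → iteratedDeriv 2 (cut R R) t = 0 := fun t ht =>
    cut_iteratedDeriv_eq_zero hR (by norm_num) (by norm_num) ht
  split_ifs with h
  · have h0 : |x 0| ≤ 2 * R := ((le_max_left _ _).trans_lt h.2).le
    have h1 : |x 1| ≤ 2 * R := (((le_max_left _ _).trans (le_max_right _ _)).trans_lt h.2).le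
    have c : ∀ t : ℝ, |cut R R t| ≤ 1 := fun t => by
      rw [abs_of_nonneg (cut_nonneg _ _ _)]; exact cut_le_one _ _ _
    have b1 : ∀ t : ℝ, |iteratedDeriv 1 (cut R R) t| ≤ 10 ^ 45 / R ^ 1 := fun t =>
      cut_iteratedDeriv_le hR (by norm_num) t
    have b2 : ∀ t : ℝ, |iteratedDeriv 2 (cut R R) t| ≤ 10 ^ 45 / R ^ 2 := fun t =>
      cut_iteratedDeriv_le hR (by norm_num) t
    have t1 : ∀ t u w : ℝ, |t| ≤ 2 * R →
        |4 * t * iteratedDeriv 1 (cut R R) t * cut R R u * cut R R w| ≤ 8 * 10 ^ 45 := by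
      intro t u w ht
      simp only [abs_mul]
      calc |(4 : ℝ)| * |t| * |iteratedDeriv 1 (cut R R) t| * |cut R R u| * |cut R R w|
          ≤ |(4 : ℝ)| * (2 * R) * (10 ^ 45 / R ^ 1) * 1 * 1 := by
            have := b1 t; have := c u; have := c w
            gcongr
        _ = _ := by rw [abs_of_pos (by norm_num : (0 : ℝ) < 4)]; field_simp; norm_num
    have t2 : ∀ t u w : ℝ,
        |iteratedDeriv 2 (cut R R) t * cut R R u * cut R R w| ≤ 10 ^ 45 / R ^ 2 := by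
      intro t u w
      simp only [abs_mul]
      calc |iteratedDeriv 2 (cut R R) t| * |cut R R u| * |cut R R w|
          ≤ (10 ^ 45 / R ^ 2) * 1 * 1 := by
            have := b2 t; have := c u; have := c w
            gcongr
        _ = _ := by ring
    have s0 : |x 0 ^ 2 + x 1 ^ 2| ≤ 8 * R ^ 2 := by
      rw [abs_of_nonneg (by positivity), ← sq_abs (x 0), ← sq_abs (x 1)]
      nlinarith [abs_nonneg (x 0), abs_nonneg (x 1)]
    have t3 : |(x 0 ^ 2 + x 1 ^ 2) *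
        (iteratedDeriv 2 (cut R R) (x 0) * cut R R (x 1) * cut R R (x 2) +
          iteratedDeriv 2 (cut R R) (x 1) * cut R R (x 0) * cut R R (x 2) +
          iteratedDeriv 2 (cut R R) (x 2) * cut R R (x 0) * cut R R (x 1))| ≤ 24 * 10 ^ 45 := by
      rw [abs_mul]
      have := (abs_add_three _ _ _).trans (add_le_add (add_le_add (t2 (x 0) (x 1) (x 2))
        (t2 (x 1) (x 0) (x 2))) (t2 (x 2) (x 0) (x 1)))
      calc _ ≤ 8 * R ^ 2 * (10 ^ 45 / R ^ 2 + 10 ^ 45 / R ^ 2 + 10 ^ 45 / R ^ 2) := by gcongr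
        _ = _ := by field_simp; norm_num
    refine (abs_add_three _ _ _).trans ?_
    linarith [t1 (x 0) (x 1) (x 2) h0, t1 (x 1) (x 0) (x 2) h1]
  · refine le_of_eq (abs_eq_zero.2 ?_)
    rw [not_and_or, not_lt, not_lt] at h
    rcases h with h | h
    · have h0 : |x 0| ≤ R := (le_max_left _ _).trans h
      have h1 : |x 1| ≤ R := ((le_max_left _ _).trans (le_max_right _ _)).trans h
      have h2 : |x 2| ≤ R := ((le_max_right _ _).trans (le_max_right _ _)).trans h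
      simp only [v0cE, z1 _ (Or.inl h0), z1 _ (Or.inl h1), z2 _ (Or.inl h0), z2 _ (Or.inl h1),
        z2 _ (Or.inl h2)]
      ring
    · rw [two_mul, le_max_iff, le_max_iff] at h
      rcases h with h | h | h <;>
        simp only [v0cE, z1 _ (Or.inr h), z2 _ (Or.inr h), cut_eq_zero hR h] <;> ring

theorem v0c_cube_bd (R : ℝ) (x : Pos3) : 0 ≤ cube R x ∧ cube R x ≤ 1 :=
  ⟨mul_nonneg (mul_nonneg (cut_nonneg _ _ _) (cut_nonneg _ _ _)) (cut_nonneg _ _ _),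
    mul_le_one₀ (mul_le_one₀ (cut_le_one _ _ _) (cut_nonneg _ _ _) (cut_le_one _ _ _))
      (cut_nonneg _ _ _) (cut_le_one _ _ _)⟩

theorem v0c_pJ : (pJ : ℝ) = 10 ^ 48 := by
  unfold pJ
  rw [Nat.cast_pow, Nat.cast_ofNat]

theorem v0c_sqlog_eq (R : ℝ) : (fun y : Pos3 => (y 0 ^ 2 + y 1 ^ 2) * logCut R y) =
    fun y : Pos3 => (pJ : ℝ)⁻¹ *
      ∑ j ∈ Finset.range pJ, (y 0 ^ 2 + y 1 ^ 2) * cube (2 ^ j * R) y := by
  funext y
  rw [logCut, ← Finset.mul_sum]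
  ring

theorem v0c_sqlog_c2 (R : ℝ) : ContDiff ℝ 2 fun y : Pos3 => (y 0 ^ 2 + y 1 ^ 2) * logCut R y := by
  rw [v0c_sqlog_eq]
  exact contDiff_const.mul (ContDiff.sum fun j _ => v0c_sqcube_c2 _)

theorem v0c_lap_logCut {R : ℝ} (hR : 0 < R) (x : Pos3) :
    |lap (fun y : Pos3 => (y 0 ^ 2 + y 1 ^ 2) * logCut R y) x| ≤ 4 + 1 / 4 := by
  classical
  rw [v0c_sqlog_eq, v0c_lap_smul (ContDiff.sum fun j _ => v0c_sqcube_c2 _),
    v0c_lap_sum _ fun j => v0c_sqcube_c2 _]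
  simp only [v0c_lap_cube]
  set M := max |x 0| (max |x 1| |x 2|) with hM
  have h1 : |∑ j ∈ Finset.range pJ, 4 * cube (2 ^ j * R) x| ≤ 4 * pJ := by
    refine (Finset.abs_sum_le_sum_abs _ _).trans ?_
    refine (Finset.sum_le_sum (g := fun _ => (4 : ℝ)) fun j _ => ?_).trans (by simp [mul_comm])
    obtain ⟨a, b⟩ := v0c_cube_bd (2 ^ j * R) x
    rw [abs_of_nonneg (by linarith)]
    linarith
  have h2 : |∑ j ∈ Finset.range pJ, v0cE (2 ^ j * R) x| ≤ 40 * 10 ^ 45 := by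
    refine (Finset.abs_sum_le_sum_abs _ _).trans ?_
    refine (Finset.sum_le_sum fun j _ => v0cE_le (R := 2 ^ j * R) (by positivity) x).trans ?_
    rw [← Finset.sum_filter, Finset.sum_const, nsmul_eq_mul]
    refine mul_le_of_le_one_left (by norm_num) ?_
    have key : ∀ i j : ℕ, 2 ^ j * R < M → M < 2 * (2 ^ i * R) → j ≤ i := by
      intro i j a b
      have c : (2 : ℝ) ^ j * R < 2 ^ (i + 1) * R := by rw [pow_succ]; linarith
      have := (pow_lt_pow_iff_right₀ (one_lt_two (α := ℝ))).1 (lt_of_mul_lt_mul_right c hR.le)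
      omega
    rw [Nat.cast_le_one]
    refine Finset.card_le_one.2 fun i hi j hj => ?_
    rw [Finset.mem_filter] at hi hj
    exact le_antisymm (key j i hi.2.1 hj.2.2) (key i j hj.2.1 hi.2.2)
  rw [Finset.sum_add_distrib, abs_mul, abs_of_nonneg (by positivity),
    inv_mul_le_iff₀ (by rw [v0c_pJ]; positivity)]
  refine (abs_add_le _ _).trans ?_
  rw [v0c_pJ] at h1 ⊢
  linarith

theorem v0c_V0_lap : ∃ k₀ : ℕ, ∀ (d : XZ) (N : ℕ) (c : ℝ), d.Valid → d.sz N ^ k₀ ≤ c →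
    ∀ x, |lap (d.V0 N c) x| ≤ 9 / 4 * c ^ 2 := by
  obtain ⟨k1, h1⟩ := F1_sb
  obtain ⟨k2, h2⟩ := F2_sb
  refine ⟨k1 + k2 + 6, fun d N c hv hc x => ?_⟩
  have hs := d.two_le_sz N
  have hs1 : 1 ≤ d.sz N := by linarith
  have a1 : 1 ≤ d.sz N ^ k1 := one_le_pow₀ hs1
  have a2 : 1 ≤ d.sz N ^ k2 := one_le_pow₀ hs1
  have a3 : (64 : ℝ) ≤ d.sz N ^ 6 := le_trans (by norm_num) (pow_le_pow_left₀ zero_le_two hs 6)
  have a4 : 64 * (d.sz N ^ k1 * d.sz N ^ k2) ≤ c := by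
    refine le_trans ?_ hc
    rw [pow_add, pow_add, mul_comm]
    gcongr
  have b1 : 64 * d.sz N ^ k1 ≤ c := le_trans (by nlinarith) a4
  have b2 : 64 * d.sz N ^ k2 ≤ c := le_trans (by nlinarith) a4
  have hc1 : 1 ≤ c := by linarith
  have f1 := h1 d N hv
  have f2 := h2 d N hv
  have c1 : ContDiff ℝ 2 (d.F1 N) := f1.1.of_le (by norm_num)
  have c2 : ContDiff ℝ 2 (d.F2 N) := f2.1.of_le (by norm_num)
  have c0 := v0c_sqlog_c2 (d.pr1 N)
  have e : d.V0 N c = fun y => (-(c ^ 2 / 2) * ((y 0 ^ 2 + y 1 ^ 2) * logCut (d.pr1 N) y) +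
      d.F1 N y) + c * d.F2 N y := by
    funext y; rw [V0_eq]; ring
  rw [e, v0c_lap_add ((contDiff_const.mul c0).add c1) (contDiff_const.mul c2),
    v0c_lap_add (contDiff_const.mul c0) c1, v0c_lap_smul c0, v0c_lap_smul c2]
  have l0 := v0c_lap_logCut (lt_of_lt_of_le one_pos (hv.one_le_pr1 N)) x
  have l1 := v0c_lap_le f1 x
  have l2 := v0c_lap_le f2 x
  refine (abs_add_three _ _ _).trans ?_
  rw [abs_mul, abs_mul, abs_neg, abs_of_nonneg (by positivity : 0 ≤ c ^ 2 / 2),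
    abs_of_nonneg (by linarith : 0 ≤ c)]
  have m0 := mul_le_mul_of_nonneg_left l0 (by positivity : 0 ≤ c ^ 2 / 2)
  have m2 := mul_le_mul_of_nonneg_left l2 (by linarith : 0 ≤ c)
  nlinarith

/-! #### Supports -/

theorem v0c_far {r : ℝ} (hr : 0 < r) {x : Pos3} (hx : 2 * r ≤ ‖x‖) :
    r ≤ |x 0| ∨ r ≤ |x 1| ∨ r ≤ |x 2| := by
  by_contra h
  simp only [not_or, not_le] at h
  obtain ⟨h0, h1, h2⟩ := h
  have e : ‖x‖ ^ 2 = |x 0| ^ 2 + |x 1| ^ 2 + |x 2| ^ 2 := by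
    rw [EuclideanSpace.norm_sq_eq, Fin.sum_univ_three]
    simp only [Real.norm_eq_abs]
  have := pow_le_pow_left₀ (by positivity) hx 2
  nlinarith [abs_nonneg (x 0), abs_nonneg (x 1), abs_nonneg (x 2)]

theorem v0c_cube_zero {R : ℝ} (hR : 0 < R) {x : Pos3}
    (h : R + R ≤ |x 0| ∨ R + R ≤ |x 1| ∨ R + R ≤ |x 2|) : cube R x = 0 := by
  rcases h with h | h | h <;> simp [cube, cut_eq_zero hR h]

theorem v0c_one_le_two_pow : (1 : ℝ) ≤ 2 ^ pJ := one_le_pow₀ one_le_two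

/-- Outside the ball of radius `pr0` one coordinate is large. -/
theorem v0c_far0 {d : XZ} (hv : d.Valid) {N : ℕ} {x : Pos3} (hx : d.pr0 N ≤ ‖x‖) :
    2 * (2 ^ pJ * d.pr1 N) ≤ |x 0| ∨ 2 * (2 ^ pJ * d.pr1 N) ≤ |x 1| ∨
      2 * (2 ^ pJ * d.pr1 N) ≤ |x 2| := by
  have h1 := hv.one_le_pr1 N
  have h2 := v0c_one_le_two_pow
  refine v0c_far (by positivity) (le_trans (le_of_eq ?_) hx)
  rw [XZ.pr0, pow_add]
  ring

theorem v0c_far1 {d : XZ} (hv : d.Valid) {N : ℕ} {x : Pos3} (hx : d.pr0 N ≤ ‖x‖) :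
    2 * d.pr1 N ≤ |x 0| ∨ 2 * d.pr1 N ≤ |x 1| ∨ 2 * d.pr1 N ≤ |x 2| := by
  have h1 := hv.one_le_pr1 N
  have h2 : d.pr1 N ≤ 2 ^ pJ * d.pr1 N := le_mul_of_one_le_left (by linarith) v0c_one_le_two_pow
  rcases v0c_far0 hv hx with h | h | h
  · exact Or.inl (by linarith)
  · exact Or.inr (Or.inl (by linarith))
  · exact Or.inr (Or.inr (by linarith))

theorem v0c_n_le_pQ {d : XZ} (hv : d.Valid) : 100 * (d.n : ℝ) ≤ d.pQ := by
  have h1 := hv.one_le_B
  have h2 : (d.B : ℝ) ≤ (d.B : ℝ) ^ 40 := le_self_pow₀ h1 (by norm_num)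
  have h3 := hv.n_le_B
  unfold XZ.pQ
  nlinarith

/-- Outside the ball of radius `pr0`, a point is far from every molecule. -/
theorem v0c_far2 {d : XZ} (hv : d.Valid) {N : ℕ} {x : Pos3} (hx : d.pr0 N ≤ ‖x‖) {m : ℕ}
    (hm : m < d.n) : 2 * d.pT N + d.pQ ^ 2 ≤ |x 0 - d.xm m| ∨ 100 ≤ |x 1 - 8 * m| ∨ 100 ≤ |x 2| := by
  have h1 := hv.pT_pos N
  have h2 := v0c_n_le_pQ hv
  have h3 := hv.pQ_ge
  have h4 : (m : ℝ) ≤ d.n := by exact_mod_cast hm.le
  have h5 : (0 : ℝ) ≤ m := Nat.cast_nonneg m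
  have h6 : d.pQ ≤ d.pQ ^ 2 := le_self_pow₀ hv.one_le_pQ (by norm_num)
  have h7 : |d.xm m| ≤ d.pQ ^ 2 := by
    rw [XZ.xm, abs_of_nonneg (by positivity)]
    nlinarith
  have h8 : |8 * (m : ℝ)| ≤ d.pQ := by
    rw [abs_of_nonneg (by positivity)]
    linarith
  have h9 : (100 : ℝ) ≤ 10 ^ 20 := by norm_num
  rcases v0c_far1 hv hx with h | h | h <;> rw [XZ.pr1] at h
  · exact Or.inl (by linarith [abs_sub_abs_le_abs_sub (x 0) (d.xm m)])
  · exact Or.inr (Or.inl (by linarith [abs_sub_abs_le_abs_sub (x 1) (8 * (m : ℝ))]))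
  · exact Or.inr (Or.inr (by linarith))

theorem v0c_coreM_zero {d : XZ} (hv : d.Valid) {N : ℕ} {x : Pos3} (hx : d.pr0 N ≤ ‖x‖) {m : ℕ}
    (hm : m < d.n) : d.coreM N m x = 0 := by
  have h1 := hv.pT_pos N
  have h3 := hv.pQ_ge
  have h6 : d.pQ ≤ d.pQ ^ 2 := le_self_pow₀ hv.one_le_pQ (by norm_num)
  have h9 : (100 : ℝ) ≤ 10 ^ 20 := by norm_num
  rw [XZ.coreM]
  rcases v0c_far2 hv hx hm with h | h | h
  · rw [cut_eq_zero one_pos (by linarith), zero_mul, zero_mul]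
  · rw [cut_eq_zero (x := x 1 - 8 * m) (by norm_num) (by linarith), mul_zero, zero_mul]
  · rw [cut_eq_zero (x := x 2) (by norm_num) (by linarith), mul_zero]

theorem v0c_V0_supp {d : XZ} (hv : d.Valid) (N : ℕ) (c : ℝ) : SuppIn (d.pr0 N) (d.V0 N c) := by
  intro x hx
  have h1 := hv.one_le_pr1 N
  have hcube : ∀ j ≤ pJ, cube (2 ^ j * d.pr1 N) x = 0 := by
    intro j hj
    have h2 : (2 : ℝ) ^ j * d.pr1 N ≤ 2 ^ pJ * d.pr1 N :=
      mul_le_mul_of_nonneg_right (pow_le_pow_right₀ one_le_two hj) (by linarith)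
    refine v0c_cube_zero (by positivity) ?_
    rcases v0c_far0 hv hx with h | h | h
    · exact Or.inl (by linarith)
    · exact Or.inr (Or.inl (by linarith))
    · exact Or.inr (Or.inr (by linarith))
  rw [XZ.V0, logCut, hcube pJ le_rfl,
    Finset.sum_eq_zero fun j hj => hcube j (Finset.mem_range.1 hj).le,
    Finset.sum_eq_zero fun m hm => by rw [v0c_coreM_zero hv hx (Finset.mem_range.1 hm), zero_mul]]
  simp

theorem v0c_cn_zero {T l : ℝ} (hl : 0 < l) (f : ℝ → ℝ) {x : ℝ} (hx : T + l ≤ |x|) :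
    cn T l f x = 0 := by
  rw [cn, cut_eq_zero hl hx, zero_mul, zero_div]

theorem v0c_facE_zero {T l : ℝ} (hl : 0 < l) (φ g : ℝ → ℝ) (a : Fin 2) {x : ℝ}
    (hx : T + l ≤ |x|) : facE T l φ g a x = 0 := by
  fin_cases a
  · exact v0c_cn_zero hl φ hx
  · exact v0c_cn_zero hl (fun x => φ x * g x) hx

theorem v0c_chi_supp {d : XZ} (hv : d.Valid) (N : ℕ) (c : ℝ) (a : Fin d.n × Fin 3) :
    SuppIn (d.pr0 N) (d.chi N c a) := by
  intro x hx
  have h1 := hv.pT_pos N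
  have h3 := hv.pQ_ge
  have h6 : d.pQ ≤ d.pQ ^ 2 := le_self_pow₀ hv.one_le_pQ (by norm_num)
  have h9 : (100 : ℝ) ≤ 10 ^ 20 := by norm_num
  obtain ⟨w0, w1⟩ := hv.pw_bd
  rw [XZ.chi]
  rcases v0c_far2 hv hx a.1.2 with h | h | h
  · rw [XZ.eX, v0c_facE_zero one_pos _ _ _ (by linarith), zero_mul, zero_mul]
  · rw [XZ.eY, v0c_facE_zero (by norm_num) _ _ _ (by linarith), mul_zero, zero_mul]
  · rw [XZ.eZ, v0c_cn_zero w0 _ (by linarith), mul_zero]

theorem v0c_xc_le {d : XZ} (hv : d.Valid) {m k i j : ℕ} (hm : m < d.n) (hk : k < 3) (hi : i < d.n)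
    (hj : j < d.n) (mir : Bool) : |d.xc m k i j mir| ≤ d.pXr + d.pQ ^ 2 / 100 := by
  have r1 : |(rs mir : ℝ)| = 1 := by cases mir <;> simp [rs]
  have r2 : |(d.side k i j : ℝ)| = 1 := by
    unfold XZ.side
    split_ifs <;> simp
  have h2 := v0c_n_le_pQ hv
  have h3 := hv.pQ_pos
  have h4 : (m : ℝ) ≤ d.n := by exact_mod_cast hm.le
  have h5 : (0 : ℝ) ≤ m := Nat.cast_nonneg m
  have h7 : |d.xm m| ≤ d.pQ ^ 2 / 100 := by
    rw [XZ.xm, abs_of_nonneg (by positivity)]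
    nlinarith
  have hΛ := hv.pΛ_pos
  have k2 : (k : ℝ) ≤ 2 := by exact_mod_cast Nat.lt_succ_iff.1 hk
  have i1 : (i : ℝ) + 1 ≤ d.n := by exact_mod_cast hi
  have j1 : (j : ℝ) + 1 ≤ d.n := by exact_mod_cast hj
  have n0 : (0 : ℝ) ≤ d.n := Nat.cast_nonneg _
  have h8 : |d.pos k i j| ≤ d.pXr := by
    rw [XZ.pos, abs_of_nonneg (by positivity), XZ.pXr]
    refine mul_le_mul_of_nonneg_left ?_ hΛ.le
    nlinarith [mul_le_mul_of_nonneg_right k2 (sq_nonneg (d.n : ℝ)),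
      mul_le_mul_of_nonneg_right i1 n0]
  rw [XZ.xc, abs_mul, abs_mul, r1, r2, one_mul, one_mul, XZ.ys]
  refine (abs_sub _ _).trans ?_
  rw [abs_mul, r2, one_mul]
  linarith

theorem v0c_vv_supp {d : XZ} (hv : d.Valid) (N : ℕ) (U : ℚ) : SuppIn (d.pr0 N) (d.vv U) := by
  intro x hx
  have h1 := hv.pT_pos N
  have h3 := hv.pQ_ge
  have h6 : d.pQ ≤ d.pQ ^ 2 := le_self_pow₀ hv.one_le_pQ (by norm_num)
  have h9 : (100 : ℝ) ≤ 10 ^ 20 := by norm_num
  have hT : d.pXr ≤ d.pT N := by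
    have := hv.pG_pos N
    have := hv.pβ_bd.1
    rw [XZ.pT]
    exact le_add_of_nonneg_right (by positivity)
  obtain ⟨w0, w1⟩ := hv.pσ_bd
  refine Finset.sum_eq_zero fun m hm => Finset.sum_eq_zero fun k hk =>
    Finset.sum_eq_zero fun i hi => Finset.sum_eq_zero fun j hj =>
    Finset.sum_eq_zero fun mir _ => Finset.sum_eq_zero fun r _ => ?_
  have hc := v0c_xc_le hv (Finset.mem_range.1 hm) (Finset.mem_range.1 hk) (Finset.mem_range.1 hi)
    (Finset.mem_range.1 hj) mir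
  have r1 : |(rs r : ℝ)| = 1 := by cases r <;> simp [rs]
  rcases v0c_far2 hv hx (Finset.mem_range.1 hm) with h | h | h
  · rw [cut_eq_zero w0 (by
      linarith [abs_sub_abs_le_abs_sub (x 0 - d.xm m) (d.xc m k i j mir)]), zero_mul, zero_mul,
      mul_zero]
  · rw [cut_eq_zero (x := x 1 - 8 * m - rs r) w0 (by
      linarith [abs_sub_abs_le_abs_sub (x 1 - 8 * m) (rs r : ℝ)]), mul_zero, zero_mul, mul_zero]
  · rw [cut_eq_zero (x := x 2) one_pos (by linarith), mul_zero, mul_zero]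

end Crest.Agent.R338
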