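import Crest.Agent.R338.XF
import Crest.Agent.R338.YF
import Crest.Agent.R338.ZF
import Crest.Agent.R338.V0C
import Crest.Agent.R338.V0B

/-! Row 338: smoothness, supports and bounds of the design. -/

set_option autoImplicit false

open MeasureTheory Crest.MathPhysics.ElectronicCoulomb

namespace Crest.Agent.R338

/-- The logarithmic cut-off changes the Laplacian very little. -/
theorem lap_logCut {R : ℝ} (hR : 0 < R) (x : Pos3) :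
    |lap (fun y : Pos3 => (y 0 ^ 2 + y 1 ^ 2) * logCut R y) x| ≤ 4 + 1 / 4 :=
  v0c_lap_logCut hR x

theorem V0_lap : ∃ k₀ : ℕ, ∀ (d : XZ) (N : ℕ) (c : ℝ), d.Valid → d.sz N ^ k₀ ≤ c →
    ∀ x, |lap (d.V0 N c) x| ≤ 9 / 4 * c ^ 2 :=
  v0c_V0_lap

theorem V0_sb (k₁ : ℕ) : ∃ k : ℕ, ∀ (d : XZ) (N : ℕ), d.Valid →
    SB 6 (d.sz N ^ k) (d.V0 N (d.sz N ^ k₁)) := by
  obtain ⟨k, hk⟩ := v0b_V0_pj k₁
  exact ⟨k, fun d N hv => sb_iff_jb.2 fun x => hk (⟨(d, N), hv⟩, x)⟩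

theorem V0_supp {d : XZ} (hv : d.Valid) (N : ℕ) (c : ℝ) : SuppIn (d.pr0 N) (d.V0 N c) :=
  v0c_V0_supp hv N c

theorem chi_sb : ∃ k₀ : ℕ, ∀ k₁, k₀ ≤ k₁ → ∃ k : ℕ, ∀ (d : XZ) (N : ℕ), d.Valid →
    ∀ a, SB 4 (d.sz N ^ k) (d.chi N (d.sz N ^ k₁) a) := by
  obtain ⟨k₀, hk⟩ := v0b_chi_pj
  refine ⟨k₀, fun k₁ h => ?_⟩
  obtain ⟨k, hk'⟩ := hk k₁ h
  exact ⟨k, fun d N hv a => sb_iff_jb.2 fun x => hk' ⟨⟨(d, N), hv⟩, a, x⟩⟩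

theorem chi_supp {d : XZ} (hv : d.Valid) (N : ℕ) (c : ℝ) (a : Fin d.n × Fin 3) :
    SuppIn (d.pr0 N) (d.chi N c a) :=
  v0c_chi_supp hv N c a

theorem vv_sb : ∃ k : ℕ, ∀ (d : XZ) (N : ℕ) (U : ℚ), d.Valid → 1 / 2 ≤ U → (U : ℝ) ≤ 100 * d.pQ →
    SB 6 (d.sz N ^ k) (d.vv U) := by
  obtain ⟨k, hk⟩ := v0b_vv_pj
  exact ⟨k, fun d N U hv h1 h2 => sb_iff_jb.2 fun x => hk (⟨(⟨(d, N), hv⟩, U), h1, h2⟩, x)⟩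

theorem vv_supp {d : XZ} (hv : d.Valid) (N : ℕ) (U : ℚ) : SuppIn (d.pr0 N) (d.vv U) :=
  v0c_vv_supp hv N U

end Crest.Agent.R338
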