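import Crest.Agent.R338.S3A
import Crest.Agent.R338.V0

/-! Row 338: orthonormality and residuals of the orbitals. -/

set_option autoImplicit false

open MeasureTheory Crest.MathPhysics.ElectronicCoulomb

namespace Crest.Agent.R338

theorem s3b_opt {a M ρ I : ℝ} (hM : 0 ≤ M) (hρ : 0 < ρ) (hI : 0 ≤ I)
    (h : ∀ θ : ℝ, 0 < θ → a ≤ M * (θ * ρ ^ 2 / 2 + I / (2 * θ))) : a ≤ M * ρ * √I := by
  obtain ⟨s, hs, rfl⟩ : ∃ s : ℝ, 0 ≤ s ∧ I = s ^ 2 := ⟨√I, Real.sqrt_nonneg _, (Real.sq_sqrt hI).symm⟩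
  rw [Real.sqrt_sq hs]
  refine le_of_forall_pos_le_add fun ε hε => ?_
  have hD : 0 < M * ρ + 1 := by positivity
  have hδ : 0 < ε / (M * ρ + 1) := by positivity
  have hδ' : M * ρ * (ε / (M * ρ + 1)) ≤ ε := by
    rw [← mul_div_assoc, div_le_iff₀ hD]; nlinarith
  generalize ε / (M * ρ + 1) = δ at hδ hδ'
  have h1 := h ((s + δ) / ρ) (by positivity)
  have e1 : (s + δ) / ρ * ρ ^ 2 / 2 = ρ * (s + δ) / 2 := by field_simp
  have e2 : s ^ 2 / (2 * ((s + δ) / ρ)) ≤ ρ * (s + δ) / 2 := by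
    rw [div_le_iff₀ (by positivity)]
    have : ρ * (s + δ) / 2 * (2 * ((s + δ) / ρ)) = (s + δ) ^ 2 := by field_simp
    rw [this]; gcongr; linarith
  rw [e1] at h1
  have h2 : M * (ρ * (s + δ) / 2 + s ^ 2 / (2 * ((s + δ) / ρ))) ≤ M * (ρ * (s + δ)) :=
    mul_le_mul_of_nonneg_left (by linarith) hM
  nlinarith

theorem s3b_cs {R u : Pos3 → ℝ} {M r : ℝ} (hr : 1 ≤ r) (hR : ∀ x, |R x| ≤ M)
    (hs : ∀ x, r < ‖x‖ → R x = 0) (hu : Continuous u) (hu' : HasCompactSupport u) :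
    |∫ x, R x * u x| ≤ M * (3 * r ^ 2) * √(∫ x, u x ^ 2) := by
  have hM : 0 ≤ M := (abs_nonneg _).trans (hR 0)
  refine s3b_opt hM (by positivity) (integral_nonneg fun x => sq_nonneg _) fun θ hθ => ?_
  have i2 : Integrable fun x => u x ^ 2 :=
    (hu.pow 2).integrable_of_hasCompactSupport (by simpa only [sq] using hu'.mul_right)
  have mB := (Metric.isClosed_closedBall (x := (0 : Pos3)) (ε := r)).measurableSet
  have i1 : Integrable ((Metric.closedBall (0 : Pos3) r).indicator fun _ => θ / 2) :=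
    (integrable_indicator_iff mB).2 (integrableOn_const measure_closedBall_lt_top.ne)
  have key : ‖∫ x, R x * u x‖ ≤ ∫ x, M * ((Metric.closedBall (0 : Pos3) r).indicator
      (fun _ => θ / 2) x + u x ^ 2 / (2 * θ)) := by
    refine norm_integral_le_of_norm_le ((i1.add (i2.div_const _)).const_mul M)
      (.of_forall fun x => ?_)
    rw [Real.norm_eq_abs, abs_mul]
    by_cases hx : x ∈ Metric.closedBall (0 : Pos3) r
    · rw [Set.indicator_of_mem hx]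
      refine mul_le_mul (hR x) ?_ (abs_nonneg _) hM
      have e : θ / 2 + u x ^ 2 / (2 * θ) - |u x| = (θ - |u x|) ^ 2 / (2 * θ) := by
        rw [← sq_abs (u x)]; field_simp; ring
      have : 0 ≤ (θ - |u x|) ^ 2 / (2 * θ) := by positivity
      linarith
    · rw [Set.indicator_of_notMem hx, hs x (by simpa using hx), abs_zero, zero_mul]
      positivity
  rw [integral_const_mul, integral_add i1 (i2.div_const _), integral_div,
    integral_indicator mB, setIntegral_const, smul_eq_mul] at key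
  refine key.trans (mul_le_mul_of_nonneg_left (add_le_add_left ?_ _) hM)
  have hv : volume.real (Metric.closedBall (0 : Pos3) r) ≤ (3 * r ^ 2) ^ 2 := by
    rw [Measure.real, EuclideanSpace.volume_closedBall_fin_three, ENNReal.toReal_mul,
      ENNReal.toReal_pow, ENNReal.toReal_ofReal (by linarith),
      ENNReal.toReal_ofReal (by positivity)]
    have h3 : 0 ≤ r ^ 3 := by positivity
    have h4 : r ^ 3 ≤ r ^ 4 := pow_le_pow_right₀ hr (by norm_num)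
    nlinarith [Real.pi_le_four]
  nlinarith

theorem s3b_lap_cont {f : Pos3 → ℝ} (hf : ContDiff ℝ 2 f) : Continuous (lap f) :=
  continuous_finsetSum _ fun k _ =>
    ((s3b_pd_c1 hf k).continuous_fderiv one_ne_zero).clm_apply continuous_const

theorem s3b_pd_zero {f : Pos3 → ℝ} {r : ℝ} (h : ∀ x, r < ‖x‖ → f x = 0) (k : Fin 3) (x : Pos3)
    (hx : r < ‖x‖) : pd k f x = 0 := by
  have : f =ᶠ[nhds x] fun _ => 0 :=
    (continuous_norm.continuousAt.eventually (lt_mem_nhds hx)).mono fun y hy => h y hy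
  rw [pd, this.fderiv_eq]
  simp

theorem s3b_lap_zero {f : Pos3 → ℝ} {r : ℝ} (h : ∀ x, r < ‖x‖ → f x = 0) (x : Pos3)
    (hx : r < ‖x‖) : lap f x = 0 :=
  Finset.sum_eq_zero fun k _ => s3b_pd_zero (s3b_pd_zero h k) k x hx

/-- The residual estimate for a function on whose support the potential is known. -/
theorem s3b_res {f V W u : Pos3 → ℝ} {E M r : ℝ} (hr : 1 ≤ r) (hf : ContDiff ℝ 2 f)
    (hs : SuppIn r f) (hW : Continuous W) (hV : ∀ x, f x ≠ 0 → V x = W x + E)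
    (hM : ∀ x, |-(1 / 2) * lap f x + W x * f x| ≤ M) (hu : ContDiff ℝ 1 u)
    (hu' : HasCompactSupport u) :
    |qf (fun x => -V x) f u - E * ∫ x, f x * u x| ≤ M * (3 * r ^ 2) * √(∫ x, u x ^ 2) := by
  have hc : HasCompactSupport f :=
    HasCompactSupport.intro (isCompact_closedBall (0 : Pos3) r) fun x hx =>
      hs x (le_of_lt (by simpa using hx))
  have cf := hf.continuous
  have cu := hu.continuous
  have i1 : Integrable fun x => lap f x * u x :=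
    ((s3b_lap_cont hf).mul cu).integrable_of_hasCompactSupport hu'.mul_left
  have i2 : Integrable fun x => W x * f x * u x :=
    ((hW.mul cf).mul cu).integrable_of_hasCompactSupport hu'.mul_left
  have i3 : Integrable fun x => f x * u x :=
    (cf.mul cu).integrable_of_hasCompactSupport hu'.mul_left
  have e1 : (fun x => -V x * (f x * u x)) = fun x => -(W x * f x * u x) - E * (f x * u x) := by
    funext x
    by_cases hx : f x = 0
    · simp [hx]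
    · rw [hV x hx]; ring
  have e2 : (fun x => (-(1 / 2) * lap f x + W x * f x) * u x) =
      fun x => -(1 / 2) * (lap f x * u x) + W x * f x * u x := by
    funext x; ring
  have key := s3b_cs hr hM (fun x hx => by
    rw [s3b_lap_zero (fun y hy => hs y hy.le) x hx, hs x hx.le]; simp) cu hu'
  rw [e2, integral_add (i1.const_mul _) i2, integral_const_mul] at key
  have i4 : Integrable fun x => -(W x * f x * u x) := i2.neg
  rw [qf, green_c2 hf hc hu, e1, integral_sub i4 (i3.const_mul _), integral_neg,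
    integral_const_mul]
  refine le_trans (le_of_eq ?_) key
  congr 1
  ring

theorem s3b_cube {R : ℝ} (hR : 0 < R) {x : Pos3} (h : ∀ l, |x l| ≤ R) : cube R x = 1 := by
  rw [cube, cut_eq_one hR (h 0), cut_eq_one hR (h 1), cut_eq_one hR (h 2)]
  norm_num

theorem s3b_cube_pow {R : ℝ} (hR : 0 < R) {x : Pos3} (h : ∀ l, |x l| ≤ R) (j : ℕ) :
    cube (2 ^ j * R) x = 1 :=
  s3b_cube (by positivity) fun l => (h l).trans
    (le_mul_of_one_le_left hR.le (one_le_pow₀ (by norm_num)))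

theorem s3b_logCut {R : ℝ} (hR : 0 < R) {x : Pos3} (h : ∀ l, |x l| ≤ R) : logCut R x = 1 := by
  have hJ : (pJ : ℝ) ≠ 0 := by
    have : pJ ≠ 0 := by unfold pJ; positivity
    exact_mod_cast this
  rw [logCut, Finset.sum_congr rfl fun j _ => s3b_cube_pow hR h j, Finset.sum_const,
    Finset.card_range, nsmul_eq_mul, mul_one, div_self hJ]

theorem s3b_sep {m m' : ℕ} (h : m ≠ m') {y : ℝ} (hy : |y - 8 * m| < 5 / 2) :
    3 ≤ |y - 8 * m'| := by
  obtain ⟨h1, h2⟩ := abs_lt.1 hy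
  rcases h.lt_or_gt with h | h
  · have : (m : ℝ) + 1 ≤ m' := by exact_mod_cast h
    exact le_abs.2 (Or.inr (by linarith))
  · have : (m' : ℝ) + 1 ≤ m := by exact_mod_cast h
    exact le_abs.2 (Or.inl (by linarith))

theorem s3b_V {d : XZ} (hv : d.Valid) (N : ℕ) (c : ℝ) {m : ℕ} (hm : m < d.n) {x : Pos3}
    (h0 : |x 0 - d.xm m| < d.pT N + 1) (h1 : |x 1 - 8 * m| < 5 / 2) (h2 : |x 2| < 2 * d.pw)
    (hx : ‖x‖ < d.pr0 N) :
    c ^ 2 / 2 * min (‖x‖ ^ 2) (d.pr0 N ^ 2) + d.V0 N c x =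
      d.Wx N m (x 0 - d.xm m) + d.Wy N (x 1 - 8 * m) + (c ^ 2 / 2 * x 2 ^ 2 - c / 2) + c / 2 := by
  have hQ := hv.pQ_ge
  have hB := hv.one_le_B
  have hT := hv.pT_pos N
  have hw := hv.pw_small
  have hmB : (m : ℝ) + 1 ≤ d.B := by
    have : (m : ℝ) + 1 ≤ d.n := by exact_mod_cast hm
    exact this.trans hv.n_le_B
  have hBQ : (d.B : ℝ) ≤ d.pQ := by
    have : (d.B : ℝ) ≤ (d.B : ℝ) ^ 40 := le_self_pow₀ hB (by norm_num)
    unfold XZ.pQ; nlinarith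
  have hm0 : (0 : ℝ) ≤ m := Nat.cast_nonneg m
  have hr1 : 0 < d.pr1 N := lt_of_lt_of_le one_pos (hv.one_le_pr1 N)
  have hl : ∀ l, |x l| ≤ d.pr1 N := by
    obtain ⟨a1, a2⟩ := abs_lt.1 h0
    obtain ⟨b1, b2⟩ := abs_lt.1 h1
    have q1 : (m : ℝ) * d.pQ + 1 ≤ d.pQ ^ 2 := by nlinarith
    have q2 : 8 * (m : ℝ) + 3 ≤ d.pQ ^ 2 := by nlinarith
    have q3 : 0 ≤ (m : ℝ) * d.pQ := by positivity
    rw [XZ.xm] at a1 a2
    intro l
    rw [XZ.pr1]
    fin_cases l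
    · exact abs_le.2 ⟨by change _ ≤ x 0; linarith, by change x 0 ≤ _; linarith⟩
    · exact abs_le.2 ⟨by change _ ≤ x 1; linarith, by change x 1 ≤ _; linarith⟩
    · change |x 2| ≤ _
      linarith
  have e1 : min (‖x‖ ^ 2) (d.pr0 N ^ 2) = x 0 ^ 2 + x 1 ^ 2 + x 2 ^ 2 := by
    rw [min_eq_left (pow_le_pow_left₀ (norm_nonneg _) hx.le 2), EuclideanSpace.real_norm_sq_eq,
      Fin.sum_univ_three]
  have e2 : ∑ m' ∈ Finset.range d.n,
      d.coreM N m' x * (d.Wx N m' (x 0 - d.xm m') + d.Wy N (x 1 - 8 * m') - c) =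
      d.Wx N m (x 0 - d.xm m) + d.Wy N (x 1 - 8 * m) - c := by
    rw [Finset.sum_eq_single_of_mem m (Finset.mem_range.2 hm) fun m' _ hne => ?_]
    · rw [XZ.coreM, cut_eq_one one_pos h0.le, cut_eq_one (by norm_num) h1.le,
        cut_eq_one (by norm_num) (by linarith)]
      ring
    · rw [XZ.coreM, cut_eq_zero (a := 5 / 2) (by norm_num)
        (le_trans (by norm_num) (s3b_sep hne.symm h1))]
      ring
  rw [e1, XZ.V0, e2, s3b_logCut hr1 hl, s3b_cube_pow hr1 hl]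
  ring

theorem s3b_chi (d : XZ) (N : ℕ) (c : ℝ) (a : Fin d.n × Fin 3) :
    d.chi N c a = prod3 (d.eX N a.1) (d.eY N) (d.eZ c) (d.xm a.1) (8 * (a.1 : ℕ)) a.2 := rfl

theorem s3b_on : ∃ k₀ : ℕ, ∀ k₁, k₀ ≤ k₁ → ∀ (d : XZ) (N : ℕ), d.Valid → ∀ a b,
    ∫ x, d.chi N (d.sz N ^ k₁) a x * d.chi N (d.sz N ^ k₁) b x = if a = b then 1 else 0 := by
  obtain ⟨k₀, hZ⟩ := eZ_fac
  obtain ⟨kX, hX⟩ := eX_fac
  obtain ⟨kY, hY⟩ := eY_fac
  refine ⟨k₀, fun k₁ hk d N hv ⟨m, t⟩ ⟨m', t'⟩ => ?_⟩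
  obtain ⟨kZ, hZ⟩ := hZ k₁ hk
  by_cases hm : m = m'
  · subst hm
    rw [s3b_chi, s3b_chi, on3 (hX d N m hv m.2) (hY d N hv) (hZ d N hv)]
    simp
  · rw [if_neg (fun h => hm (congrArg Prod.fst h))]
    refine integral_eq_zero_of_ae (.of_forall fun x => ?_)
    change d.chi N _ (m, t) x * d.chi N _ (m', t') x = 0
    by_cases h : |x 1 - 8 * (m : ℕ)| < 5 / 2
    · have := (hY d N hv).supp (iy t') _
        (le_trans (by norm_num) (s3b_sep (fun e => hm (Fin.ext e)) h))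
      simp only [XZ.chi, this, mul_zero, zero_mul]
    · have := (hY d N hv).supp (iy t) _ (not_lt.1 h)
      simp only [XZ.chi, this, mul_zero, zero_mul]

theorem s3b_bd : ∃ k₀ : ℕ, ∀ k₁, k₀ ≤ k₁ → ∃ k : ℕ, ∀ (d : XZ) (N : ℕ), d.Valid →
    (∀ m, m < d.n → ∀ t x, |d.eX N m t x| ≤ d.sz N ^ k) ∧ (∀ t x, |d.eY N t x| ≤ d.sz N ^ k) ∧
      ∀ x, |d.eZ (d.sz N ^ k₁) x| ≤ d.sz N ^ k := by
  obtain ⟨k₀, hZ⟩ := eZ_pj
  refine ⟨k₀, fun k₁ hk => ?_⟩
  obtain ⟨c0, h0⟩ := (eX_pj 0).val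
  obtain ⟨c1, h1⟩ := (eX_pj 1).val
  obtain ⟨c2, h2⟩ := (eY_pj 0).val
  obtain ⟨c3, h3⟩ := (eY_pj 1).val
  obtain ⟨c4, h4⟩ := (hZ k₁ hk).val
  refine ⟨c0 + c1 + c2 + c3 + c4, fun d N hv => ?_⟩
  have hs : 1 ≤ d.sz N := by linarith [d.two_le_sz N]
  have hp : ∀ c, c ≤ c0 + c1 + c2 + c3 + c4 → d.sz N ^ c ≤ d.sz N ^ (c0 + c1 + c2 + c3 + c4) :=
    fun c hc => pow_le_pow_right₀ hs hc
  refine ⟨fun m hm => Fin.forall_fin_two.2 ⟨fun x => ?_, fun x => ?_⟩,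
    Fin.forall_fin_two.2 ⟨fun x => ?_, fun x => ?_⟩, fun x => ?_⟩
  · exact (h0 ⟨⟨(d, N), hv⟩, ⟨m, hm⟩, x⟩).trans (hp _ (by omega))
  · exact (h1 ⟨⟨(d, N), hv⟩, ⟨m, hm⟩, x⟩).trans (hp _ (by omega))
  · exact (h2 (⟨(d, N), hv⟩, x)).trans (hp _ (by omega))
  · exact (h3 (⟨(d, N), hv⟩, x)).trans (hp _ (by omega))
  · exact (h4 (⟨(d, N), hv⟩, x)).trans (hp _ (by omega))

theorem s3b_chi_res : ∃ k₀ : ℕ, ∀ k₁, k₀ ≤ k₁ → ∃ k : ℕ, ∀ (d : XZ) (N : ℕ), d.Valid → ∀ a,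
    ∀ u : Pos3 → ℝ, ContDiff ℝ 1 u → HasCompactSupport u →
      |qf (fun x => -((d.sz N ^ k₁) ^ 2 / 2 * min (‖x‖ ^ 2) (d.pr0 N ^ 2) +
          d.V0 N (d.sz N ^ k₁) x)) (d.chi N (d.sz N ^ k₁) a) u -
        (d.sz N ^ k₁ / 2 + if core3 a then 0 else d.plam N) *
          ∫ x, d.chi N (d.sz N ^ k₁) a x * u x| ≤ d.sz N ^ k / 2 ^ N * √(∫ x, u x ^ 2) := by
  obtain ⟨k₀, hZ⟩ := eZ_fac
  obtain ⟨k₀', hB⟩ := s3b_bd
  obtain ⟨kX, hX⟩ := eX_fac
  obtain ⟨kY, hY⟩ := eY_fac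
  refine ⟨max k₀ k₀', fun k₁ hk => ?_⟩
  obtain ⟨kZ, hZ⟩ := hZ k₁ (le_of_max_le_left hk)
  obtain ⟨kB, hB⟩ := hB k₁ (le_of_max_le_right hk)
  obtain ⟨k, hk'⟩ := (((((pn_s.pow kX).add Inst.two_le (pn_s.pow kY)).add Inst.two_le
    (pn_s.pow kZ)).mul ((pn_s.pow kB).pow 2)).mul ((pn_const 3).mul (pn_pr0.pow 2)))
  refine ⟨k, fun d N hv ⟨m, t⟩ u hu hu' => ?_⟩
  have fX := hX d N m hv m.2
  have fY := hY d N hv
  have fZ := hZ d N hv
  obtain ⟨b1, b2, b3⟩ := hB d N hv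
  have hc2 : ContDiff ℝ 2 (d.chi N (d.sz N ^ k₁) (m, t)) := by
    have p : ∀ l : Fin 3, ContDiff ℝ 2 fun x : Pos3 => x l := fun l =>
      (EuclideanSpace.proj l : Pos3 →L[ℝ] ℝ).contDiff
    exact (((fX.c2 _).comp ((p 0).sub contDiff_const)).mul
      ((fY.c2 _).comp ((p 1).sub contDiff_const))).mul (fZ.c2.comp (p 2))
  have hW : Continuous fun x : Pos3 => d.Wx N m (x 0 - d.xm m) + d.Wy N (x 1 - 8 * (m : ℕ)) +
      ((d.sz N ^ k₁) ^ 2 / 2 * x 2 ^ 2 - d.sz N ^ k₁ / 2) - if t = 0 then 0 else d.plam N := by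
    have := fX.W_cont
    have := fY.W_cont
    fun_prop
  have key := s3b_res (V := fun x => (d.sz N ^ k₁) ^ 2 / 2 * min (‖x‖ ^ 2) (d.pr0 N ^ 2) +
      d.V0 N (d.sz N ^ k₁) x) (E := d.sz N ^ k₁ / 2 + if t = 0 then 0 else d.plam N)
    (hv.one_le_pr0 N) hc2 (chi_supp hv N _ (m, t)) hW (fun x hx => ?_)
    (res3 fX fY fZ (b1 m m.2) b2 b3 (d.xm m) (8 * (m : ℕ)) t) hu hu'
  · refine key.trans (mul_le_mul_of_nonneg_right ?_ (Real.sqrt_nonneg _))
    have h1 := (le_abs_self _).trans (hk' ⟨(d, N), hv⟩)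
    have h2 : (0 : ℝ) < 2 ^ N := by positivity
    refine le_trans (le_of_eq ?_) (div_le_div_of_nonneg_right h1 h2.le)
    ring
  · have h0 : |x 0 - d.xm m| < d.pT N + 1 := by
      by_contra h
      exact hx (by simp only [XZ.chi, fX.supp _ _ (not_lt.1 h), zero_mul])
    have h1 : |x 1 - 8 * (m : ℕ)| < 5 / 2 := by
      by_contra h
      exact hx (by simp only [XZ.chi, fY.supp _ _ (not_lt.1 h), mul_zero, zero_mul])
    have h2 : |x 2| < 2 * d.pw := by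
      by_contra h
      exact hx (by simp only [XZ.chi, fZ.supp _ (not_lt.1 h), mul_zero])
    have h3 : ‖x‖ < d.pr0 N := by
      by_contra h
      exact hx (chi_supp hv N _ (m, t) x (not_lt.1 h))
    rw [s3b_V hv N _ m.2 h0 h1 h2 h3]
    ring

end Crest.Agent.R338
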