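import Crest.Agent.R338.S3A
import Crest.Agent.R338.V0

/-! Row 338: the spectral gap of the one-body problem (localisation). -/

set_option autoImplicit false

open MeasureTheory Crest.MathPhysics.ElectronicCoulomb

namespace Crest.Agent.R338

theorem s3g_pd_pd {f : Pos3 → ℝ} (hf : ContDiff ℝ 2 f) (k : Fin 3) (x : Pos3) :
    pd k (pd k f) x =
      iteratedFDeriv ℝ 2 f x ![EuclideanSpace.single k 1, EuclideanSpace.single k 1] := by
  have h : DifferentiableAt ℝ (fderiv ℝ f) x :=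
    (hf.fderiv_right (m := 1) (by norm_num)).differentiable (by norm_num) x
  rw [iteratedFDeriv_two_apply]
  unfold pd
  rw [fderiv_clm_apply h (differentiableAt_const _)]
  simp

theorem s3g_lap_le {f : Pos3 → ℝ} (hf : ContDiff ℝ 2 f) {x : Pos3} {A : ℝ}
    (h : ‖iteratedFDeriv ℝ 2 f x‖ ≤ A) : |lap f x| ≤ 3 * A := by
  refine (Finset.abs_sum_le_sum_abs _ _).trans ?_
  refine (Finset.sum_le_sum (g := fun _ => A) fun k _ => ?_).trans (by simp)
  rw [s3g_pd_pd hf]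
  refine ((iteratedFDeriv ℝ 2 f x).le_opNorm _).trans ?_
  simpa using h

theorem s3g_lap_cont {f : Pos3 → ℝ} (hf : ContDiff ℝ 2 f) : Continuous (lap f) := by
  have e : lap f = fun x => ∑ k : Fin 3,
      iteratedFDeriv ℝ 2 f x ![EuclideanSpace.single k 1, EuclideanSpace.single k 1] := by
    funext x; simp only [lap, s3g_pd_pd hf]
  rw [e]
  have hc : Continuous (iteratedFDeriv ℝ 2 f) := hf.continuous_iteratedFDeriv le_rfl
  exact continuous_finsetSum _ fun k _ => by fun_prop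

theorem s3g_lap_zero {f : Pos3 → ℝ} (hf : ContDiff ℝ 2 f) {x : Pos3}
    (h : f =ᶠ[nhds x] fun _ => 1) : lap f x = 0 := by
  have h1 : iteratedFDeriv ℝ 2 f x = 0 := by
    rw [(h.iteratedFDeriv ℝ 2).eq_of_nhds, iteratedFDeriv_succ_const]
    simp
  simp [lap, s3g_pd_pd hf, h1]

/-- The localisation functions. -/
noncomputable def s3gJ (d : XZ) (N m : ℕ) (x : Pos3) : ℝ :=
  cut (d.pT N + 2) 1 (x 0 - d.xm m) * cut 3 (1 / 2) (x 1 - 8 * m) * cut 1 1 (x 2)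

theorem s3gJ_c2 (d : XZ) (N m : ℕ) : ContDiff ℝ 2 (s3gJ d N m) := by
  have h : ∀ a l : ℝ, ContDiff ℝ 2 (cut a l) := fun a l => (cut_contDiff a l).of_le (by norm_num)
  unfold s3gJ
  exact (((h _ _).comp (by fun_prop)).mul ((h _ _).comp (by fun_prop))).mul
    ((h _ _).comp (by fun_prop))

theorem s3gJ_nonneg (d : XZ) (N m : ℕ) (x : Pos3) : 0 ≤ s3gJ d N m x :=
  mul_nonneg (mul_nonneg (cut_nonneg _ _ _) (cut_nonneg _ _ _)) (cut_nonneg _ _ _)

theorem s3gJ_le_one (d : XZ) (N m : ℕ) (x : Pos3) : s3gJ d N m x ≤ 1 :=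
  mul_le_one₀ (mul_le_one₀ (cut_le_one _ _ _) (cut_nonneg _ _ _) (cut_le_one _ _ _))
    (cut_nonneg _ _ _) (cut_le_one _ _ _)

theorem s3g_cut_ne {a l x : ℝ} (hl : 0 < l) (h : cut a l x ≠ 0) : |x| < a + l :=
  lt_of_not_ge fun h' => h (cut_eq_zero hl h')

theorem s3gJ_ne {d : XZ} {N m : ℕ} {x : Pos3} (h : s3gJ d N m x ≠ 0) :
    |x 0 - d.xm m| < d.pT N + 3 ∧ |x 1 - 8 * m| < 7 / 2 ∧ |x 2| < 2 := by
  obtain ⟨h1, h3⟩ := mul_ne_zero_iff.1 h
  obtain ⟨h1, h2⟩ := mul_ne_zero_iff.1 h1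
  have a1 := s3g_cut_ne one_pos h1
  have a2 := s3g_cut_ne (by norm_num) h2
  have a3 := s3g_cut_ne one_pos h3
  exact ⟨by linarith, by linarith, by linarith⟩

theorem s3gJ_eq_one {d : XZ} {N m : ℕ} {x : Pos3} (h0 : |x 0 - d.xm m| ≤ d.pT N + 2)
    (h1 : |x 1 - 8 * m| ≤ 3) (h2 : |x 2| ≤ 1) : s3gJ d N m x = 1 := by
  rw [s3gJ, cut_eq_one one_pos h0, cut_eq_one (by norm_num) h1, cut_eq_one one_pos h2]
  norm_num

theorem s3g_core_ne {d : XZ} {N m : ℕ} {x : Pos3} (h : d.coreM N m x ≠ 0) :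
    |x 0 - d.xm m| < d.pT N + 2 ∧ |x 1 - 8 * m| < 3 ∧ |x 2| < 1 := by
  obtain ⟨h1, h3⟩ := mul_ne_zero_iff.1 h
  obtain ⟨h1, h2⟩ := mul_ne_zero_iff.1 h1
  have a1 := s3g_cut_ne one_pos h1
  have a2 := s3g_cut_ne (by norm_num) h2
  have a3 := s3g_cut_ne (by norm_num) h3
  exact ⟨by linarith, by linarith, by linarith⟩

theorem s3g_core_ev {d : XZ} {N m : ℕ} {x : Pos3} (h : d.coreM N m x ≠ 0) :
    s3gJ d N m =ᶠ[nhds x] fun _ => 1 := by
  obtain ⟨h0, h1, h2⟩ := s3g_core_ne h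
  have c0 : ContinuousAt (fun y : Pos3 => |y 0 - d.xm m|) x := by fun_prop
  have c1 : ContinuousAt (fun y : Pos3 => |y 1 - 8 * m|) x := by fun_prop
  have c2 : ContinuousAt (fun y : Pos3 => |y 2|) x := by fun_prop
  filter_upwards [c0.eventually_lt continuousAt_const h0, c1.eventually_lt continuousAt_const h1,
    c2.eventually_lt continuousAt_const h2] with y a0 a1 a2
  exact s3gJ_eq_one a0.le a1.le a2.le

theorem s3g_far {m m' : ℕ} (h : m' ≠ m) {y : ℝ} (hy : |y - 8 * m| < 7 / 2) :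
    7 / 2 ≤ |y - 8 * m'| := by
  obtain ⟨h1, h2⟩ := abs_lt.1 hy
  rcases lt_or_gt_of_ne h with h | h
  · have : (m' : ℝ) + 1 ≤ m := by exact_mod_cast h
    exact le_abs.2 (Or.inl (by linarith))
  · have : (m : ℝ) + 1 ≤ m' := by exact_mod_cast h
    exact le_abs.2 (Or.inr (by linarith))

theorem s3gJ_other {d : XZ} {N m m' : ℕ} {x : Pos3} (h : s3gJ d N m x ≠ 0) (hm : m' ≠ m) :
    s3gJ d N m' x = 0 ∧ d.coreM N m' x = 0 := by
  have h1 := s3g_far hm (s3gJ_ne h).2.1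
  constructor
  · by_contra h'
    linarith [(s3gJ_ne h').2.1]
  · by_contra h'
    linarith [(s3g_core_ne h').2.1]

theorem s3gJ_sum (d : XZ) (N n : ℕ) (x : Pos3) : ∑ m ∈ Finset.range n, s3gJ d N m x ^ 2 ≤ 1 := by
  by_cases h : ∃ m ∈ Finset.range n, s3gJ d N m x ≠ 0
  · obtain ⟨m, hm, h⟩ := h
    rw [Finset.sum_eq_single_of_mem m hm fun m' _ hm' => by rw [(s3gJ_other h hm').1]; norm_num]
    exact pow_le_one₀ (s3gJ_nonneg _ _ _ _) (s3gJ_le_one _ _ _ _)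
  · push Not at h
    rw [Finset.sum_eq_zero fun m hm => by rw [h m hm]; norm_num]
    exact zero_le_one

theorem s3gJ_lap : ∃ k : ℕ, ∀ (d : XZ) (N m : ℕ) (x : Pos3), |lap (s3gJ d N m) x| ≤ 3 * 2 ^ k := by
  have hs : ∀ _i : XZ × ℕ × ℕ × Pos3, (2 : ℝ) ≤ 2 := fun _ => le_rfl
  have h : PJ 2 (fun _ : XZ × ℕ × ℕ × Pos3 => (2 : ℝ)) (fun i => s3gJ i.1 i.2.1 i.2.2.1)
      fun i => i.2.2.2 := by
    have h0 := PJ.comp_coord (k := 2) hs (x := fun i => i.2.2.2) 0 (a := fun i => i.1.xm i.2.2.1)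
      (PJ.cut (a := fun i => i.1.pT i.2.1 + 2) (b := fun _ => 1) hs (by norm_num) (PN.const hs _) _)
    have h1 := PJ.comp_coord (k := 2) hs (x := fun i => i.2.2.2) 1 (a := fun i => 8 * (i.2.2.1 : ℝ))
      (PJ.cut (a := fun _ => 3) (b := fun _ => 1 / 2) hs (by norm_num) (PN.const hs _) _)
    have h2 := PJ.comp_coord (k := 2) hs (x := fun i => i.2.2.2) 2 (a := fun _ => 0)
      (PJ.cut (a := fun _ => 1) (b := fun _ => 1) hs (by norm_num) (PN.const hs _) _)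
    refine (PJ.mul hs (PJ.mul hs h0 h1) h2).congr fun i => Filter.Eventually.of_forall fun y => ?_
    simp only [s3gJ, sub_zero]
  obtain ⟨k, hk⟩ := h
  exact ⟨k, fun d N m x => s3g_lap_le (s3gJ_c2 d N m) ((hk (d, N, m, x)).2 2 le_rfl)⟩

theorem s3g_cube_nonneg (R : ℝ) (x : Pos3) : 0 ≤ cube R x :=
  mul_nonneg (mul_nonneg (cut_nonneg _ _ _) (cut_nonneg _ _ _)) (cut_nonneg _ _ _)

theorem s3g_cube_le_one (R : ℝ) (x : Pos3) : cube R x ≤ 1 :=
  mul_le_one₀ (mul_le_one₀ (cut_le_one _ _ _) (cut_nonneg _ _ _) (cut_le_one _ _ _))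
    (cut_nonneg _ _ _) (cut_le_one _ _ _)

theorem s3g_cube_one {R : ℝ} (hR : 0 < R) {x : Pos3} (h : ∀ i, |x i| ≤ R) : cube R x = 1 := by
  rw [cube, cut_eq_one hR (h 0), cut_eq_one hR (h 1), cut_eq_one hR (h 2)]
  norm_num

theorem s3g_cube_zero {R : ℝ} (hR : 0 < R) {x : Pos3} {i : Fin 3} (h : R + R ≤ |x i|) :
    cube R x = 0 := by
  have := cut_eq_zero hR h
  fin_cases i <;> simp_all [cube]

theorem s3g_pJ_pos : 0 < pJ := by
  unfold pJ
  positivity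

theorem s3g_log_le_one (R : ℝ) (x : Pos3) : logCut R x ≤ 1 := by
  have h : (0 : ℝ) < pJ := by exact_mod_cast s3g_pJ_pos
  rw [logCut, div_le_one h]
  refine (Finset.sum_le_card_nsmul _ _ 1 fun j _ => s3g_cube_le_one _ _).trans ?_
  simp

theorem s3g_log_one {R : ℝ} (hR : 0 < R) {x : Pos3} (h : ∀ i, |x i| ≤ R) : logCut R x = 1 := by
  have h0 : (0 : ℝ) < pJ := by exact_mod_cast s3g_pJ_pos
  rw [logCut, div_eq_one_iff_eq h0.ne', Finset.sum_congr rfl fun j _ =>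
    s3g_cube_one (by positivity) fun i => (h i).trans
      (le_mul_of_one_le_left hR.le (one_le_pow₀ (by norm_num)))]
  simp

theorem s3g_log_zero {R : ℝ} (hR : 0 < R) {x : Pos3} {i : Fin 3} (h : 2 ^ pJ * R ≤ |x i|) :
    logCut R x = 0 := by
  rw [logCut, Finset.sum_eq_zero fun j hj => s3g_cube_zero (i := i) (by positivity) ?_, zero_div]
  have h1 : (2 : ℝ) ^ (j + 1) ≤ 2 ^ pJ :=
    pow_le_pow_right₀ (by norm_num) (Finset.mem_range.1 hj)
  have h2 := mul_le_mul_of_nonneg_right h1 hR.le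
  rw [pow_succ] at h2
  linarith

theorem s3g_norm_sq (x : Pos3) : ‖x‖ ^ 2 = x 0 ^ 2 + x 1 ^ 2 + x 2 ^ 2 := by
  rw [EuclideanSpace.real_norm_sq_eq, Fin.sum_univ_three]

theorem s3g_min {d : XZ} (_hv : d.Valid) (N : ℕ) {x : Pos3} (h : ∀ i, |x i| ≤ 2 ^ pJ * d.pr1 N) :
    min (‖x‖ ^ 2) (d.pr0 N ^ 2) = x 0 ^ 2 + x 1 ^ 2 + x 2 ^ 2 := by
  rw [s3g_norm_sq]
  refine min_eq_left ?_
  have e : d.pr0 N = 4 * (2 ^ pJ * d.pr1 N) := by rw [XZ.pr0, pow_add]; ring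
  rw [e]
  have h0 := sq_le_sq' (abs_le.1 (h 0)).1 (abs_le.1 (h 0)).2
  have h1 := sq_le_sq' (abs_le.1 (h 1)).1 (abs_le.1 (h 1)).2
  have h2 := sq_le_sq' (abs_le.1 (h 2)).1 (abs_le.1 (h 2)).2
  rw [mul_pow]
  linarith [sq_nonneg (2 ^ pJ * d.pr1 N)]

theorem s3gJ_box {d : XZ} (hv : d.Valid) {N m : ℕ} (hm : m < d.n) {x : Pos3}
    (h : s3gJ d N m x ≠ 0) (i : Fin 3) : |x i| ≤ d.pr1 N := by
  obtain ⟨h0, h1, h2⟩ := s3gJ_ne h
  have hB := hv.one_le_B
  have hm' : (m : ℝ) ≤ d.B := le_trans (by exact_mod_cast hm.le) hv.n_le_B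
  have hm0 : (0 : ℝ) ≤ m := Nat.cast_nonneg _
  have hQ : 10 ^ 20 * (d.B : ℝ) ≤ d.pQ :=
    mul_le_mul_of_nonneg_left (le_self_pow₀ hB (by norm_num)) (by norm_num)
  have hQ1 := hv.one_le_pQ
  have hT := hv.pT_pos N
  have hx : d.xm m + 4 ≤ d.pQ ^ 2 := by unfold XZ.xm; nlinarith
  have hx0 : 0 ≤ d.xm m := by unfold XZ.xm; positivity
  have hy : 8 * (m : ℝ) + 4 ≤ d.pQ ^ 2 := by nlinarith
  obtain ⟨a0, b0⟩ := abs_lt.1 h0
  obtain ⟨a1, b1⟩ := abs_lt.1 h1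
  unfold XZ.pr1
  fin_cases i
  · exact abs_le.2 ⟨by simp only [Fin.zero_eta]; linarith, by simp only [Fin.zero_eta]; linarith⟩
  · exact abs_le.2 ⟨by simp only [Fin.mk_one]; linarith, by simp only [Fin.mk_one]; linarith⟩
  · show |x 2| ≤ _
    linarith

/-- The pointwise inequality. -/
theorem s3g_point {d : XZ} (hv : d.Valid) (N : ℕ) {c M L : ℝ} (hM : 0 ≤ M) (hL : 0 ≤ L)
    (hc : 4 * M + L + 4 ≤ c)
    (hx : ∀ m < d.n, ∀ t, |t| ≤ d.pT N + 3 → |d.Wx N m t| ≤ M)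
    (hy : ∀ t, |t| ≤ 7 / 2 → |d.Wy N t| ≤ M)
    (hl : ∀ m x, |lap (s3gJ d N m) x| ≤ L) (x : Pos3) :
    c / 2 + 7 / 4 * d.plam N ≤
      ∑ m ∈ Finset.range d.n, (((2 - 3 / 20) * d.plam N - (d.Wx N m (x 0 - d.xm m) +
          d.Wy N (x 1 - 8 * m) + (c ^ 2 / 2 * x 2 ^ 2 - c / 2))) * s3gJ d N m x ^ 2) +
        1 / 2 * ∑ m ∈ Finset.range d.n, s3gJ d N m x * lap (s3gJ d N m) x +
        (c ^ 2 / 2 * min (‖x‖ ^ 2) (d.pr0 N ^ 2) + d.V0 N c x) := by
  obtain ⟨l0, l1⟩ := plam_bd hv N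
  have hr1 := hv.one_le_pr1 N
  have hr : 0 < d.pr1 N := by linarith
  have hR : d.pr1 N ≤ 2 ^ pJ * d.pr1 N := le_mul_of_one_le_left hr.le (one_le_pow₀ (by norm_num))
  have hc0 : 0 ≤ c := by linarith
  by_cases h : ∃ m ∈ Finset.range d.n, s3gJ d N m x ≠ 0
  · obtain ⟨m, hm, h⟩ := h
    have hm' := Finset.mem_range.1 hm
    have hb := s3gJ_box hv hm' h
    have hb' : ∀ i, |x i| ≤ 2 ^ pJ * d.pr1 N := fun i => (hb i).trans hR
    rw [XZ.V0, s3g_min hv N hb', s3g_log_one hr hb, s3g_cube_one (by positivity) hb',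
      Finset.sum_eq_single_of_mem m hm fun m' _ hm' => by rw [(s3gJ_other h hm').1]; ring,
      Finset.sum_eq_single_of_mem m hm fun m' _ hm' => by rw [(s3gJ_other h hm').1]; ring,
      Finset.sum_eq_single_of_mem m hm fun m' _ hm' => by rw [(s3gJ_other h hm').2]; ring]
    obtain ⟨h0, h1, -⟩ := s3gJ_ne h
    have w1 := abs_le.1 (hx m hm' _ h0.le)
    have w2 := abs_le.1 (hy _ h1.le)
    generalize d.Wx N m (x 0 - d.xm m) = W1 at w1 ⊢
    generalize d.Wy N (x 1 - 8 * m) = W2 at w2 ⊢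
    by_cases hcore : d.coreM N m x = 0
    · rw [hcore]
      have j0 := s3gJ_nonneg d N m x
      have j1 := s3gJ_le_one d N m x
      have l2 := abs_le.1 (hl m x)
      generalize s3gJ d N m x = j at j0 j1 ⊢
      generalize lap (s3gJ d N m) x = D at l2 ⊢
      have q1 : j ^ 2 ≤ 1 := pow_le_one₀ j0 j1
      have q0 : 0 ≤ j ^ 2 := sq_nonneg _
      have a1 : 0 ≤ ((2 - 3 / 20) * d.plam N + c / 2) * j ^ 2 := by positivity
      have a2 : (W1 + W2) * j ^ 2 ≤ 2 * M := by nlinarith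
      have a3 : 0 ≤ c ^ 2 / 2 * x 2 ^ 2 * (1 - j ^ 2) := mul_nonneg (by positivity) (by linarith)
      have a4 : -L ≤ j * D := by nlinarith
      nlinarith
    · have he := s3g_core_ev hcore
      rw [s3g_lap_zero (s3gJ_c2 d N m) he, he.eq_of_nhds]
      have k1 : d.coreM N m x ≤ 1 :=
        mul_le_one₀ (mul_le_one₀ (cut_le_one _ _ _) (cut_nonneg _ _ _) (cut_le_one _ _ _))
          (cut_nonneg _ _ _) (cut_le_one _ _ _)
      have a1 : 0 ≤ (1 - d.coreM N m x) * (c - (W1 + W2)) := mul_nonneg (by linarith) (by linarith)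
      nlinarith
  · push Not at h
    have hcore : ∀ m ∈ Finset.range d.n, d.coreM N m x = 0 := fun m hm => by
      by_contra h'
      have := (s3g_core_ev h').eq_of_nhds
      rw [h m hm] at this
      exact zero_ne_one this
    rw [XZ.V0, Finset.sum_eq_zero fun m hm => by rw [h m hm]; ring,
      Finset.sum_eq_zero fun m hm => by rw [h m hm]; ring,
      Finset.sum_eq_zero fun m hm => by rw [hcore m hm]; ring]
    by_cases hb : ∀ i, |x i| ≤ 2 ^ pJ * d.pr1 N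
    · rw [s3g_min hv N hb, s3g_cube_one (by positivity) hb]
      have k1 := s3g_log_le_one (d.pr1 N) x
      have a1 : 0 ≤ c ^ 2 / 2 * ((x 0 ^ 2 + x 1 ^ 2) * (1 - logCut (d.pr1 N) x)) :=
        mul_nonneg (by positivity) (mul_nonneg (by positivity) (by linarith))
      have a2 : 0 ≤ c ^ 2 / 2 * x 2 ^ 2 := by positivity
      nlinarith
    · push Not at hb
      obtain ⟨i, hi⟩ := hb
      rw [s3g_log_zero hr hi.le]
      have a1 : 0 ≤ c * cube (2 ^ pJ * d.pr1 N) x := mul_nonneg hc0 (s3g_cube_nonneg _ _)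
      have a2 : 1 ≤ min (‖x‖ ^ 2) (d.pr0 N ^ 2) := by
        refine le_min (one_le_pow₀ ?_) (one_le_pow₀ (hv.one_le_pr0 N))
        have := PiLp.norm_apply_le x i
        rw [Real.norm_eq_abs] at this
        linarith
      have a3 : c ^ 2 / 2 * 1 ≤ c ^ 2 / 2 * min (‖x‖ ^ 2) (d.pr0 N ^ 2) :=
        mul_le_mul_of_nonneg_left a2 (by positivity)
      nlinarith

theorem s3g_int {f u : Pos3 → ℝ} (hf : Continuous f) (h1 : Continuous u) (h2 : HasCompactSupport u) :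
    Integrable fun x => f x * u x ^ 2 := by
  refine (hf.mul (h1.pow 2)).integrable_of_hasCompactSupport ?_
  have h3 : HasCompactSupport fun x => u x * u x := h2.mul_right
  have : HasCompactSupport fun x => u x ^ 2 := by simpa only [sq] using h3
  exact this.mul_left

theorem s3g_chi_gap : ∃ k₀ : ℕ, ∀ k₁, k₀ ≤ k₁ → ∀ (d : XZ) (N : ℕ), d.Valid →
    ∀ u : Pos3 → ℝ, ContDiff ℝ 1 u → HasCompactSupport u →
      (∀ a, ∫ x, d.chi N (d.sz N ^ k₁) a x * u x = 0) →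
      (d.sz N ^ k₁ / 2 + 7 / 4 * d.plam N) * ∫ x, u x ^ 2 ≤
        qf (fun x => -((d.sz N ^ k₁) ^ 2 / 2 * min (‖x‖ ^ 2) (d.pr0 N ^ 2) +
          d.V0 N (d.sz N ^ k₁) x)) u u := by
  obtain ⟨kz, hz⟩ := eZ_fac
  obtain ⟨kx, hx⟩ := eX_fac
  obtain ⟨ky, hy⟩ := eY_fac
  obtain ⟨a, ha⟩ := Wx_pj.val
  obtain ⟨b, hb⟩ := Wy_pj.val
  obtain ⟨l, hl⟩ := s3gJ_lap
  refine ⟨kz + (a + b + l + 4), fun k₁ hk d N hv u u1 u2 ho => ?_⟩
  obtain ⟨k, hz⟩ := hz k₁ (by omega)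
  obtain ⟨kv, hV⟩ := V0_sb k₁
  have fz := hz d N hv
  have fy := hy d N hv
  have fx := fun m (hm : m < d.n) => hx d N m hv hm
  have hVc : Continuous (d.V0 N (d.sz N ^ k₁)) := (hV d N hv).1.continuous
  have s2 := d.two_le_sz N
  have s1 : 1 ≤ d.sz N := by linarith
  have hP : 1 ≤ d.sz N ^ (a + b + l) := one_le_pow₀ s1
  have hc : 4 * d.sz N ^ (a + b + l) + 3 * 2 ^ l + 4 ≤ d.sz N ^ k₁ := by
    have h1 : (2 : ℝ) ^ l ≤ d.sz N ^ (a + b + l) :=
      (pow_le_pow_left₀ (by norm_num) s2 l).trans (pow_le_pow_right₀ s1 (by omega))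
    have h2 : d.sz N ^ (a + b + l + 4) ≤ d.sz N ^ k₁ := pow_le_pow_right₀ s1 (by omega)
    have h3 : (2 : ℝ) ^ 4 ≤ d.sz N ^ 4 := pow_le_pow_left₀ (by norm_num) s2 4
    rw [pow_add _ (a + b + l)] at h2
    nlinarith
  have hpt := s3g_point hv N (c := d.sz N ^ k₁) (M := d.sz N ^ (a + b + l)) (L := 3 * 2 ^ l)
    (by positivity) (by positivity) hc
    (fun m hm t ht => (ha ⟨⟨(d, N), hv⟩, ⟨m, hm⟩, ⟨t, ht⟩⟩).trans (pow_le_pow_right₀ s1 (by omega)))
    (fun t ht => (hb (⟨(d, N), hv⟩, ⟨t, ht⟩)).trans (pow_le_pow_right₀ s1 (by omega)))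
    (fun m x => hl d N m x)
  generalize d.sz N ^ k₁ = c at *
  have uc := u1.continuous
  have jc : ∀ m, Continuous (s3gJ d N m) := fun m => (s3gJ_c2 d N m).continuous
  have lc : ∀ m, Continuous (lap (s3gJ d N m)) := fun m => s3g_lap_cont (s3gJ_c2 d N m)
  have hi := ims (n := d.n) (j := s3gJ d N) (fun m _ => s3gJ_c2 d N m) (s3gJ_sum d N d.n) u1 u2
  set W : ℕ → Pos3 → ℝ := fun m x => d.Wx N m (x 0 - d.xm m) + d.Wy N (x 1 - 8 * m) +
    (c ^ 2 / 2 * x 2 ^ 2 - c / 2) with hW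
  have Wc : ∀ m < d.n, Continuous (W m) := fun m hm => by
    have h1 := (fx m hm).W_cont
    have h2 := fy.W_cont
    simp only [hW]
    fun_prop
  have hg : ∀ m ∈ Finset.range d.n,
      ∫ x, (((2 - 3 / 20) * d.plam N - W m x) * s3gJ d N m x ^ 2) * u x ^ 2 ≤
        1 / 2 * dir fun x => s3gJ d N m x * u x := by
    intro m hm
    have hm' := Finset.mem_range.1 hm
    have h1 := gap3 (fx m hm') fy fz (plam_bd hv N).1.le (d.xm m) (8 * m)
      (u := fun x => s3gJ d N m x * u x) (((s3gJ_c2 d N m).of_le (by norm_num)).mul u1)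
      u2.mul_left (fun t => by
        rw [← ho (⟨m, hm'⟩, t)]
        refine integral_congr_ae (ae_of_all _ fun x => ?_)
        show prod3 _ _ _ _ _ t x * (s3gJ d N m x * u x) =
          prod3 (d.eX N m) (d.eY N) (d.eZ c) (d.xm m) (8 * m) t x * u x
        by_cases h0 : prod3 (d.eX N m) (d.eY N) (d.eZ c) (d.xm m) (8 * m) t x = 0
        · rw [h0, zero_mul, zero_mul]
        · obtain ⟨h1, h3⟩ := mul_ne_zero_iff.1 h0
          obtain ⟨h1, h2⟩ := mul_ne_zero_iff.1 h1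
          have a1 := lt_of_not_ge fun h => h1 ((fx m hm').supp _ _ h)
          have a2 := lt_of_not_ge fun h => h2 (fy.supp _ _ h)
          have a3 := lt_of_not_ge fun h => h3 (fz.supp _ h)
          have := hv.pw_small
          rw [s3gJ_eq_one (by linarith) (by linarith) (by linarith), one_mul])
    have i1 : Integrable fun x => s3gJ d N m x ^ 2 * u x ^ 2 := s3g_int ((jc m).pow 2) uc u2
    have i2 : Integrable fun x => (W m x * s3gJ d N m x ^ 2) * u x ^ 2 :=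
      s3g_int ((Wc m hm').mul ((jc m).pow 2)) uc u2
    have e1 : ∫ x, (((2 - 3 / 20) * d.plam N - W m x) * s3gJ d N m x ^ 2) * u x ^ 2 =
        (2 - 3 / 20) * d.plam N * (∫ x, (s3gJ d N m x * u x) ^ 2) -
          ∫ x, W m x * (s3gJ d N m x * u x) ^ 2 := by
      simp only [mul_pow, ← mul_assoc]
      rw [← integral_const_mul, ← integral_sub (i1.const_mul _) i2]
      refine integral_congr_ae (ae_of_all _ fun x => ?_)
      ring
    rw [e1]
    have h2 : ∫ x : Pos3, (d.Wx N m (x 0 - d.xm m) + d.Wy N (x 1 - 8 * m) +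
        (c ^ 2 / 2 * x 2 ^ 2 - c / 2)) * (s3gJ d N m x * u x) ^ 2 =
        ∫ x, W m x * (s3gJ d N m x * u x) ^ 2 := rfl
    linarith
  have hsum := Finset.sum_le_sum hg
  rw [← Finset.mul_sum, ← integral_finsetSum _ fun m hm => s3g_int
    (f := fun x => ((2 - 3 / 20) * d.plam N - W m x) * s3gJ d N m x ^ 2)
    ((continuous_const.sub (Wc m (Finset.mem_range.1 hm))).mul ((jc m).pow 2)) uc u2] at hsum
  simp only [← Finset.sum_mul] at hsum
  have i1 : Integrable fun x => (∑ m ∈ Finset.range d.n,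
      ((2 - 3 / 20) * d.plam N - W m x) * s3gJ d N m x ^ 2) * u x ^ 2 :=
    s3g_int (continuous_finsetSum _ fun m hm =>
      (continuous_const.sub (Wc m (Finset.mem_range.1 hm))).mul ((jc m).pow 2)) uc u2
  have i2 : Integrable fun x => (∑ m ∈ Finset.range d.n,
      s3gJ d N m x * lap (s3gJ d N m) x) * u x ^ 2 :=
    s3g_int (continuous_finsetSum _ fun m _ => (jc m).mul (lc m)) uc u2
  have i3 : Integrable fun x : Pos3 =>
      (c ^ 2 / 2 * min (‖x‖ ^ 2) (d.pr0 N ^ 2) + d.V0 N c x) * u x ^ 2 :=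
    s3g_int (by fun_prop) uc u2
  have hq : qf (fun x => -(c ^ 2 / 2 * min (‖x‖ ^ 2) (d.pr0 N ^ 2) + d.V0 N c x)) u u =
      1 / 2 * dir u + ∫ x : Pos3, (c ^ 2 / 2 * min (‖x‖ ^ 2) (d.pr0 N ^ 2) + d.V0 N c x) * u x ^ 2 := by
    simp only [qf, dir, ← sq, neg_mul, integral_neg, sub_neg_eq_add]
  have hmain : (c / 2 + 7 / 4 * d.plam N) * ∫ x, u x ^ 2 ≤
      (∫ x, (∑ m ∈ Finset.range d.n,
        ((2 - 3 / 20) * d.plam N - W m x) * s3gJ d N m x ^ 2) * u x ^ 2) +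
      1 / 2 * (∫ x, (∑ m ∈ Finset.range d.n, s3gJ d N m x * lap (s3gJ d N m) x) * u x ^ 2) +
      ∫ x : Pos3, (c ^ 2 / 2 * min (‖x‖ ^ 2) (d.pr0 N ^ 2) + d.V0 N c x) * u x ^ 2 := by
    have i4 : Integrable fun x => (∑ m ∈ Finset.range d.n,
        ((2 - 3 / 20) * d.plam N - W m x) * s3gJ d N m x ^ 2) * u x ^ 2 +
        1 / 2 * ((∑ m ∈ Finset.range d.n, s3gJ d N m x * lap (s3gJ d N m) x) * u x ^ 2) :=
      i1.add (i2.const_mul _)
    rw [← integral_const_mul, ← integral_const_mul, ← integral_add i1 (i2.const_mul _),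
      ← integral_add i4 i3]
    refine integral_mono (s3g_int continuous_const uc u2) (i4.add i3) fun x => ?_
    have := mul_le_mul_of_nonneg_right (hpt x) (sq_nonneg (u x))
    simp only [hW]
    linarith
  rw [hq]
  linarith

end Crest.Agent.R338
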