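import Crest.Agent.R338.S3A
import Crest.Agent.R338.V0
import Crest.Agent.R338.S3H
import Crest.Agent.R338.S3C

/-! Row 338: the one-body problem of the design. -/

set_option autoImplicit false

open MeasureTheory Crest.MathPhysics.ElectronicCoulomb

namespace Crest.Agent.R338

theorem chi_on : ∃ k₀ : ℕ, ∀ k₁, k₀ ≤ k₁ → ∀ (d : XZ) (N : ℕ), d.Valid → ∀ a b,
    ∫ x, d.chi N (d.sz N ^ k₁) a x * d.chi N (d.sz N ^ k₁) b x = if a = b then 1 else 0 :=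
  s3b_on

theorem chi_res : ∃ k₀ : ℕ, ∀ k₁, k₀ ≤ k₁ → ∃ k : ℕ, ∀ (d : XZ) (N : ℕ), d.Valid → ∀ a,
    ∀ u : Pos3 → ℝ, ContDiff ℝ 1 u → HasCompactSupport u →
      |qf (fun x => -((d.sz N ^ k₁) ^ 2 / 2 * min (‖x‖ ^ 2) (d.pr0 N ^ 2) +
          d.V0 N (d.sz N ^ k₁) x)) (d.chi N (d.sz N ^ k₁) a) u -
        (d.sz N ^ k₁ / 2 + if core3 a then 0 else d.plam N) *
          ∫ x, d.chi N (d.sz N ^ k₁) a x * u x| ≤ d.sz N ^ k / 2 ^ N * √(∫ x, u x ^ 2) :=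
  s3b_chi_res

theorem chi_gap : ∃ k₀ : ℕ, ∀ k₁, k₀ ≤ k₁ → ∀ (d : XZ) (N : ℕ), d.Valid →
    ∀ u : Pos3 → ℝ, ContDiff ℝ 1 u → HasCompactSupport u →
      (∀ a, ∫ x, d.chi N (d.sz N ^ k₁) a x * u x = 0) →
      (d.sz N ^ k₁ / 2 + 7 / 4 * d.plam N) * ∫ x, u x ^ 2 ≤
        qf (fun x => -((d.sz N ^ k₁) ^ 2 / 2 * min (‖x‖ ^ 2) (d.pr0 N ^ 2) +
          d.V0 N (d.sz N ^ k₁) x)) u u := by
  exact s3g_chi_gap

end Crest.Agent.R338
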