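import Crest.Agent.R338.Par

/-! Row 338: calculus helpers for `S3A` (Fubini for tensor products, partial derivatives,
integration by parts). -/

set_option autoImplicit false

open MeasureTheory Crest.MathPhysics.ElectronicCoulomb

namespace Crest.Agent.R338

theorem s3b_integral_tp (f₁ f₂ f₃ : ℝ → ℝ) :
    ∫ x : Pos3, f₁ (x 0) * f₂ (x 1) * f₃ (x 2) = (∫ x, f₁ x) * (∫ x, f₂ x) * ∫ x, f₃ x := by
  have h := integral_fintype_prod_volume_eq_prod (𝕜 := ℝ) (E := fun _ : Fin 3 => ℝ) ![f₁, f₂, f₃]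
  simp only [Fin.prod_univ_three, Matrix.cons_val_zero, Matrix.cons_val_one,
    Matrix.cons_val] at h
  rw [← h, ← (PiLp.volume_preserving_toLp (Fin 3)).integral_comp
    (MeasurableEquiv.toLp 2 _).measurableEmbedding]

theorem s3b_hasF {f : ℝ → ℝ} (hf : Differentiable ℝ f) (i : Fin 3) (x : Pos3) :
    HasFDerivAt (fun x : Pos3 => f (x i))
      (deriv f (x i) • (EuclideanSpace.proj i : Pos3 →L[ℝ] ℝ)) x :=
  (hf (x i)).hasDerivAt.comp_hasFDerivAt x (EuclideanSpace.proj i : Pos3 →L[ℝ] ℝ).hasFDerivAt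

section tp
variable {f₁ f₂ f₃ : ℝ → ℝ}

theorem s3b_pd0 (h₁ : Differentiable ℝ f₁) (h₂ : Differentiable ℝ f₂) (h₃ : Differentiable ℝ f₃) :
    pd 0 (fun x : Pos3 => f₁ (x 0) * f₂ (x 1) * f₃ (x 2)) =
      fun x => deriv f₁ (x 0) * f₂ (x 1) * f₃ (x 2) := by
  funext x
  unfold pd
  rw [(((s3b_hasF h₁ 0 x).fun_mul (s3b_hasF h₂ 1 x)).fun_mul (s3b_hasF h₃ 2 x)).fderiv]
  simp
  ring

theorem s3b_pd1 (h₁ : Differentiable ℝ f₁) (h₂ : Differentiable ℝ f₂) (h₃ : Differentiable ℝ f₃) :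
    pd 1 (fun x : Pos3 => f₁ (x 0) * f₂ (x 1) * f₃ (x 2)) =
      fun x => f₁ (x 0) * deriv f₂ (x 1) * f₃ (x 2) := by
  funext x
  unfold pd
  rw [(((s3b_hasF h₁ 0 x).fun_mul (s3b_hasF h₂ 1 x)).fun_mul (s3b_hasF h₃ 2 x)).fderiv]
  simp
  ring

theorem s3b_pd2 (h₁ : Differentiable ℝ f₁) (h₂ : Differentiable ℝ f₂) (h₃ : Differentiable ℝ f₃) :
    pd 2 (fun x : Pos3 => f₁ (x 0) * f₂ (x 1) * f₃ (x 2)) =
      fun x => f₁ (x 0) * f₂ (x 1) * deriv f₃ (x 2) := by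
  funext x
  unfold pd
  rw [(((s3b_hasF h₁ 0 x).fun_mul (s3b_hasF h₂ 1 x)).fun_mul (s3b_hasF h₃ 2 x)).fderiv]
  simp

theorem s3b_lap (h₁ : ContDiff ℝ 2 f₁) (h₂ : ContDiff ℝ 2 f₂) (h₃ : ContDiff ℝ 2 f₃) (x : Pos3) :
    lap (fun x : Pos3 => f₁ (x 0) * f₂ (x 1) * f₃ (x 2)) x =
      deriv (deriv f₁) (x 0) * f₂ (x 1) * f₃ (x 2) + f₁ (x 0) * deriv (deriv f₂) (x 1) * f₃ (x 2) +
        f₁ (x 0) * f₂ (x 1) * deriv (deriv f₃) (x 2) := by
  have d : ∀ {f : ℝ → ℝ}, ContDiff ℝ 2 f → Differentiable ℝ f := fun h =>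
    h.differentiable (by norm_num)
  have d' : ∀ {f : ℝ → ℝ}, ContDiff ℝ 2 f → Differentiable ℝ (deriv f) := fun h =>
    h.differentiable_deriv_two
  unfold lap
  rw [Fin.sum_univ_three, s3b_pd0 (d h₁) (d h₂) (d h₃), s3b_pd1 (d h₁) (d h₂) (d h₃),
    s3b_pd2 (d h₁) (d h₂) (d h₃), s3b_pd0 (d' h₁) (d h₂) (d h₃), s3b_pd1 (d h₁) (d' h₂) (d h₃),
    s3b_pd2 (d h₁) (d h₂) (d' h₃)]

end tp

theorem s3b_pd_c1 {f : Pos3 → ℝ} (hf : ContDiff ℝ 2 f) (k : Fin 3) : ContDiff ℝ 1 (pd k f) :=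
  (hf.fderiv_right (m := 1) (by norm_num)).clm_apply contDiff_const

theorem s3b_pd_cont {f : Pos3 → ℝ} (hf : ContDiff ℝ 1 f) (k : Fin 3) : Continuous (pd k f) :=
  (hf.continuous_fderiv (by norm_num)).clm_apply continuous_const

theorem s3b_pd_supp {f : Pos3 → ℝ} (hf : HasCompactSupport f) (k : Fin 3) :
    HasCompactSupport (pd k f) :=
  hf.fderiv_apply ℝ _

theorem s3b_pd_mul {f g : Pos3 → ℝ} (hf : ContDiff ℝ 1 f) (hg : ContDiff ℝ 1 g) (k : Fin 3)
    (x : Pos3) : pd k (fun x => f x * g x) x = pd k f x * g x + f x * pd k g x := by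
  unfold pd
  rw [fderiv_fun_mul (hf.differentiable (by norm_num) x) (hg.differentiable (by norm_num) x)]
  simp
  ring

theorem s3b_int_r {f g : Pos3 → ℝ} (hf : Continuous f) (hg : Continuous g)
    (hs : HasCompactSupport g) : Integrable (fun x => f x * g x) :=
  (hf.mul hg).integrable_of_hasCompactSupport hs.mul_left

theorem s3b_int_l {f g : Pos3 → ℝ} (hf : Continuous f) (hg : Continuous g)
    (hs : HasCompactSupport f) : Integrable (fun x => f x * g x) :=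
  (hf.mul hg).integrable_of_hasCompactSupport hs.mul_right

theorem s3b_parts_l {f g : Pos3 → ℝ} (hf : ContDiff ℝ 1 f) (hg : ContDiff ℝ 1 g)
    (hs : HasCompactSupport f) (k : Fin 3) :
    ∫ x, f x * pd k g x = -∫ x, pd k f x * g x :=
  integral_mul_fderiv_eq_neg_fderiv_mul_of_integrable
    (s3b_int_l (s3b_pd_cont hf k) hg.continuous (s3b_pd_supp hs k))
    (s3b_int_l hf.continuous (s3b_pd_cont hg k) hs) (s3b_int_l hf.continuous hg.continuous hs)
    (fun x _ => hf.differentiable (by norm_num) x) (fun x _ => hg.differentiable (by norm_num) x)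

theorem s3b_parts_r {f g : Pos3 → ℝ} (hf : ContDiff ℝ 1 f) (hg : ContDiff ℝ 1 g)
    (hs : HasCompactSupport g) (k : Fin 3) :
    ∫ x, f x * pd k g x = -∫ x, pd k f x * g x :=
  integral_mul_fderiv_eq_neg_fderiv_mul_of_integrable
    (s3b_int_r (s3b_pd_cont hf k) hg.continuous hs)
    (s3b_int_r hf.continuous (s3b_pd_cont hg k) (s3b_pd_supp hs k))
    (s3b_int_r hf.continuous hg.continuous hs)
    (fun x _ => hf.differentiable (by norm_num) x) (fun x _ => hg.differentiable (by norm_num) x)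

theorem s3b_sq_supp {u : Pos3 → ℝ} (h2 : HasCompactSupport u) :
    HasCompactSupport fun x => u x ^ 2 := by
  simp only [sq]
  exact h2.mul_left

/-- the IMS identity in one direction. -/
theorem s3b_ims1 {j u : Pos3 → ℝ} (hj : ContDiff ℝ 2 j) (h1 : ContDiff ℝ 1 u)
    (h2 : HasCompactSupport u) (k : Fin 3) :
    (∫ x, pd k (fun x => j x * u x) x ^ 2) + ∫ x, j x * pd k (pd k j) x * u x ^ 2 =
      ∫ x, j x ^ 2 * pd k u x ^ 2 := by
  have hj1 : ContDiff ℝ 1 j := hj.of_le (by norm_num)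
  have hju : ContDiff ℝ 1 fun x => j x * u x := hj1.mul h1
  have hs : HasCompactSupport fun x => j x * u x * u x := h2.mul_left
  have h := s3b_parts_r (s3b_pd_c1 hj k) (hju.mul h1) hs k
  have i1 : Integrable fun x => pd k j x * pd k (fun x => j x * u x * u x) x :=
    s3b_int_r (s3b_pd_cont hj1 k) (s3b_pd_cont (hju.mul h1) k) (s3b_pd_supp hs k)
  have i2 : Integrable fun x => j x ^ 2 * pd k u x ^ 2 :=
    s3b_int_r (hj.continuous.pow 2) ((s3b_pd_cont h1 k).pow 2) (s3b_sq_supp (s3b_pd_supp h2 k))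
  have e1 : ∫ x, pd k (fun x => j x * u x) x ^ 2 =
      (∫ x, pd k j x * pd k (fun x => j x * u x * u x) x) + ∫ x, j x ^ 2 * pd k u x ^ 2 := by
    rw [← integral_add i1 i2]
    refine integral_congr_ae (Filter.Eventually.of_forall fun x => ?_)
    simp only [s3b_pd_mul hju h1, s3b_pd_mul hj1 h1]
    ring
  have e2 : ∫ x, j x * pd k (pd k j) x * u x ^ 2 = ∫ x, pd k (pd k j) x * (j x * u x * u x) :=
    integral_congr_ae (Filter.Eventually.of_forall fun x => by simp only; ring)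
  rw [e1, e2, h]
  ring

end Crest.Agent.R338
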