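import Crest.Agent.R338.Par
import Crest.Agent.R338.MAbs1
import Crest.Agent.R338.MSlice1

/-! Row 338: the lower bound for a sum of three one-dimensional operators. -/

set_option autoImplicit false

open MeasureTheory Crest.MathPhysics.ElectronicCoulomb Function

namespace Crest.Agent.R338

abbrev g3Y : Type := Fin 3 → ℝ

noncomputable def g3prj (f : ℝ → ℝ) (i : Fin 3) (u : g3Y → ℝ) (x : g3Y) : ℝ :=
  f (x i) * ∫ y, f y * u (update x i y)

theorem g3_slice {u : g3Y → ℝ} (h : CC u) (x : g3Y) (i : Fin 3) : CC fun y => u (update x i y) :=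
  ⟨h.1.comp (continuous_const.update i continuous_id),
    h.2.comp_isClosedEmbedding (isClosedEmbedding_update x i)⟩

theorem g3_cc_prj {u : g3Y → ℝ} (h : CC u) {f : ℝ → ℝ} (hf : CC f) (i : Fin 3) :
    CC (g3prj f i u) := by
  refine ⟨(hf.1.comp (continuous_apply i)).mul ?_, ?_⟩
  · have e : (fun x : g3Y => ∫ y, f y * u (update x i y)) =
        fun x => ∫ y in tsupport f, f y * u (update x i y) := by
      funext x
      refine (setIntegral_eq_integral_of_forall_compl_eq_zero fun y hy => ?_).symm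
      rw [image_eq_zero_of_notMem_tsupport hy, zero_mul]
    rw [e]
    refine continuous_parametric_integral_of_continuous ?_ hf.2.isCompact
    exact (hf.1.comp continuous_snd).mul (h.1.comp (continuous_fst.update i continuous_snd))
  · refine HasCompactSupport.intro ((h.2.isCompact.prod hf.2.isCompact).image
      (f := fun p : g3Y × ℝ => update p.1 i p.2) (continuous_fst.update i continuous_snd))
      fun x hx => ?_
    by_cases h1 : x i ∈ tsupport f
    · have h2 : ∀ y, u (update x i y) = 0 := fun y =>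
        image_eq_zero_of_notMem_tsupport fun hm => hx ⟨(update x i y, x i), ⟨hm, h1⟩, by simp⟩
      simp [g3prj, h2]
    · rw [g3prj, image_eq_zero_of_notMem_tsupport h1, zero_mul]

theorem g3_le_of_slice {F G : g3Y → ℝ} (i : Fin 3) (hF : Integrable F) (hG : Integrable G)
    (h : ∀ x, ∫ y, F (update x i y) ≤ ∫ y, G (update x i y)) : ∫ x, F x ≤ ∫ x, G x := by
  have hp := (volume_preserving_piFinSuccAbove (fun _ : Fin (2 + 1) => ℝ) i).symm
  set e := (MeasurableEquiv.piFinSuccAbove (fun _ : Fin (2 + 1) => ℝ) i).symm with he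
  have key : ∀ H : g3Y → ℝ, Integrable H →
      Integrable (fun z : Fin 2 → ℝ => ∫ y, H (update (i.insertNth 0 z) i y)) ∧
      ∫ x, H x = ∫ z : Fin 2 → ℝ, ∫ y, H (update (i.insertNth 0 z) i y) := fun H hH => by
    have h1 : Integrable (fun p => H (e p)) ((volume : Measure ℝ).prod volume) :=
      hp.integrable_comp_of_integrable hH
    have h2 : ∀ (z : Fin 2 → ℝ) (y : ℝ), update (i.insertNth 0 z : g3Y) i y = e (y, z) :=
      fun z y => by rw [Fin.update_insertNth]; rfl
    simp only [h2]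
    exact ⟨h1.integral_prod_right, by
      rw [← hp.integral_comp' H]; exact integral_prod_symm _ h1⟩
  rw [(key F hF).2, (key G hG).2]
  exact integral_mono (key F hF).1 (key G hG).1 fun z => h _

theorem g3_eq_of_slice {F G : g3Y → ℝ} (i : Fin 3) (hF : Integrable F) (hG : Integrable G)
    (h : ∀ x, ∫ y, F (update x i y) = ∫ y, G (update x i y)) : ∫ x, F x = ∫ x, G x :=
  le_antisymm (g3_le_of_slice i hF hG fun x => (h x).le) (g3_le_of_slice i hG hF fun x => (h x).ge)

theorem g3prj_update (f : ℝ → ℝ) (i : Fin 3) (u : g3Y → ℝ) (x : g3Y) (y : ℝ) :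
    g3prj f i u (update x i y) = f y * ∫ z, f z * u (update x i z) := by
  simp only [g3prj, update_self, update_idem]

theorem g3_swap {u : g3Y → ℝ} (hu : CC u) {f g : ℝ → ℝ} (hf : CC f) (hg : CC g) (i j : Fin 3)
    (x : g3Y) :
    ∫ y, ∫ z, f y * g z * u (update (update x i y) j z) =
      ∫ z, ∫ y, f y * g z * u (update (update x i y) j z) := by
  have h1 : CC fun p : ℝ × ℝ => f p.1 * g p.2 := by
    refine ⟨(hf.1.comp continuous_fst).mul (hg.1.comp continuous_snd), ?_⟩
    refine HasCompactSupport.intro (IsCompact.prod hf.2 hg.2) fun p hp => ?_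
    by_cases h : p.1 ∈ tsupport f
    · have : p.2 ∉ tsupport g := fun h' => hp ⟨h, h'⟩
      rw [image_eq_zero_of_notMem_tsupport this, mul_zero]
    · rw [image_eq_zero_of_notMem_tsupport h, zero_mul]
  have h0 : Continuous fun p : ℝ × ℝ => (update x i p.1 : g3Y) :=
    Continuous.update (A := fun _ : Fin 3 => ℝ) continuous_const i continuous_fst
  have h0' : Continuous fun p : ℝ × ℝ => (update (update x i p.1) j p.2 : g3Y) :=
    Continuous.update (A := fun _ : Fin 3 => ℝ) h0 j continuous_snd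
  have h2 : Continuous fun p : ℝ × ℝ => u (update (update x i p.1) j p.2) := hu.1.comp h0'
  have h3 := (h1.mul_right h2).integrable
  rw [Measure.volume_eq_prod] at h3
  exact integral_integral_swap (f := fun y z => f y * g z * u (update (update x i y) j z)) h3

theorem g3prj_prj_ne (u : g3Y → ℝ) (f g : ℝ → ℝ) {i j : Fin 3} (hij : i ≠ j) (x : g3Y) :
    g3prj f i (g3prj g j u) x =
      f (x i) * g (x j) * ∫ y, ∫ z, f y * g z * u (update (update x i y) j z) := by
  simp only [g3prj, update_of_ne hij.symm]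
  rw [mul_assoc, ← integral_const_mul (g (x j))]
  congr 1
  refine integral_congr_ae (Filter.Eventually.of_forall fun y => ?_)
  simp only [mul_assoc, integral_const_mul]
  ring

theorem g3prj_symm {u w : g3Y → ℝ} (hu : CC u) (hw : CC w) {f : ℝ → ℝ} (hf : CC f) (i : Fin 3) :
    ∫ x, g3prj f i u x * w x = ∫ x, u x * g3prj f i w x := by
  refine g3_eq_of_slice i ((g3_cc_prj hu hf i).mul hw).integrable
    (hu.mul (g3_cc_prj hw hf i)).integrable fun x => ?_
  simp only [g3prj_update]
  have e1 : ∀ y, f y * (∫ z, f z * u (update x i z)) * w (update x i y) =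
      (∫ z, f z * u (update x i z)) * (f y * w (update x i y)) := fun y => by ring
  have e2 : ∀ y, u (update x i y) * (f y * ∫ z, f z * w (update x i z)) =
      (f y * u (update x i y)) * ∫ z, f z * w (update x i z) := fun y => by ring
  simp only [e1, e2, integral_const_mul, integral_mul_const]

theorem g3prj_prj (u : g3Y → ℝ) (f g : ℝ → ℝ) (i : Fin 3) (x : g3Y) :
    g3prj f i (g3prj g i u) x =
      (∫ y, f y * g y) * f (x i) * ∫ y, g y * u (update x i y) := by
  have e : ∀ y, f y * g3prj g i u (update x i y) =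
      (f y * g y) * ∫ z, g z * u (update x i z) := fun y => by rw [g3prj_update]; ring
  have : g3prj f i (g3prj g i u) x = f (x i) * ∫ y, f y * g3prj g i u (update x i y) := rfl
  rw [this]
  simp only [e, integral_mul_const]
  ring

theorem g3prj_comm {u : g3Y → ℝ} (hu : CC u) {f g : ℝ → ℝ} (hf : CC f) (hg : CC g) {i j : Fin 3}
    (hij : i ≠ j) : g3prj f i (g3prj g j u) = g3prj g j (g3prj f i u) := by
  funext x
  rw [g3prj_prj_ne u f g hij, g3prj_prj_ne u g f hij.symm, g3_swap hu hf hg i j x,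
    mul_comm (g (x j))]
  congr 1
  refine integral_congr_ae (Filter.Eventually.of_forall fun z => ?_)
  refine integral_congr_ae (Filter.Eventually.of_forall fun y => ?_)
  simp only [update_comm hij y z x, mul_comm (f y) (g z)]

def g3S : Submodule ℝ (g3Y → ℝ) where
  carrier := {u | CC u}
  add_mem' := fun ha hb => ⟨ha.1.add hb.1, ha.2.add hb.2⟩
  zero_mem' := ⟨continuous_const, HasCompactSupport.zero⟩
  smul_mem' := fun c _ ha => ⟨ha.1.const_smul c, ha.2.smul_left (f := fun _ => c)⟩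

def g3V : Type := g3S
noncomputable instance : AddCommGroup g3V := inferInstanceAs (AddCommGroup g3S)
noncomputable instance : Module ℝ g3V := inferInstanceAs (Module ℝ g3S)

noncomputable def g3B : g3V →ₗ[ℝ] g3V →ₗ[ℝ] ℝ :=
  LinearMap.mk₂ ℝ (fun u w => ∫ x, u.1 x * w.1 x)
    (fun u u' w => by
      rw [← integral_add (CC.mul u.2 w.2).integrable (CC.mul u'.2 w.2).integrable]
      exact integral_congr_ae (.of_forall fun x => add_mul _ _ _))
    (fun c u w => by
      rw [smul_eq_mul, ← integral_const_mul]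
      exact integral_congr_ae (.of_forall fun x => mul_assoc _ _ _))
    (fun u w w' => by
      rw [← integral_add (CC.mul u.2 w.2).integrable (CC.mul u.2 w'.2).integrable]
      exact integral_congr_ae (.of_forall fun x => mul_add _ _ _))
    (fun c u w => by
      rw [smul_eq_mul, ← integral_const_mul]
      exact integral_congr_ae (.of_forall fun x => mul_left_comm _ _ _))

theorem g3B_apply (u w : g3V) : g3B u w = ∫ x, u.1 x * w.1 x := rfl

theorem g3B_self (u : g3V) : g3B u u = ∫ x, u.1 x ^ 2 := by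
  simp only [g3B_apply, sq]

noncomputable def g3P {f : ℝ → ℝ} (hf : CC f) (i : Fin 3) : Module.End ℝ g3V where
  toFun u := ⟨g3prj f i u.1, g3_cc_prj u.2 hf i⟩
  map_add' u w := Subtype.ext <| funext fun x => by
    change f (x i) * ∫ y, f y * (u.1 _ + w.1 _) = f (x i) * _ + f (x i) * _
    rw [← mul_add, ← integral_add (hf.mul (g3_slice u.2 x i)).integrable
      (hf.mul (g3_slice w.2 x i)).integrable]
    simp only [mul_add]
  map_smul' c u := Subtype.ext <| funext fun x => by
    change f (x i) * ∫ y, f y * (c * u.1 _) = c * (f (x i) * _)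
    rw [mul_left_comm c, ← integral_const_mul c]
    simp only [mul_left_comm c]

/-- Two functions in every direction, orthogonal, normalised or zero. -/
structure g3Fam (E : Fin 3 → Fin 2 → ℝ → ℝ) : Prop where
  cc : ∀ i a, CC (E i a)
  orth : ∀ i a b s, (∫ t, E i a t * E i b t) * E i a s = if a = b then E i a s else 0

variable {E : Fin 3 → Fin 2 → ℝ → ℝ}

noncomputable def g3O (h : g3Fam E) (i : Fin 3) : Option (Fin 2) → Module.End ℝ g3V
  | some a => g3P (h.cc i a) i
  | none => 1 - ∑ a, g3P (h.cc i a) i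

theorem g3P_mul (h : g3Fam E) (i : Fin 3) (a b : Fin 2) :
    g3P (h.cc i a) i * g3P (h.cc i b) i = if a = b then g3P (h.cc i a) i else 0 := by
  refine LinearMap.ext fun u => Subtype.ext <| funext fun x => ?_
  change g3prj (E i a) i (g3prj (E i b) i u.1) x = _
  rw [g3prj_prj, h.orth]
  split_ifs with e
  · subst e
    rfl
  · rw [zero_mul]; rfl

theorem g3O_sa (h : g3Fam E) (i : Fin 3) (b : Option (Fin 2)) (u w : g3V) :
    g3B (g3O h i b u) w = g3B u (g3O h i b w) := by
  have h1 : ∀ a, g3B (g3P (h.cc i a) i u) w = g3B u (g3P (h.cc i a) i w) := fun a =>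
    g3prj_symm u.2 w.2 (h.cc i a) i
  cases b with
  | some a => exact h1 a
  | none =>
    simp only [g3O, LinearMap.sub_apply, Module.End.one_apply, LinearMap.sum_apply, map_sub,
      map_sum, h1]

theorem g3O_orth (h : g3Fam E) (i : Fin 3) (b b' : Option (Fin 2)) :
    g3O h i b * g3O h i b' = if b = b' then g3O h i b else 0 := by
  have h1 : ∀ a, g3P (h.cc i a) i * ∑ a', g3P (h.cc i a') i = g3P (h.cc i a) i := fun a => by
    simp only [Finset.mul_sum, g3P_mul h, Finset.sum_ite_eq, Finset.mem_univ, if_true]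
  have h2 : ∀ a, (∑ a', g3P (h.cc i a') i) * g3P (h.cc i a) i = g3P (h.cc i a) i := fun a => by
    simp only [Finset.sum_mul, g3P_mul h, Finset.sum_ite_eq', Finset.mem_univ, if_true]
  cases b with
  | some a =>
    cases b' with
    | some a' => simp only [g3O, g3P_mul h, Option.some.injEq]
    | none => rw [if_neg (by simp), g3O, g3O, mul_sub, h1, mul_one, sub_self]
  | none =>
    cases b' with
    | some a' => rw [if_neg (by simp), g3O, g3O, sub_mul, h2, one_mul, sub_self]
    | none =>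
      rw [if_pos rfl, g3O, sub_mul, mul_sub, mul_sub, Finset.sum_mul _ _ (∑ a, _)]
      simp only [h1, one_mul, mul_one, sub_self, sub_zero]

theorem g3O_sum (h : g3Fam E) (i : Fin 3) : ∑ b, g3O h i b = 1 := by
  simp only [Fintype.sum_option, g3O, sub_add_cancel]

theorem g3O_comm (h : g3Fam E) (i j : Fin 3) (b b' : Option (Fin 2)) (hij : i ≠ j) :
    Commute (g3O h i b) (g3O h j b') := by
  have h1 : ∀ a a', Commute (g3P (h.cc i a) i) (g3P (h.cc j a') j) := fun a a' =>
    LinearMap.ext fun u => Subtype.ext (g3prj_comm u.2 (h.cc i a) (h.cc j a') hij)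
  have h2 : ∀ a, Commute (g3P (h.cc i a) i) (g3O h j b') := fun a => by
    cases b' with
    | some a' => exact h1 a a'
    | none => exact (Commute.one_right _).sub_right (Commute.sum_right _ _ _ fun a' _ => h1 a a')
  cases b with
  | some a => exact h2 a
  | none => exact (Commute.one_left _).sub_left (Commute.sum_left _ _ _ fun a _ => h2 a)

/-- The `L²` inequality. -/
theorem g3_L2 (h : g3Fam E) (hz : E 2 1 = 0) {u : g3Y → ℝ} (hu : CC u)
    (ho : ∀ t : Fin 3, ∫ x, E 0 (ix t) (x 0) * E 1 (iy t) (x 1) * E 2 0 (x 2) * u x = 0) :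
    ∑ i, (2 * (∫ x, g3prj (E i 0) i u x ^ 2) + ∫ x, g3prj (E i 1) i u x ^ 2) ≤ 4 * ∫ x, u x ^ 2 := by
  classical
  let f : g3V := ⟨u, hu⟩
  obtain ⟨Q, hQ1, hQ2, -, hQ4, hQ5⟩ := abs_decomp g3B (g3O h) (g3O_sa h) (g3O_orth h)
    (g3O_sum h) (g3O_comm h) f
  set q : (Fin 3 → Option (Fin 2)) → ℝ := fun a => g3B (Q a) (Q a) with hq
  have hq0 : ∀ a, 0 ≤ q a := fun a => by
    rw [hq]
    simp only [g3B_self]
    exact integral_nonneg fun x => sq_nonneg _
  have hf : (∫ x, u x ^ 2) = ∑ a, q a := by rw [← hQ4, g3B_self]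
  have e1 : ∀ i a, (∫ x, g3prj (E i a) i u x ^ 2) = ∑ c, if c i = some a then q c else 0 :=
    fun i a => by rw [← hQ5 i (some a), g3B_self]; rfl
  have z1 : ∀ c : Fin 3 → Option (Fin 2), c 2 = some 1 → q c = 0 := fun c hc => by
    have h1 := hQ2 c 2 (some 1)
    rw [if_pos hc] at h1
    have h2 : Q c = 0 := by
      rw [← h1]
      refine Subtype.ext (funext fun x => ?_)
      change g3prj (E 2 1) 2 (Q c).1 x = 0
      rw [g3prj, hz, Pi.zero_apply, zero_mul]
    rw [hq]
    simp [h2]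
  have z2 : ∀ (c : Fin 3 → Option (Fin 2)) (t : Fin 3), c 0 = some (ix t) → c 1 = some (iy t) →
      c 2 = some 0 → q c = 0 := fun c t h0 h1 h2 => by
    have k1 : g3B f (Q c) = q c := by
      rw [← hQ1, map_sum, LinearMap.sum_apply, Finset.sum_eq_single c]
      · intro c' _ hc
        obtain ⟨i, hi⟩ := Function.ne_iff.1 hc
        have e3 := hQ2 c i (c i)
        rw [if_pos rfl] at e3
        rw [← e3, ← g3O_sa, hQ2, if_neg hi, map_zero, LinearMap.zero_apply]
      · simp
    have p : ∀ i a, c i = some a → g3prj (E i a) i (Q c).1 = (Q c).1 := fun i a hi => by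
      have := hQ2 c i (some a)
      rw [if_pos hi] at this
      exact congrArg Subtype.val this
    set w := (Q c).1 with hw
    have k2 : ∀ x : g3Y, w x = E 0 (ix t) (x 0) * E 1 (iy t) (x 1) * E 2 0 (x 2) *
        ∫ y0, E 0 (ix t) y0 * ∫ y1, E 1 (iy t) y1 * ∫ y2, E 2 0 y2 * w ![y0, y1, y2] := fun x => by
      have a2 : ∀ z : g3Y, w z = E 2 0 (z 2) * ∫ y2, E 2 0 y2 * w ![z 0, z 1, y2] := fun z => by
        have e : ∀ y, update z 2 y = ![z 0, z 1, y] := fun y => by
          funext l; fin_cases l <;> simp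
        conv_lhs => rw [← p 2 0 h2, g3prj]
        simp only [e]
      have a1 : ∀ z : g3Y, w z = E 1 (iy t) (z 1) * E 2 0 (z 2) *
          ∫ y1, E 1 (iy t) y1 * ∫ y2, E 2 0 y2 * w ![z 0, y1, y2] := fun z => by
        conv_lhs => rw [← p 1 _ h1, g3prj]
        rw [mul_assoc, ← integral_const_mul (E 2 0 (z 2))]
        congr 1
        refine integral_congr_ae (.of_forall fun y => ?_)
        simp only
        rw [a2 (update z 1 y)]
        simp only [update_self, ne_eq, Fin.reduceEq, not_false_eq_true, update_of_ne]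
        ring
      conv_lhs => rw [← p 0 _ h0, g3prj]
      rw [mul_assoc, mul_assoc, ← mul_assoc (E 1 (iy t) (x 1)),
        ← integral_const_mul (E 1 (iy t) (x 1) * E 2 0 (x 2))]
      congr 1
      refine integral_congr_ae (.of_forall fun y => ?_)
      simp only
      rw [a1 (update x 0 y)]
      simp only [update_self, ne_eq, Fin.reduceEq, not_false_eq_true, update_of_ne]
      ring
    rw [← k1, g3B_apply, ← hw]
    rw [integral_congr_ae (.of_forall fun x => (by rw [k2 x]; ring :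
      f.1 x * w x = (E 0 (ix t) (x 0) * E 1 (iy t) (x 1) * E 2 0 (x 2) * u x) *
        ∫ y0, E 0 (ix t) y0 * ∫ y1, E 1 (iy t) y1 * ∫ y2, E 2 0 y2 * w ![y0, y1, y2])),
      integral_mul_const, ho t, zero_mul]
  simp only [e1, hf, Finset.mul_sum, ← Finset.sum_add_distrib]
  rw [Finset.sum_comm]
  refine Finset.sum_le_sum fun c _ => ?_
  have hc := hq0 c
  have y0 := z2 c 0
  have y1 := z2 c 1
  have y2 := z2 c 2
  have y3 := z1 c
  have o : ∀ b : Option (Fin 2), b = none ∨ b = some 0 ∨ b = some 1 := by decide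
  rw [Fin.sum_univ_three]
  simp only [ix, iy, Matrix.cons_val_zero, Matrix.cons_val_one, Matrix.cons_val] at y0 y1 y2
  rcases o (c 0) with a0 | a0 | a0 <;> rcases o (c 1) with a1 | a1 | a1 <;>
    rcases o (c 2) with a2 | a2 | a2 <;>
    simp only [a0, a1, a2, reduceCtorEq, if_true, if_false, Option.some.injEq,
      forall_const, IsEmpty.forall_iff, zero_ne_one, one_ne_zero] at y0 y1 y2 y3 ⊢ <;> linarith

/-- One direction. -/
theorem g3_dir (h : g3Fam E) {lam : ℝ} {W : ℝ → ℝ} (hW : Continuous W) (i : Fin 3)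
    (hg : ∀ v : ℝ → ℝ, ContDiff ℝ 1 v → HasCompactSupport v →
      (2 - 1 / 20) * lam * (∫ x, v x ^ 2) - 2 * lam * (∫ x, E i 0 x * v x) ^ 2 -
        lam * (∫ x, E i 1 x * v x) ^ 2 ≤ ∫ x, (1 / 2 * deriv v x ^ 2 + W x * v x ^ 2))
    {u d : g3Y → ℝ} (hu : C1 u) (hd : CC d)
    (hud : ∀ x y, deriv (fun y => u (update x i y)) y = d (update x i y)) :
    (2 - 1 / 20) * lam * (∫ x, u x ^ 2) - 2 * lam * (∫ x, g3prj (E i 0) i u x ^ 2) -
      lam * (∫ x, g3prj (E i 1) i u x ^ 2) ≤ 1 / 2 * (∫ x, d x ^ 2) + ∫ x, W (x i) * u x ^ 2 := by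
  have hP : ∀ a, CC fun x => g3prj (E i a) i u x ^ 2 := fun a => (g3_cc_prj hu.cc (h.cc i a) i).sq
  have hU : CC fun x => u x ^ 2 := hu.cc.sq
  have hWU : CC fun x => W (x i) * u x ^ 2 := hU.mul_left (hW.comp (continuous_apply i))
  have i1 := hU.integrable.const_mul ((2 - 1 / 20) * lam)
  have i2 := (hP 0).integrable.const_mul (2 * lam)
  have i3 := (hP 1).integrable.const_mul lam
  have i4 := hd.sq.integrable.const_mul (1 / 2)
  have i5 : Integrable fun x => (2 - 1 / 20) * lam * u x ^ 2 - 2 * lam * g3prj (E i 0) i u x ^ 2 :=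
    i1.sub i2
  rw [← integral_const_mul, ← integral_const_mul, ← integral_const_mul, ← integral_const_mul,
    ← integral_sub i1 i2, ← integral_sub i5 i3, ← integral_add i4 hWU.integrable]
  refine g3_le_of_slice i (i5.sub i3) (i4.add hWU.integrable) fun x => ?_
  have lb := hg (fun y => u (update x i y)) (hu.1.comp (contDiff_update 1 x i))
    (g3_slice hu.cc x i).2
  have j1 := (g3_slice hU x i).integrable.const_mul ((2 - 1 / 20) * lam)
  have j2 := (g3_slice (hP 0) x i).integrable.const_mul (2 * lam)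
  have j3 := (g3_slice (hP 1) x i).integrable.const_mul lam
  have eP : ∀ a, ∫ y, g3prj (E i a) i u (update x i y) ^ 2 =
      (∫ y, E i a y * u (update x i y)) ^ 2 := by
    intro a
    have e : ∀ y, g3prj (E i a) i u (update x i y) ^ 2 =
        (E i a y * E i a y) * (∫ z, E i a z * u (update x i z)) ^ 2 := fun y => by
      rw [g3prj_update]; ring
    have e2 : (∫ y, E i a y * E i a y) * ∫ z, E i a z * u (update x i z) =
        ∫ z, E i a z * u (update x i z) := by
      rw [← integral_const_mul]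
      refine integral_congr_ae (.of_forall fun z => ?_)
      simp only
      rw [← mul_assoc, h.orth, if_pos rfl]
    simp only [e, integral_mul_const]
    rw [sq, ← mul_assoc, e2]
  have j5 : Integrable fun y => (2 - 1 / 20) * lam * u (update x i y) ^ 2 -
      2 * lam * g3prj (E i 0) i u (update x i y) ^ 2 := j1.sub j2
  rw [integral_sub j5 j3, integral_sub j1 j2, integral_const_mul, integral_const_mul,
    integral_const_mul, eP, eP]
  simp only [update_self, ← hud]
  exact lb

theorem g3_integral (F : Pos3 → ℝ) : ∫ x : g3Y, F (WithLp.toLp 2 x) = ∫ x, F x :=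
  (PiLp.volume_preserving_toLp (Fin 3)).integral_comp
    (MeasurableEquiv.toLp 2 g3Y).measurableEmbedding F

theorem g3_main (h : g3Fam E) (hz : E 2 1 = 0) {lam : ℝ} (hl : 0 ≤ lam) {W : Fin 3 → ℝ → ℝ}
    (hW : ∀ i, Continuous (W i))
    (hg : ∀ i, ∀ v : ℝ → ℝ, ContDiff ℝ 1 v → HasCompactSupport v →
      (2 - 1 / 20) * lam * (∫ x, v x ^ 2) - 2 * lam * (∫ x, E i 0 x * v x) ^ 2 -
        lam * (∫ x, E i 1 x * v x) ^ 2 ≤ ∫ x, (1 / 2 * deriv v x ^ 2 + W i x * v x ^ 2))
    {u : Pos3 → ℝ} (hu : C1 u)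
    (ho : ∀ t : Fin 3, ∫ x : Pos3, E 0 (ix t) (x 0) * E 1 (iy t) (x 1) * E 2 0 (x 2) * u x = 0) :
    (2 - 3 / 20) * lam * ∫ x, u x ^ 2 ≤
      1 / 2 * dir u + ∫ x : Pos3, (W 0 (x 0) + W 1 (x 1) + W 2 (x 2)) * u x ^ 2 := by
  have cs : ∀ {F : Pos3 → ℝ}, HasCompactSupport F →
      HasCompactSupport fun x : g3Y => F (WithLp.toLp 2 x) := fun hF =>
    hF.comp_homeomorph (EuclideanSpace.equiv (Fin 3) ℝ).symm.toHomeomorph
  have hU : C1 fun x : g3Y => u (WithLp.toLp 2 x) := ⟨hu.1.comp PiLp.contDiff_toLp, cs hu.2⟩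
  have hD : ∀ i, CC fun x : g3Y => pd i u (WithLp.toLp 2 x) := fun i =>
    ⟨(hu.pd i).1.comp (PiLp.continuous_toLp 2 _), cs (hu.pd i).2⟩
  have hud : ∀ i (x : g3Y) (y : ℝ), deriv (fun y => u (WithLp.toLp 2 (update x i y))) y =
      pd i u (WithLp.toLp 2 (update x i y)) := fun i x y => by
    have h1 : HasDerivAt (fun y : ℝ => (WithLp.toLp 2 (update x i y) : Pos3))
        (EuclideanSpace.single i 1) y :=
      (PiLp.hasFDerivAt_toLp (𝕜 := ℝ) 2 (update x i y)).comp_hasDerivAt y (hasDerivAt_update x i y)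
    exact ((hu.1.differentiable one_ne_zero _).hasFDerivAt.comp_hasDerivAt y h1).deriv
  have key := fun i => g3_dir h (hW i) i (hg i) hU (hD i) (hud i)
  have l2 := mul_le_mul_of_nonneg_left (g3_L2 h hz hU.cc fun t => by
    rw [← ho t, ← g3_integral]) hl
  have iW : ∀ i, Integrable fun x : Pos3 => W i (x i) * u x ^ 2 := fun i =>
    (hu.cc.sq.mul_left ((hW i).comp (by fun_prop))).integrable
  have e1 : ∫ x : Pos3, (W 0 (x 0) + W 1 (x 1) + W 2 (x 2)) * u x ^ 2 =
      (∫ x : Pos3, W 0 (x 0) * u x ^ 2) + (∫ x : Pos3, W 1 (x 1) * u x ^ 2) +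
        ∫ x : Pos3, W 2 (x 2) * u x ^ 2 := by
    have i01 : Integrable fun x : Pos3 => W 0 (x 0) * u x ^ 2 + W 1 (x 1) * u x ^ 2 :=
      (iW 0).add (iW 1)
    rw [← integral_add (iW 0) (iW 1), ← integral_add i01 (iW 2)]
    simp only [add_mul]
  have e2 : ∀ i, ∫ x : g3Y, W i (x i) * u (WithLp.toLp 2 x) ^ 2 = ∫ x : Pos3, W i (x i) * u x ^ 2 :=
    fun i => g3_integral fun x => W i (x i) * u x ^ 2
  have e3 : ∀ i, ∫ x : g3Y, pd i u (WithLp.toLp 2 x) ^ 2 = ∫ x : Pos3, pd i u x ^ 2 :=
    fun i => g3_integral fun x => pd i u x ^ 2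
  have e4 : ∫ x : g3Y, u (WithLp.toLp 2 x) ^ 2 = ∫ x : Pos3, u x ^ 2 :=
    g3_integral fun x => u x ^ 2
  simp only [e2, e3, e4] at key l2
  rw [Fin.sum_univ_three] at l2
  rw [e1, dir, Fin.sum_univ_three]
  linarith [key 0, key 1, key 2]

theorem g3_cc {e : ℝ → ℝ} (he : Continuous e) {T : ℝ} (hs : ∀ x, T ≤ |x| → e x = 0) (a : ℝ) :
    CC fun x => e (x - a) := by
  refine ⟨he.comp (by fun_prop), HasCompactSupport.intro (isCompact_Icc (a := a - T) (b := a + T))
    fun x hx => hs _ ?_⟩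
  by_contra hc
  rw [not_le, abs_lt] at hc
  exact hx ⟨by linarith [hc.1], by linarith [hc.2]⟩

theorem Fac.g3_gap {lam : ℝ} {W : ℝ → ℝ} {e : Fin 2 → ℝ → ℝ} {T η : ℝ} (h : Fac lam W e T η) (a : ℝ)
    (v : ℝ → ℝ) (h1 : ContDiff ℝ 1 v) (h2 : HasCompactSupport v) :
    (2 - 1 / 20) * lam * (∫ x, v x ^ 2) - 2 * lam * (∫ x, e 0 (x - a) * v x) ^ 2 -
      lam * (∫ x, e 1 (x - a) * v x) ^ 2 ≤ ∫ x, (1 / 2 * deriv v x ^ 2 + W (x - a) * v x ^ 2) := by
  have := h.gap (fun x => v (x + a)) (h1.comp (by fun_prop))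
    (h2.comp_homeomorph (Homeomorph.addRight a))
  rw [← integral_add_right_eq_self (fun x => v x ^ 2) a,
    ← integral_add_right_eq_self (fun x => e 0 (x - a) * v x) a,
    ← integral_add_right_eq_self (fun x => e 1 (x - a) * v x) a,
    ← integral_add_right_eq_self (fun x => 1 / 2 * deriv v x ^ 2 + W (x - a) * v x ^ 2) a]
  simpa only [add_sub_cancel_right, deriv_comp_add_const] using this

theorem g3_gap {lam : ℝ} {W₁ W₂ W₃ : ℝ → ℝ} {e₁ e₂ : Fin 2 → ℝ → ℝ} {e₃ : ℝ → ℝ}
    {T₁ T₂ T₃ η₁ η₂ η₃ : ℝ} (h₁ : Fac lam W₁ e₁ T₁ η₁) (h₂ : Fac lam W₂ e₂ T₂ η₂)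
    (h₃ : Fac1 lam W₃ e₃ T₃ η₃) (hl : 0 ≤ lam) (a b : ℝ) {u : Pos3 → ℝ} (h1 : ContDiff ℝ 1 u)
    (h2 : HasCompactSupport u)
    (ho : ∀ t, ∫ x : Pos3, e₁ (ix t) (x 0 - a) * e₂ (iy t) (x 1 - b) * e₃ (x 2) * u x = 0) :
    (2 - 3 / 20) * lam * ∫ x, u x ^ 2 ≤
      1 / 2 * dir u + ∫ x : Pos3, (W₁ (x 0 - a) + W₂ (x 1 - b) + W₃ (x 2)) * u x ^ 2 := by
  have hon : ∀ {W : ℝ → ℝ} {e : Fin 2 → ℝ → ℝ} {T η : ℝ}, Fac lam W e T η → ∀ (c : ℝ) (p q : Fin 2) (s : ℝ),
      (∫ t, e p (t - c) * e q (t - c)) * e p (s - c) = if p = q then e p (s - c) else 0 := by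
    intro W e T η h c p q s
    rw [integral_sub_right_eq_self (fun t => e p t * e q t) c, h.on]
    split_ifs <;> simp
  refine g3_main (E := ![fun p x => e₁ p (x - a), fun p x => e₂ p (x - b), ![e₃, 0]])
    (W := ![fun x => W₁ (x - a), fun x => W₂ (x - b), W₃]) ⟨?_, ?_⟩ rfl hl ?_ ?_ ⟨h1, h2⟩ ho
  · intro i p
    fin_cases i
    · exact g3_cc (h₁.c2 p).continuous (h₁.supp p) a
    · exact g3_cc (h₂.c2 p).continuous (h₂.supp p) b
    · fin_cases p
      · simpa using g3_cc h₃.c2.continuous h₃.supp 0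
      · exact ⟨continuous_const, HasCompactSupport.zero⟩
  · intro i p q s
    fin_cases i
    · exact hon h₁ a p q s
    · exact hon h₂ b p q s
    · fin_cases p <;> fin_cases q <;> simp [h₃.on]
  · intro i
    fin_cases i
    · exact h₁.W_cont.comp (continuous_id.sub continuous_const)
    · exact h₂.W_cont.comp (continuous_id.sub continuous_const)
    · exact h₃.W_cont
  · intro i v hv hv'
    fin_cases i
    · exact h₁.g3_gap a v hv hv'
    · exact h₂.g3_gap b v hv hv'
    · simpa using h₃.gap v hv hv'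

end Crest.Agent.R338
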