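import Crest.Agent.R338.Par
import Crest.Agent.R338.S3G
import Crest.Agent.R338.S3B

/-! Row 338: tensor products of one-dimensional factors. -/

set_option autoImplicit false

open MeasureTheory Crest.MathPhysics.ElectronicCoulomb

namespace Crest.Agent.R338

noncomputable def prod3 (e₁ e₂ : Fin 2 → ℝ → ℝ) (e₃ : ℝ → ℝ) (a b : ℝ) (t : Fin 3) (x : Pos3) : ℝ :=
  e₁ (ix t) (x 0 - a) * e₂ (iy t) (x 1 - b) * e₃ (x 2)

variable {lam : ℝ} {W₁ W₂ W₃ : ℝ → ℝ} {e₁ e₂ : Fin 2 → ℝ → ℝ} {e₃ : ℝ → ℝ}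
  {T₁ T₂ T₃ η₁ η₂ η₃ : ℝ}

theorem gap3 (h₁ : Fac lam W₁ e₁ T₁ η₁) (h₂ : Fac lam W₂ e₂ T₂ η₂) (h₃ : Fac1 lam W₃ e₃ T₃ η₃)
    (hl : 0 ≤ lam) (a b : ℝ) {u : Pos3 → ℝ} (h1 : ContDiff ℝ 1 u) (h2 : HasCompactSupport u)
    (ho : ∀ t, ∫ x, prod3 e₁ e₂ e₃ a b t x * u x = 0) :
    (2 - 3 / 20) * lam * ∫ x, u x ^ 2 ≤
      1 / 2 * dir u + ∫ x : Pos3, (W₁ (x 0 - a) + W₂ (x 1 - b) + W₃ (x 2)) * u x ^ 2 :=
  g3_gap h₁ h₂ h₃ hl a b h1 h2 ho

theorem on3 (h₁ : Fac lam W₁ e₁ T₁ η₁) (h₂ : Fac lam W₂ e₂ T₂ η₂) (h₃ : Fac1 lam W₃ e₃ T₃ η₃)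
    (a b : ℝ) (t t' : Fin 3) :
    ∫ x, prod3 e₁ e₂ e₃ a b t x * prod3 e₁ e₂ e₃ a b t' x = if t = t' then 1 else 0 := by
  have h := s3b_integral_tp (fun s => e₁ (ix t) (s - a) * e₁ (ix t') (s - a))
    (fun s => e₂ (iy t) (s - b) * e₂ (iy t') (s - b)) (fun s => e₃ s * e₃ s)
  rw [integral_sub_right_eq_self (fun s => e₁ (ix t) s * e₁ (ix t') s) a,
    integral_sub_right_eq_self (fun s => e₂ (iy t) s * e₂ (iy t') s) b, h₁.on, h₂.on, h₃.on] at h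
  rw [show (fun x => prod3 e₁ e₂ e₃ a b t x * prod3 e₁ e₂ e₃ a b t' x) = fun x : Pos3 =>
    e₁ (ix t) (x 0 - a) * e₁ (ix t') (x 0 - a) * (e₂ (iy t) (x 1 - b) * e₂ (iy t') (x 1 - b)) *
      (e₃ (x 2) * e₃ (x 2)) from funext fun x => by unfold prod3; ring, h]
  fin_cases t <;> fin_cases t' <;> simp [ix, iy]

theorem res3 (h₁ : Fac lam W₁ e₁ T₁ η₁) (h₂ : Fac lam W₂ e₂ T₂ η₂) (h₃ : Fac1 lam W₃ e₃ T₃ η₃)
    {A : ℝ} (b₁ : ∀ t x, |e₁ t x| ≤ A) (b₂ : ∀ t x, |e₂ t x| ≤ A) (b₃ : ∀ x, |e₃ x| ≤ A)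
    (a b : ℝ) (t : Fin 3) (x : Pos3) :
    |-(1 / 2) * lap (prod3 e₁ e₂ e₃ a b t) x +
      (W₁ (x 0 - a) + W₂ (x 1 - b) + W₃ (x 2) - if t = 0 then 0 else lam) *
        prod3 e₁ e₂ e₃ a b t x| ≤ (η₁ + η₂ + η₃) * A ^ 2 := by
  have hl := s3b_lap (f₁ := fun s => e₁ (ix t) (s - a)) (f₂ := fun s => e₂ (iy t) (s - b))
    ((h₁.c2 _).comp (contDiff_id.sub contDiff_const))
    ((h₂.c2 _).comp (contDiff_id.sub contDiff_const)) h₃.c2 x
  have dd : ∀ (f : ℝ → ℝ) (c s : ℝ), deriv (deriv fun s => f (s - c)) s = deriv (deriv f) (s - c) := by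
    intro f c s
    rw [show (deriv fun s => f (s - c)) = fun s => deriv f (s - c) from
      funext fun s => deriv_comp_sub_const f c s, deriv_comp_sub_const]
  rw [dd, dd] at hl
  have ht : (if t = 0 then 0 else lam) = ((ix t : ℕ) : ℝ) * lam + ((iy t : ℕ) : ℝ) * lam := by
    fin_cases t <;> simp [ix, iy]
  have r₁ := h₁.res (ix t) (x 0 - a)
  have r₂ := h₂.res (iy t) (x 1 - b)
  have r₃ := h₃.res (x 2)
  have c₁ := b₁ (ix t) (x 0 - a)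
  have c₂ := b₂ (iy t) (x 1 - b)
  have c₃ := b₃ (x 2)
  have hA : 0 ≤ A := (abs_nonneg _).trans c₃
  have key : ∀ {R η p q : ℝ}, |R| ≤ η → |p| ≤ A → |q| ≤ A → |R * (p * q)| ≤ η * A ^ 2 := by
    intro R η p q h1 h2 h3
    rw [abs_mul, abs_mul, sq]
    exact mul_le_mul h1 (mul_le_mul h2 h3 (abs_nonneg _) hA) (by positivity)
      ((abs_nonneg _).trans h1)
  have k₁ := abs_le.1 (key r₁ c₂ c₃)
  have k₂ := abs_le.1 (key r₂ c₁ c₃)
  have k₃ := abs_le.1 (key r₃ c₁ c₂)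
  rw [show lap (prod3 e₁ e₂ e₃ a b t) x = _ from hl, ht]
  unfold prod3
  rw [abs_le]
  constructor <;> linarith [k₁.1, k₁.2, k₂.1, k₂.2, k₃.1, k₃.2]

/-- Green's formula. -/
theorem green_c2 {f u : Pos3 → ℝ} (hf : ContDiff ℝ 2 f) (hf' : HasCompactSupport f)
    (hu : ContDiff ℝ 1 u) : ∑ k, ∫ x, pd k f x * pd k u x = -∫ x, lap f x * u x := by
  have hi : ∀ k, Integrable fun x => pd k (pd k f) x * u x := fun k =>
    s3b_int_l (s3b_pd_cont (s3b_pd_c1 hf k) k) hu.continuous (s3b_pd_supp (s3b_pd_supp hf' k) k)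
  simp only [lap, Finset.sum_mul]
  rw [integral_finsetSum _ fun k _ => hi k, ← Finset.sum_neg_distrib]
  exact Finset.sum_congr rfl fun k _ => s3b_parts_l (s3b_pd_c1 hf k) hu (s3b_pd_supp hf' k) k

/-- Localisation with cut-offs of disjoint supports. -/
theorem ims {n : ℕ} {j : ℕ → Pos3 → ℝ} (hj : ∀ m < n, ContDiff ℝ 2 (j m))
    (hs : ∀ x, ∑ m ∈ Finset.range n, j m x ^ 2 ≤ 1) {u : Pos3 → ℝ} (h1 : ContDiff ℝ 1 u)
    (h2 : HasCompactSupport u) :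
    ∑ m ∈ Finset.range n, dir (fun x => j m x * u x) +
      ∫ x, (∑ m ∈ Finset.range n, j m x * lap (j m) x) * u x ^ 2 ≤ dir u := by
  have hi : ∀ m ∈ Finset.range n, ∀ k, Integrable fun x => j m x * pd k (pd k (j m)) x * u x ^ 2 :=
    fun m hm k => s3b_int_r ((hj m (Finset.mem_range.1 hm)).continuous.mul
      (s3b_pd_cont (s3b_pd_c1 (hj m (Finset.mem_range.1 hm)) k) k)) (h1.continuous.pow 2)
      (s3b_sq_supp h2)
  have hi2 : ∀ k, ∀ m ∈ Finset.range n, Integrable fun x => j m x ^ 2 * pd k u x ^ 2 :=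
    fun k m hm => s3b_int_r ((hj m (Finset.mem_range.1 hm)).continuous.pow 2)
      ((s3b_pd_cont h1 k).pow 2) (s3b_sq_supp (s3b_pd_supp h2 k))
  have e1 : ∫ x, (∑ m ∈ Finset.range n, j m x * lap (j m) x) * u x ^ 2 =
      ∑ m ∈ Finset.range n, ∑ k, ∫ x, j m x * pd k (pd k (j m)) x * u x ^ 2 := by
    simp only [lap, Finset.sum_mul, Finset.mul_sum]
    rw [integral_finsetSum _ fun m hm => integrable_finsetSum _ fun k _ => hi m hm k]
    exact Finset.sum_congr rfl fun m hm => integral_finsetSum _ fun k _ => hi m hm k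
  rw [e1, ← Finset.sum_add_distrib]
  unfold dir
  calc ∑ m ∈ Finset.range n, (∑ k, (∫ x, pd k (fun x => j m x * u x) x ^ 2) +
        ∑ k, ∫ x, j m x * pd k (pd k (j m)) x * u x ^ 2)
      = ∑ m ∈ Finset.range n, ∑ k, ∫ x, j m x ^ 2 * pd k u x ^ 2 := by
        refine Finset.sum_congr rfl fun m hm => ?_
        rw [← Finset.sum_add_distrib]
        exact Finset.sum_congr rfl fun k _ => s3b_ims1 (hj m (Finset.mem_range.1 hm)) h1 h2 k
    _ = ∑ k, ∫ x, ∑ m ∈ Finset.range n, j m x ^ 2 * pd k u x ^ 2 := by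
        rw [Finset.sum_comm]
        exact Finset.sum_congr rfl fun k _ => (integral_finsetSum _ (hi2 k)).symm
    _ ≤ ∑ k, ∫ x, pd k u x ^ 2 := by
        refine Finset.sum_le_sum fun k _ => integral_mono (integrable_finsetSum _ (hi2 k))
          (((s3b_pd_cont h1 k).pow 2).integrable_of_hasCompactSupport
            (s3b_sq_supp (s3b_pd_supp h2 k))) fun x => ?_
        simp only
        rw [← Finset.sum_mul]
        exact mul_le_of_le_one_left (sq_nonneg _) (hs x)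

end Crest.Agent.R338
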