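import Crest.Agent.R338.Step

/-! Row 338: one-dimensional operators `-u''/2 + W u` with two explicit eigenfunctions. -/

set_option autoImplicit false

open MeasureTheory

namespace Crest.Agent.R338

namespace SLAux

theorem le_sub {ψ F F' : ℝ → ℝ} {a b : ℝ} (hab : a ≤ b) (hψ : Continuous ψ)
    (hF : ∀ x ∈ Set.Icc a b, HasDerivAt F (F' x) x) (hle : ∀ x ∈ Set.Icc a b, ψ x ≤ F' x) :
    ∫ x in a..b, ψ x ≤ F b - F a :=
  intervalIntegral.integral_le_sub_of_hasDeriv_right_of_le hab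
    (fun x hx => (hF x hx).continuousAt.continuousWithinAt)
    (fun x hx => (hF x (Set.Ioo_subset_Icc_self hx)).hasDerivWithinAt)
    hψ.integrableOn_Icc (fun x hx => hle x (Set.Ioo_subset_Icc_self hx))

theorem ioi_bound {ψ : ℝ → ℝ} {t C : ℝ} (hψ : Continuous ψ) (h0 : ∀ x, 0 ≤ ψ x)
    (hC : ∀ R, t ≤ R → ∫ x in t..R, ψ x ≤ C) :
    IntegrableOn ψ (Set.Ioi t) ∧ ∫ x in Set.Ioi t, ψ x ≤ C := by
  have hi : IntegrableOn ψ (Set.Ioi t) := by
    refine integrableOn_Ioi_of_intervalIntegral_norm_bounded (l := Filter.atTop)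
      (b := fun R : ℝ => R) C t (fun R => hψ.integrableOn_Ioc) Filter.tendsto_id ?_
    filter_upwards [Filter.eventually_ge_atTop t] with R hR
    have : (fun x => ‖ψ x‖) = ψ := by
      funext x; rw [Real.norm_eq_abs, abs_of_nonneg (h0 x)]
    rw [this]; exact hC R hR
  refine ⟨hi, ?_⟩
  refine le_of_tendsto (intervalIntegral_tendsto_integral_Ioi (l := Filter.atTop)
    (b := fun R : ℝ => R) t hi Filter.tendsto_id) ?_
  filter_upwards [Filter.eventually_ge_atTop t] with R hR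
  exact hC R hR

theorem integrable_of_even {F : ℝ → ℝ} {c : ℝ} (hF : Continuous F)
    (he : ∀ x, |F (-x)| = |F x|) (hi : IntegrableOn F (Set.Ioi c)) : Integrable F := by
  have h1 : IntegrableOn F (Set.Iio (-c)) := by
    have h2 : IntegrableOn (fun x => F (-x)) (Set.Iio (-c)) := by
      apply IntegrableOn.comp_neg_Iio
      simpa using hi
    refine Integrable.mono' h2.norm hF.aestronglyMeasurable ?_
    refine Filter.Eventually.of_forall fun x => ?_
    simp only [Real.norm_eq_abs, he x, le_refl]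
  have h3 : IntegrableOn F (Set.Icc (-c) c) := hF.integrableOn_Icc
  rw [← integrableOn_univ]
  refine ((h1.union h3).union hi).mono_set ?_
  intro x _
  simp only [Set.mem_union, Set.mem_Iio, Set.mem_Icc, Set.mem_Ioi]
  by_cases ha : x < -c
  · exact Or.inl (Or.inl ha)
  · by_cases hb : c < x
    · exact Or.inr hb
    · exact Or.inl (Or.inr ⟨not_lt.mp ha, not_lt.mp hb⟩)

theorem integrable_of_supp {u F : ℝ → ℝ} (h2 : HasCompactSupport u) (hF : Continuous F)
    (h0 : ∀ x, u x = 0 → deriv u x = 0 → F x = 0) : Integrable F := by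
  refine hF.integrable_of_hasCompactSupport ?_
  refine HasCompactSupport.intro h2 fun x hx => ?_
  exact h0 x (image_eq_zero_of_notMem_tsupport hx) (deriv_of_notMem_tsupport hx)

end SLAux


/-- `φ` is the ground state (energy `0`) and `φ g` the first excited state (energy `lam`). -/
structure SL (lam : ℝ) (φ φ1 g p W : ℝ → ℝ) : Prop where
  lam_pos : 0 < lam
  φ_pos : ∀ x, 0 < φ x
  φ_even : ∀ x, φ (-x) = φ x
  dφ : ∀ x, HasDerivAt φ (φ1 x) x
  dφ1 : ∀ x, HasDerivAt φ1 (2 * W x * φ x) x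
  W_cont : Continuous W
  g_odd : ∀ x, g (-x) = -g x
  dg : ∀ x, HasDerivAt g (2 * lam * p x / φ x ^ 2) x
  p_pos : ∀ x, 0 < p x
  p_even : ∀ x, p (-x) = p x
  dp : ∀ x, HasDerivAt p (-(φ x ^ 2 * g x)) x

variable {lam : ℝ} {φ φ1 g p W : ℝ → ℝ} {x₀ β : ℝ}

open SLAux

theorem SL.φ_cont (h : SL lam φ φ1 g p W) : Continuous φ :=
  continuous_iff_continuousAt.mpr fun x => (h.dφ x).continuousAt

theorem SL.φ1_cont (h : SL lam φ φ1 g p W) : Continuous φ1 :=
  continuous_iff_continuousAt.mpr fun x => (h.dφ1 x).continuousAt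

theorem SL.g_cont (h : SL lam φ φ1 g p W) : Continuous g :=
  continuous_iff_continuousAt.mpr fun x => (h.dg x).continuousAt

theorem SL.p_cont (h : SL lam φ φ1 g p W) : Continuous p :=
  continuous_iff_continuousAt.mpr fun x => (h.dp x).continuousAt

theorem SL.g_pos (h : SL lam φ φ1 g p W) (hβ : 0 < β)
    (hr : ∀ t, x₀ ≤ t → β * p t ≤ φ t ^ 2 * g t) {t : ℝ} (ht : x₀ ≤ t) : 0 < g t := by
  have h1 := hr t ht
  have h2 := mul_pos hβ (h.p_pos t)
  have h3 : 0 < φ t ^ 2 := pow_pos (h.φ_pos t) 2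
  exact (mul_pos_iff_of_pos_left h3).mp (h2.trans_le h1)

theorem SL.tail1 (h : SL lam φ φ1 g p W) (hβ : 0 < β)
    (hr : ∀ t, x₀ ≤ t → β * p t ≤ φ t ^ 2 * g t) {t : ℝ} (ht : x₀ ≤ t) :
    IntegrableOn (fun x => φ x ^ 2) (Set.Ioi t) ∧ (∫ x in Set.Ioi t, φ x ^ 2) ≤ p t / g t := by
  have hc := h.φ_cont
  refine ioi_bound (by fun_prop) (fun x => sq_nonneg _) fun R hR => ?_
  have key := le_sub (ψ := fun x => φ x ^ 2) (F := fun x => -(p x / g x))
    (F' := fun x => -((-(φ x ^ 2 * g x) * g x - p x * (2 * lam * p x / φ x ^ 2)) / g x ^ 2))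
    hR (by fun_prop)
    (fun x hx => ((h.dp x).div (h.dg x) (h.g_pos hβ hr (ht.trans hx.1)).ne').neg)
    (fun x hx => by
      have hg := h.g_pos hβ hr (ht.trans hx.1)
      have hφ := h.φ_pos x
      have hp := h.p_pos x
      have hl := h.lam_pos
      have : -((-(φ x ^ 2 * g x) * g x - p x * (2 * lam * p x / φ x ^ 2)) / g x ^ 2) =
          φ x ^ 2 + p x * (2 * lam * p x / φ x ^ 2) / g x ^ 2 := by
        field_simp
        ring
      rw [this]
      have : 0 ≤ p x * (2 * lam * p x / φ x ^ 2) / g x ^ 2 := by positivity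
      linarith)
  have hR' : 0 ≤ p R / g R := (div_pos (h.p_pos R) (h.g_pos hβ hr (ht.trans hR))).le
  linarith

theorem SL.sq_le (h : SL lam φ φ1 g p W) (hβ : 0 < β) (h16 : 16 * lam ≤ β ^ 2)
    (hr : ∀ t, x₀ ≤ t → β * p t ≤ φ t ^ 2 * g t) {x : ℝ} (hx : x₀ ≤ x) :
    16 * lam * p x ^ 2 / φ x ^ 2 ≤ (φ x * g x) ^ 2 := by
  have hφ := h.φ_pos x
  have hp := h.p_pos x
  have h1 := hr x hx
  have h2 : (β * p x) ^ 2 ≤ (φ x ^ 2 * g x) ^ 2 :=
    pow_le_pow_left₀ (by positivity) h1 2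
  rw [div_le_iff₀ (by positivity)]
  have h3 : 16 * lam * p x ^ 2 ≤ β ^ 2 * p x ^ 2 := by gcongr
  nlinarith

theorem SL.tail2 (h : SL lam φ φ1 g p W) (hβ : 0 < β) (h16 : 16 * lam ≤ β ^ 2)
    (hr : ∀ t, x₀ ≤ t → β * p t ≤ φ t ^ 2 * g t) {t : ℝ} (ht : x₀ ≤ t) :
    IntegrableOn (fun x => (φ x * g x) ^ 2) (Set.Ioi t) ∧
      (∫ x in Set.Ioi t, (φ x * g x) ^ 2) ≤ 2 * (p t * g t) := by
  have hc := h.φ_cont
  have hc' := h.g_cont
  refine ioi_bound (by fun_prop) (fun x => sq_nonneg _) fun R hR => ?_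
  have key := le_sub (ψ := fun x => (φ x * g x) ^ 2) (F := fun x => -2 * (p x * g x))
    (F' := fun x => -2 * (-(φ x ^ 2 * g x) * g x + p x * (2 * lam * p x / φ x ^ 2)))
    hR (by fun_prop)
    (fun x _ => ((h.dp x).mul (h.dg x)).const_mul (-2))
    (fun x hx => by
      have hφ := h.φ_pos x
      have hp := h.p_pos x
      have hl := h.lam_pos
      have h1 := h.sq_le hβ h16 hr (ht.trans hx.1)
      have h2 : -2 * (-(φ x ^ 2 * g x) * g x + p x * (2 * lam * p x / φ x ^ 2)) =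
          2 * (φ x * g x) ^ 2 - (16 * lam * p x ^ 2 / φ x ^ 2) / 4 := by
        field_simp
        ring
      rw [h2]
      nlinarith [sq_nonneg (φ x * g x)])
  have hR' : 0 ≤ p R * g R := (mul_pos (h.p_pos R) (h.g_pos hβ hr (ht.trans hR))).le
  linarith

theorem SL.int_φ (h : SL lam φ φ1 g p W) (hβ : 0 < β)
    (hr : ∀ t, x₀ ≤ t → β * p t ≤ φ t ^ 2 * g t) : Integrable (fun x => φ x ^ 2) := by
  have hc := h.φ_cont
  exact integrable_of_even (by fun_prop) (fun x => by simp only [h.φ_even])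
    (h.tail1 hβ hr le_rfl).1

theorem SL.int_φg (h : SL lam φ φ1 g p W) (hβ : 0 < β) (h16 : 16 * lam ≤ β ^ 2)
    (hr : ∀ t, x₀ ≤ t → β * p t ≤ φ t ^ 2 * g t) : Integrable (fun x => (φ x * g x) ^ 2) := by
  have hc := h.φ_cont
  have hc' := h.g_cont
  exact integrable_of_even (by fun_prop)
    (fun x => by simp only [h.φ_even, h.g_odd, mul_neg, neg_sq])
    (h.tail2 hβ h16 hr le_rfl).1

set_option linter.unusedVariables false in
/-- Tails. -/
theorem SL.tail (h : SL lam φ φ1 g p W) (hx : 0 < x₀) (hβ : 0 < β) (h16 : 16 * lam ≤ β ^ 2)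
    (hr : ∀ t, x₀ ≤ t → β * p t ≤ φ t ^ 2 * g t) :
    Integrable (fun x => φ x ^ 2) ∧ Integrable (fun x => (φ x * g x) ^ 2) ∧
      ∀ t, x₀ ≤ t → (∫ x in Set.Ioi t, φ x ^ 2) ≤ p t / g t ∧
        (∫ x in Set.Ioi t, (φ x * g x) ^ 2) ≤ 2 * (p t * g t) :=
  ⟨h.int_φ hβ hr, h.int_φg hβ h16 hr, fun _ ht =>
    ⟨(h.tail1 hβ hr ht).2, (h.tail2 hβ h16 hr ht).2⟩⟩


theorem SL.g_nonneg (h : SL lam φ φ1 g p W) {x : ℝ} (hx : 0 ≤ x) : 0 ≤ g x := by
  have h0 : g 0 = 0 := by
    have := h.g_odd 0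
    rw [neg_zero] at this
    linarith
  have key := le_sub (ψ := fun _ => 0) (F := g) hx continuous_const (fun t _ => h.dg t)
    (fun t _ => by
      have := h.lam_pos
      have := h.p_pos t
      have := h.φ_pos t
      positivity)
  simp only [intervalIntegral.integral_zero] at key
  linarith

theorem SL.p_anti (h : SL lam φ φ1 g p W) {x y : ℝ} (hx : 0 ≤ x) (hxy : x ≤ y) : p y ≤ p x := by
  have key := le_sub (ψ := fun _ => 0) (F := fun t => -p t) hxy continuous_const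
    (fun t _ => (h.dp t).neg)
    (fun t ht => by
      have := h.g_nonneg (hx.trans ht.1)
      rw [neg_neg]
      positivity)
  simp only [intervalIntegral.integral_zero] at key
  linarith

/-- Poincaré inequality on the outer piece. -/
theorem SL.outer (h : SL lam φ φ1 g p W) (hβ : 0 < β) (h16 : 16 * lam ≤ β ^ 2)
    (hr : ∀ t, x₀ ≤ t → β * p t ≤ φ t ^ 2 * g t) {v v' : ℝ → ℝ}
    (hv : ∀ x, HasDerivAt v (v' x) x) (hv' : Continuous v') (h0 : v x₀ = 0) {R : ℝ}
    (hR : x₀ ≤ R) :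
    ∫ x in x₀..R, (4 * lam * (φ x ^ 2 * v x ^ 2) - φ x ^ 2 * v' x ^ 2) ≤ 0 := by
  have hc := h.φ_cont
  have hvc : Continuous v := continuous_iff_continuousAt.mpr fun x => (hv x).continuousAt
  have key := le_sub (ψ := fun x => 4 * lam * (φ x ^ 2 * v x ^ 2) - φ x ^ 2 * v' x ^ 2)
    (F := fun x => -(β ^ 2 / 2) * (p x / g x * (v x * v x)))
    (F' := fun x => -(β ^ 2 / 2) *
      ((-(φ x ^ 2 * g x) * g x - p x * (2 * lam * p x / φ x ^ 2)) / g x ^ 2 * (v x * v x) +
        p x / g x * (v' x * v x + v x * v' x)))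
    hR (by fun_prop)
    (fun x hx => (((h.dp x).div (h.dg x) (h.g_pos hβ hr hx.1).ne').mul
      ((hv x).mul (hv x))).const_mul _)
    (fun x hx => by
      have hg := h.g_pos hβ hr hx.1
      have hφ := h.φ_pos x
      have hp := h.p_pos x
      have hl := h.lam_pos
      have h1 := hr x hx.1
      obtain ⟨s, hs⟩ : ∃ s, s = β * (p x / g x) := ⟨_, rfl⟩
      obtain ⟨e, he⟩ : ∃ e, e = p x * (2 * lam * p x / φ x ^ 2) / g x ^ 2 := ⟨_, rfl⟩
      have hs0 : 0 ≤ s := by rw [hs]; positivity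
      have he0 : 0 ≤ e := by rw [he]; positivity
      have hsf : s ≤ φ x ^ 2 := by
        rw [hs, ← mul_div_assoc, div_le_iff₀ hg]; exact h1
      have h2 : -(β ^ 2 / 2) *
          ((-(φ x ^ 2 * g x) * g x - p x * (2 * lam * p x / φ x ^ 2)) / g x ^ 2 * (v x * v x) +
            p x / g x * (v' x * v x + v x * v' x)) =
          β ^ 2 / 2 * (φ x ^ 2 * v x ^ 2) + β ^ 2 / 2 * (e * v x ^ 2) - β * s * v x * v' x := by
        rw [hs, he]
        field_simp
        ring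
      rw [h2]
      have h3 : 0 ≤ s * (v' x - β * v x / 2) ^ 2 := by positivity
      have h4 : 0 ≤ (φ x ^ 2 - s) * (v' x ^ 2 + β ^ 2 * v x ^ 2 / 4) :=
        mul_nonneg (sub_nonneg.mpr hsf) (by positivity)
      have h5 : 0 ≤ β ^ 2 / 2 * (e * v x ^ 2) := by positivity
      have h6 : 0 ≤ (β ^ 2 - 16 * lam) * (φ x ^ 2 * v x ^ 2) :=
        mul_nonneg (sub_nonneg.mpr h16) (by positivity)
      nlinarith)
  have hR' : 0 ≤ β ^ 2 / 2 * (p R / g R * (v R * v R)) := by
    have := h.p_pos R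
    have := h.g_pos hβ hr hR
    have := mul_self_nonneg (v R)
    positivity
  simp only [h0, mul_zero, sub_zero] at key
  linarith

/-- Pointwise bound on the inner piece. -/
theorem SL.inner_pt (h : SL lam φ φ1 g p W) (hg0 : 0 < g x₀) {v v' : ℝ → ℝ}
    (hv : ∀ x, HasDerivAt v (v' x) x) (hv' : Continuous v') (h0 : v x₀ = 0) {x : ℝ}
    (hx : x ∈ Set.Icc 0 x₀) :
    v x ^ 2 ≤ g x₀ / (2 * lam * p x₀) * ∫ t in (0 : ℝ)..x₀, φ t ^ 2 * v' t ^ 2 := by
  have hc := h.φ_cont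
  have hl := h.lam_pos
  have hp0 := h.p_pos x₀
  obtain ⟨y, hy⟩ : ∃ y, y = v x := ⟨_, rfl⟩
  obtain ⟨K, hK⟩ : ∃ K, K = g x₀ / (2 * lam * p x₀) := ⟨_, rfl⟩
  have hK0 : 0 < K := by rw [hK]; positivity
  have key := le_sub (ψ := fun t => -(K / 2) * (φ t ^ 2 * v' t ^ 2))
    (F := fun t => y * v t + y ^ 2 / (2 * g x₀) * g t)
    (F' := fun t => y * v' t + y ^ 2 / (2 * g x₀) * (2 * lam * p t / φ t ^ 2))
    hx.2 (by fun_prop)
    (fun t _ => ((hv t).const_mul y).add ((h.dg t).const_mul _))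
    (fun t ht => by
      have hφ := h.φ_pos t
      have h1 : p x₀ ≤ p t := h.p_anti (hx.1.trans ht.1) ht.2
      have h2 : y ^ 2 / (2 * g x₀) * (2 * lam * p x₀ / φ t ^ 2) ≤
          y ^ 2 / (2 * g x₀) * (2 * lam * p t / φ t ^ 2) := by gcongr
      have h3 : y ^ 2 / (2 * g x₀) * (2 * lam * p x₀ / φ t ^ 2) + y * v' t +
          K / 2 * (φ t ^ 2 * v' t ^ 2) = (y + K * φ t ^ 2 * v' t) ^ 2 / (2 * K * φ t ^ 2) := by
        rw [hK]
        field_simp
        ring
      have h4 : 0 ≤ (y + K * φ t ^ 2 * v' t) ^ 2 / (2 * K * φ t ^ 2) := by positivity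
      linarith)
  rw [intervalIntegral.integral_const_mul, h0, ← hy] at key
  have h5 : y ^ 2 / (2 * g x₀) * g x₀ = y ^ 2 / 2 := by field_simp
  have h6 : 0 ≤ y ^ 2 / (2 * g x₀) * g x := by
    have := h.g_nonneg hx.1
    positivity
  have h7 : (∫ t in x..x₀, φ t ^ 2 * v' t ^ 2) ≤ ∫ t in (0 : ℝ)..x₀, φ t ^ 2 * v' t ^ 2 :=
    intervalIntegral.integral_mono_interval hx.1 hx.2 le_rfl
      (Filter.Eventually.of_forall fun t => by positivity)
      (Continuous.intervalIntegrable (by fun_prop) _ _)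
  rw [← hy, ← hK]
  have h8 := mul_le_mul_of_nonneg_left h7 hK0.le
  nlinarith

/-- Poincaré inequality on the inner piece. -/
theorem SL.inner (h : SL lam φ φ1 g p W) (hx : 0 < x₀) (hg0 : 0 < g x₀)
    (hm : g x₀ * ∫ t in (0 : ℝ)..x₀, φ t ^ 2 ≤ p x₀ / 2) {v v' : ℝ → ℝ}
    (hv : ∀ x, HasDerivAt v (v' x) x) (hv' : Continuous v') (h0 : v x₀ = 0) :
    ∫ x in (0 : ℝ)..x₀, (4 * lam * (φ x ^ 2 * v x ^ 2) - φ x ^ 2 * v' x ^ 2) ≤ 0 := by
  have hc := h.φ_cont
  have hl := h.lam_pos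
  have hp0 := h.p_pos x₀
  have hvc : Continuous v := continuous_iff_continuousAt.mpr fun x => (hv x).continuousAt
  obtain ⟨D, hD⟩ : ∃ D, D = ∫ t in (0 : ℝ)..x₀, φ t ^ 2 * v' t ^ 2 := ⟨_, rfl⟩
  have hD0 : 0 ≤ D := by
    rw [hD]
    exact intervalIntegral.integral_nonneg hx.le fun t _ => by positivity
  have h1 : (∫ x in (0 : ℝ)..x₀, φ x ^ 2 * v x ^ 2) ≤
      ∫ x in (0 : ℝ)..x₀, (g x₀ / (2 * lam * p x₀) * D) * φ x ^ 2 := by
    refine intervalIntegral.integral_mono_on hx.le (Continuous.intervalIntegrable (by fun_prop) _ _)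
      (Continuous.intervalIntegrable (by fun_prop) _ _) fun x hx' => ?_
    have := h.inner_pt hg0 hv hv' h0 hx'
    rw [← hD] at this
    rw [mul_comm _ (φ x ^ 2)]
    exact mul_le_mul_of_nonneg_left this (sq_nonneg _)
  rw [intervalIntegral.integral_const_mul] at h1
  rw [intervalIntegral.integral_sub (Continuous.intervalIntegrable (by fun_prop) _ _)
    (Continuous.intervalIntegrable (by fun_prop) _ _), intervalIntegral.integral_const_mul, ← hD]
  have h2 : 4 * lam * (g x₀ / (2 * lam * p x₀) * D * ∫ x in (0 : ℝ)..x₀, φ x ^ 2) =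
      2 / p x₀ * D * (g x₀ * ∫ x in (0 : ℝ)..x₀, φ x ^ 2) := by
    field_simp
    ring
  have h3 : 2 / p x₀ * D * (g x₀ * ∫ x in (0 : ℝ)..x₀, φ x ^ 2) ≤ 2 / p x₀ * D * (p x₀ / 2) :=
    mul_le_mul_of_nonneg_left hm (by positivity)
  have h4 : 2 / p x₀ * D * (p x₀ / 2) = D := by field_simp
  have h5 := mul_le_mul_of_nonneg_left h1 (by positivity : 0 ≤ 4 * lam)
  linarith

/-- Poincaré inequality on a half line. -/
theorem SL.half (h : SL lam φ φ1 g p W) (hx : 0 < x₀) (hβ : 0 < β) (h16 : 16 * lam ≤ β ^ 2)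
    (hr : ∀ t, x₀ ≤ t → β * p t ≤ φ t ^ 2 * g t)
    (hm : g x₀ * ∫ t in (0 : ℝ)..x₀, φ t ^ 2 ≤ p x₀ / 2) {v v' : ℝ → ℝ}
    (hv : ∀ x, HasDerivAt v (v' x) x) (hv' : Continuous v') (h0 : v x₀ = 0) {R : ℝ}
    (hR : x₀ ≤ R) :
    ∫ x in (0 : ℝ)..R, (4 * lam * (φ x ^ 2 * v x ^ 2) - φ x ^ 2 * v' x ^ 2) ≤ 0 := by
  have hc := h.φ_cont
  have hvc : Continuous v := continuous_iff_continuousAt.mpr fun x => (hv x).continuousAt
  rw [← intervalIntegral.integral_add_adjacent_intervals (b := x₀)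
    (Continuous.intervalIntegrable (by fun_prop) _ _)
    (Continuous.intervalIntegrable (by fun_prop) _ _)]
  have h1 := h.inner hx (h.g_pos hβ hr le_rfl) hm hv hv' h0
  have h2 := h.outer hβ h16 hr hv hv' h0 hR
  linarith

/-- Poincaré inequality on the line. -/
theorem SL.poincare (h : SL lam φ φ1 g p W) (hx : 0 < x₀) (hβ : 0 < β) (h16 : 16 * lam ≤ β ^ 2)
    (hr : ∀ t, x₀ ≤ t → β * p t ≤ φ t ^ 2 * g t)
    (hm : g x₀ * ∫ t in (0 : ℝ)..x₀, φ t ^ 2 ≤ p x₀ / 2) {v v' : ℝ → ℝ}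
    (hv : ∀ x, HasDerivAt v (v' x) x) (hv' : Continuous v') (h0 : v x₀ = 0) (h0' : v (-x₀) = 0)
    (hi : Integrable fun x => φ x ^ 2 * v x ^ 2) (hi' : Integrable fun x => φ x ^ 2 * v' x ^ 2) :
    4 * lam * (∫ x, φ x ^ 2 * v x ^ 2) ≤ ∫ x, φ x ^ 2 * v' x ^ 2 := by
  have hc := h.φ_cont
  have hvc : Continuous v := continuous_iff_continuousAt.mpr fun x => (hv x).continuousAt
  have hI : Integrable fun x => 4 * lam * (φ x ^ 2 * v x ^ 2) - φ x ^ 2 * v' x ^ 2 :=
    (hi.const_mul _).sub hi'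
  have hT := intervalIntegral_tendsto_integral (l := Filter.atTop) (a := fun R : ℝ => -R)
    (b := fun R : ℝ => R) hI Filter.tendsto_neg_atTop_atBot Filter.tendsto_id
  have hle : (∫ x, (4 * lam * (φ x ^ 2 * v x ^ 2) - φ x ^ 2 * v' x ^ 2)) ≤ 0 := by
    refine le_of_tendsto hT ?_
    filter_upwards [Filter.eventually_ge_atTop x₀] with R hR
    rw [← intervalIntegral.integral_add_adjacent_intervals (b := 0)
      (Continuous.intervalIntegrable (by fun_prop) _ _)
      (Continuous.intervalIntegrable (by fun_prop) _ _)]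
    have h1 := h.half hx hβ h16 hr hm hv hv' h0 hR
    have h2 := h.half hx hβ h16 hr hm (v := fun x => v (-x)) (v' := fun x => -v' (-x))
      (fun x => by
        have := (hv (-x)).comp x (hasDerivAt_neg' x)
        simpa [Function.comp_def] using this) (by fun_prop) h0' hR
    have h3 := intervalIntegral.integral_comp_neg (a := 0) (b := R)
      (fun x => 4 * lam * (φ x ^ 2 * v x ^ 2) - φ x ^ 2 * v' x ^ 2)
    simp only [neg_zero, h.φ_even] at h3
    simp only [neg_sq] at h2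
    rw [← h3]
    linarith
  rw [integral_sub (hi.const_mul _) hi', integral_const_mul] at hle
  linarith


theorem SL.int_pg (h : SL lam φ φ1 g p W) (hβ : 0 < β) (h16 : 16 * lam ≤ β ^ 2)
    (hr : ∀ t, x₀ ≤ t → β * p t ≤ φ t ^ 2 * g t) : Integrable (fun x => p x * g x) := by
  have hp := h.p_cont
  have hc' := h.g_cont
  refine integrable_of_even (c := x₀) (by fun_prop)
    (fun x => by simp only [h.p_even, h.g_odd, mul_neg, abs_neg]) ?_
  refine Integrable.mono' (((h.tail2 hβ h16 hr le_rfl).1).const_mul β⁻¹)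
    (Continuous.aestronglyMeasurable (by fun_prop)) ?_
  filter_upwards [ae_restrict_mem measurableSet_Ioi] with x hx
  have hx' : x₀ ≤ x := le_of_lt hx
  have hg := h.g_pos hβ hr hx'
  have hpx := h.p_pos x
  rw [Real.norm_eq_abs, abs_of_pos (mul_pos hpx hg), le_inv_mul_iff₀ hβ]
  have := mul_le_mul_of_nonneg_right (hr x hx') hg.le
  nlinarith

theorem SL.int_pp (h : SL lam φ φ1 g p W) (hβ : 0 < β) (h16 : 16 * lam ≤ β ^ 2)
    (hr : ∀ t, x₀ ≤ t → β * p t ≤ φ t ^ 2 * g t) :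
    Integrable (fun x => p x * (2 * lam * p x / φ x ^ 2)) := by
  have hp := h.p_cont
  have hc := h.φ_cont
  have hcont : Continuous (fun x => p x * (2 * lam * p x / φ x ^ 2)) :=
    hp.mul (Continuous.div (by fun_prop) (by fun_prop) fun x => (pow_pos (h.φ_pos x) 2).ne')
  refine integrable_of_even (c := x₀) hcont
    (fun x => by simp only [h.p_even, h.φ_even]) ?_
  refine Integrable.mono' (h.tail2 hβ h16 hr le_rfl).1 hcont.aestronglyMeasurable ?_
  filter_upwards [ae_restrict_mem measurableSet_Ioi] with x hx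
  have hx' : x₀ ≤ x := le_of_lt hx
  have hpx := h.p_pos x
  have hφ := h.φ_pos x
  have hl := h.lam_pos
  have h1 := h.sq_le hβ h16 hr hx'
  have h2 : p x * (2 * lam * p x / φ x ^ 2) = (16 * lam * p x ^ 2 / φ x ^ 2) / 8 := by
    field_simp
    ring
  rw [Real.norm_eq_abs, abs_of_pos (by positivity), h2]
  nlinarith [sq_nonneg (φ x * g x)]

theorem SL.pp_eq (h : SL lam φ φ1 g p W) (hβ : 0 < β) (h16 : 16 * lam ≤ β ^ 2)
    (hr : ∀ t, x₀ ≤ t → β * p t ≤ φ t ^ 2 * g t) :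
    (∫ x, p x * (2 * lam * p x / φ x ^ 2)) = ∫ x, (φ x * g x) ^ 2 := by
  have h1 := h.int_pp hβ h16 hr
  have h2 := h.int_φg hβ h16 hr
  have key := integral_eq_zero_of_hasDerivAt_of_integrable (f := fun x => p x * g x)
    (f' := fun x => p x * (2 * lam * p x / φ x ^ 2) - (φ x * g x) ^ 2)
    (fun x => ((h.dp x).mul (h.dg x)).congr_deriv (by ring)) (h1.sub h2) (h.int_pg hβ h16 hr)
  rw [integral_sub h1 h2] at key
  linarith

theorem SL.int_cross (h : SL lam φ φ1 g p W) (hβ : 0 < β) (h16 : 16 * lam ≤ β ^ 2)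
    (hr : ∀ t, x₀ ≤ t → β * p t ≤ φ t ^ 2 * g t) : Integrable (fun x => φ x ^ 2 * g x) := by
  have hc := h.φ_cont
  have hc' := h.g_cont
  refine Integrable.mono' ((h.int_φ hβ hr).add (h.int_φg hβ h16 hr))
    (Continuous.aestronglyMeasurable (by fun_prop)) (Filter.Eventually.of_forall fun x => ?_)
  rw [Real.norm_eq_abs, abs_le]
  simp only [Pi.add_apply]
  constructor
  · nlinarith [sq_nonneg (φ x + φ x * g x), sq_nonneg (φ x), sq_nonneg (φ x * g x)]
  · nlinarith [sq_nonneg (φ x - φ x * g x), sq_nonneg (φ x), sq_nonneg (φ x * g x)]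

theorem SL.cross_eq (h : SL lam φ φ1 g p W) : (∫ x, φ x ^ 2 * g x) = 0 := by
  have h1 := integral_neg_eq_self (fun x => φ x ^ 2 * g x) (volume : Measure ℝ)
  simp only [h.φ_even, h.g_odd, mul_neg, integral_neg] at h1
  linarith

/-- The third level is at least `2 lam`. -/
theorem SL.three_level (h : SL lam φ φ1 g p W) (hx : 0 < x₀) (hβ : 0 < β) (h16 : 16 * lam ≤ β ^ 2)
    (hr : ∀ t, x₀ ≤ t → β * p t ≤ φ t ^ 2 * g t)
    (hm : g x₀ * ∫ t in (0 : ℝ)..x₀, φ t ^ 2 ≤ p x₀ / 2) {u : ℝ → ℝ} (h1 : ContDiff ℝ 1 u)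
    (h2 : HasCompactSupport u) :
    2 * lam * (∫ x, u x ^ 2) - 2 * lam * (∫ x, φ x * u x) ^ 2 / (∫ x, φ x ^ 2) -
      lam * (∫ x, φ x * g x * u x) ^ 2 / (∫ x, (φ x * g x) ^ 2) ≤
      ∫ x, (1 / 2 * deriv u x ^ 2 + W x * u x ^ 2) := by
  have hc := h.φ_cont
  have hc1 := h.φ1_cont
  have hg := h.g_cont
  have hp := h.p_cont
  have hW := h.W_cont
  have hl := h.lam_pos
  have hφ := h.φ_pos
  have hφ' : ∀ x, φ x ≠ 0 := fun x => (hφ x).ne'
  have hφ2 : ∀ x, φ x ^ 2 ≠ 0 := fun x => (pow_pos (hφ x) 2).ne'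
  have hu : Continuous u := h1.continuous
  have hu' : Continuous (deriv u) := h1.continuous_deriv le_rfl
  have hdu : ∀ x, HasDerivAt u (deriv u x) x := fun x =>
    (h1.differentiable one_ne_zero x).hasDerivAt
  have hg0 : 0 < g x₀ := h.g_pos hβ hr le_rfl
  -- the quotient `w = u / φ`
  obtain ⟨w, hw⟩ : ∃ w : ℝ → ℝ, w = fun x => u x / φ x := ⟨_, rfl⟩
  obtain ⟨w', hw'⟩ : ∃ w' : ℝ → ℝ,
    w' = fun x => (deriv u x * φ x - u x * φ1 x) / φ x ^ 2 := ⟨_, rfl⟩
  have hdw : ∀ x, HasDerivAt w (w' x) x := fun x => by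
    rw [hw, hw']; exact (hdu x).div (h.dφ x) (hφ' x)
  have hwc : Continuous w := continuous_iff_continuousAt.mpr fun x => (hdw x).continuousAt
  have hw'c : Continuous w' := by
    rw [hw']; exact Continuous.div (by fun_prop) (by fun_prop) hφ2
  have hw0 : ∀ x, u x = 0 → w x = 0 := fun x hx => by simp [hw, hx]
  have hw'0 : ∀ x, u x = 0 → deriv u x = 0 → w' x = 0 := fun x hx hx' => by simp [hw', hx, hx']
  have huw : ∀ x, u x = φ x * w x := fun x => by
    rw [hw]; field_simp [hφ' x]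
  -- integrability
  have iU : Integrable fun x => u x ^ 2 :=
    integrable_of_supp h2 (by fun_prop) fun x hx _ => by simp [hx]
  have iA : Integrable fun x => φ x * u x :=
    integrable_of_supp h2 (by fun_prop) fun x hx _ => by simp [hx]
  have iB : Integrable fun x => φ x * g x * u x :=
    integrable_of_supp h2 (by fun_prop) fun x hx _ => by simp [hx]
  have iE : Integrable fun x => 1 / 2 * deriv u x ^ 2 + W x * u x ^ 2 :=
    integrable_of_supp h2 (by fun_prop) fun x hx hx' => by simp [hx, hx']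
  have iD : Integrable fun x => φ x ^ 2 * w' x ^ 2 :=
    integrable_of_supp h2 (by fun_prop) fun x hx hx' => by simp [hw'0 x hx hx']
  have iP : Integrable fun x => p x * w' x :=
    integrable_of_supp h2 (by fun_prop) fun x hx hx' => by simp [hw'0 x hx hx']
  have iN := h.int_φ hβ hr
  have iG := h.int_φg hβ h16 hr
  have iC := h.int_cross hβ h16 hr
  have iQ := h.int_pp hβ h16 hr
  -- energy identity
  have hE : (∫ x, φ x ^ 2 * w' x ^ 2) = 2 * ∫ x, (1 / 2 * deriv u x ^ 2 + W x * u x ^ 2) := by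
    have key := integral_eq_zero_of_hasDerivAt_of_integrable
      (f := fun x => φ1 x / φ x * (u x * u x))
      (f' := fun x => 2 * (1 / 2 * deriv u x ^ 2 + W x * u x ^ 2) - φ x ^ 2 * w' x ^ 2)
      (fun x => ((((h.dφ1 x).div (h.dφ x) (hφ' x)).mul ((hdu x).mul (hdu x)))).congr_deriv (by
        have := hφ' x
        simp only [hw', Pi.div_apply, Pi.mul_apply]
        field_simp
        ring))
      ((iE.const_mul 2).sub iD)
      (integrable_of_supp h2 ((hc1.div hc hφ').mul (hu.mul hu)) fun x hx _ => by simp [hx])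
    rw [integral_sub (iE.const_mul 2) iD, integral_const_mul] at key
    linarith
  have hP : (∫ x, p x * w' x) = ∫ x, φ x * g x * u x := by
    have key := integral_eq_zero_of_hasDerivAt_of_integrable
      (f := fun x => p x * w x)
      (f' := fun x => p x * w' x - φ x * g x * u x)
      (fun x => ((h.dp x).mul (hdw x)).congr_deriv (by rw [huw x]; ring))
      (iP.sub iB)
      (integrable_of_supp h2 (hp.mul hwc) fun x hx _ => by simp [hw0 x hx])
    rw [integral_sub iP iB] at key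
    linarith
  have hQ := h.pp_eq hβ h16 hr
  have hC := h.cross_eq
  -- the shifted function
  obtain ⟨a, ha⟩ : ∃ a, a = (w x₀ + w (-x₀)) / 2 := ⟨_, rfl⟩
  obtain ⟨b, hb⟩ : ∃ b, b = (w x₀ - w (-x₀)) / (2 * g x₀) := ⟨_, rfl⟩
  have e1 : (fun x => φ x ^ 2 * (w x - a - b * g x) ^ 2) = fun x =>
      u x ^ 2 + a ^ 2 * φ x ^ 2 + b ^ 2 * (φ x * g x) ^ 2 - 2 * a * (φ x * u x) -
        2 * b * (φ x * g x * u x) + 2 * a * b * (φ x ^ 2 * g x) := by
    funext x; rw [huw x]; ring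
  have e2 : (fun x => φ x ^ 2 * (w' x - b * (2 * lam * p x / φ x ^ 2)) ^ 2) = fun x =>
      φ x ^ 2 * w' x ^ 2 - 4 * lam * b * (p x * w' x) +
        2 * lam * b ^ 2 * (p x * (2 * lam * p x / φ x ^ 2)) := by
    funext x
    have := hφ' x
    field_simp
    ring
  have j1 : Integrable fun x => u x ^ 2 + a ^ 2 * φ x ^ 2 := iU.add (iN.const_mul (a ^ 2))
  have j2 : Integrable fun x => u x ^ 2 + a ^ 2 * φ x ^ 2 + b ^ 2 * (φ x * g x) ^ 2 :=
    j1.add (iG.const_mul (b ^ 2))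
  have j3 : Integrable fun x => u x ^ 2 + a ^ 2 * φ x ^ 2 + b ^ 2 * (φ x * g x) ^ 2 -
      2 * a * (φ x * u x) := j2.sub (iA.const_mul (2 * a))
  have j4 : Integrable fun x => u x ^ 2 + a ^ 2 * φ x ^ 2 + b ^ 2 * (φ x * g x) ^ 2 -
      2 * a * (φ x * u x) - 2 * b * (φ x * g x * u x) := j3.sub (iB.const_mul (2 * b))
  have j5 := j4.add (iC.const_mul (2 * a * b))
  have k1 : Integrable fun x => φ x ^ 2 * w' x ^ 2 - 4 * lam * b * (p x * w' x) :=
    iD.sub (iP.const_mul (4 * lam * b))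
  have k2 := k1.add (iQ.const_mul (2 * lam * b ^ 2))
  have key := h.poincare hx hβ h16 hr hm (v := fun x => w x - a - b * g x)
    (v' := fun x => w' x - b * (2 * lam * p x / φ x ^ 2))
    (fun x => ((hdw x).sub_const a).sub ((h.dg x).const_mul b))
    (hw'c.sub (continuous_const.mul (Continuous.div (by fun_prop) (by fun_prop) hφ2)))
    (by simp only [ha, hb]; field_simp; ring)
    (by simp only [ha, hb, h.g_odd]; field_simp; ring)
    (by rw [e1]; exact j5) (by rw [e2]; exact k2)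
  rw [e1, e2, integral_add j4 (iC.const_mul _), integral_sub j3 (iB.const_mul _),
    integral_sub j2 (iA.const_mul _), integral_add j1 (iG.const_mul _),
    integral_add iU (iN.const_mul _), integral_add k1 (iQ.const_mul _),
    integral_sub iD (iP.const_mul _)] at key
  simp only [integral_const_mul] at key
  rw [hE, hP, hQ, hC] at key
  have hN : 0 < ∫ x, φ x ^ 2 :=
    integral_pos_of_integrable_nonneg_nonzero (x := 0) (by fun_prop) iN (fun x => sq_nonneg _)
      (hφ2 0)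
  have hG : 0 < ∫ x, (φ x * g x) ^ 2 :=
    integral_pos_of_integrable_nonneg_nonzero (x := x₀) (by fun_prop) iG (fun x => sq_nonneg _)
      (pow_pos (mul_pos (hφ x₀) hg0) 2).ne'
  generalize (∫ x, u x ^ 2) = U at *
  generalize (∫ x, φ x * u x) = A at *
  generalize (∫ x, φ x * g x * u x) = B at *
  generalize (∫ x, φ x ^ 2) = N at *
  generalize (∫ x, (φ x * g x) ^ 2) = G at *
  generalize (∫ x, (1 / 2 * deriv u x ^ 2 + W x * u x ^ 2)) = E at *
  have f1 : 2 * lam * A ^ 2 / N =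
      2 * lam * ((a * N - A) ^ 2 / N) - 2 * lam * (a ^ 2 * N - 2 * a * A) := by
    field_simp
    ring
  have f2 : lam * B ^ 2 / G = lam * ((b * G - B) ^ 2 / G) - lam * (b ^ 2 * G - 2 * b * B) := by
    field_simp
    ring
  have f3 : 0 ≤ 2 * lam * ((a * N - A) ^ 2 / N) := by positivity
  have f4 : 0 ≤ lam * ((b * G - B) ^ 2 / G) := by positivity
  rw [f1, f2]
  nlinarith

end Crest.Agent.R338
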