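import Crest.Agent.R338.Defs2

/-! Row 338: a piecewise polynomial smooth step, bumps and cut-offs. -/

set_option autoImplicit false

open MeasureTheory

namespace Crest.Agent.R338

/-- The `j`-th derivative of `P x = 923780 ∫₀ˣ (t (1 - t))⁹ dt`. -/
def Sp {K : Type} [Field K] (j : ℕ) (x : K) : K :=
  ∑ i ∈ Finset.range 10, (923780 * (-1) ^ i * (Nat.choose 9 i : K) / ((10 + i : ℕ) : K)) *
    ((10 + i).descFactorial j : K) * x ^ (10 + i - j)

/-- `Sd 0` is the smooth step (`0` on `x ≤ 0`, `1` on `x ≥ 1`), `Sd j` its `j`-th derivative. -/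
noncomputable def Sd (j : ℕ) (x : ℝ) : ℝ := Sp j (max 0 (min x 1))

/-- Even bump of mass one supported in `[-σ/2, σ/2]`. -/
noncomputable def bs (σ x : ℝ) : ℝ := Sd 1 (x / σ + 1 / 2) / σ

/-- Even cut-off: `1` on `[-a, a]`, `0` outside `(-a - l, a + l)`. -/
noncomputable def cut (a l x : ℝ) : ℝ := Sd 0 ((a + l - x) / l) * Sd 0 ((a + l + x) / l)

theorem Sp_hasDerivAt (j : ℕ) (x : ℝ) : HasDerivAt (Sp j) (Sp (j + 1) x) x := by
  refine HasDerivAt.fun_sum fun i _ => ?_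
  refine ((hasDerivAt_pow (10 + i - j) x).const_mul
    (923780 * (-1) ^ i * (Nat.choose 9 i : ℝ) / ((10 + i : ℕ) : ℝ) *
      ((10 + i).descFactorial j : ℝ))).congr_deriv ?_
  rw [Nat.descFactorial_succ, Nat.sub_add_eq]
  push_cast
  ring

theorem Sp_zero {j : ℕ} (hj : j ≤ 9) : Sp j (0 : ℝ) = 0 :=
  Finset.sum_eq_zero fun i _ => by rw [zero_pow (by omega), mul_zero]

theorem Sp_one {j : ℕ} (hj : j ≤ 9) : Sp j (1 : ℝ) = if j = 0 then 1 else 0 := by
  interval_cases j <;> norm_num [Sp, Finset.sum_range_succ, Nat.choose, Nat.descFactorial]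

theorem Sp_one_eq (x : ℝ) : Sp 1 x = 923780 * (x * (1 - x)) ^ 9 := by
  norm_num [Sp, Finset.sum_range_succ, Nat.choose, Nat.descFactorial]
  ring

theorem step_clamp (x : ℝ) : 0 ≤ max 0 (min x 1) ∧ max 0 (min x 1) ≤ 1 :=
  ⟨le_max_left _ _, max_le zero_le_one (min_le_right _ _)⟩

theorem Sd_eq_lo (j : ℕ) {x : ℝ} (hx : x ≤ 0) : Sd j x = Sp j 0 := by
  rw [Sd, max_eq_left ((min_le_left _ _).trans hx)]

theorem Sd_eq_mid (j : ℕ) {x : ℝ} (h0 : 0 ≤ x) (h1 : x ≤ 1) : Sd j x = Sp j x := by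
  rw [Sd, min_eq_left h1, max_eq_right h0]

theorem Sd_eq_hi (j : ℕ) {x : ℝ} (hx : 1 ≤ x) : Sd j x = Sp j 1 := by
  rw [Sd, min_eq_right hx, max_eq_right zero_le_one]

theorem Sd_hasDerivAt {j : ℕ} (hj : j ≤ 8) (x : ℝ) : HasDerivAt (Sd j) (Sd (j + 1) x) x := by
  have key : ∀ S : Set ℝ, IsClosed S → (x ∈ S → HasDerivWithinAt (Sd j) (Sd (j + 1) x) S x) →
      HasDerivWithinAt (Sd j) (Sd (j + 1) x) S x := fun S hS h => by
    by_cases hx : x ∈ S
    · exact h hx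
    · exact hasDerivWithinAt_iff_hasFDerivWithinAt.2
        (HasFDerivWithinAt.of_notMem_closure (by rwa [hS.closure_eq]))
  have h1 := key (Set.Iic 0) isClosed_Iic fun hx => by
    rw [Sd_eq_lo _ hx, Sp_zero (by omega)]
    exact (hasDerivWithinAt_const x _ (Sp j 0)).congr (fun y hy => Sd_eq_lo j hy) (Sd_eq_lo j hx)
  have h2 := key (Set.Icc 0 1) isClosed_Icc fun hx => by
    rw [Sd_eq_mid _ hx.1 hx.2]
    exact (Sp_hasDerivAt j x).hasDerivWithinAt.congr (fun y hy => Sd_eq_mid j hy.1 hy.2)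
      (Sd_eq_mid j hx.1 hx.2)
  have h3 := key (Set.Ici 1) isClosed_Ici fun hx => by
    rw [Sd_eq_hi _ hx, Sp_one (by omega), if_neg (by omega)]
    exact (hasDerivWithinAt_const x _ (Sp j 1)).congr (fun y hy => Sd_eq_hi j hy) (Sd_eq_hi j hx)
  have h := (h1.union h2).union h3
  rwa [Set.Iic_union_Icc_eq_Iic zero_le_one, Set.Iic_union_Ici, hasDerivWithinAt_univ] at h

theorem Sd_continuous (j : ℕ) : Continuous (Sd j) := by
  exact (continuous_iff_continuousAt.2 fun x => (Sp_hasDerivAt j x).continuousAt).comp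
    (by fun_prop)

theorem Sd_contDiff {j k : ℕ} (h : j + k ≤ 9) : ContDiff ℝ k (Sd j) := by
  induction k generalizing j with
  | zero => exact contDiff_zero.2 (Sd_continuous j)
  | succ k ih =>
    have e : deriv (Sd j) = Sd (j + 1) := funext fun x => (Sd_hasDerivAt (by omega) x).deriv
    rw [Nat.cast_succ, contDiff_succ_iff_deriv, e]
    exact ⟨fun x => (Sd_hasDerivAt (by omega) x).differentiableAt, by simp, ih (by omega)⟩

theorem Sd_iteratedDeriv {j k : ℕ} (h : j + k ≤ 9) : iteratedDeriv k (Sd j) = Sd (j + k) := by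
  induction k with
  | zero => simp
  | succ k ih =>
    rw [iteratedDeriv_succ, ih (by omega)]
    exact funext fun x => (Sd_hasDerivAt (by omega) x).deriv

theorem Sd_of_nonpos {j : ℕ} (hj : j ≤ 9) {x : ℝ} (hx : x ≤ 0) : Sd j x = 0 := by
  rw [Sd_eq_lo _ hx, Sp_zero hj]

theorem Sd_zero_of_one_le {x : ℝ} (hx : 1 ≤ x) : Sd 0 x = 1 := by
  rw [Sd_eq_hi _ hx, Sp_one (by omega), if_pos rfl]

theorem Sd_of_one_le {j : ℕ} (hj : 1 ≤ j) (hj' : j ≤ 9) {x : ℝ} (hx : 1 ≤ x) : Sd j x = 0 := by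
  rw [Sd_eq_hi _ hx, Sp_one hj', if_neg (by omega)]

theorem Sd_one_eq {x : ℝ} (h0 : 0 ≤ x) (h1 : x ≤ 1) : Sd 1 x = 923780 * (x * (1 - x)) ^ 9 := by
  rw [Sd_eq_mid _ h0 h1, Sp_one_eq]

theorem Sd_one_nonneg (x : ℝ) : 0 ≤ Sd 1 x := by
  obtain ⟨h0, h1⟩ := step_clamp x
  rw [Sd, Sp_one_eq]
  have := mul_nonneg h0 (sub_nonneg.2 h1)
  positivity

theorem Sd_one_le (x : ℝ) : Sd 1 x ≤ 4 := by
  obtain ⟨h0, h1⟩ := step_clamp x
  rw [Sd, Sp_one_eq]
  generalize max 0 (min x 1) = y at h0 h1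
  have h2 : (y * (1 - y)) ^ 9 ≤ (1 / 4) ^ 9 :=
    pow_le_pow_left₀ (mul_nonneg h0 (sub_nonneg.2 h1)) (by nlinarith [sq_nonneg (y - 1 / 2)]) 9
  linarith [show (923780 : ℝ) * (1 / 4) ^ 9 ≤ 4 by norm_num]

theorem Sd_zero_mono : Monotone (Sd 0) := by
  exact monotone_of_hasDerivAt_nonneg (fun x => Sd_hasDerivAt (j := 0) (by omega) x)
    fun x => Sd_one_nonneg x

theorem Sd_zero_nonneg (x : ℝ) : 0 ≤ Sd 0 x := by
  rw [← Sd_of_nonpos (j := 0) (by omega) (min_le_right x 0)]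
  exact Sd_zero_mono (min_le_left _ _)

theorem Sd_zero_le_one (x : ℝ) : Sd 0 x ≤ 1 := by
  rw [← Sd_zero_of_one_le (le_max_right x 1)]
  exact Sd_zero_mono (le_max_left _ _)

theorem Sd_one_symm (x : ℝ) : Sd 1 (1 - x) = Sd 1 x := by
  rcases le_total x 0 with h | h
  · rw [Sd_of_nonpos (by omega) h, Sd_of_one_le le_rfl (by omega) (by linarith)]
  rcases le_total 1 x with h' | h'
  · rw [Sd_of_one_le le_rfl (by omega) h', Sd_of_nonpos (by omega) (by linarith)]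
  rw [Sd_one_eq h h', Sd_one_eq (by linarith) (by linarith)]
  ring

theorem Sd_zero_symm (x : ℝ) : Sd 0 (1 - x) = 1 - Sd 0 x := by
  have h : ∀ y, HasDerivAt (fun y => Sd 0 (1 - y) + Sd 0 y) 0 y := fun y => by
    have h1 := ((Sd_hasDerivAt (j := 0) (by omega) (1 - y)).comp_const_sub 1 y).add
      (Sd_hasDerivAt (j := 0) (by omega) y)
    rwa [zero_add, Sd_one_symm, neg_add_cancel] at h1
  have h2 := is_const_of_deriv_eq_zero (fun y => (h y).differentiableAt) (fun y => (h y).deriv) x 0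
  simp only [sub_zero, Sd_zero_of_one_le le_rfl, Sd_of_nonpos (j := 0) (by omega) le_rfl] at h2
  linarith

theorem Sd_abs_le {j : ℕ} (hj : j ≤ 9) (x : ℝ) : |Sd j x| ≤ 10 ^ 21 := by
  obtain ⟨h0, h1⟩ := step_clamp x
  rw [Sd]
  generalize max 0 (min x 1) = y at h0 h1
  refine (Finset.abs_sum_le_sum_abs _ _).trans ((Finset.sum_le_card_nsmul _ _ (10 ^ 20)
    fun i hi => ?_).trans (by norm_num))
  have hi' := Finset.mem_range.1 hi
  have a1 : (Nat.choose 9 i : ℝ) ≤ 126 := by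
    exact_mod_cast (Nat.choose_le_middle i 9).trans (by decide)
  have a2 : ((10 + i).descFactorial j : ℝ) ≤ 19 ^ 9 := by
    exact_mod_cast (Nat.descFactorial_le_pow _ _).trans
      ((Nat.pow_le_pow_left (by omega) _).trans (Nat.pow_le_pow_right (by omega) hj))
  have a3 : y ^ (10 + i - j) ≤ 1 := pow_le_one₀ h0 h1
  have a4 : (1 : ℝ) ≤ ((10 + i : ℕ) : ℝ) := by exact_mod_cast (by omega)
  simp only [abs_mul, abs_div, abs_pow, abs_neg, abs_one, one_pow, mul_one, Nat.abs_cast,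
    abs_of_nonneg h0, Nat.abs_ofNat]
  calc (923780 : ℝ) * (Nat.choose 9 i) / ((10 + i : ℕ) : ℝ) *
        (10 + i).descFactorial j * y ^ (10 + i - j) ≤ 923780 * 126 / 1 * 19 ^ 9 * 1 := by
        gcongr
    _ ≤ 10 ^ 20 := by norm_num

section bs

variable {σ : ℝ}

theorem bs_nonneg (hσ : 0 < σ) (x : ℝ) : 0 ≤ bs σ x := by
  exact div_nonneg (Sd_one_nonneg _) hσ.le

theorem bs_le (hσ : 0 < σ) (x : ℝ) : bs σ x ≤ 4 / σ := by
  exact div_le_div_of_nonneg_right (Sd_one_le _) hσ.le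

theorem bs_neg (hσ : 0 < σ) (x : ℝ) : bs σ (-x) = bs σ x := by
  rw [bs, bs, ← Sd_one_symm]
  congr 2
  ring

theorem bs_eq_zero (hσ : 0 < σ) {x : ℝ} (hx : σ / 2 ≤ |x|) : bs σ x = 0 := by
  have h : 1 / 2 ≤ |x| / σ := by rw [le_div_iff₀ hσ]; linarith
  have h2 : bs σ |x| = 0 := by rw [bs, Sd_of_one_le le_rfl (by omega) (by linarith), zero_div]
  rcases abs_choice x with e | e
  · rwa [e] at h2
  · rwa [e, bs_neg hσ] at h2

theorem bs_contDiff (σ : ℝ) : ContDiff ℝ 8 (bs σ) := by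
  exact ((Sd_contDiff (j := 1) (k := 8) le_rfl).comp (by fun_prop)).div_const σ

theorem bs_hasCompactSupport (hσ : 0 < σ) : HasCompactSupport (bs σ) := by
  refine HasCompactSupport.intro (isCompact_Icc (a := -(σ / 2)) (b := σ / 2)) fun x hx =>
    bs_eq_zero hσ (le_of_not_gt fun h => hx (abs_le.1 h.le))

theorem hasDerivAt_Sd_bs (σ a x : ℝ) :
    HasDerivAt (fun y => Sd 0 ((y - a) / σ + 1 / 2)) (bs σ (x - a)) x := by
  have h := (Sd_hasDerivAt (j := 0) (by omega) ((x - a) / σ + 1 / 2)).comp x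
    ((((hasDerivAt_id x).sub_const a).div_const σ).add_const (1 / 2))
  rwa [mul_one_div] at h

theorem bs_intervalIntegral (σ a s t : ℝ) : ∫ x in s..t, bs σ (x - a) =
    Sd 0 ((t - a) / σ + 1 / 2) - Sd 0 ((s - a) / σ + 1 / 2) :=
  intervalIntegral.integral_eq_sub_of_hasDerivAt (fun x _ => hasDerivAt_Sd_bs σ a x)
    (((bs_contDiff σ).continuous.comp (continuous_sub_right a)).intervalIntegrable _ _)

theorem bs_integral (hσ : 0 < σ) (a : ℝ) : ∫ x, bs σ (x - a) = 1 := by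
  rw [← intervalIntegral.integral_eq_integral_of_support_subset (a := a - σ / 2) (b := a + σ / 2)
    fun x hx => ?_, bs_intervalIntegral, Sd_zero_of_one_le (le_of_eq (by field_simp; ring)),
    Sd_of_nonpos (by omega) (le_of_eq (by field_simp; ring)), sub_zero]
  have h := abs_lt.1 (lt_of_not_ge fun h => hx (bs_eq_zero hσ h))
  exact ⟨by linarith [h.1], by linarith [h.2]⟩

theorem bs_intervalIntegral_le (hσ : 0 < σ) (a : ℝ) {s t : ℝ} (h : s ≤ t) :
    ∫ x in s..t, bs σ (x - a) ≤ 1 := by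
  rw [bs_intervalIntegral]
  linarith [Sd_zero_le_one ((t - a) / σ + 1 / 2), Sd_zero_nonneg ((s - a) / σ + 1 / 2)]

end bs

section cut

variable {a l : ℝ}

theorem cut_nonneg (a l x : ℝ) : 0 ≤ cut a l x := by
  exact mul_nonneg (Sd_zero_nonneg _) (Sd_zero_nonneg _)

theorem cut_le_one (a l x : ℝ) : cut a l x ≤ 1 := by
  exact mul_le_one₀ (Sd_zero_le_one _) (Sd_zero_nonneg _) (Sd_zero_le_one _)

theorem cut_neg (a l x : ℝ) : cut a l (-x) = cut a l x := by
  rw [cut, cut, mul_comm, sub_neg_eq_add, ← sub_eq_add_neg]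

theorem cut_eq_one (hl : 0 < l) {x : ℝ} (hx : |x| ≤ a) : cut a l x = 1 := by
  have h := abs_le.1 hx
  rw [cut, Sd_zero_of_one_le ((one_le_div hl).2 (by linarith [h.2])),
    Sd_zero_of_one_le ((one_le_div hl).2 (by linarith [h.1])), mul_one]

theorem cut_eq_zero (hl : 0 < l) {x : ℝ} (hx : a + l ≤ |x|) : cut a l x = 0 := by
  rcases le_abs.1 hx with h | h
  · rw [cut, Sd_of_nonpos (by omega) (div_nonpos_of_nonpos_of_nonneg (by linarith) hl.le), zero_mul]
  · rw [cut, Sd_of_nonpos (x := (a + l + x) / l) (by omega)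
      (div_nonpos_of_nonpos_of_nonneg (by linarith) hl.le), mul_zero]

theorem cut_contDiff (a l : ℝ) : ContDiff ℝ 9 (cut a l) := by
  exact ((Sd_contDiff (j := 0) (k := 9) le_rfl).comp (by fun_prop)).mul
    ((Sd_contDiff (j := 0) (k := 9) le_rfl).comp (by fun_prop))

theorem cut_hasCompactSupport (hl : 0 < l) : HasCompactSupport (cut a l) := by
  refine HasCompactSupport.intro (isCompact_Icc (a := -(a + l)) (b := a + l)) fun x hx =>
    cut_eq_zero hl (le_of_not_gt fun h => hx (abs_le.1 h.le))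

theorem Sd_aff_contDiff (b c : ℝ) : ContDiff ℝ 9 fun x => Sd 0 (b + c * x) :=
  (Sd_contDiff (j := 0) (k := 9) le_rfl).comp (by fun_prop)

theorem Sd_aff_iteratedDeriv (b c : ℝ) {j : ℕ} (hj : j ≤ 9) (x : ℝ) :
    iteratedDeriv j (fun x => Sd 0 (b + c * x)) x = c ^ j * Sd j (b + c * x) := by
  have h : ContDiff ℝ j fun z => Sd 0 (b + z) :=
    (Sd_contDiff (j := 0) (k := j) (by omega)).comp (by fun_prop)
  rw [iteratedDeriv_comp_const_mul h c, iteratedDeriv_comp_const_add,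
    Sd_iteratedDeriv (by omega), zero_add]

theorem cut_iteratedDeriv (a l : ℝ) {j : ℕ} (hj : j ≤ 9) (x : ℝ) :
    iteratedDeriv j (cut a l) x = ∑ i ∈ Finset.range (j + 1), j.choose i *
      ((-l⁻¹) ^ i * Sd i ((a + l - x) / l)) * (l⁻¹ ^ (j - i) * Sd (j - i) ((a + l + x) / l)) := by
  have e1 : ∀ y, (a + l - y) / l = (a + l) / l + -l⁻¹ * y := fun y => by ring
  have e2 : ∀ y, (a + l + y) / l = (a + l) / l + l⁻¹ * y := fun y => by ring
  have hj' : (j : WithTop ℕ∞) ≤ 9 := by exact_mod_cast hj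
  have e : cut a l = fun y => Sd 0 ((a + l) / l + -l⁻¹ * y) * Sd 0 ((a + l) / l + l⁻¹ * y) := by
    funext y; rw [cut, e1, e2]
  rw [e, iteratedDeriv_fun_mul ((Sd_aff_contDiff _ _).of_le hj').contDiffAt
    ((Sd_aff_contDiff _ _).of_le hj').contDiffAt, e1, e2]
  refine Finset.sum_congr rfl fun i hi => ?_
  have := Finset.mem_range.1 hi
  rw [Sd_aff_iteratedDeriv _ _ (by omega), Sd_aff_iteratedDeriv _ _ (by omega)]

theorem cut_iteratedDeriv_le (hl : 0 < l) {j : ℕ} (hj : j ≤ 9) (x : ℝ) :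
    |iteratedDeriv j (cut a l) x| ≤ 10 ^ 45 / l ^ j := by
  rw [cut_iteratedDeriv a l hj]
  refine (Finset.abs_sum_le_sum_abs _ _).trans ((Finset.sum_le_sum
    (g := fun i => (j.choose i : ℝ) * (10 ^ 42 / l ^ j)) fun i hi => ?_).trans ?_)
  · have hi' := Finset.mem_range.1 hi
    have e : (10 : ℝ) ^ 42 / l ^ j = l⁻¹ ^ i * 10 ^ 21 * (l⁻¹ ^ (j - i) * 10 ^ 21) := by
      rw [mul_mul_mul_comm, ← pow_add, Nat.add_sub_cancel' (by omega), inv_pow]
      ring
    simp only [abs_mul, abs_pow, abs_neg, Nat.abs_cast, abs_of_pos (inv_pos.2 hl), e, ← mul_assoc]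
    gcongr
    · exact Sd_abs_le (by omega) _
    · exact Sd_abs_le (by omega) _
  · rw [← Finset.sum_mul, ← Nat.cast_sum, Nat.sum_range_choose, ← mul_div_assoc]
    have : ((2 ^ j : ℕ) : ℝ) ≤ 2 ^ 9 := by exact_mod_cast Nat.pow_le_pow_right (by omega) hj
    gcongr
    linarith

theorem cut_iteratedDeriv_eq_zero (hl : 0 < l) {j : ℕ} (hj : 1 ≤ j) (hj' : j ≤ 9) {x : ℝ}
    (hx : |x| ≤ a ∨ a + l ≤ |x|) : iteratedDeriv j (cut a l) x = 0 := by
  rw [cut_iteratedDeriv a l hj']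
  refine Finset.sum_eq_zero fun i hi => ?_
  have hi' := Finset.mem_range.1 hi
  rcases hx with hx | hx
  · have h := abs_le.1 hx
    rcases Nat.eq_zero_or_pos i with rfl | h0
    · rw [Sd_of_one_le (j := j - 0) (by omega) (by omega) ((one_le_div hl).2 (by linarith [h.1])),
        mul_zero, mul_zero]
    · rw [Sd_of_one_le h0 (by omega) ((one_le_div hl).2 (by linarith [h.2])), mul_zero, mul_zero,
        zero_mul]
  · rcases le_abs.1 hx with h | h
    · rw [Sd_of_nonpos (by omega) (div_nonpos_of_nonpos_of_nonneg (by linarith) hl.le), mul_zero,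
        mul_zero, zero_mul]
    · rw [Sd_of_nonpos (x := (a + l + x) / l) (by omega)
        (div_nonpos_of_nonpos_of_nonneg (by linarith) hl.le), mul_zero, mul_zero]

end cut

end Crest.Agent.R338
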