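import Crest.Agent.R338.XF
import Crest.Agent.R338.YF
import Crest.Agent.R338.ZF

/-! Row 338: the decomposition `V0 = -(c²/2) (…) + F1 + c F2` and the jets of `F1`, `F2`. -/

set_option autoImplicit false

open MeasureTheory Crest.MathPhysics.ElectronicCoulomb

namespace Crest.Agent.R338

/-- The part of `V0` that does not depend on `c`. -/
noncomputable def XZ.F1 (d : XZ) (N : ℕ) (x : Pos3) : ℝ :=
  ∑ m ∈ Finset.range d.n, d.coreM N m x * (d.Wx N m (x 0 - d.xm m) + d.Wy N (x 1 - 8 * m))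

/-- The part of `V0` that is linear in `c`. -/
noncomputable def XZ.F2 (d : XZ) (N : ℕ) (x : Pos3) : ℝ :=
  cube (2 ^ pJ * d.pr1 N) x - ∑ m ∈ Finset.range d.n, d.coreM N m x

theorem V0_eq (d : XZ) (N : ℕ) (c : ℝ) (x : Pos3) :
    d.V0 N c x = -(c ^ 2 / 2 * ((x 0 ^ 2 + x 1 ^ 2) * logCut (d.pr1 N) x)) + d.F1 N x +
      c * d.F2 N x := by
  simp only [XZ.V0, XZ.F1, XZ.F2, mul_sub, Finset.sum_sub_distrib, ← Finset.sum_mul]
  ring

/-- A cut-off in one coordinate. -/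
theorem PJ.cut_coord {I : Type} {s : I → ℝ} (hs : ∀ i, 2 ≤ s i) {k : ℕ} (hk : k ≤ 9)
    {a b t : I → ℝ} (h : PN s fun i => (b i)⁻¹) (x : I → Pos3) (l : Fin 3) :
    PJ k s (fun i (y : Pos3) => R338.cut (a i) (b i) (y l - t i)) x :=
  PJ.comp_coord hs l (F := fun i => R338.cut (a i) (b i)) (PJ.cut hs hk h _)

/-- A cut-off in one coordinate, without shift. -/
theorem PJ.cut_coord0 {I : Type} {s : I → ℝ} (hs : ∀ i, 2 ≤ s i) {k : ℕ} (hk : k ≤ 9)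
    {a b : I → ℝ} (h : PN s fun i => (b i)⁻¹) (x : I → Pos3) (l : Fin 3) :
    PJ k s (fun i (y : Pos3) => R338.cut (a i) (b i) (y l)) x := by
  simpa only [sub_zero] using PJ.cut_coord (a := a) (t := fun _ => 0) hs hk h x l

theorem PJ.cube {I : Type} {s : I → ℝ} (hs : ∀ i, 2 ≤ s i) {k : ℕ} (hk : k ≤ 9)
    {R : I → ℝ} (h : PN s fun i => (R i)⁻¹) (x : I → Pos3) :
    PJ k s (fun i => R338.cube (R i)) x :=
  ((PJ.cut_coord0 hs hk h x 0).mul hs (PJ.cut_coord0 hs hk h x 1)).mul hs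
    (PJ.cut_coord0 hs hk h x 2)

/-- A cut-off times a function whose jets are only controlled near the support. -/
theorem PJ.cut_mul {I : Type} {s : I → ℝ} (hs : ∀ i, 2 ≤ s i) {k : ℕ} (hk : k ≤ 9)
    {a b R : I → ℝ} (hb : ∀ i, 0 < b i) (h : PN s fun i => (b i)⁻¹) (hR : ∀ i, a i + b i ≤ R i)
    {W : I → ℝ → ℝ} {u : I → ℝ}
    (hW : PJ k (fun j : {i // |u i| ≤ R i} => s j) (fun j => W j) fun j => u j) :
    PJ k s (fun i y => R338.cut (a i) (b i) y * W i y) u := by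
  refine PJ.cases hs (fun i => |u i| ≤ R i) ?_ ?_
  · exact PJ.mul (s := fun j : {i // |u i| ≤ R i} => s j) (fun j => hs j)
      ((PJ.cut (a := a) hs hk h u).reindex Subtype.val) hW
  · refine PJ.of_eventually_zero (fun j => hs j) fun j => ?_
    have h1 : ∀ᶠ y in nhds (u j), R j < |y| :=
      continuousAt_const.eventually_lt continuous_abs.continuousAt (not_le.1 j.2)
    exact h1.mono fun y hy => by
      simp only [cut_eq_zero (hb j) ((hR j).trans hy.le), zero_mul]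

/-- Index set: an instance, a point and a molecule. -/
abbrev V0Idx : Type := Σ j : Inst × Pos3, {e : ℕ // e ∈ Finset.range j.1.1.1.n}

theorem V0Idx.two_le (j : V0Idx) : 2 ≤ j.1.1.s := j.1.1.two_le

theorem coreM_pj {k : ℕ} (hk : k ≤ 9) : PJ k (fun j : V0Idx => j.1.1.s)
    (fun j => j.1.1.1.1.coreM j.1.1.1.2 j.2.1) fun j => j.1.2 :=
  ((PJ.cut_coord V0Idx.two_le hk (PN.const V0Idx.two_le _) _ 0).mul V0Idx.two_le
    (PJ.cut_coord V0Idx.two_le hk (PN.const V0Idx.two_le _) _ 1)).mul V0Idx.two_le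
    (PJ.cut_coord0 V0Idx.two_le hk (PN.const V0Idx.two_le _) _ 2)

theorem pn_card_range_n : PN (fun j : Inst × Pos3 => j.1.s)
    fun j => ((Finset.range j.1.1.1.n).card : ℝ) :=
  (pn_n.comp Prod.fst).congr' fun j => by rw [Finset.card_range]

theorem F1_pj : PJ 6 (fun j : Inst × Pos3 => j.1.s) (fun j => j.1.1.1.F1 j.1.1.2) fun j => j.2 := by
  have hs := V0Idx.two_le
  have hx : PJ 6 (fun j : V0Idx => j.1.1.s)
      (fun j y => cut (j.1.1.1.1.pT j.1.1.1.2 + 1) 1 y * j.1.1.1.1.Wx j.1.1.1.2 j.2.1 y)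
      fun j => j.1.2 0 - j.1.1.1.1.xm j.2.1 :=
    PJ.cut_mul hs (by norm_num) (R := fun j => j.1.1.1.1.pT j.1.1.1.2 + 3) (fun _ => one_pos)
      (PN.const hs _) (fun _ => by linarith)
      (Wx_pj.reindex fun j : {j : V0Idx // |j.1.2 0 - j.1.1.1.1.xm j.2.1| ≤
        j.1.1.1.1.pT j.1.1.1.2 + 3} => ⟨j.1.1.1, ⟨j.1.2.1, Finset.mem_range.1 j.1.2.2⟩, ⟨_, j.2⟩⟩)
  have hy : PJ 6 (fun j : V0Idx => j.1.1.s)
      (fun j y => cut (5 / 2) (1 / 2) y * j.1.1.1.1.Wy j.1.1.1.2 y)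
      fun j => j.1.2 1 - 8 * (j.2.1 : ℝ) :=
    PJ.cut_mul hs (by norm_num) (R := fun _ => 7 / 2) (fun _ => by norm_num)
      (PN.const hs _) (fun _ => by norm_num)
      (Wy_pj.reindex fun j : {j : V0Idx // |j.1.2 1 - 8 * (j.2.1 : ℝ)| ≤ 7 / 2} =>
        (j.1.1.1, ⟨_, j.2⟩))
  have hx' := PJ.comp_coord hs (x := fun j : V0Idx => j.1.2) 0 hx
  have hy' := PJ.comp_coord hs (x := fun j : V0Idx => j.1.2) 1 hy
  have c0 := PJ.cut_coord (k := 6) (a := fun j : V0Idx => j.1.1.1.1.pT j.1.1.1.2 + 1)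
    (t := fun j => j.1.1.1.1.xm j.2.1) hs (by norm_num) (PN.const hs (1 : ℝ)⁻¹) (fun j => j.1.2) 0
  have c1 := PJ.cut_coord (k := 6) (a := fun _ : V0Idx => 5 / 2)
    (t := fun j => 8 * (j.2.1 : ℝ)) hs (by norm_num) (PN.const hs (1 / 2 : ℝ)⁻¹) (fun j => j.1.2) 1
  have c2 := PJ.cut_coord0 (k := 6) (a := fun _ : V0Idx => 1 / 2) hs (by norm_num)
    (PN.const hs (1 / 2 : ℝ)⁻¹) (fun j => j.1.2) 2
  refine PJ.sum (fun j : Inst × Pos3 => j.1.two_le) (fun j => Finset.range j.1.1.1.n)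
    pn_card_range_n (T := fun j m x => j.1.1.1.coreM j.1.1.2 m x *
      (j.1.1.1.Wx j.1.1.2 m (x 0 - j.1.1.1.xm m) + j.1.1.1.Wy j.1.1.2 (x 1 - 8 * m))) ?_
  refine (((hx'.mul hs c1).add hs (c0.mul hs hy')).mul hs c2).congr fun j =>
    Filter.Eventually.of_forall fun y => ?_
  simp only [XZ.coreM]
  ring

theorem pn_cubeR_inv : PN Inst.s fun i => ((2 : ℝ) ^ pJ * i.1.1.pr1 i.1.2)⁻¹ :=
  PN.inv_of_one_le fun i =>
    one_le_mul_of_one_le_of_one_le (one_le_pow₀ one_le_two) (i.2.one_le_pr1 _)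

theorem F2_pj {k : ℕ} (hk : k ≤ 9) :
    PJ k (fun j : Inst × Pos3 => j.1.s) (fun j => j.1.1.1.F2 j.1.1.2) fun j => j.2 :=
  PJ.sub (fun j : Inst × Pos3 => j.1.two_le)
    (PJ.cube (fun j : Inst × Pos3 => j.1.two_le) hk (pn_cubeR_inv.comp Prod.fst) _)
    (PJ.sum (fun j : Inst × Pos3 => j.1.two_le) (fun j => Finset.range j.1.1.1.n)
      pn_card_range_n (T := fun j m => j.1.1.1.coreM j.1.1.2 m) (coreM_pj hk))

theorem F1_sb : ∃ k : ℕ, ∀ (d : XZ) (N : ℕ), d.Valid → SB 6 (d.sz N ^ k) (d.F1 N) := by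
  obtain ⟨k, hk⟩ := F1_pj
  exact ⟨k, fun d N hv => sb_iff_jb.2 fun x => hk (⟨(d, N), hv⟩, x)⟩

theorem F2_sb : ∃ k : ℕ, ∀ (d : XZ) (N : ℕ), d.Valid → SB 6 (d.sz N ^ k) (d.F2 N) := by
  obtain ⟨k, hk⟩ := F2_pj (k := 6) (by norm_num)
  exact ⟨k, fun d N hv => sb_iff_jb.2 fun x => hk (⟨(d, N), hv⟩, x)⟩

end Crest.Agent.R338
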