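import Crest.Agent.R338.Haz
import Crest.Agent.R338.Fac

/-! Row 338: the hazard function of the first coordinate, abstractly. -/

set_option autoImplicit false

open MeasureTheory

namespace Crest.Agent.R338

section general

variable {lam ε x₀ : ℝ} {r : ℝ → ℝ}

theorem Haz.ii (h : Haz lam ε r) {a b : ℝ} (ha : 0 < a) (hab : a ≤ b) :
    IntervalIntegrable (fun t => 2 * lam / r t) volume a b := by
  apply ContinuousOn.intervalIntegrable
  rw [Set.uIcc_of_le hab]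
  exact continuousOn_const.div h.smooth.continuous.continuousOn
    fun x hx => (h.pos x (ha.trans_le hx.1)).ne'

theorem Haz.g_mono (h : Haz lam ε r) (hx : 0 < x₀) {a b : ℝ} (ha : 0 < a) (hab : a ≤ b) :
    hzG lam x₀ r a ≤ hzG lam x₀ r b := by
  rw [h.g_exp hx ha (ha.trans_le hab)]
  have h0 : 0 ≤ ∫ t in a..b, 2 * lam / r t :=
    intervalIntegral.integral_nonneg hab fun t ht =>
      div_nonneg (by linarith [h.lam_pos]) (h.pos t (ha.trans_le ht.1)).le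
  have := Real.one_le_exp h0
  nlinarith [h.g_pos hx ha]

theorem Haz.g_le_exp (h : Haz lam ε r) (hx : 0 < x₀) {a b K : ℝ} (ha : 0 < a) (hab : a ≤ b)
    (hK : ∀ t, a ≤ t → t ≤ b → 2 * lam / r t ≤ K) :
    hzG lam x₀ r b ≤ hzG lam x₀ r a * Real.exp (K * (b - a)) := by
  rw [h.g_exp hx ha (ha.trans_le hab)]
  refine mul_le_mul_of_nonneg_left (Real.exp_le_exp.2 ?_) (h.g_pos hx ha).le
  have := intervalIntegral.integral_mono_on hab (h.ii ha hab) (intervalIntegrable_const (c := K))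
    fun t ht => hK t ht.1 ht.2
  simpa [mul_comm] using this

theorem integral_inv_sub {a b c : ℝ} (hc : c < a) (hab : a ≤ b) :
    ∫ t in a..b, 1 / (t - c) = Real.log ((b - c) / (a - c)) := by
  have := intervalIntegral.integral_comp_sub_right (fun t : ℝ => 1 / t) c (a := a) (b := b)
  rw [this, integral_one_div_of_pos (by linarith) (by linarith)]

theorem ii_inv_sub {a b c : ℝ} (hc : c < a) (hab : a ≤ b) :
    IntervalIntegrable (fun t => 1 / (t - c)) volume a b := by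
  apply ContinuousOn.intervalIntegrable
  rw [Set.uIcc_of_le hab]
  exact continuousOn_const.div (by fun_prop) fun x hx => by have := hx.1; linarith [sub_pos.2 (hc.trans_le this)] 

theorem Haz.g_le_ratio (h : Haz lam ε r) (hx : 0 < x₀) {a b c : ℝ} (ha : 0 < a) (hab : a ≤ b)
    (hc : c < a) (hK : ∀ t, a ≤ t → t ≤ b → 2 * lam * (t - c) ≤ r t) :
    hzG lam x₀ r b ≤ hzG lam x₀ r a * ((b - c) / (a - c)) := by
  rw [h.g_exp hx ha (ha.trans_le hab)]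
  refine mul_le_mul_of_nonneg_left ?_ (h.g_pos hx ha).le
  have hp : 0 < (b - c) / (a - c) := div_pos (by linarith) (by linarith)
  rw [← Real.exp_log hp, Real.exp_le_exp, ← integral_inv_sub hc hab]
  refine intervalIntegral.integral_mono_on hab (h.ii ha hab) (ii_inv_sub hc hab) fun t ht => ?_
  rw [div_le_div_iff₀ (h.pos t (ha.trans_le ht.1)) (by linarith [ht.1])]
  linarith [hK t ht.1 ht.2]

theorem Haz.g_eq_ratio (h : Haz lam ε r) (hx : 0 < x₀) {a b c : ℝ} (ha : 0 < a) (hab : a ≤ b)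
    (hc : c < a) (hK : ∀ t, a ≤ t → t ≤ b → r t = 2 * lam * (t - c)) :
    hzG lam x₀ r b = hzG lam x₀ r a * ((b - c) / (a - c)) := by
  rw [h.g_exp hx ha (ha.trans_le hab)]
  congr 1
  have hp : 0 < (b - c) / (a - c) := div_pos (by linarith) (by linarith)
  rw [← Real.exp_log hp, ← integral_inv_sub hc hab]
  congr 1
  refine intervalIntegral.integral_congr fun t ht => ?_
  rw [Set.uIcc_of_le hab] at ht
  have h1 : t - c ≠ 0 := by linarith [ht.1, sub_pos.2 (hc.trans_le ht.1)]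
  have h2 := h.lam_pos.ne'
  simp only [hK t ht.1 ht.2]
  field_simp

theorem hzP_ge (r : ℝ → ℝ) (x : ℝ) : 1 - ∫ t in (0 : ℝ)..x, r t ≤ hzP r x := by
  have := Real.add_one_le_exp (-∫ t in (0 : ℝ)..x, r t)
  unfold hzP
  linarith

theorem Haz.p_le_exp (h : Haz lam ε r) {a b β : ℝ} (ha : 0 ≤ a) (hab : a ≤ b)
    (hβ : ∀ t, a ≤ t → t ≤ b → β ≤ r t) : hzP r b ≤ Real.exp (-(β * (b - a))) := by
  unfold hzP
  rw [Real.exp_le_exp, neg_le_neg_iff]
  have hc := h.smooth.continuous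
  rw [← intervalIntegral.integral_add_adjacent_intervals (hc.intervalIntegrable 0 a)
    (hc.intervalIntegrable a b)]
  have h1 : 0 ≤ ∫ t in (0 : ℝ)..a, r t := intervalIntegral.integral_nonneg ha fun t ht => by
    rcases ht.1.eq_or_lt with h0 | h0
    · rw [← h0, h.near 0 (by simpa using h.ε_pos.le)]; simp
    · exact (h.pos t h0).le
  have h2 := intervalIntegral.integral_mono_on (μ := volume) hab (intervalIntegrable_const (c := β))
    (hc.intervalIntegrable a b) fun t ht => hβ t ht.1 ht.2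
  simp only [intervalIntegral.integral_const, smul_eq_mul] at h2
  linarith


end general

noncomputable def xaL (ρ x : ℝ) : ℝ := x - ρ * Sd 0 (x - ρ + 2)

noncomputable def xaΘ (t δ ρ x : ℝ) : ℝ :=
  Sd 0 (x - 1) - Sd 0 ((x - ρ - t) / δ + 1) + Sd 0 ((x - ρ - 1) / δ)

noncomputable def xaH (lam β t δ ρ : ℝ) (b0 b1 : ℝ → ℝ) (x : ℝ) : ℝ :=
  -(2 * lam * ρ * Sd 0 (x - ρ + 2)) + β * xaΘ t δ ρ x + (t * b0 x + b1 x)

noncomputable def xaR (lam β t δ ρ : ℝ) (b0 b1 : ℝ → ℝ) (x : ℝ) : ℝ :=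
  2 * lam * x + xaH lam β t δ ρ b0 b1 x - xaH lam β t δ ρ b0 b1 (-x)

structure XA (lam β t δ ρ Xr T e : ℝ) (b0 b1 : ℝ → ℝ) : Prop where
  lam_pos : 0 < lam
  β_pos : 0 < β
  δ_pos : 0 < δ
  t_pos : 0 < t
  t_le : t ≤ e
  e_le : e ≤ 1 / 10 ^ 8
  δ_le : δ ≤ t * e
  ρ_ge : 10 ≤ ρ
  Xr_ge : ρ + 2 ≤ Xr
  T_ge : Xr ≤ T
  lam_le : lam * (T + 3) ≤ 3 * β * e
  β_le : β * Xr ≤ t * e
  c0 : ContDiff ℝ 8 b0
  c1 : ContDiff ℝ 8 b1
  n0 : ∀ x, 0 ≤ b0 x
  n1 : ∀ x, 0 ≤ b1 x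
  s0 : ∀ x, b0 x ≠ 0 → 2 ≤ x ∧ x ≤ ρ - 2
  s1 : ∀ x, b1 x ≠ 0 → ρ + 2 ≤ x ∧ x ≤ Xr
  mass : ∀ a b, a ≤ b → ∫ x in a..b, (b0 x + b1 x) ≤ e

namespace XA

variable {lam β t δ ρ Xr T e : ℝ} {b0 b1 : ℝ → ℝ}

theorem e_pos (h : XA lam β t δ ρ Xr T e b0 b1) : 0 < e := h.t_pos.trans_le h.t_le

theorem δ_lt (h : XA lam β t δ ρ Xr T e b0 b1) : δ ≤ t / 2 := by
  have := h.δ_le
  have := h.e_le
  have := h.t_pos
  nlinarith

theorem lam_small (h : XA lam β t δ ρ Xr T e b0 b1) : 100 * lam ≤ β := by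
  have h1 := h.lam_le
  have h2 := h.e_le
  have h3 := h.β_pos
  have h4 := h.lam_pos
  have : 1 ≤ T + 3 := by linarith [h.ρ_ge, h.Xr_ge, h.T_ge]
  nlinarith

theorem β_small (h : XA lam β t δ ρ Xr T e b0 b1) : β ≤ 1 / 100 := by
  have h1 := h.β_le
  have h2 := h.e_le
  have h3 := h.β_pos
  have h4 := h.t_le
  have h5 := h.t_pos
  have : 1 ≤ Xr := by linarith [h.ρ_ge, h.Xr_ge]
  nlinarith

theorem b0_zero (h : XA lam β t δ ρ Xr T e b0 b1) {x : ℝ} (hx : x < 2 ∨ ρ - 2 < x) : b0 x = 0 := by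
  by_contra h0
  have := h.s0 x h0
  rcases hx with hx | hx <;> linarith [this.1, this.2]

theorem b1_zero (h : XA lam β t δ ρ Xr T e b0 b1) {x : ℝ} (hx : x < ρ + 2 ∨ Xr < x) : b1 x = 0 := by
  by_contra h0
  have := h.s1 x h0
  rcases hx with hx | hx <;> linarith [this.1, this.2]

theorem S2_zero (h : XA lam β t δ ρ Xr T e b0 b1) {x : ℝ} (hx : x ≤ ρ + t - δ) :
    Sd 0 ((x - ρ - t) / δ + 1) = 0 := by
  apply Sd_of_nonpos (by norm_num)
  have : (x - ρ - t) / δ ≤ -1 := by rw [div_le_iff₀ h.δ_pos]; linarith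
  linarith

theorem S2_one (h : XA lam β t δ ρ Xr T e b0 b1) {x : ℝ} (hx : ρ + t ≤ x) :
    Sd 0 ((x - ρ - t) / δ + 1) = 1 := by
  apply Sd_zero_of_one_le
  have : 0 ≤ (x - ρ - t) / δ := div_nonneg (by linarith) h.δ_pos.le
  linarith

theorem S3_zero (h : XA lam β t δ ρ Xr T e b0 b1) {x : ℝ} (hx : x ≤ ρ + 1) :
    Sd 0 ((x - ρ - 1) / δ) = 0 :=
  Sd_of_nonpos (by norm_num) (div_nonpos_of_nonpos_of_nonneg (by linarith) h.δ_pos.le)

theorem S3_one (h : XA lam β t δ ρ Xr T e b0 b1) {x : ℝ} (hx : ρ + 1 + δ ≤ x) :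
    Sd 0 ((x - ρ - 1) / δ) = 1 := by
  apply Sd_zero_of_one_le
  rw [le_div_iff₀ h.δ_pos]
  linarith

theorem t_small (h : XA lam β t δ ρ Xr T e b0 b1) : t ≤ 1 / 100 := by
  linarith [h.t_le, h.e_le]

theorem Θ_zero (h : XA lam β t δ ρ Xr T e b0 b1) {x : ℝ} (hx : x ≤ 1) : xaΘ t δ ρ x = 0 := by
  have := h.ρ_ge
  have := h.δ_lt
  have := h.t_pos
  rw [xaΘ, h.S2_zero (by linarith), h.S3_zero (by linarith),
    Sd_of_nonpos (by norm_num) (by linarith)]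
  ring

theorem Θ_bd (h : XA lam β t δ ρ Xr T e b0 b1) (x : ℝ) : 0 ≤ xaΘ t δ ρ x ∧ xaΘ t δ ρ x ≤ 1 := by
  have := h.ρ_ge
  have := h.δ_lt
  have := h.t_pos
  have := h.t_small
  have := h.δ_pos
  unfold xaΘ
  rcases le_total x (ρ + t - δ) with hx | hx
  · rw [h.S2_zero hx, h.S3_zero (by linarith)]
    constructor <;> linarith [Sd_zero_nonneg (x - 1), Sd_zero_le_one (x - 1)]
  · rw [Sd_zero_of_one_le (x := x - 1) (by linarith)]
    rcases le_total x (ρ + 1) with hy | hy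
    · rw [h.S3_zero hy]
      constructor <;> linarith [Sd_zero_nonneg ((x - ρ - t) / δ + 1),
        Sd_zero_le_one ((x - ρ - t) / δ + 1)]
    · rw [h.S2_one (by linarith)]
      constructor <;> linarith [Sd_zero_nonneg ((x - ρ - 1) / δ), Sd_zero_le_one ((x - ρ - 1) / δ)]

theorem Θ_one (h : XA lam β t δ ρ Xr T e b0 b1) {x : ℝ}
    (hx : (2 ≤ x ∧ x ≤ ρ + t - δ) ∨ ρ + 1 + δ ≤ x) : xaΘ t δ ρ x = 1 := by
  have := h.ρ_ge
  have := h.δ_lt
  have := h.t_pos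
  have := h.t_small
  have := h.δ_pos
  unfold xaΘ
  rcases hx with hx | hx
  · rw [h.S2_zero hx.2, h.S3_zero (by linarith [hx.2]), Sd_zero_of_one_le (by linarith [hx.1])]
    ring
  · rw [h.S2_one (by linarith), h.S3_one hx, Sd_zero_of_one_le (by linarith)]
    ring

theorem Θ_off (h : XA lam β t δ ρ Xr T e b0 b1) {x : ℝ} (h1 : ρ + t ≤ x) (h2 : x ≤ ρ + 1) :
    xaΘ t δ ρ x = 0 := by
  have := h.ρ_ge
  have := h.t_pos
  rw [xaΘ, h.S2_one h1, h.S3_zero h2, Sd_zero_of_one_le (by linarith)]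
  ring

theorem L_lo (ρ : ℝ) {x : ℝ} (hx : x ≤ ρ - 2) : xaL ρ x = x := by
  rw [xaL, Sd_of_nonpos (by norm_num) (by linarith)]
  ring

theorem L_hi (ρ : ℝ) {x : ℝ} (hx : ρ - 1 ≤ x) : xaL ρ x = x - ρ := by
  rw [xaL, Sd_zero_of_one_le (by linarith)]
  ring

theorem L_bd (h : XA lam β t δ ρ Xr T e b0 b1) (x : ℝ) : x - ρ ≤ xaL ρ x ∧ xaL ρ x ≤ x := by
  have := h.ρ_ge
  have h1 := Sd_zero_nonneg (x - ρ + 2)
  have h2 := Sd_zero_le_one (x - ρ + 2)
  unfold xaL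
  constructor <;> nlinarith

theorem H_zero (h : XA lam β t δ ρ Xr T e b0 b1) {x : ℝ} (hx : x ≤ 1) :
    xaH lam β t δ ρ b0 b1 x = 0 := by
  have := h.ρ_ge
  rw [xaH, h.Θ_zero hx, h.b0_zero (Or.inl (by linarith)), h.b1_zero (Or.inl (by linarith)),
    Sd_of_nonpos (by norm_num) (by linarith)]
  ring

/-- The part of the hazard without the bumps. -/
noncomputable def rest (lam β t δ ρ x : ℝ) : ℝ := 2 * lam * xaL ρ x + β * xaΘ t δ ρ x

theorem R_eq (h : XA lam β t δ ρ Xr T e b0 b1) {x : ℝ} (hx : -1 ≤ x) :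
    xaR lam β t δ ρ b0 b1 x = rest lam β t δ ρ x + (t * b0 x + b1 x) := by
  rw [xaR, h.H_zero (x := -x) (by linarith), xaH, rest, xaL]
  ring

theorem rest_ge_half (h : XA lam β t δ ρ Xr T e b0 b1) {x : ℝ} (h1 : 2 ≤ x) (h2 : x ≤ ρ + t - δ) :
    β / 2 ≤ rest lam β t δ ρ x := by
  rw [rest, h.Θ_one (Or.inl ⟨h1, h2⟩)]
  have := h.lam_small
  have := h.lam_pos
  have : -2 ≤ xaL ρ x := by
    rcases le_total x (ρ - 2) with hx | hx
    · rw [L_lo ρ hx]; linarith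
    · linarith [(h.L_bd x).1]
  nlinarith

theorem rest_ge_lo (h : XA lam β t δ ρ Xr T e b0 b1) {x : ℝ} (h2 : x ≤ ρ - 2) :
    2 * lam * x ≤ rest lam β t δ ρ x := by
  rw [rest, L_lo ρ h2]
  nlinarith [(h.Θ_bd x).1, h.β_pos]

theorem rest_ge_hi (h : XA lam β t δ ρ Xr T e b0 b1) (x : ℝ) :
    2 * lam * (x - ρ) ≤ rest lam β t δ ρ x := by
  rw [rest]
  nlinarith [(h.Θ_bd x).1, h.β_pos, (h.L_bd x).1, h.lam_pos]

theorem rest_ge_β (h : XA lam β t δ ρ Xr T e b0 b1) {x : ℝ} (hx : ρ + 1 + δ ≤ x) :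
    β ≤ rest lam β t δ ρ x := by
  rw [rest, h.Θ_one (Or.inr hx), L_hi ρ (by linarith [h.δ_pos])]
  nlinarith [h.lam_pos, h.δ_pos]

theorem rest_le (h : XA lam β t δ ρ Xr T e b0 b1) {x : ℝ} (hx : x ≤ T + 3) :
    rest lam β t δ ρ x ≤ 2 * β := by
  rw [rest]
  have h1 := h.lam_le
  have h2 := h.e_le
  have h3 := h.β_pos
  have : lam * xaL ρ x ≤ lam * (T + 3) :=
    mul_le_mul_of_nonneg_left ((h.L_bd x).2.trans hx) h.lam_pos.le
  nlinarith [(h.Θ_bd x).2]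

/-- A lower bound valid on `x ≥ 1`. -/
theorem rest_ge (h : XA lam β t δ ρ Xr T e b0 b1) {x : ℝ} (hx : 1 ≤ x) :
    lam * t ≤ rest lam β t δ ρ x := by
  have := h.ρ_ge
  have := h.δ_lt
  have := h.t_pos
  have := h.t_small
  have := h.lam_pos
  have := h.lam_small
  rcases le_total x (ρ - 2) with h1 | h1
  · nlinarith [h.rest_ge_lo h1]
  · rcases le_total x (ρ + t - δ) with h2 | h2
    · nlinarith [h.rest_ge_half (x := x) (by linarith) h2]
    · nlinarith [h.rest_ge_hi x]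

theorem rest_pos (h : XA lam β t δ ρ Xr T e b0 b1) {x : ℝ} (hx : 0 < x) :
    0 < rest lam β t δ ρ x := by
  rcases le_total x 1 with h1 | h1
  · exact lt_of_lt_of_le (by have := h.lam_pos; positivity) (h.rest_ge_lo (by linarith [h.ρ_ge]))
  · exact lt_of_lt_of_le (mul_pos h.lam_pos h.t_pos) (h.rest_ge h1)

theorem rest_le_R (h : XA lam β t δ ρ Xr T e b0 b1) {x : ℝ} (hx : -1 ≤ x) :
    rest lam β t δ ρ x ≤ xaR lam β t δ ρ b0 b1 x := by
  rw [h.R_eq hx]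
  nlinarith [h.n0 x, h.n1 x, h.t_pos]

theorem H_smooth (h : XA lam β t δ ρ Xr T e b0 b1) : ContDiff ℝ 8 (xaH lam β t δ ρ b0 b1) := by
  have hS : ContDiff ℝ 8 (Sd 0) := Sd_contDiff (j := 0) (k := 8) (by norm_num)
  have h0 := h.c0
  have h1 := h.c1
  unfold xaH xaΘ
  have a1 : ContDiff ℝ 8 fun x : ℝ => Sd 0 (x - ρ + 2) := hS.comp (by fun_prop)
  have a2 : ContDiff ℝ 8 fun x : ℝ => Sd 0 (x - 1) := hS.comp (by fun_prop)
  have a3 : ContDiff ℝ 8 fun x : ℝ => Sd 0 ((x - ρ - t) / δ + 1) := hS.comp (by fun_prop)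
  have a4 : ContDiff ℝ 8 fun x : ℝ => Sd 0 ((x - ρ - 1) / δ) := hS.comp (by fun_prop)
  fun_prop

theorem haz (h : XA lam β t δ ρ Xr T e b0 b1) : Haz lam 1 (xaR lam β t δ ρ b0 b1) where
  lam_pos := h.lam_pos
  ε_pos := one_pos
  smooth := by
    have h1 := h.H_smooth
    have h2 : ContDiff ℝ 8 fun x => xaH lam β t δ ρ b0 b1 (-x) := h1.comp (by fun_prop)
    unfold xaR
    fun_prop
  odd x := by simp only [xaR, neg_neg]; ring
  near x hx := by
    rw [abs_le] at hx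
    rw [xaR, h.H_zero hx.2, h.H_zero (by linarith [hx.1])]
    ring
  pos x hx := (h.rest_pos hx).trans_le (h.rest_le_R (by linarith))

end XA

end Crest.Agent.R338
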