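import Crest.Agent.R338.XFA

/-! Row 338: estimates for the factor of the first coordinate, abstractly. -/

set_option autoImplicit false

open MeasureTheory

namespace Crest.Agent.R338

namespace XA

variable {lam β t δ ρ Xr T e : ℝ} {b0 b1 : ℝ → ℝ}

local notation "rr" => xaR lam β t δ ρ b0 b1
local notation "gg" => hzG lam (ρ + 1 + δ) (xaR lam β t δ ρ b0 b1)
local notation "ff" => hzF lam (ρ + 1 + δ) (xaR lam β t δ ρ b0 b1)
local notation "pp" => hzP (xaR lam β t δ ρ b0 b1)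

theorem x0_pos (h : XA lam β t δ ρ Xr T e b0 b1) : 0 < ρ + 1 + δ := by
  linarith [h.ρ_ge, h.δ_pos]

theorem exp_le {x : ℝ} (h0 : 0 ≤ x) (h1 : x ≤ 1) : Real.exp x ≤ 1 + 2 * x := by
  have := Real.abs_exp_sub_one_le (x := x) (by rw [abs_of_nonneg h0]; exact h1)
  rw [abs_of_nonneg h0] at this
  linarith [le_abs_self (Real.exp x - 1)]

theorem g_hi (h : XA lam β t δ ρ Xr T e b0 b1) {x : ℝ} (h1 : ρ + 1 + δ ≤ x) (h2 : x ≤ T + 3) :
    1 ≤ gg x ∧ gg x ≤ 1 + 12 * e := by
  have hx := h.x0_pos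
  have hg := h.haz.g_one hx
  refine ⟨hg.symm.le.trans (h.haz.g_mono hx hx h1), ?_⟩
  have hβ := h.β_pos
  have hl := h.lam_pos
  have h3 := h.haz.g_le_exp hx hx h1 (K := 2 * lam / β) fun s hs _ =>
    div_le_div_of_nonneg_left (by linarith) hβ
      ((h.rest_ge_β hs).trans (h.rest_le_R (by linarith)))
  rw [hg, one_mul] at h3
  have h4 : 2 * lam / β * (x - (ρ + 1 + δ)) ≤ 6 * e := by
    rw [div_mul_eq_mul_div, div_le_iff₀ hβ]
    nlinarith [h.lam_le]
  have h5 := exp_le (x := 6 * e) (by linarith [h.e_pos]) (by linarith [h.e_le])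
  linarith [Real.exp_le_exp.2 h4]

theorem g_le_t (h : XA lam β t δ ρ Xr T e b0 b1) {x : ℝ} (h0 : 0 < x) (h1 : x ≤ ρ + t) :
    gg x ≤ t := by
  have hx := h.x0_pos
  have hρ := h.ρ_ge
  have ht := h.t_pos
  have ht' := h.t_small
  have h2 := h.haz.g_eq_ratio hx (a := ρ + t) (b := ρ + 1) (c := ρ) (by linarith) (by linarith)
    (by linarith) fun s hs hs' => by
      rw [h.R_eq (by linarith), rest, h.Θ_off hs hs', L_hi ρ (by linarith),
        h.b0_zero (Or.inr (by linarith)), h.b1_zero (Or.inl (by linarith))]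
      ring
  have h3 := h.haz.g_mono hx (a := ρ + 1) (b := ρ + 1 + δ) (by linarith) (by linarith [h.δ_pos])
  rw [h.haz.g_one hx, h2] at h3
  have h4 := h.haz.g_mono hx h0 h1
  have h5 : (ρ + 1 - ρ) / (ρ + t - ρ) = 1 / t := by ring_nf
  rw [h5, mul_one_div, div_le_one ht] at h3
  linarith

theorem g_two (h : XA lam β t δ ρ Xr T e b0 b1) : t * (1 - 30 * e) ≤ gg 2 := by
  have hx := h.x0_pos
  have hρ := h.ρ_ge
  have ht := h.t_pos
  have ht' := h.t_small
  have hδ := h.δ_pos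
  have hδ' := h.δ_lt
  have hβ := h.β_pos
  have hl := h.lam_pos
  have he := h.e_pos
  have he' := h.e_le
  have h2 := h.haz.g_le_ratio hx (a := ρ + t - δ) (b := ρ + 1 + δ) (c := ρ) (by linarith)
    (by linarith) (by linarith) fun s hs _ => (h.rest_ge_hi s).trans (h.rest_le_R (by linarith))
  rw [h.haz.g_one hx, ← mul_div_assoc, le_div_iff₀ (by linarith)] at h2
  have h3 := h.haz.g_le_exp hx (a := 2) (b := ρ + t - δ) (K := 4 * lam / β) two_pos (by linarith)
    fun s hs hs' => by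
      have := (h.rest_ge_half hs hs').trans (h.rest_le_R (by linarith))
      rw [div_le_div_iff₀ (by linarith) hβ]
      nlinarith
  have h4 : 4 * lam / β * (ρ + t - δ - 2) ≤ 12 * e := by
    rw [div_mul_eq_mul_div, div_le_iff₀ hβ]
    nlinarith [h.lam_le, h.Xr_ge, h.T_ge]
  have h5 := exp_le (x := 12 * e) (by linarith) (by linarith)
  have h6 := h.haz.g_pos hx (x := 2) two_pos
  have h7 : gg (ρ + t - δ) ≤ gg 2 * (1 + 24 * e) :=
    h3.trans (mul_le_mul_of_nonneg_left (by linarith [Real.exp_le_exp.2 h4]) h6.le)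
  have h8 : δ ≤ e := by nlinarith [h.δ_le]
  have h9 : t - δ ≤ gg 2 * (1 + 24 * e) * (1 + e) := by
    have : gg (ρ + t - δ) * (ρ + 1 + δ - ρ) ≤ gg 2 * (1 + 24 * e) * (1 + e) :=
      mul_le_mul h7 (by linarith) (by linarith) (by positivity)
    linarith
  have h10 : gg 2 ≤ t := h.g_le_t two_pos (by linarith)
  have h11 : gg 2 * (1 + 24 * e) * (1 + e) ≤ gg 2 + t * (26 * e) := by
    have : (1 + 24 * e) * (1 + e) ≤ 1 + 26 * e := by nlinarith
    nlinarith
  nlinarith [h.δ_le]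

theorem g_ge (h : XA lam β t δ ρ Xr T e b0 b1) {x : ℝ} (hx : 2 ≤ x) : t * (1 - 30 * e) ≤ gg x :=
  h.g_two.trans (h.haz.g_mono h.x0_pos two_pos hx)

theorem g_ge_half (h : XA lam β t δ ρ Xr T e b0 b1) {x : ℝ} (hx : 2 ≤ x) : t / 2 ≤ gg x := by
  have := h.g_ge hx
  nlinarith [h.t_pos, h.e_le]

theorem g_ge_lin (h : XA lam β t δ ρ Xr T e b0 b1) {x : ℝ} (h0 : 0 < x) (h1 : x ≤ 2) :
    t / 4 * x ≤ gg x := by
  have h2 := h.haz.g_le_ratio h.x0_pos (a := x) (b := 2) (c := 0) h0 h1 h0 fun s hs hs' => by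
    rw [sub_zero]
    exact (h.rest_ge_lo (by linarith [h.ρ_ge])).trans (h.rest_le_R (by linarith))
  rw [← mul_div_assoc, le_div_iff₀ (by linarith)] at h2
  nlinarith [h.g_ge_half (le_refl 2)]

theorem g_le_two (h : XA lam β t δ ρ Xr T e b0 b1) {x : ℝ} (h0 : 0 < x) (h2 : x ≤ T + 3) :
    gg x ≤ 1 + 12 * e := by
  rcases le_total x (ρ + 1 + δ) with h1 | h1
  · have := h.haz.g_mono h.x0_pos h0 h1
    rw [h.haz.g_one h.x0_pos] at this
    linarith [h.e_pos]
  · exact (h.g_hi h1 h2).2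

theorem p_ge (h : XA lam β t δ ρ Xr T e b0 b1) {x : ℝ} (h0 : 0 ≤ x) (h1 : x ≤ Xr) :
    1 - 3 * e ≤ pp x := by
  refine le_trans ?_ (hzP_ge _ x)
  have hc0 := h.c0.continuous
  have hc1 := h.c1.continuous
  have h2 : ∫ s in (0 : ℝ)..x, rr s ≤ ∫ s in (0 : ℝ)..x, (2 * β + (b0 s + b1 s)) := by
    refine intervalIntegral.integral_mono_on h0 (h.haz.smooth.continuous.intervalIntegrable _ _)
      (Continuous.intervalIntegrable (by fun_prop) _ _) fun s hs => ?_
    rw [h.R_eq (by linarith [hs.1])]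
    have := h.rest_le (x := s) (by linarith [hs.2, h.T_ge])
    nlinarith [h.n0 s, h.t_small]
  rw [intervalIntegral.integral_add intervalIntegrable_const
    (Continuous.intervalIntegrable (by fun_prop) _ _), intervalIntegral.integral_const] at h2
  have h3 := h.mass 0 x h0
  have h4 : β * x ≤ e := by nlinarith [h.β_le, h.β_pos, h.t_small, h.e_pos]
  simp only [sub_zero, smul_eq_mul] at h2
  nlinarith

/-- The diffuse part of the density. -/
theorem rest_div (h : XA lam β t δ ρ Xr T e b0 b1) {x : ℝ} (h0 : 0 < x) (h2 : x ≤ T + 3) :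
    rest lam β t δ ρ x / gg x ≤ 8 * β / t := by
  have hg := h.haz.g_pos h.x0_pos h0
  have ht := h.t_pos
  have hβ := h.β_pos
  rw [div_le_div_iff₀ hg ht]
  rcases le_total x 2 with h1 | h1
  · have h3 := h.g_ge_lin h0 h1
    have h4 : rest lam β t δ ρ x ≤ 2 * β * x := by
      rw [rest, L_lo ρ (by linarith [h.ρ_ge])]
      have h5 : xaΘ t δ ρ x ≤ x := by
        rcases le_total x 1 with h6 | h6
        · rw [h.Θ_zero h6]; linarith
        · linarith [(h.Θ_bd x).2]
      nlinarith [h.lam_small, h.lam_pos]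
    nlinarith
  · have h3 := h.g_ge_half h1
    have h4 := h.rest_le h2
    nlinarith

theorem f_sq (h : XA lam β t δ ρ Xr T e b0 b1) {x : ℝ} (h0 : 0 < x) :
    ff x ^ 2 = (rest lam β t δ ρ x / gg x + (t * b0 x + b1 x) / gg x) * pp x := by
  have hg := (h.haz.g_pos h.x0_pos h0).ne'
  have := h.haz.fg h.x0_pos x
  rw [h.R_eq (by linarith)] at this
  field_simp
  linarith

theorem f_zero (h : XA lam β t δ ρ Xr T e b0 b1) : ff 0 ^ 2 ≤ 8 * β / t := by
  rw [h.haz.f_near h.x0_pos (x := 0) (by simp), hzP_zero,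
    div_le_div_iff₀ (h.haz.g_pos h.x0_pos one_pos) h.t_pos]
  have := h.g_ge_lin one_pos (by norm_num)
  nlinarith [h.lam_small, h.lam_pos, h.t_pos, h.β_pos]

theorem mid_mass (h : XA lam β t δ ρ Xr T e b0 b1) :
    ∫ x in (0 : ℝ)..(ρ + 1 + δ), ff x ^ 2 ≤ 10 * e := by
  have hx := h.x0_pos
  have hc0 := h.c0.continuous
  have hc1 := h.c1.continuous
  have hδ : δ ≤ 1 / 2 := by linarith [h.δ_lt, h.t_small]
  have hf : Continuous ff := continuous_iff_continuousAt.2 fun x =>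
    ((h.haz.sl hx).dφ x).continuousAt
  have h2 : ∫ x in (0 : ℝ)..(ρ + 1 + δ), ff x ^ 2 ≤
      ∫ x in (0 : ℝ)..(ρ + 1 + δ), (8 * β / t + 2 * (b0 x + b1 x)) := by
    refine intervalIntegral.integral_mono_on hx.le (Continuous.intervalIntegrable (by fun_prop) _ _)
      (Continuous.intervalIntegrable (by fun_prop) _ _) fun s hs => ?_
    have n0 := h.n0 s
    have n1 := h.n1 s
    rcases hs.1.eq_or_lt with h0 | h0
    · rw [← h0] at n0 n1 ⊢
      linarith [h.f_zero]
    · have hg := h.haz.g_pos hx h0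
      have h3 := h.rest_div h0 (by linarith [hs.2, h.Xr_ge, h.T_ge])
      have h4 : (t * b0 s + b1 s) / gg s ≤ 2 * (b0 s + b1 s) := by
        rw [h.b1_zero (Or.inl (by linarith [hs.2])), div_le_iff₀ hg]
        by_cases h5 : b0 s = 0
        · simp [h5]
        · nlinarith [h.g_ge_half (h.s0 s h5).1]
      have h5 : 0 ≤ rest lam β t δ ρ s / gg s + (t * b0 s + b1 s) / gg s := by
        have := (h.rest_pos h0).le
        have := h.t_pos.le
        positivity
      rw [h.f_sq h0]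
      nlinarith [h.haz.p_le_one s]
  rw [intervalIntegral.integral_add intervalIntegrable_const
    (Continuous.intervalIntegrable (by fun_prop) _ _), intervalIntegral.integral_const,
    intervalIntegral.integral_const_mul] at h2
  have h3 := h.mass 0 _ hx.le
  have h4 : (ρ + 1 + δ) * (8 * β / t) ≤ 8 * e := by
    rw [← mul_div_assoc, div_le_iff₀ h.t_pos]
    nlinarith [h.β_le, h.β_pos, h.Xr_ge]
  simp only [sub_zero, smul_eq_mul] at h2
  linarith

theorem hr (h : XA lam β t δ ρ Xr T e b0 b1) (s : ℝ) (hs : ρ + 1 + δ ≤ s) :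
    β * pp s ≤ ff s ^ 2 * gg s := by
  rw [h.haz.fg h.x0_pos]
  exact mul_le_mul_of_nonneg_right
    ((h.rest_ge_β hs).trans (h.rest_le_R (by linarith [h.x0_pos]))) (hzP_pos _ _).le

theorem x0_le (h : XA lam β t δ ρ Xr T e b0 b1) : ρ + 1 + δ ≤ Xr := by
  linarith [h.δ_lt, h.t_small, h.Xr_ge]

theorem p_T (h : XA lam β t δ ρ Xr T e b0 b1) : pp T ≤ Real.exp (-(β * (T - Xr))) :=
  h.haz.p_le_exp (by linarith [h.x0_pos, h.x0_le]) h.T_ge fun s hs _ =>
    (h.rest_ge_β (h.x0_le.trans hs)).trans (h.rest_le_R (by linarith [h.x0_pos, h.x0_le]))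

theorem norms (h : XA lam β t δ ρ Xr T e b0 b1) (h16 : 16 * lam ≤ β ^ 2)
    (hT : Real.exp (-(β * (T - Xr))) ≤ e) :
    |(∫ y, (cut T 1 y * ff y) ^ 2) - 2| ≤ 72 * e ∧
      |(∫ y, (cut T 1 y * (ff y * gg y)) ^ 2) - 2| ≤ 72 * e := by
  have he := h.e_pos
  have := (h.haz.sl h.x0_pos).norms h.x0_pos h.β_pos h16 h.hr (h.x0_le.trans h.T_ge) one_pos
    (h.haz.g_one h.x0_pos) (ε := 12 * e) (by linarith [h.e_le]) (hzP_zero _)
    (h.g_le_two (by linarith [h.x0_pos, h.x0_le, h.T_ge]) (by linarith))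
    (by linarith [h.p_ge h.x0_pos.le h.x0_le]) (by linarith [h.p_T]) (by linarith [h.mid_mass])
  constructor <;> linarith [this.1, this.2]

theorem fac (h : XA lam β t δ ρ Xr T e b0 b1) (h16 : 16 * lam ≤ β ^ 2)
    (hT : Real.exp (-(β * (T - Xr))) ≤ e) :
    Fac lam (hzW lam rr) (facE T 1 ff gg) (T + 1)
      (10 ^ 50 * (1 + 1 / 1) ^ 2 * 1 ^ 2 * (1 + 1 / β) * √(pp T)) := by
  have he := h.e_pos
  have he' := h.e_le
  have hx := h.x0_pos
  have hT' := h.x0_le.trans h.T_ge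
  refine (h.haz.sl hx).fac hx h.β_pos h16 h.hr ?_ (by linarith [h.lam_small, h.β_small]) hT' one_pos
    (h.haz.g_one hx) (by linarith [h.g_le_two (x := T + 1) (by linarith) (by linarith)])
    (by linarith [h.p_ge hx.le h.x0_le]) (by linarith [h.p_T]) le_rfl fun x h1 h2 => ?_
  · rw [h.haz.g_one hx]
    linarith [h.mid_mass, h.p_ge hx.le h.x0_le]
  have hlt : Xr < T := by
    by_contra hc
    have : T - Xr = 0 := by linarith [h.T_ge]
    rw [this] at hT
    norm_num at hT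
    linarith
  have hev : rr =ᶠ[nhds x] fun y => 2 * lam * (y - ρ) + β := by
    filter_upwards [Ioi_mem_nhds (hlt.trans_le h1)] with y hy
    have hy' : Xr < y := hy
    have := h.x0_le
    have := h.δ_pos
    have := h.ρ_ge
    rw [h.R_eq (by linarith), rest, h.Θ_one (Or.inr (by linarith)), L_hi ρ (by linarith),
      h.b0_zero (Or.inr (by linarith)), h.b1_zero (Or.inr hy')]
    ring
  have hd : deriv rr x = 2 * lam := by
    rw [hev.deriv_eq]
    have : HasDerivAt (fun y => 2 * lam * (y - ρ) + β) (2 * lam * 1) x :=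
      (((hasDerivAt_id x).sub_const ρ).const_mul _).add_const _
    rw [this.deriv, mul_one]
  have hr0 : 0 < rr x := h.haz.pos x (by linarith)
  have hr1 : rr x ≤ 1 := by
    rw [h.R_eq (by linarith), h.b0_zero (Or.inr (by linarith [h.x0_le, h.δ_pos])),
      h.b1_zero (Or.inr (by linarith))]
    linarith [h.rest_le (x := x) (by linarith), h.β_small]
  have hf := (h.haz.sl hx).φ_pos x
  constructor
  · rw [hzS, hd, sub_self, zero_div, zero_sub, abs_mul, abs_neg, abs_of_pos hf,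
      abs_of_pos (by linarith)]
    nlinarith
  · rw [h.haz.fg hx]
    exact mul_le_mul_of_nonneg_right hr1 (hzP_pos _ _).le

theorem nu_bd {N N' ε : ℝ} (hε : ε ≤ 1 / 10) (h1 : |N - 2| ≤ ε) (h2 : |N' - 2| ≤ ε) :
    |1 / (√N * √N') - 1 / 2| ≤ ε := by
  rw [abs_le] at h1 h2
  have hε0 : 0 ≤ ε := by linarith [h1.1, h1.2]
  rw [← Real.sqrt_mul (by linarith [h1.1])]
  have h3 : 2 - ε ≤ √(N * N') := Real.le_sqrt_of_sq_le (by nlinarith [h1.1, h2.1])
  have h4 : √(N * N') ≤ 2 + ε := Real.sqrt_le_iff.2 ⟨by linarith, by nlinarith [h1.2, h2.2, h1.1]⟩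
  have h5 : 0 < √(N * N') := by linarith
  rw [abs_le]
  constructor
  · have : 1 / (2 + ε) ≤ 1 / √(N * N') := one_div_le_one_div_of_le h5 h4
    have h6 : 1 / 2 - ε ≤ 1 / (2 + ε) := by
      rw [le_div_iff₀ (by linarith)]
      nlinarith
    linarith
  · have : 1 / √(N * N') ≤ 1 / (2 - ε) := one_div_le_one_div_of_le (by linarith) h3
    have h6 : 1 / (2 - ε) ≤ 1 / 2 + ε := by
      rw [div_le_iff₀ (by linarith)]
      nlinarith
    linarith

theorem near_half {u v e : ℝ} (he : 0 ≤ e) (he' : e ≤ 1 / 10 ^ 8) (hu : |u - 1| ≤ 70 * e)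
    (hv : |v - 1 / 2| ≤ 72 * e) : |u * v - 1 / 2| ≤ 200 * e := by
  have : u * v - 1 / 2 = (u - 1) * (v - 1 / 2) + (u - 1) * (1 / 2) + (v - 1 / 2) := by ring
  rw [this]
  refine (abs_add_three _ _ _).trans ?_
  rw [abs_mul, abs_mul, abs_of_pos (by norm_num : (0 : ℝ) < 1 / 2)]
  have := mul_le_mul hu hv (abs_nonneg _) (by linarith)
  nlinarith

/-- The density for `x ≥ 0`; `ν` is the normalisation. -/
theorem density_aux (h : XA lam β t δ ρ Xr T e b0 b1) {ν : ℝ} (hν : |ν - 1 / 2| ≤ 72 * e) {k : ℕ}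
    (hk : k ≤ 2) {x : ℝ} (hx : 0 ≤ x) :
    |cut T 1 x ^ 2 * (ff x ^ 2 * gg x ^ k) * ν - ((if k = 0 then b0 x else 0) + b1 x) / 2| ≤
      200 * e * (b0 x + b1 x) + 32 * β / t := by
  have he := h.e_pos
  have he' := h.e_le
  have ht := h.t_pos
  have hβ := h.β_pos
  have hx0 := h.x0_pos
  have hν' := abs_le.1 hν
  have hν0 : 0 ≤ ν := by linarith [hν'.1]
  have hν1 : ν ≤ 1 := by linarith [hν'.2]
  have hD : 0 ≤ 8 * β / t := by positivity
  have hD' : 32 * β / t = 4 * (8 * β / t) := by ring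
  have n0 := h.n0 x
  have n1 := h.n1 x
  have hc0 := cut_nonneg T 1 x
  have hc1 := cut_le_one T 1 x
  have hc2 : cut T 1 x ^ 2 ≤ 1 := by nlinarith
  have hT := h.T_ge
  have hX := h.Xr_ge
  have hρ := h.ρ_ge
  rcases le_or_gt (T + 1) x with h1 | h1
  · rw [cut_eq_zero one_pos (by rw [abs_of_nonneg hx]; exact h1), h.b0_zero (Or.inr (by linarith)),
      h.b1_zero (Or.inr (by linarith))]
    simp
    positivity
  rcases hx.eq_or_lt with h0 | h0
  · subst h0
    have hg : gg 0 = 0 := by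
      have := (h.haz.sl hx0).g_odd 0
      rw [neg_zero] at this
      linarith
    rw [h.b0_zero (Or.inl (by linarith)), h.b1_zero (Or.inl (by linarith)), hg]
    have h2 : (0 : ℝ) ^ k ≤ 1 := pow_le_one₀ le_rfl zero_le_one
    have h3 : (0 : ℝ) ≤ 0 ^ k := by positivity
    have h4 : cut T 1 0 ^ 2 * (ff 0 ^ 2 * 0 ^ k) * ν ≤ 1 * (8 * β / t * 1) * 1 := by
      gcongr
      exact h.f_zero
    simp only [ite_self, add_zero, zero_div, sub_zero, mul_zero, zero_add]
    rw [abs_of_nonneg (by positivity)]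
    linarith
  have hg := h.haz.g_pos hx0 h0
  have hg2 := h.g_le_two h0 (by linarith)
  have hgk : gg x ^ k ≤ 4 := by
    have : gg x ≤ 2 := by linarith
    calc gg x ^ k ≤ 2 ^ k := by gcongr
      _ ≤ 2 ^ 2 := pow_le_pow_right₀ (by norm_num) hk
      _ = 4 := by norm_num
  have hp0 := hzP_pos rr x
  have hp1 := h.haz.p_le_one x
  have hr0 := (h.rest_pos h0).le
  have e1 : |cut T 1 x ^ 2 * (rest lam β t δ ρ x / gg x * pp x * gg x ^ k) * ν| ≤ 32 * β / t := by
    rw [abs_of_nonneg (by positivity)]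
    have : cut T 1 x ^ 2 * (rest lam β t δ ρ x / gg x * pp x * gg x ^ k) * ν ≤
        1 * (8 * β / t * 1 * 4) * 1 := by
      have hq := h.rest_div h0 (by linarith)
      gcongr ?_ * (?_ * ?_ * ?_) * ?_
    linarith
  have e2 : |b0 x * (cut T 1 x ^ 2 * (t / gg x * pp x * gg x ^ k) * ν - (if k = 0 then 1 else 0) / 2)| ≤
      200 * e * b0 x := by
    by_cases hb : b0 x = 0
    · simp [hb]
    obtain ⟨s1, s2⟩ := h.s0 x hb
    rw [abs_mul, abs_of_nonneg n0, mul_comm, cut_eq_one one_pos (by rw [abs_of_nonneg hx]; linarith)]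
    refine mul_le_mul_of_nonneg_right ?_ n0
    have g1 := h.g_ge s1
    have g2 := h.g_le_t h0 (by linarith)
    have p1 := h.p_ge hx (by linarith)
    have q1 : 1 ≤ t / gg x := by rw [le_div_iff₀ hg]; linarith
    have q2 : t / gg x ≤ 1 + 60 * e := by
      rw [div_le_iff₀ hg]
      have : t ≤ (1 + 60 * e) * (t * (1 - 30 * e)) := by
        have : 1 ≤ (1 + 60 * e) * (1 - 30 * e) := by nlinarith
        nlinarith
      nlinarith
    by_cases hk0 : k = 0
    · subst hk0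
      simp only [one_pow, one_mul, pow_zero, mul_one, if_true]
      refine near_half he.le he' (abs_le.2 ⟨?_, ?_⟩) hν <;> nlinarith
    · have : gg x ^ k ≤ e := by
        calc gg x ^ k ≤ gg x ^ 1 :=
              pow_le_pow_of_le_one hg.le (by linarith [h.t_small]) (Nat.one_le_iff_ne_zero.2 hk0)
          _ ≤ e := by rw [pow_one]; linarith [h.t_le]
      simp only [one_pow, one_mul, if_neg hk0, zero_div, sub_zero]
      rw [abs_of_nonneg (by positivity)]
      have : t / gg x * pp x * gg x ^ k * ν ≤ 2 * 1 * e * 1 := by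
        have : t / gg x ≤ 2 := by linarith
        gcongr ?_ * ?_ * ?_ * ?_
      linarith
  have e3 : |b1 x * (cut T 1 x ^ 2 * (1 / gg x * pp x * gg x ^ k) * ν - 1 / 2)| ≤
      200 * e * b1 x := by
    by_cases hb : b1 x = 0
    · simp [hb]
    obtain ⟨s1, s2⟩ := h.s1 x hb
    rw [abs_mul, abs_of_nonneg n1, mul_comm, cut_eq_one one_pos (by rw [abs_of_nonneg hx]; linarith)]
    refine mul_le_mul_of_nonneg_right ?_ n1
    obtain ⟨g1, g2⟩ := h.g_hi (x := x) (by linarith [h.δ_lt, h.t_small]) (by linarith)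
    have p1 := h.p_ge hx s2
    have q1 : 1 - 12 * e ≤ 1 / gg x := by rw [le_div_iff₀ hg]; nlinarith
    have q2 : 1 / gg x ≤ 1 := by rw [div_le_one hg]; exact g1
    have q3 : 1 ≤ gg x ^ k := one_le_pow₀ g1
    have q4 : gg x ^ k ≤ 1 + 30 * e := by
      calc gg x ^ k ≤ gg x ^ 2 := pow_le_pow_right₀ g1 hk
        _ ≤ 1 + 30 * e := by nlinarith
    simp only [one_pow, one_mul]
    refine near_half he.le he' (abs_le.2 ⟨?_, ?_⟩) hν
    · have : (1 - 12 * e) * (1 - 3 * e) * 1 ≤ 1 / gg x * pp x * gg x ^ k := by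
        have : 0 ≤ 1 - 3 * e := by linarith
        gcongr ?_ * ?_ * ?_
      nlinarith
    · have : 1 / gg x * pp x * gg x ^ k ≤ 1 * 1 * (1 + 30 * e) := by gcongr ?_ * ?_ * ?_
      linarith
  have key : cut T 1 x ^ 2 * (ff x ^ 2 * gg x ^ k) * ν - ((if k = 0 then b0 x else 0) + b1 x) / 2 =
      cut T 1 x ^ 2 * (rest lam β t δ ρ x / gg x * pp x * gg x ^ k) * ν +
      b0 x * (cut T 1 x ^ 2 * (t / gg x * pp x * gg x ^ k) * ν - (if k = 0 then 1 else 0) / 2) +
      b1 x * (cut T 1 x ^ 2 * (1 / gg x * pp x * gg x ^ k) * ν - 1 / 2) := by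
    rw [h.f_sq h0]
    split_ifs <;> ring
  rw [key]
  linarith [abs_add_three (cut T 1 x ^ 2 * (rest lam β t δ ρ x / gg x * pp x * gg x ^ k) * ν)
    (b0 x * (cut T 1 x ^ 2 * (t / gg x * pp x * gg x ^ k) * ν - (if k = 0 then 1 else 0) / 2))
    (b1 x * (cut T 1 x ^ 2 * (1 / gg x * pp x * gg x ^ k) * ν - 1 / 2))]

theorem density (h : XA lam β t δ ρ Xr T e b0 b1) (h16 : 16 * lam ≤ β ^ 2)
    (hT : Real.exp (-(β * (T - Xr))) ≤ e) (a a' : Fin 2) {x : ℝ} (hx : 0 ≤ x) :
    |facE T 1 ff gg a x * facE T 1 ff gg a' x -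
      ((if (a : ℕ) + a' = 0 then b0 x else 0) + b1 x) / 2| ≤
      200 * e * (b0 x + b1 x) + 32 * β / t := by
  obtain ⟨n0, n1⟩ := h.norms h16 hT
  have he : 72 * e ≤ 1 / 10 := by linarith [h.e_le]
  fin_cases a <;> fin_cases a'
  · convert h.density_aux (nu_bd he n0 n0) (k := 0) (by norm_num) hx using 3
    · simp only [facE, cn, Fin.zero_eta, Matrix.cons_val_zero]
      ring
    · simp
  · convert h.density_aux (nu_bd he n0 n1) (k := 1) (by norm_num) hx using 3
    · simp only [facE, cn, Fin.zero_eta, Fin.mk_one, Matrix.cons_val_zero, Matrix.cons_val_one]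
      ring
    · simp
  · convert h.density_aux (nu_bd he n1 n0) (k := 1) (by norm_num) hx using 3
    · simp only [facE, cn, Fin.zero_eta, Fin.mk_one, Matrix.cons_val_zero, Matrix.cons_val_one]
      ring
    · simp
  · convert h.density_aux (nu_bd he n1 n1) (k := 2) (by norm_num) hx using 3
    · simp only [facE, cn, Fin.mk_one, Matrix.cons_val_zero, Matrix.cons_val_one]
      ring
    · simp

theorem facE_neg (h : XA lam β t δ ρ Xr T e b0 b1) (a : Fin 2) (x : ℝ) :
    facE T 1 ff gg a (-x) = (-1) ^ (a : ℕ) * facE T 1 ff gg a x := by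
  have hs := h.haz.sl h.x0_pos
  fin_cases a
  · simp [facE, cn, cut_neg, hs.φ_even]
  · simp only [facE, cn, cut_neg, hs.φ_even, hs.g_odd, Fin.mk_one, Matrix.cons_val_one,
      Matrix.cons_val_zero]
    simp
    ring

end XA

end Crest.Agent.R338
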