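import Crest.Agent.R338.XFB
import Crest.Agent.R338.ZF

/-! Row 338: the concrete hazard function of the first coordinate. -/

set_option autoImplicit false

open MeasureTheory

namespace Crest.Agent.R338

namespace XZ

variable (d : XZ)

noncomputable def xb0 (m : ℕ) (x : ℝ) : ℝ :=
  ∑ k ∈ Finset.range 3, ∑ i ∈ Finset.range d.n, ∑ j ∈ Finset.range d.n,
    (if d.typ m k = 0 then d.pτ * (d.amp m k i j : ℝ) else 0) * bs d.pσ (x - d.ys m k i j)

noncomputable def xb1 (m : ℕ) (x : ℝ) : ℝ :=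
  ∑ k ∈ Finset.range 3, ∑ i ∈ Finset.range d.n, ∑ j ∈ Finset.range d.n,
    (if d.typ m k = 0 then 0 else d.pτ * (d.amp m k i j : ℝ)) * bs d.pσ (x - d.ys m k i j)

theorem hx_eq (N m : ℕ) :
    d.hx N m = xaH (d.plam N) d.pβ d.pt d.pδ (d.rho m) (d.xb0 m) (d.xb1 m) := by
  funext x
  simp only [hx, xaH, xaΘ, xb0, xb1, Finset.mul_sum, ← Finset.sum_add_distrib]
  congr 1
  refine Finset.sum_congr rfl fun k _ => Finset.sum_congr rfl fun i _ =>
    Finset.sum_congr rfl fun j _ => ?_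
  split_ifs <;> ring

theorem rx_eq (N m : ℕ) :
    d.rx N m = xaR (d.plam N) d.pβ d.pt d.pδ (d.rho m) (d.xb0 m) (d.xb1 m) := by
  funext x
  rw [rx, xaR, hx_eq]

theorem side_cases (k i j : ℕ) : (d.side k i j : ℝ) = 1 ∨ (d.side k i j : ℝ) = -1 := by
  unfold side
  split_ifs <;> simp

theorem typ_cases (m k : ℕ) : d.typ m k = 0 ∨ d.typ m k = 1 := by
  unfold typ
  split_ifs <;> simp

end XZ

variable {d : XZ} {N m k i j : ℕ}

theorem xf_Λ (hv : d.Valid) : 4 * d.pQ ≤ d.pΛ := by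
  have := hv.one_le_B
  have := hv.pQ_pos
  unfold XZ.pΛ
  nlinarith

theorem xf_ys (hv : d.Valid) (hm : m < d.n) (k i j : ℕ) :
    d.pos k i j - d.pΛ / 4 ≤ d.ys m k i j ∧ d.ys m k i j ≤ d.pos k i j + d.pΛ / 4 := by
  have h1 : (m : ℝ) ≤ d.B := by exact_mod_cast hm.le.trans hv.n_le
  have h2 : 0 ≤ d.xm m := mul_nonneg (Nat.cast_nonneg _) hv.pQ_pos.le
  have h3 : d.xm m ≤ d.pΛ / 4 := by
    unfold XZ.xm XZ.pΛ
    nlinarith [hv.pQ_pos]
  unfold XZ.ys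
  rcases d.side_cases k i j with h | h <;> rw [h] <;> constructor <;> linarith

theorem xf_pos (hv : d.Valid) (hi : i < d.n) (hj : j < d.n) (k : ℕ) :
    d.pΛ * (k * (d.n : ℝ) ^ 2 + 1) ≤ d.pos k i j ∧ d.pos k i j ≤ d.pΛ * ((k + 1) * (d.n : ℝ) ^ 2) := by
  have h1 : (i : ℝ) + 1 ≤ d.n := by exact_mod_cast hi
  have h2 : (j : ℝ) + 1 ≤ d.n := by exact_mod_cast hj
  have h3 : (0 : ℝ) ≤ i := Nat.cast_nonneg _
  have h4 : (0 : ℝ) ≤ j := Nat.cast_nonneg _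
  have h5 := hv.pΛ_pos.le
  unfold XZ.pos
  constructor <;> apply mul_le_mul_of_nonneg_left _ h5 <;> nlinarith

theorem xf_bump (hv : d.Valid) {x y : ℝ} (h : bs d.pσ (x - y) ≠ 0) : y - 1 ≤ x ∧ x ≤ y + 1 := by
  have h1 : |x - y| < d.pσ / 2 := by
    by_contra hc
    exact h (bs_eq_zero hv.pσ_bd.1 (not_lt.1 hc))
  have := abs_lt.1 h1
  constructor <;> linarith [this.1, this.2, hv.pσ_bd.2]

theorem xf_typ0 (hv : d.Valid) (hm : m < d.n) (hi : i < d.n) (hj : j < d.n) (h : d.typ m k = 0) :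
    3 ≤ d.ys m k i j ∧ d.ys m k i j ≤ d.rho m - 3 := by
  obtain ⟨a1, a2⟩ := xf_ys hv hm k i j
  obtain ⟨b1, b2⟩ := xf_pos hv hi hj k
  have h1 := xf_Λ hv
  have h2 := hv.pQ_ge
  have h3 := hv.pΛ_pos
  have h4 : 0 ≤ d.pΛ * (k * (d.n : ℝ) ^ 2) := by positivity
  have h5 : 0 ≤ d.pΛ * (d.n : ℝ) ^ 2 := by positivity
  refine ⟨by nlinarith, ?_⟩
  unfold XZ.typ at h
  unfold XZ.rho
  split_ifs at h with c1 c2
  · subst c1
    split_ifs <;> push_cast at b2 <;> nlinarith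
  · rw [if_pos c2.2]
    rw [c2.1] at b2 ⊢
    push_cast at b2
    rw [c2.1] at a2
    nlinarith
  · norm_num at h

theorem xf_typ1 (hv : d.Valid) (hm : m < d.n) (hk : k < 3) (hi : i < d.n) (hj : j < d.n)
    (h : d.typ m k ≠ 0) : d.rho m + 3 ≤ d.ys m k i j ∧ d.ys m k i j ≤ d.pXr - 1 := by
  obtain ⟨a1, a2⟩ := xf_ys hv hm k i j
  obtain ⟨b1, b2⟩ := xf_pos hv hi hj k
  have h1 := xf_Λ hv
  have h2 := hv.pQ_ge
  have h3 := hv.pΛ_pos
  have h5 : 0 ≤ d.pΛ * (d.n : ℝ) ^ 2 := by positivity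
  unfold XZ.typ at h
  unfold XZ.rho XZ.pXr
  interval_cases k
  · simp at h
  · have : ¬m < d.nd := fun hc => by simp [hc] at h
    rw [if_neg this]
    push_cast at b1 b2
    constructor <;> nlinarith
  · push_cast at b1 b2
    split_ifs <;> constructor <;> nlinarith

theorem xf_amp (hv : d.Valid) (hi : i < d.n) (hj : j < d.n) :
    0 ≤ (d.amp m k i j : ℝ) ∧ (d.amp m k i j : ℝ) ≤ 10 ^ 4 * (d.B : ℝ) ^ 8 := by
  obtain ⟨h1, h2⟩ := amp_bd hv (m := m) (k := k) hi hj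
  unfold XZ.alc at h2
  exact ⟨by exact_mod_cast h1, by exact_mod_cast h2⟩

theorem xf_Bpow (hv : d.Valid) {a : ℕ} (ha : a ≤ 40) : 10 ^ 20 * (d.B : ℝ) ^ a ≤ d.pQ :=
  mul_le_mul_of_nonneg_left (pow_le_pow_right₀ hv.one_le_B ha) (by norm_num)

theorem xf_Xr (hv : d.Valid) : d.pXr ≤ d.pQ ^ 2 := by
  have h1 := hv.one_le_n
  have h2 := hv.n_le_B
  have h3 := hv.pQ_pos
  have h4 := xf_Bpow hv (a := 3) (by norm_num)
  have h5 : 3 * (d.n : ℝ) ^ 2 + 1 ≤ 4 * (d.B : ℝ) ^ 2 := by nlinarith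
  have h6 : 4 * (d.B : ℝ) * (3 * (d.n : ℝ) ^ 2 + 1) ≤ d.pQ := by nlinarith
  unfold XZ.pXr XZ.pΛ
  nlinarith

theorem xf_sum_ne {f : ℕ → ℕ → ℕ → ℝ} {n : ℕ}
    (h : ∑ k ∈ Finset.range 3, ∑ i ∈ Finset.range n, ∑ j ∈ Finset.range n, f k i j ≠ 0) :
    ∃ k < 3, ∃ i < n, ∃ j < n, f k i j ≠ 0 := by
  obtain ⟨k, hk, h⟩ := Finset.exists_ne_zero_of_sum_ne_zero h
  obtain ⟨i, hi, h⟩ := Finset.exists_ne_zero_of_sum_ne_zero h
  obtain ⟨j, hj, h⟩ := Finset.exists_ne_zero_of_sum_ne_zero h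
  exact ⟨k, Finset.mem_range.1 hk, i, Finset.mem_range.1 hi, j, Finset.mem_range.1 hj, h⟩

theorem xf_smooth (σ : ℝ) (n : ℕ) (c y : ℕ → ℕ → ℕ → ℝ) : ContDiff ℝ 8 fun x =>
    ∑ k ∈ Finset.range 3, ∑ i ∈ Finset.range n, ∑ j ∈ Finset.range n, c k i j * bs σ (x - y k i j) :=
  ContDiff.sum fun _ _ => ContDiff.sum fun _ _ => ContDiff.sum fun _ _ =>
    contDiff_const.mul ((bs_contDiff σ).comp (contDiff_id.sub contDiff_const))

theorem xf_βT (hv : d.Valid) (N : ℕ) : d.pβ * (d.pT N - d.pXr) = 2 * d.pG N := by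
  have := hv.pβ_bd.1.ne'
  unfold XZ.pT
  field_simp
  ring

theorem xf_xa (hv : d.Valid) (hm : m < d.n) (N : ℕ) :
    XA (d.plam N) d.pβ d.pt d.pδ (d.rho m) d.pXr (d.pT N) d.pt (d.xb0 m) (d.xb1 m) := by
  have hQ := hv.pQ_ge
  have hQ0 := hv.pQ_pos
  have hG := hv.one_le_pG N
  have hΛ := xf_Λ hv
  have hn := hv.one_le_n
  have hβ := hv.pβ_bd
  have hτ := hv.pτ_bd.1
  have hn2 : 1 ≤ (d.n : ℝ) ^ 2 := one_le_pow₀ hn
  have hβX : d.pβ * d.pXr ≤ d.pt * d.pt := by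
    have h1 : d.pβ * d.pXr ≤ 1 / d.pQ ^ 30 * d.pQ ^ 2 :=
      mul_le_mul_of_nonneg_left (xf_Xr hv) hβ.1.le
    have h2 : 1 / d.pQ ^ 30 * d.pQ ^ 2 = d.pt * d.pt * (1 / d.pQ ^ 20) := by
      unfold XZ.pt
      field_simp
    have h3 := (hv.inv_pow_bd 20).2
    have := mul_pos hv.pt_bd.1 hv.pt_bd.1
    nlinarith
  have ht : d.pt ≤ 1 / 10 ^ 20 := hv.inv_pow_small (by norm_num)
  refine ⟨(plam_bd hv N).1, hβ.1, hv.pδ_bd.1, hv.pt_bd.1, le_rfl, by linarith, ?_, ?_, ?_, ?_, ?_,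
    hβX, xf_smooth _ _ _ _, xf_smooth _ _ _ _, fun x => ?_, fun x => ?_, fun x hx => ?_,
    fun x hx => ?_, fun a b hab => ?_⟩
  · apply le_of_eq
    unfold XZ.pδ XZ.pt
    field_simp
  · unfold XZ.rho
    split_ifs <;> nlinarith
  · unfold XZ.rho XZ.pXr
    split_ifs <;> nlinarith
  · have := xf_βT hv N
    nlinarith [hβ.1]
  · have h1 := xf_βT hv N
    have h2 : d.plam N * d.pG N = d.pβ * d.pβ * d.pt := by
      unfold XZ.plam XZ.pt
      field_simp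
    have h3 : d.pβ * (d.pT N + 3) ≤ 3 * d.pG N := by
      have := hv.pG_ge N
      nlinarith [hv.pt_bd.1, hv.pt_bd.2, hβ.2]
    have h4 := (plam_bd hv N).1
    have h5 : d.pβ * (d.plam N * (d.pT N + 3)) ≤ d.pβ * (3 * d.pβ * d.pt) := by nlinarith
    exact le_of_mul_le_mul_left h5 hβ.1
  · refine Finset.sum_nonneg fun k _ => Finset.sum_nonneg fun i hi => Finset.sum_nonneg
      fun j hj => mul_nonneg ?_ (bs_nonneg hv.pσ_bd.1 _)
    have := (xf_amp hv (m := m) (k := k) (Finset.mem_range.1 hi) (Finset.mem_range.1 hj)).1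
    split_ifs <;> positivity
  · refine Finset.sum_nonneg fun k _ => Finset.sum_nonneg fun i hi => Finset.sum_nonneg
      fun j hj => mul_nonneg ?_ (bs_nonneg hv.pσ_bd.1 _)
    have := (xf_amp hv (m := m) (k := k) (Finset.mem_range.1 hi) (Finset.mem_range.1 hj)).1
    split_ifs <;> positivity
  · obtain ⟨k, -, i, hi, j, hj, h⟩ := xf_sum_ne hx
    have h1 : d.typ m k = 0 := by
      by_contra hc
      simp [hc] at h
    have h2 := xf_bump hv (right_ne_zero_of_mul h)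
    have h3 := xf_typ0 hv hm hi hj h1
    constructor <;> linarith [h2.1, h2.2, h3.1, h3.2]
  · obtain ⟨k, hk, i, hi, j, hj, h⟩ := xf_sum_ne hx
    have h1 : d.typ m k ≠ 0 := fun hc => by simp [hc] at h
    have h2 := xf_bump hv (right_ne_zero_of_mul h)
    have h3 := xf_typ1 hv hm hk hi hj h1
    constructor <;> linarith [h2.1, h2.2, h3.1, h3.2]
  · have hc : ∀ c y : ℝ, IntervalIntegrable (fun x => c * bs d.pσ (x - y)) volume a b :=
      fun c y => (continuous_const.mul ((bs_contDiff _).continuous.comp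
        (continuous_id.sub continuous_const))).intervalIntegrable _ _
    have e1 : ∀ x, d.xb0 m x + d.xb1 m x = ∑ p ∈ Finset.range 3 ×ˢ Finset.range d.n ×ˢ
        Finset.range d.n, d.pτ * (d.amp m p.1 p.2.1 p.2.2 : ℝ) *
          bs d.pσ (x - d.ys m p.1 p.2.1 p.2.2) := fun x => by
      simp only [Finset.sum_product, XZ.xb0, XZ.xb1, ← Finset.sum_add_distrib]
      refine Finset.sum_congr rfl fun k _ => Finset.sum_congr rfl fun i _ =>
        Finset.sum_congr rfl fun j _ => ?_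
      split_ifs <;> ring
    simp only [e1]
    rw [intervalIntegral.integral_finset_sum fun p _ => hc _ _]
    refine (Finset.sum_le_card_nsmul _ _ (d.pτ * (10 ^ 4 * (d.B : ℝ) ^ 8)) fun p hp => ?_).trans ?_
    · simp only [Finset.mem_product, Finset.mem_range] at hp
      obtain ⟨a1, a2⟩ := xf_amp hv (m := m) (k := p.1) hp.2.1 hp.2.2
      rw [intervalIntegral.integral_const_mul]
      have := bs_intervalIntegral_le hv.pσ_bd.1 (d.ys m p.1 p.2.1 p.2.2) hab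
      calc _ ≤ d.pτ * (d.amp m p.1 p.2.1 p.2.2 : ℝ) * 1 :=
            mul_le_mul_of_nonneg_left this (by positivity)
        _ ≤ _ := by rw [mul_one]; gcongr
    · simp only [Finset.card_product, Finset.card_range, nsmul_eq_mul]
      push_cast
      have h1 := xf_Bpow hv (a := 10) (by norm_num)
      have h2 := hv.n_le_B
      have h3 : (d.n : ℝ) * d.n ≤ (d.B : ℝ) ^ 2 := by nlinarith
      have h4 : d.pt = d.pτ * d.pQ := by
        unfold XZ.pt XZ.pτ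
        field_simp
      have h5 : 3 * ((d.n : ℝ) * d.n) * (10 ^ 4 * (d.B : ℝ) ^ 8) ≤ d.pQ := by
        have : (0 : ℝ) ≤ (d.B : ℝ) ^ 8 := by positivity
        have : (d.n : ℝ) * d.n * (d.B : ℝ) ^ 8 ≤ (d.B : ℝ) ^ 10 := by
          calc _ ≤ (d.B : ℝ) ^ 2 * (d.B : ℝ) ^ 8 := by gcongr
            _ = _ := by ring
        nlinarith
      rw [h4]
      nlinarith

theorem xf_16 (hv : d.Valid) (N : ℕ) : 16 * d.plam N ≤ d.pβ ^ 2 := by
  have h1 : 16 ≤ d.pQ ^ 4 * d.pG N := by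
    have := one_le_pow₀ (n := 4) hv.one_le_pQ
    nlinarith [hv.pG_ge N]
  unfold XZ.plam
  rw [← mul_div_assoc, div_le_iff₀ (by linarith)]
  nlinarith [sq_nonneg d.pβ]

theorem xf_exp (hv : d.Valid) (N : ℕ) : Real.exp (-(d.pβ * (d.pT N - d.pXr))) ≤ d.pt := by
  rw [xf_βT hv N, Real.exp_neg, XZ.pt, one_div]
  have hQ := hv.pQ_pos
  refine inv_anti₀ (by positivity) ?_
  have h1 := Real.pow_div_factorial_le_exp (x := 2 * d.pG N) (by linarith [hv.pG_pos N]) 5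
  have h2 : d.pQ ^ 5 ≤ (2 * d.pG N) ^ 5 := by
    gcongr
    linarith [hv.pQ_le_pG N]
  have h3 : d.pQ ^ 4 * 120 ≤ d.pQ ^ 5 := by
    rw [pow_succ d.pQ 4]
    gcongr
    linarith [hv.pQ_ge]
  norm_num [Nat.factorial] at h1
  linarith

end Crest.Agent.R338
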