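import Crest.Agent.R338.Par

/-! Row 338: the hazard function of the second coordinate, with abstract parameters. -/

set_option autoImplicit false

open MeasureTheory

namespace Crest.Agent.R338

namespace YF

open SLAux

noncomputable def DD (π σ y : ℝ) : ℝ := π + (1 - π) * (1 - Sd 0 ((y - 1) / σ + 1 / 2))

noncomputable def hh (β π σ G y : ℝ) : ℝ :=
  β * Sd 0 (4 * y - 1) + (1 - π) * bs σ (y - 1) / DD π σ y + 4 * G * Sd 0 (4 * y - 5)

noncomputable def rr (lam β π σ G y : ℝ) : ℝ := 2 * lam * y + hh β π σ G y - hh β π σ G (-y)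

structure Par (lam β π σ G ε : ℝ) : Prop where
  lam_pos : 0 < lam
  β_pos : 0 < β
  π_pos : 0 < π
  σ_pos : 0 < σ
  σ_le : σ ≤ 1 / 2
  G_ge : 1 ≤ G
  ε_le : ε ≤ 1 / 100
  h16 : 16 * lam ≤ β ^ 2
  β_le : 2 * β ≤ ε
  π_le : π ≤ ε

variable {lam β π σ G ε : ℝ}

namespace Par

theorem ε_pos (h : Par lam β π σ G ε) : 0 < ε := h.π_pos.trans_le h.π_le

theorem lam_le (h : Par lam β π σ G ε) : 100 * lam ≤ β := by
  have := h.h16
  have := h.β_le
  have := h.ε_le
  have := h.β_pos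
  nlinarith

theorem π_le_one (h : Par lam β π σ G ε) : π ≤ 1 := by linarith [h.π_le, h.ε_le]

theorem D_ge (h : Par lam β π σ G ε) (y : ℝ) : π ≤ DD π σ y := by
  have := mul_nonneg (sub_nonneg.2 h.π_le_one)
    (sub_nonneg.2 (Sd_zero_le_one ((y - 1) / σ + 1 / 2)))
  rw [DD]; linarith

theorem D_pos (h : Par lam β π σ G ε) (y : ℝ) : 0 < DD π σ y := h.π_pos.trans_le (h.D_ge y)

theorem D_lo (h : Par lam β π σ G ε) {y : ℝ} (hy : y ≤ 3 / 4) : DD π σ y = 1 := by
  have h1 : (y - 1) / σ + 1 / 2 ≤ 0 := by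
    have : (y - 1) / σ ≤ -(1 / 2) := by
      rw [div_le_iff₀ h.σ_pos]; linarith [h.σ_le]
    linarith
  rw [DD, Sd_of_nonpos (by omega) h1]; ring

theorem D_hi (h : Par lam β π σ G ε) {y : ℝ} (hy : 5 / 4 ≤ y) : DD π σ y = π := by
  have h1 : 1 ≤ (y - 1) / σ + 1 / 2 := by
    have : 1 / 2 ≤ (y - 1) / σ := by
      rw [le_div_iff₀ h.σ_pos]; linarith [h.σ_le]
    linarith
  rw [DD, Sd_zero_of_one_le h1]; ring

theorem dD (π σ y : ℝ) : HasDerivAt (DD π σ) (-((1 - π) * bs σ (y - 1))) y :=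
  ((((hasDerivAt_Sd_bs σ 1 y).const_sub 1).const_mul (1 - π)).const_add π).congr_deriv (by ring)

theorem bs_zero (h : Par lam β π σ G ε) {x : ℝ} (hx : 1 / 4 ≤ |x|) : bs σ x = 0 :=
  bs_eq_zero h.σ_pos (by linarith [h.σ_le])

theorem hh_lo (h : Par lam β π σ G ε) {y : ℝ} (hy : y ≤ 1 / 4) : hh β π σ G y = 0 := by
  rw [hh, Sd_of_nonpos (x := 4 * y - 1) (by omega) (by linarith),
    Sd_of_nonpos (x := 4 * y - 5) (by omega) (by linarith),
    h.bs_zero (le_abs.2 (Or.inr (by linarith)))]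
  simp

theorem hh_nonneg (h : Par lam β π σ G ε) (y : ℝ) : 0 ≤ hh β π σ G y := by
  have h1 := Sd_zero_nonneg (4 * y - 1)
  have h2 := Sd_zero_nonneg (4 * y - 5)
  have h3 := bs_nonneg h.σ_pos (y - 1)
  have h4 := h.D_pos y
  have h5 := sub_nonneg.2 h.π_le_one
  have h6 := h.β_pos
  have h7 : 0 < G := by linarith [h.G_ge]
  rw [hh]; positivity

theorem hh_smooth (h : Par lam β π σ G ε) : ContDiff ℝ 8 (hh β π σ G) := by
  have hS : ContDiff ℝ 8 (Sd 0) := Sd_contDiff (j := 0) (k := 8) (by omega)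
  have hb := bs_contDiff σ
  have hD : ContDiff ℝ 8 (DD π σ) :=
    contDiff_const.add (contDiff_const.mul (contDiff_const.sub (hS.comp (by fun_prop))))
  exact ((contDiff_const.mul (hS.comp (f := fun y => 4 * y - 1) (by fun_prop))).add
    ((contDiff_const.mul (hb.comp (f := fun y => y - 1) (by fun_prop))).div hD
      fun y => (h.D_pos y).ne')).add
    (contDiff_const.mul (hS.comp (f := fun y => 4 * y - 5) (by fun_prop)))

theorem rr_eq (h : Par lam β π σ G ε) {y : ℝ} (hy : 0 ≤ y) :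
    rr lam β π σ G y = 2 * lam * y + hh β π σ G y := by
  rw [rr, h.hh_lo (y := -y) (by linarith), sub_zero]

theorem rr_ge (h : Par lam β π σ G ε) {y : ℝ} (hy : 0 ≤ y) : 2 * lam * y ≤ rr lam β π σ G y := by
  rw [h.rr_eq hy]; linarith [h.hh_nonneg y]

theorem haz (h : Par lam β π σ G ε) : Haz lam (1 / 4) (rr lam β π σ G) := by
  refine ⟨h.lam_pos, by norm_num, ?_, fun x => ?_, fun x hx => ?_, fun x hx => ?_⟩
  · exact ((contDiff_const.mul contDiff_id).add h.hh_smooth).sub (h.hh_smooth.comp contDiff_neg)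
  · rw [rr, rr, neg_neg]; ring
  · have := abs_le.1 hx
    rw [rr, h.hh_lo this.2, h.hh_lo (by linarith [this.1])]; ring
  · have := h.lam_pos
    exact lt_of_lt_of_le (by positivity) (h.rr_ge hx.le)

theorem rr_ge_β (h : Par lam β π σ G ε) {y : ℝ} (hy : 1 / 2 ≤ y) : β ≤ rr lam β π σ G y := by
  have h2 := Sd_zero_nonneg (4 * y - 5)
  have h3 := bs_nonneg h.σ_pos (y - 1)
  have h4 := h.D_pos y
  have h5 := sub_nonneg.2 h.π_le_one
  have h7 : 0 < G := by linarith [h.G_ge]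
  have h8 := h.lam_pos
  have h9 : 0 ≤ y := by linarith
  rw [h.rr_eq h9, hh, Sd_zero_of_one_le (x := 4 * y - 1) (by linarith)]
  have : 0 ≤ 2 * lam * y := by positivity
  have : 0 ≤ (1 - π) * bs σ (y - 1) / DD π σ y := by positivity
  have : 0 ≤ 4 * G * Sd 0 (4 * y - 5) := by positivity
  linarith

theorem rr_hi (h : Par lam β π σ G ε) {y : ℝ} (hy : 3 / 2 ≤ y) :
    rr lam β π σ G y = 2 * lam * y + (β + 4 * G) := by
  rw [h.rr_eq (by linarith), hh, Sd_zero_of_one_le (x := 4 * y - 1) (by linarith),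
    Sd_zero_of_one_le (x := 4 * y - 5) (by linarith), h.bs_zero (le_abs.2 (Or.inl (by linarith)))]
  simp

theorem rr_lo (h : Par lam β π σ G ε) {y : ℝ} (h0 : 0 ≤ y) (hy : y ≤ 1 / 2) :
    rr lam β π σ G y ≤ 2 * lam * y + β := by
  rw [h.rr_eq h0, hh, Sd_of_nonpos (x := 4 * y - 5) (by omega) (by linarith),
    h.bs_zero (le_abs.2 (Or.inr (by linarith)))]
  have := mul_le_of_le_one_right h.β_pos.le (Sd_zero_le_one (4 * y - 1))
  simp only [mul_zero, zero_div, add_zero]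
  linarith

/-- The regular part of the hazard. -/
noncomputable def _root_.Crest.Agent.R338.YF.r1 (lam β G y : ℝ) : ℝ :=
  2 * lam * y + β * Sd 0 (4 * y - 1) + 4 * G * Sd 0 (4 * y - 5)

theorem r1_nonneg (h : Par lam β π σ G ε) {y : ℝ} (hy : 0 ≤ y) : 0 ≤ r1 lam β G y := by
  have h1 := Sd_zero_nonneg (4 * y - 1)
  have h2 := Sd_zero_nonneg (4 * y - 5)
  have h6 := h.β_pos
  have h7 : 0 < G := by linarith [h.G_ge]
  have h8 := h.lam_pos
  rw [r1]; positivity

theorem dp1 (h : Par lam β π σ G ε) {y : ℝ} (hy : 0 ≤ y) :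
    HasDerivAt (fun t => hzP (rr lam β π σ G) t / DD π σ t)
      (-(r1 lam β G y * (hzP (rr lam β π σ G) y / DD π σ y))) y := by
  have hD := (h.D_pos y).ne'
  refine ((h.haz.dP y).div (dD π σ y) hD).congr_deriv ?_
  rw [h.rr_eq hy, hh, r1]
  field_simp
  ring

theorem p1_le (h : Par lam β π σ G ε) {y : ℝ} (hy : 0 ≤ y) :
    hzP (rr lam β π σ G) y / DD π σ y ≤ 1 := by
  have key := le_sub (ψ := fun _ => 0) (F := fun t => -(hzP (rr lam β π σ G) t / DD π σ t)) hy
    continuous_const (fun t ht => (h.dp1 ht.1).neg) (fun t ht => by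
      have := h.r1_nonneg ht.1
      have := hzP_pos (rr lam β π σ G) t
      have := h.D_pos t
      rw [neg_neg]; positivity)
  simp only [intervalIntegral.integral_zero, hzP_zero, h.D_lo (y := 0) (by norm_num)] at key
  linarith

theorem p1_ge (h : Par lam β π σ G ε) {y : ℝ} (hy : 0 ≤ y) (hy' : y ≤ 5 / 4) :
    1 - ε ≤ hzP (rr lam β π σ G) y / DD π σ y := by
  have hl := h.lam_pos
  have hb := h.β_pos
  have key := le_sub (ψ := fun _ => 0)
    (F := fun t => hzP (rr lam β π σ G) t / DD π σ t + (3 * lam + β) * t) hy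
    continuous_const (fun t ht => (h.dp1 ht.1).add ((hasDerivAt_id t).const_mul _)) (fun t ht => by
      have h1 : r1 lam β G t ≤ 3 * lam + β := by
        rw [r1, Sd_of_nonpos (x := 4 * t - 5) (by omega) (by linarith [ht.2])]
        have := mul_le_of_le_one_right hb.le (Sd_zero_le_one (4 * t - 1))
        nlinarith [ht.2]
      have h2 := mul_le_of_le_one_right (h.r1_nonneg ht.1) (h.p1_le ht.1)
      linarith)
  simp only [intervalIntegral.integral_zero, hzP_zero, h.D_lo (y := 0) (by norm_num)] at key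
  have h3 := h.lam_le
  have h4 := h.β_le
  nlinarith

theorem p_le_π (h : Par lam β π σ G ε) {y : ℝ} (hy : 5 / 4 ≤ y) : hzP (rr lam β π σ G) y ≤ π := by
  have := h.p1_le (y := y) (by linarith)
  rwa [h.D_hi hy, div_le_one h.π_pos] at this

theorem p_half (h : Par lam β π σ G ε) : 1 - ε ≤ hzP (rr lam β π σ G) (1 / 2) := by
  have := h.p1_ge (y := 1 / 2) (by norm_num) (by norm_num)
  rwa [h.D_lo (by norm_num), div_one] at this

theorem p_two (h : Par lam β π σ G ε) : hzP (rr lam β π σ G) 2 ≤ Real.exp (-(2 * G)) := by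
  have hc := h.haz.smooth.continuous
  have hl := h.lam_pos
  rw [hzP, Real.exp_le_exp, neg_le_neg_iff,
    ← intervalIntegral.integral_add_adjacent_intervals (b := 3 / 2) (hc.intervalIntegrable _ _)
      (hc.intervalIntegrable _ _)]
  have h1 : 0 ≤ ∫ t in (0 : ℝ)..3 / 2, rr lam β π σ G t :=
    intervalIntegral.integral_nonneg (by norm_num) fun t ht =>
      le_trans (by have := ht.1; positivity) (h.rr_ge ht.1)
  have h2 : (∫ _ in (3 / 2 : ℝ)..2, 4 * G) ≤ ∫ t in (3 / 2 : ℝ)..2, rr lam β π σ G t :=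
    intervalIntegral.integral_mono_on (by norm_num) (continuous_const.intervalIntegrable _ _)
      (hc.intervalIntegrable _ _) fun t ht => by
        rw [h.rr_hi ht.1]
        have : 0 ≤ 2 * lam * t := by have := ht.1; positivity
        linarith [h.β_pos]
  rw [intervalIntegral.integral_const, smul_eq_mul] at h2
  linarith

theorem sl (h : Par lam β π σ G ε) :
    SL lam (hzF lam (1 / 2) (rr lam β π σ G))
      (fun x => hzS lam (rr lam β π σ G) x * hzF lam (1 / 2) (rr lam β π σ G) x)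
      (hzG lam (1 / 2) (rr lam β π σ G)) (hzP (rr lam β π σ G)) (hzW lam (rr lam β π σ G)) :=
  h.haz.sl (by norm_num)

theorem g_mono (h : Par lam β π σ G ε) : Monotone (hzG lam (1 / 2) (rr lam β π σ G)) :=
  monotone_of_hasDerivAt_nonneg h.sl.dg fun t => by
    have := hzP_pos (rr lam β π σ G) t
    have := h.lam_pos
    simp only [Pi.zero_apply]
    positivity

theorem g_half (h : Par lam β π σ G ε) : hzG lam (1 / 2) (rr lam β π σ G) (1 / 2) = 1 :=
  h.haz.g_one (by norm_num)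

theorem g_ge (h : Par lam β π σ G ε) {y : ℝ} (h0 : 0 < y) (hy : y ≤ 1 / 2) :
    2 * y ≤ hzG lam (1 / 2) (rr lam β π σ G) y := by
  have hl := h.lam_pos
  have key := le_sub (ψ := fun _ => 0) (F := fun t => -(hzG lam (1 / 2) (rr lam β π σ G) t / t)) hy
    continuous_const
    (fun t ht => ((h.haz.dg (x₀ := 1 / 2) (by norm_num) (h0.trans_le ht.1).ne').div
      (hasDerivAt_id t) (h0.trans_le ht.1).ne').neg) (fun t ht => by
      have ht0 := h0.trans_le ht.1
      have h1 := h.haz.g_pos (x₀ := 1 / 2) (by norm_num) ht0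
      have h2 := h.haz.pos t ht0
      have h3 : 2 * lam / rr lam β π σ G t * t ≤ 1 := by
        rw [div_mul_eq_mul_div, div_le_one h2]; exact h.rr_ge ht0.le
      simp only [id]
      rw [← neg_div]
      refine div_nonneg ?_ (sq_nonneg _)
      nlinarith)
  simp only [intervalIntegral.integral_zero, h.g_half] at key
  rw [← le_div_iff₀ h0]
  linarith

theorem g_le (h : Par lam β π σ G ε) {y : ℝ} (hy : y ≤ 7 / 2) :
    hzG lam (1 / 2) (rr lam β π σ G) y ≤ 1 + ε := by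
  refine (h.g_mono hy).trans ?_
  have hl := h.lam_pos
  have hb := h.β_pos
  rw [h.haz.g_exp (x₀ := 1 / 2) (by norm_num) (a := 1 / 2) (by norm_num) (by norm_num), h.g_half,
    one_mul]
  have h2 : (∫ t in (1 / 2 : ℝ)..7 / 2, 2 * lam / rr lam β π σ G t) ≤
      ∫ _ in (1 / 2 : ℝ)..7 / 2, β / 8 := by
    refine intervalIntegral.integral_mono_on (by norm_num) ?_
      (continuous_const.intervalIntegrable _ _) fun t ht => ?_
    · refine ContinuousOn.intervalIntegrable (continuousOn_const.div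
        h.haz.smooth.continuous.continuousOn fun t ht => ?_)
      rw [Set.uIcc_of_le (by norm_num)] at ht
      exact (hb.trans_le (h.rr_ge_β ht.1)).ne'
    · have h3 := h.rr_ge_β ht.1
      rw [div_le_iff₀ (hb.trans_le h3)]
      nlinarith [h.h16]
  rw [intervalIntegral.integral_const, smul_eq_mul] at h2
  have h4 := h.β_le
  have h5 := h.ε_le
  have h6 : Real.exp (β / 2) ≤ 1 + ε := by
    have := Real.abs_exp_sub_one_le (x := β / 2) (by rw [abs_of_pos (by positivity)]; linarith)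
    rw [abs_of_pos (a := β / 2) (by positivity)] at this
    linarith [(abs_le.1 this).2]
  exact (Real.exp_le_exp.2 (by linarith)).trans h6

theorem f_lo (h : Par lam β π σ G ε) {y : ℝ} (h0 : 0 ≤ y) (hy : y ≤ 1 / 2) :
    hzF lam (1 / 2) (rr lam β π σ G) y ^ 2 ≤ lam + 2 * β := by
  have hl := h.lam_pos
  have hb := h.β_pos
  have hp := h.haz.p_le_one y
  have hp0 := hzP_pos (rr lam β π σ G) y
  rcases le_total y (1 / 4) with h1 | h1
  · have h2 := h.g_ge (y := 1 / 4) (by norm_num) (by norm_num)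
    rw [h.haz.f_near (by norm_num) (by rw [abs_of_nonneg h0]; exact h1),
      div_le_iff₀ (by linarith)]
    nlinarith
  · have h2 := h.g_ge (y := y) (by linarith) hy
    have h3 := h.haz.fg (x₀ := 1 / 2) (by norm_num) y
    have h4 := h.rr_lo h0 hy
    have h5 := h.haz.pos y (by linarith)
    have h6 : hzF lam (1 / 2) (rr lam β π σ G) y ^ 2 * (2 * y) ≤ 2 * lam * y + β := by
      refine (mul_le_mul_of_nonneg_left h2 (sq_nonneg _)).trans ?_
      rw [h3]
      exact (mul_le_of_le_one_right h5.le hp).trans h4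
    refine le_of_mul_le_mul_right (h6.trans ?_) (by linarith : 0 < 2 * y)
    nlinarith

theorem int_f (h : Par lam β π σ G ε) :
    ∫ t in (0 : ℝ)..1 / 2, hzF lam (1 / 2) (rr lam β π σ G) t ^ 2 ≤ ε := by
  have hc := h.sl.φ_cont
  have h2 : (∫ t in (0 : ℝ)..1 / 2, hzF lam (1 / 2) (rr lam β π σ G) t ^ 2) ≤
      ∫ _ in (0 : ℝ)..1 / 2, (lam + 2 * β) :=
    intervalIntegral.integral_mono_on (by norm_num) ((hc.pow 2).intervalIntegrable _ _)
      (continuous_const.intervalIntegrable _ _) fun t ht => h.f_lo ht.1 ht.2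
  rw [intervalIntegral.integral_const, smul_eq_mul] at h2
  linarith [h.lam_le, h.β_le, h.lam_pos]

theorem hr (h : Par lam β π σ G ε) (t : ℝ) (ht : 1 / 2 ≤ t) :
    β * hzP (rr lam β π σ G) t ≤
      hzF lam (1 / 2) (rr lam β π σ G) t ^ 2 * hzG lam (1 / 2) (rr lam β π σ G) t := by
  rw [h.haz.fg (by norm_num)]
  exact mul_le_mul_of_nonneg_right (h.rr_ge_β ht) (hzP_pos _ _).le

theorem norms (h : Par lam β π σ G ε) :
    |(∫ y, (cut 2 (1 / 2) y * hzF lam (1 / 2) (rr lam β π σ G) y) ^ 2) - 2| ≤ 6 * ε ∧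
      |(∫ y, (cut 2 (1 / 2) y * (hzF lam (1 / 2) (rr lam β π σ G) y *
        hzG lam (1 / 2) (rr lam β π σ G) y)) ^ 2) - 2| ≤ 6 * ε :=
  h.sl.norms (x₀ := 1 / 2) (by norm_num) h.β_pos h.h16 h.hr (by norm_num) (by norm_num) h.g_half
    (by linarith [h.ε_le]) (hzP_zero _) (h.g_le (by norm_num)) h.p_half
    ((h.p_le_π (by norm_num)).trans h.π_le) h.int_f

theorem fac (h : Par lam β π σ G ε) (hπ : π ≤ 1 / 10 ^ 6) :
    Fac lam (hzW lam (rr lam β π σ G))
      (facE 2 (1 / 2) (hzF lam (1 / 2) (rr lam β π σ G)) (hzG lam (1 / 2) (rr lam β π σ G)))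
      (2 + 1 / 2) (10 ^ 50 * (1 + 1 / (1 / 2)) ^ 2 * (4 * G + 1) ^ 2 * (1 + 1 / β) *
        √(hzP (rr lam β π σ G) 2)) := by
  have hl := h.lam_pos
  have hb := h.β_pos
  have h1 := h.lam_le
  have h2 := h.β_le
  have h3 := h.ε_le
  have h4 := h.G_ge
  refine h.sl.fac (x₀ := 1 / 2) (by norm_num) h.β_pos h.h16 h.hr ?_ (by linarith) (by norm_num)
    (by norm_num) h.g_half ((h.g_le (by norm_num)).trans (by linarith))
    (by linarith [h.p_half]) ((h.p_le_π (by norm_num)).trans hπ) (by linarith) fun x hx hx' => ?_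
  · rw [h.g_half, one_mul]
    linarith [h.int_f, h.p_half]
  · have e1 := h.rr_hi (y := x) (by linarith)
    have e2 : rr lam β π σ G x ≤ 4 * G + 1 := by rw [e1]; nlinarith
    have e3 := h.haz.pos x (by linarith)
    have e4 : deriv (rr lam β π σ G) x = 2 * lam := by
      have : rr lam β π σ G =ᶠ[nhds x] fun y => 2 * lam * y + (β + 4 * G) :=
        (lt_mem_nhds (show 3 / 2 < x by linarith)).mono fun y hy => h.rr_hi hy.le
      rw [this.deriv_eq]
      exact (((hasDerivAt_id x).const_mul (2 * lam)).add_const _).deriv.trans (mul_one _)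
    constructor
    · have hφ := h.sl.φ_pos x
      rw [abs_mul, abs_of_pos hφ, hzS, e4, sub_self, zero_div, zero_sub, abs_neg,
        abs_of_pos (by positivity)]
      exact mul_le_mul_of_nonneg_right (by linarith) hφ.le
    · rw [h.haz.fg (by norm_num)]
      exact mul_le_mul_of_nonneg_right e2 (hzP_pos _ _).le

theorem core (h : Par lam β π σ G ε) {t : ℕ} (ht : t ≤ 2) {ν : ℝ} (hν : |ν - 2| ≤ 6 * ε) {y : ℝ}
    (hy : 0 ≤ y) :
    |cut 2 (1 / 2) y ^ 2 * (hzF lam (1 / 2) (rr lam β π σ G) y ^ 2 *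
        hzG lam (1 / 2) (rr lam β π σ G) y ^ t) / ν - 1 / 2 * bs σ (y - 1)| ≤
      6 * ε * bs σ (y - 1) + (5 * lam + 2 * β + 4 * G * π) := by
  have hl := h.lam_pos
  have hb := h.β_pos
  have hπ := h.π_pos
  have hG : 0 < G := by linarith [h.G_ge]
  have hε := h.ε_pos
  have hε' := h.ε_le
  have hν1 := (abs_le.1 hν).1
  have hν2 := (abs_le.1 hν).2
  have hν0 : 0 < ν := by linarith
  have hc0 := cut_nonneg 2 (1 / 2) y
  have hc1 : cut 2 (1 / 2) y ^ 2 ≤ 1 := pow_le_one₀ hc0 (cut_le_one _ _ _)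
  have hGπ : 0 < 4 * G * π := by positivity
  rcases le_total y (1 / 2) with h1 | h1
  · have hg0 := h.sl.g_nonneg hy
    have hg1 : hzG lam (1 / 2) (rr lam β π σ G) y ^ t ≤ 1 :=
      pow_le_one₀ hg0 ((h.g_mono h1).trans_eq h.g_half)
    have hf := h.f_lo hy h1
    rw [h.bs_zero (le_abs.2 (Or.inr (by linarith))), mul_zero, mul_zero, sub_zero, zero_add,
      abs_of_nonneg (by positivity), div_le_iff₀ hν0]
    have h2 : cut 2 (1 / 2) y ^ 2 * (hzF lam (1 / 2) (rr lam β π σ G) y ^ 2 *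
        hzG lam (1 / 2) (rr lam β π σ G) y ^ t) ≤ 1 * ((lam + 2 * β) * 1) := by gcongr
    nlinarith
  rcases le_total (5 / 2) y with h2 | h2
  · rw [cut_eq_zero (by norm_num) (by rw [abs_of_nonneg hy]; linarith),
      h.bs_zero (le_abs.2 (Or.inl (by linarith)))]
    simp only [ne_eq, OfNat.ofNat_ne_zero, not_false_eq_true, zero_pow, zero_mul, zero_div, mul_zero,
      sub_zero, abs_zero, zero_add]
    positivity
  -- the middle region
  have hg1 : 1 ≤ hzG lam (1 / 2) (rr lam β π σ G) y := h.g_half.ge.trans (h.g_mono h1)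
  have hg2 := h.g_le (y := y) (by linarith)
  have hfg := h.haz.fg (x₀ := 1 / 2) (by norm_num) y
  have hp0 := hzP_pos (rr lam β π σ G) y
  have hp1 := h.haz.p_le_one y
  have hD := h.D_pos y
  obtain ⟨A, hA⟩ : ∃ A, A = hzG lam (1 / 2) (rr lam β π σ G) y ^ t /
    hzG lam (1 / 2) (rr lam β π σ G) y := ⟨_, rfl⟩
  have hA1 : 1 - ε ≤ A ∧ A ≤ 1 + ε := by
    rw [hA, le_div_iff₀ (by linarith), div_le_iff₀ (by linarith)]
    interval_cases t <;> constructor <;> nlinarith
  obtain ⟨q, hq⟩ : ∃ q, q = hzP (rr lam β π σ G) y / DD π σ y := ⟨_, rfl⟩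
  obtain ⟨ρ, hρ⟩ : ∃ ρ, ρ = r1 lam β G y * hzP (rr lam β π σ G) y := ⟨_, rfl⟩
  have hρ0 : 0 ≤ ρ := hρ ▸ mul_nonneg (h.r1_nonneg hy) hp0.le
  have hρ1 : ρ ≤ 5 * lam + 2 * β + 4 * G * π := by
    have e1 : 2 * lam * y * hzP (rr lam β π σ G) y ≤ 2 * lam * (5 / 2) * 1 := by gcongr
    have e2 : β * Sd 0 (4 * y - 1) * hzP (rr lam β π σ G) y ≤ β * 1 * 1 := by
      have := Sd_zero_le_one (4 * y - 1)
      gcongr
    have e3 : 4 * G * Sd 0 (4 * y - 5) * hzP (rr lam β π σ G) y ≤ 4 * G * π := by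
      rcases le_total y (5 / 4) with h3 | h3
      · rw [Sd_of_nonpos (by omega) (by linarith)]
        simpa using hGπ.le
      · have := Sd_zero_le_one (4 * y - 5)
        have := h.p_le_π h3
        calc _ ≤ 4 * G * 1 * π := by gcongr
          _ = _ := by ring
    rw [hρ, r1]
    nlinarith
  have e : hzF lam (1 / 2) (rr lam β π σ G) y ^ 2 * hzG lam (1 / 2) (rr lam β π σ G) y ^ t =
      A * ((1 - π) * q) * bs σ (y - 1) + A * ρ := by
    have : hzG lam (1 / 2) (rr lam β π σ G) y ^ t = hzG lam (1 / 2) (rr lam β π σ G) y * A := by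
      rw [hA]; field_simp
    rw [this, ← mul_assoc, hfg, h.rr_eq hy, hh, hq, hρ, r1]
    field_simp
    ring
  have hAν : cut 2 (1 / 2) y ^ 2 * (A * ρ) / ν ≤ ρ := by
    rw [div_le_iff₀ hν0]
    have : cut 2 (1 / 2) y ^ 2 * (A * ρ) ≤ 1 * (ν * ρ) :=
      mul_le_mul hc1 (mul_le_mul_of_nonneg_right (by linarith [hA1.2]) hρ0)
        (mul_nonneg (by linarith [hA1.1]) hρ0) zero_le_one
    linarith
  have hAν0 : 0 ≤ cut 2 (1 / 2) y ^ 2 * (A * ρ) / ν := by
    have : 0 ≤ A := by linarith [hA1.1]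
    positivity
  rw [e]
  rcases le_total (1 / 4) |y - 1| with h3 | h3
  · rw [h.bs_zero h3]
    simp only [mul_zero, zero_add, sub_zero]
    rw [abs_of_nonneg hAν0]
    linarith
  · have h4 := abs_le.1 h3
    have hc : cut 2 (1 / 2) y = 1 := cut_eq_one (by norm_num) (by rw [abs_of_nonneg hy]; linarith)
    have hq1 : q ≤ 1 := hq ▸ h.p1_le hy
    have hq2 : 1 - ε ≤ q := hq ▸ h.p1_ge hy (by linarith)
    have hπ2 := h.π_le
    have hb0 := bs_nonneg h.σ_pos (y - 1)
    have hX1 : (1 - π) * q ≤ 1 := by nlinarith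
    have hX2 : 1 - 2 * ε ≤ (1 - π) * q := by nlinarith
    obtain ⟨X, hX⟩ : ∃ X, X = A * ((1 - π) * q) := ⟨_, rfl⟩
    have hX3 : X ≤ 1 + ε := by
      rw [hX]; nlinarith [hA1.1, hA1.2]
    have hX4 : 1 - 3 * ε ≤ X := by
      rw [hX]; nlinarith [hA1.1, hA1.2]
    have hX5 : |X / ν - 1 / 2| ≤ 6 * ε := by
      rw [abs_le, le_sub_iff_add_le, sub_le_iff_le_add, le_div_iff₀ hν0, div_le_iff₀ hν0]
      constructor <;> nlinarith
    rw [hc] at hAν hAν0 ⊢
    rw [← hX, show (1 : ℝ) ^ 2 * (X * bs σ (y - 1) + A * ρ) / ν - 1 / 2 * bs σ (y - 1) =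
      (X / ν - 1 / 2) * bs σ (y - 1) + 1 ^ 2 * (A * ρ) / ν by ring]
    refine (abs_add_le _ _).trans ?_
    rw [abs_mul, abs_of_nonneg hb0, abs_of_nonneg hAν0]
    have := mul_le_mul_of_nonneg_right hX5 hb0
    linarith

theorem _root_.Crest.Agent.R338.YF.facE_eq (T l : ℝ) (φ g : ℝ → ℝ) (a : Fin 2) (y : ℝ) :
    facE T l φ g a y = cut T l y * (φ y * g y ^ (a : ℕ)) /
      √(∫ z, (cut T l z * (φ z * g z ^ (a : ℕ))) ^ 2) := by
  fin_cases a <;> simp [facE, cn]

theorem norms' (h : Par lam β π σ G ε) (a : Fin 2) :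
    |(∫ y, (cut 2 (1 / 2) y * (hzF lam (1 / 2) (rr lam β π σ G) y *
        hzG lam (1 / 2) (rr lam β π σ G) y ^ (a : ℕ))) ^ 2) - 2| ≤ 6 * ε := by
  fin_cases a
  · simpa using h.norms.1
  · simpa using h.norms.2

theorem density (h : Par lam β π σ G ε) (a a' : Fin 2) (y : ℝ) :
    |facE 2 (1 / 2) (hzF lam (1 / 2) (rr lam β π σ G)) (hzG lam (1 / 2) (rr lam β π σ G)) a y *
        facE 2 (1 / 2) (hzF lam (1 / 2) (rr lam β π σ G)) (hzG lam (1 / 2) (rr lam β π σ G)) a' y -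
        (1 / 2 * bs σ (y - 1) + 1 / 2 * (-1) ^ ((a : ℕ) + a') * bs σ (y + 1))| ≤
      6 * ε * (bs σ (y - 1) + bs σ (y + 1)) + (5 * lam + 2 * β + 4 * G * π) := by
  have hε' := h.ε_le
  have n1 := abs_le.1 (h.norms' a)
  have n2 := abs_le.1 (h.norms' a')
  rw [facE_eq, facE_eq]
  generalize (∫ z, (cut 2 (1 / 2) z * (hzF lam (1 / 2) (rr lam β π σ G) z *
    hzG lam (1 / 2) (rr lam β π σ G) z ^ (a : ℕ))) ^ 2) = m at n1 ⊢
  generalize (∫ z, (cut 2 (1 / 2) z * (hzF lam (1 / 2) (rr lam β π σ G) z *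
    hzG lam (1 / 2) (rr lam β π σ G) z ^ (a' : ℕ))) ^ 2) = m' at n2 ⊢
  have hν : |√m * √m' - 2| ≤ 6 * ε := by
    rw [← Real.sqrt_mul (by linarith [n1.1]), abs_le, le_sub_iff_add_le, sub_le_iff_le_add]
    constructor
    · refine Real.le_sqrt_of_sq_le ?_
      rw [sq]
      exact mul_le_mul (by linarith [n1.1]) (by linarith [n2.1]) (by linarith) (by linarith [n1.1])
    · rw [Real.sqrt_le_left (by linarith [h.ε_pos]), sq]
      exact mul_le_mul (by linarith [n1.2]) (by linarith [n2.2]) (by linarith [n2.1])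
        (by linarith [h.ε_pos])
  have ht : (a : ℕ) + a' ≤ 2 := by omega
  rw [div_mul_div_comm, show ∀ c f g : ℝ, c * (f * g ^ (a : ℕ)) * (c * (f * g ^ (a' : ℕ))) =
    c ^ 2 * (f ^ 2 * g ^ ((a : ℕ) + a')) from fun c f g => by ring]
  rcases le_total 0 y with hy | hy
  · have := h.core ht hν hy
    rw [h.bs_zero (x := y + 1) (le_abs.2 (Or.inl (by linarith)))]
    simpa using this
  · have := h.core ht hν (y := -y) (by linarith)
    rw [cut_neg, h.sl.φ_even, h.sl.g_odd, show -y - 1 = -(y + 1) by ring, bs_neg h.σ_pos] at this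
    rw [h.bs_zero (x := y - 1) (le_abs.2 (Or.inr (by linarith))), mul_zero, zero_add, zero_add]
    refine le_of_eq_of_le ?_ this
    have e : ∀ u v : ℝ, u = (-1) ^ ((a : ℕ) + a') * v → |u| = |v| := fun u v huv => by
      rw [huv, abs_mul, abs_neg_one_pow, one_mul]
    refine e _ _ ?_
    rw [neg_pow (hzG lam (1 / 2) (rr lam β π σ G) y)]
    have : ((-1 : ℝ) ^ ((a : ℕ) + a')) * (-1) ^ ((a : ℕ) + a') = 1 := by
      rw [← mul_pow]; simp
    linear_combination (-(cut 2 (1 / 2) y ^ 2 * (hzF lam (1 / 2) (rr lam β π σ G) y ^ 2 *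
      hzG lam (1 / 2) (rr lam β π σ G) y ^ ((a : ℕ) + a')) / (√m * √m'))) * this

end Par

end YF

end Crest.Agent.R338
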